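import Vale.Agent.P200F.Ns

set_option linter.all false

section

namespace Vale.Agent.P200F.V

open Module

universe u

/-- a block: `x = X 0`, `y = X 1`, `η_i = X i.succ.succ`, all of degree one -/
structure Blk (K : Type u) [Field K] (κ : ℕ) where
  /-- the exponents -/
  e : Fin κ → ℕ
  e_pos : ∀ i, 0 < e i
  /-- the right-hand sides -/
  Phi : Fin κ → MvPolynomial (Fin (κ + 2)) K
  hom : ∀ i, (Phi i).IsHomogeneous (e i)
  tri : ∀ i, ∀ j ∈ (Phi i).vars, (j : ℕ) < i + 2

/-- the relation `η_i^(e_i) - Φ_i` -/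
noncomputable def Blk.rel {K : Type u} [Field K] {κ : ℕ} (β : Blk K κ) (i : Fin κ) :
    MvPolynomial (Fin (κ + 2)) K :=
  MvPolynomial.X i.succ.succ ^ β.e i - β.Phi i

/-- exponents: `(g, v)` is the exponent of the variable `v` of the block `g` -/
abbrev Mon (κ R : ℕ) : Type := (Fin R × Fin (κ + 2)) →₀ ℕ

/-- the polynomial ring over `D` in the central variables of the blocks -/
abbrev PA (D : Type*) [Semiring D] (κ R : ℕ) : Type _ := AddMonoidAlgebra D (Mon κ R)

/-- the multidegree of a monomial -/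
def mdeg {κ R : ℕ} (m : Mon κ R) (g : Fin R) : ℕ := ∑ v, m (g, v)

section ring
variable (D : Type u) [DivisionRing D] (κ R : ℕ)

/-- the variables -/
noncomputable def va (v : Fin R × Fin (κ + 2)) : PA D κ R :=
  AddMonoidAlgebra.single (Finsupp.single v 1) 1

/-- the polynomials of multidegree `n` -/
def pp (n : Fin R → ℕ) : Submodule D (PA D κ R) where
  carrier := {u | ∀ m, u.coeff m ≠ 0 → mdeg m = n}
  add_mem' := by
    intro a b ha hb m hm
    by_contra h
    rw [AddMonoidAlgebra.coeff_add, Finsupp.add_apply,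
      of_not_not (fun h' => h (ha m h')), of_not_not (fun h' => h (hb m h')), add_zero] at hm
    exact hm rfl
  zero_mem' := by
    intro m hm
    rw [AddMonoidAlgebra.coeff_zero, Finsupp.zero_apply] at hm
    exact absurd rfl hm
  smul_mem' := by
    intro k a ha m hm
    by_contra h
    rw [AddMonoidAlgebra.coeff_smul_apply, of_not_not (fun h' => h (ha m h')), smul_zero] at hm
    exact hm rfl

/-- the vectors of multidegree `n` -/
def pv (s : ℕ) (n : Fin R → ℕ) : Submodule D (Fin s → PA D κ R) where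
  carrier := {u | ∀ i, u i ∈ pp D κ R n}
  add_mem' ha hb i := Submodule.add_mem _ (ha i) (hb i)
  zero_mem' _ := Submodule.zero_mem _
  smul_mem' k _ ha i := Submodule.smul_mem _ k (ha i)

/-- the component of multidegree `n` of a polynomial -/
noncomputable def cp (n : Fin R → ℕ) : PA D κ R →ₗ[D] PA D κ R where
  toFun u := AddMonoidAlgebra.ofCoeff (u.coeff.filter fun m => mdeg m = n)
  map_add' u v := by
    apply AddMonoidAlgebra.ext
    exact Finsupp.filter_add
  map_smul' k u := by
    apply AddMonoidAlgebra.ext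
    exact Finsupp.filter_smul

/-- the component of multidegree `n` of a vector -/
noncomputable def cv (s : ℕ) (n : Fin R → ℕ) : (Fin s → PA D κ R) →ₗ[D] (Fin s → PA D κ R) where
  toFun u i := cp D κ R n (u i)
  map_add' u v := by
    ext1 i
    exact map_add (cp D κ R n) _ _
  map_smul' k u := by
    ext1 i
    exact map_smul (cp D κ R n) _ _

end ring

section objects
variable {K : Type u} [Field K] {D : Type u} [DivisionRing D] [Algebra K D] {κ R : ℕ}

/-- the polynomials over `K` in the variables of the block `g`, as elements of `PA D κ R` -/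
noncomputable def bm (K : Type u) [Field K] (D : Type u) [DivisionRing D] [Algebra K D] (κ : ℕ)
    {R : ℕ} (g : Fin R) : MvPolynomial (Fin (κ + 2)) K →ₐ[K] PA D κ R :=
  (AddMonoidAlgebra.mapAlgHom (R := K) (Mon κ R) (Algebra.ofId K D)).comp
    (AddMonoidAlgebra.mapDomainAlgHom K K
      (Finsupp.mapDomain.addMonoidHom fun v : Fin (κ + 2) => (g, v)))

/-- the multihomogeneous submodules containing the relations -/
structure IsG (β : Fin R → Blk K κ) {s : ℕ}
    (N : Submodule (PA D κ R) (Fin s → PA D κ R)) : Prop where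
  hom : ∀ u ∈ N, ∀ n, cv D κ R s n u ∈ N
  rel : ∀ g i j, (Pi.single j (bm K D κ g ((β g).rel i)) : Fin s → PA D κ R) ∈ N

/-- the dimension of `(PA D κ R)^s / N` in degree `n` -/
noncomputable def qd {s : ℕ} (N : Submodule (PA D κ R) (Fin s → PA D κ R)) (n : Fin R → ℕ) : ℕ :=
  finrank D (pv D κ R s n) - finrank D (pv D κ R s n ⊓ N.restrictScalars D : Submodule D _)

end objects

/-- the product of the exponents -/
def dl {κ : ℕ} (e : Fin κ → ℕ) : ℤ := ∏ i, (e i : ℤ)

/-- the dimensions of `K[x, y, η] / (η_i^(e_i) - Φ_i)` in large degrees -/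
def hO {κ : ℕ} (e : Fin κ → ℕ) (n : ℤ) : ℤ :=
  dl e * (n + 1) - dl e * (∑ i, ((e i : ℤ) - 1)) / 2

/-- the lattice of functions generated by the products of the functions `h_O` and of the
constants `∏ e_i` -/
def Lam {κ : ℕ} : (R : ℕ) → (Fin R → Fin κ → ℕ) → ((Fin R → ℤ) → ℤ) → Prop
  | 0, _, _ => True
  | R + 1, e, f => ∃ A B, Lam R (Fin.tail e) A ∧ Lam R (Fin.tail e) B ∧
      ∀ n, f n = A (Fin.tail n) * hO (e 0) (n 0) + B (Fin.tail n) * dl (e 0)

theorem lam_zero {κ : ℕ} (e : Fin 0 → Fin κ → ℕ) (f : (Fin 0 → ℤ) → ℤ) : Lam 0 e f ↔ True := by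
  rw [Lam]

theorem lam_succ {κ : ℕ} (R : ℕ) (e : Fin (R + 1) → Fin κ → ℕ) (f : (Fin (R + 1) → ℤ) → ℤ) :
    Lam (R + 1) e f ↔ ∃ A B, Lam R (Fin.tail e) A ∧ Lam R (Fin.tail e) B ∧
      ∀ n, f n = A (Fin.tail n) * hO (e 0) (n 0) + B (Fin.tail n) * dl (e 0) := by
  rw [Lam]

/-- **Integrality.**  The dimensions of every object are eventually given by a function of the
lattice. -/
def IntP {K : Type u} [Field K] (D : Type u) [DivisionRing D] [Algebra K D] {κ R : ℕ}
    (β : Fin R → Blk K κ) : Prop :=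
  ∀ (s : ℕ) (N : Submodule (PA D κ R) (Fin s → PA D κ R)), IsG β N →
    ∃ f, Lam R (fun g => (β g).e) f ∧ ∃ n0 : ℕ, ∀ n : Fin R → ℕ, (∀ g, n0 ≤ n g) →
      (qd N n : ℤ) = f fun g => n g

/-- integrality for every collection of different blocks -/
def IntAll {K : Type u} [Field K] (D : Type u) [DivisionRing D] [Algebra K D] {κ R : ℕ}
    (β : Fin R → Blk K κ) : Prop :=
  ∀ (R' : ℕ) (σ : Fin R' → Fin R), Function.Injective σ → IntP D (β ∘ σ)

/-- the elements `η_i = V i 0 * x + V i 1 * y` commute and satisfy the relations of the block -/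
def IsEv {K : Type u} [Field K] {κ : ℕ} (β : Blk K κ) {D : Type u} [DivisionRing D] [Algebra K D]
    (V : Fin κ → Fin 2 → D) : Prop :=
  ∃ ev : MvPolynomial (Fin (κ + 2)) K →ₐ[K] AddMonoidAlgebra D (Fin 2 →₀ ℕ),
    ev (MvPolynomial.X 0) = AddMonoidAlgebra.single (Finsupp.single 0 1) 1 ∧
    ev (MvPolynomial.X 1) = AddMonoidAlgebra.single (Finsupp.single 1 1) 1 ∧
    (∀ i : Fin κ, ev (MvPolynomial.X i.succ.succ) =
      AddMonoidAlgebra.single (Finsupp.single 0 1) (V i 0) +
        AddMonoidAlgebra.single (Finsupp.single 1 1) (V i 1)) ∧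
    ∀ i, ev (β.rel i) = 0

/-- **Transfer** (one step of the tower). -/
def Step (K : Type u) [Field K] (κ : ℕ) : Prop :=
  ∀ (D : Type u) [DivisionRing D] [Algebra K D] (R : ℕ) (β : Fin (R + 1) → Blk K κ),
    IntAll D β →
    ∃ (D' : Type u) (_ : DivisionRing D') (_ : Algebra K D') (ι : D →ₐ[K] D')
      (V : Fin κ → Fin 2 → D'),
      (∀ i ε d, V i ε * ι d = ι d * V i ε) ∧ IsEv (β 0) V ∧ IntAll D' fun g => β g.succ

theorem IsEv.map {K : Type u} [Field K] {κ : ℕ} {β : Blk K κ} {D D' : Type u} [DivisionRing D]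
    [Algebra K D] [DivisionRing D'] [Algebra K D'] {V : Fin κ → Fin 2 → D} (h : IsEv β V)
    (ι : D →ₐ[K] D') : IsEv β fun i ε => ι (V i ε) := by
  obtain ⟨ev, h0, h1, h2, h3⟩ := h
  have hs : ∀ (m : Fin 2 →₀ ℕ) (d : D), AddMonoidAlgebra.mapAlgHom (R := K) (Fin 2 →₀ ℕ) ι
      (AddMonoidAlgebra.single m d) = AddMonoidAlgebra.single m (ι d) := by
    intro m d
    exact AddMonoidAlgebra.mapAlgHom_single _ _ _
  refine ⟨(AddMonoidAlgebra.mapAlgHom (R := K) (Fin 2 →₀ ℕ) ι).comp ev, ?_, ?_, ?_, ?_⟩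
  · rw [AlgHom.comp_apply, h0, hs, map_one]
  · rw [AlgHom.comp_apply, h1, hs, map_one]
  · intro i
    rw [AlgHom.comp_apply, h2, map_add, hs, hs]
  · intro i
    rw [AlgHom.comp_apply, h3, map_zero]

/-- **The tower.** -/
theorem tower {K : Type u} [Field K] {κ : ℕ} (hstep : Step K κ) :
    ∀ (R : ℕ) (β : Fin R → Blk K κ) (D : Type u) [DivisionRing D] [Algebra K D],
      IntAll D β →
      ∃ (D' : Type u) (_ : DivisionRing D') (_ : Algebra K D') (ι : D →ₐ[K] D')
        (V : Fin R → Fin κ → Fin 2 → D'),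
        (∀ g i ε d, V g i ε * ι d = ι d * V g i ε) ∧
        (∀ g h, g ≠ h → ∀ i j ε δ, V g i ε * V h j δ = V h j δ * V g i ε) ∧
        ∀ g, IsEv (β g) (V g) := by
  intro R
  induction R with
  | zero =>
    intro β D _ _ _
    exact ⟨D, inferInstance, inferInstance, AlgHom.id K D, fun g => g.elim0, fun g => g.elim0,
      fun g => g.elim0, fun g => g.elim0⟩
  | succ R ih =>
    intro β D _ _ hI
    obtain ⟨D1, i1, a1, ι1, V, hV, hw, hI'⟩ := hstep D R β hI
    obtain ⟨D2, i2, a2, ι2, W, hW, hWW, hWw⟩ := ih (fun g => β g.succ) D1 hI'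
    refine ⟨D2, i2, a2, ι2.comp ι1, Fin.cons (fun i ε => ι2 (V i ε)) W, ?_, ?_, ?_⟩
    · intro g i ε d
      refine Fin.cases ?_ (fun g => ?_) g
      · rw [Fin.cons_zero, AlgHom.comp_apply, ← map_mul, hV, map_mul]
      · rw [Fin.cons_succ, AlgHom.comp_apply, hW]
    · intro g h hgh i j ε δ
      revert hgh
      refine Fin.cases ?_ (fun g => ?_) g <;> refine Fin.cases ?_ (fun h => ?_) h
      · intro hgh
        exact absurd rfl hgh
      · intro _
        rw [Fin.cons_zero, Fin.cons_succ, hW]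
      · intro _
        rw [Fin.cons_zero, Fin.cons_succ, hW]
      · intro hgh
        rw [Fin.cons_succ, Fin.cons_succ]
        exact hWW g h (fun h' => hgh (by rw [h'])) i j ε δ
    · intro g
      refine Fin.cases ?_ (fun g => ?_) g
      · rw [Fin.cons_zero]
        exact hw.map ι2
      · rw [Fin.cons_succ]
        exact hWw g

end Vale.Agent.P200F.V

end

section

namespace Vale.Agent.P200F.V

open MvPolynomial

universe u

section ops
variable {K K' : Type u} [Field K] [Field K'] {κ : ℕ}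

/-- change of the field -/
noncomputable def Blk.map (β : Blk K κ) (f : K →+* K') : Blk K' κ where
  e := β.e
  e_pos := β.e_pos
  Phi i := MvPolynomial.map f (β.Phi i)
  hom i := (β.hom i).map f
  tri i j hj := by
    classical
    exact β.tri i j (vars_map (β.Phi i) f hj)

/-- one more element -/
noncomputable def Blk.snoc (β : Blk K κ) (e : ℕ) (he : 0 < e) (P : MvPolynomial (Fin (κ + 2)) K)
    (hP : P.IsHomogeneous e) : Blk K (κ + 1) where
  e := Fin.snoc (α := fun _ => ℕ) β.e e
  e_pos := by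
    intro i
    refine Fin.lastCases ?_ (fun i => ?_) i
    · rw [Fin.snoc_last]
      exact he
    · rw [Fin.snoc_castSucc]
      exact β.e_pos i
  Phi := Fin.snoc (α := fun _ => MvPolynomial (Fin (κ + 1 + 2)) K)
    (fun i => rename (Fin.castSucc : Fin (κ + 2) → Fin (κ + 2 + 1)) (β.Phi i))
    (rename (Fin.castSucc : Fin (κ + 2) → Fin (κ + 2 + 1)) P)
  hom := by
    intro i
    refine Fin.lastCases ?_ (fun i => ?_) i
    · rw [Fin.snoc_last, Fin.snoc_last]
      exact hP.rename_isHomogeneous
    · rw [Fin.snoc_castSucc, Fin.snoc_castSucc]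
      exact (β.hom i).rename_isHomogeneous
  tri := by
    classical
    intro i
    refine Fin.lastCases ?_ (fun i => ?_) i
    · intro j hj
      rw [Fin.snoc_last] at hj
      obtain ⟨j', -, rfl⟩ := Finset.mem_image.1 (vars_rename _ _ hj)
      rw [Fin.val_castSucc, Fin.val_last]
      exact j'.2
    · intro j hj
      rw [Fin.snoc_castSucc] at hj
      obtain ⟨j', hj', rfl⟩ := Finset.mem_image.1 (vars_rename _ _ hj)
      rw [Fin.val_castSucc, Fin.val_castSucc]
      exact β.tri i j' hj'

end ops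

/-- the field of rational functions in the new parameters -/
abbrev KF (K : Type u) [Field K] (ι : Type) : Type u := FractionRing (MvPolynomial ι K)

/-- the parameters -/
noncomputable def Tv (K : Type u) [Field K] {ι : Type} (j : ι) : KF K ι :=
  algebraMap (MvPolynomial ι K) (KF K ι) (X j)

section new
variable {K : Type u} [Field K] {κ R : ℕ} {ι : Type} [Fintype ι]

/-- the right-hand side of the new relation -/
noncomputable def newPhi (C : Fin R → Prop) [DecidablePred C]
    (a : Fin R → ι → MvPolynomial (Fin (κ + 2)) K) (g : Fin R) :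
    MvPolynomial (Fin (κ + 2)) (KF K ι) :=
  if C g then ∑ j, MvPolynomial.C (Tv K j) * MvPolynomial.map (algebraMap K (KF K ι)) (a g j)
  else 0

theorem newPhi_hom (C : Fin R → Prop) [DecidablePred C]
    (a : Fin R → ι → MvPolynomial (Fin (κ + 2)) K) {e : ℕ} (ha : ∀ g j, (a g j).IsHomogeneous e)
    (g : Fin R) : (newPhi C a g).IsHomogeneous (if C g then e else 1) := by
  unfold newPhi
  split_ifs
  · refine IsHomogeneous.sum _ _ _ fun j _ => ?_
    have h := (isHomogeneous_C (Fin (κ + 2)) (Tv K j)).mul ((ha g j).map (algebraMap K (KF K ι)))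
    rwa [zero_add] at h
  · exact isHomogeneous_zero _ _ _

/-- the new blocks -/
noncomputable def newBlk (β : Fin R → Blk K κ) (C : Fin R → Prop) [DecidablePred C] (e : ℕ)
    (he : 0 < e) (a : Fin R → ι → MvPolynomial (Fin (κ + 2)) K)
    (ha : ∀ g j, (a g j).IsHomogeneous e) (g : Fin R) : Blk (KF K ι) (κ + 1) :=
  ((β g).map (algebraMap K (KF K ι))).snoc (if C g then e else 1)
    (by split_ifs <;> omega) (newPhi C a g) (newPhi_hom C a ha g)

end new

/-- **The level lemma.** -/
def DStep (K : Type u) [Field K] (κ : ℕ) : Prop :=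
  ∀ (R : ℕ) (β : Fin R → Blk K κ), IntAll K β →
    ∀ (ι : Type) [Fintype ι] (C : Fin R → Prop) [DecidablePred C] (e : ℕ) (he : 0 < e)
      (a : Fin R → ι → MvPolynomial (Fin (κ + 2)) K) (ha : ∀ g j, (a g j).IsHomogeneous e),
      (∀ (Ω : Type u) [Field Ω] [IsAlgClosed Ω] [Algebra K Ω] (pt : Fin R → Fin (κ + 2) → Ω),
        (∀ g i, aeval (pt g) ((β g).rel i) = 0) → (∀ g, pt g 0 ≠ 0 ∨ pt g 1 ≠ 0) →
        ∀ c : Fin R → Ω, (∀ g, ¬ C g → c g = 0) →
          (∀ j, ∑ g, c g * aeval (pt g) (a g j) = 0) → ∀ g, c g = 0) →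
      IntAll (KF K ι) (newBlk β C e he a ha)

end Vale.Agent.P200F.V

end

section

namespace Vale.Agent.P200F.V

open MvPolynomial

universe u

/-- the block all of whose elements are `0` -/
noncomputable def Blk.triv (K : Type u) [Field K] (κ : ℕ) : Blk K κ where
  e _ := 1
  e_pos _ := one_pos
  Phi _ := 0
  hom _ := isHomogeneous_zero _ _ _
  tri i j hj := by
    rw [vars_0] at hj
    exact absurd hj (Finset.notMem_empty j)

namespace Rig

/-- the generators -/
abbrev Gen : Type := ℕ ⊕ ℕ × ℕ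

/-- the used generators -/
def Used (n κ N : ℕ) : Gen → Prop
  | Sum.inl i => i < n
  | Sum.inr p => p.1 < N ∧ p.2 < κ

/-- the linear form with the given coefficients -/
noncomputable def lin (K : Type u) [Field K] : (Gen →₀ K) →ₗ[K] MvPolynomial Gen K :=
  Finsupp.linearCombination K X

/-- the linear form uses only used generators -/
def Sup {K : Type u} [Field K] (n κ N : ℕ) (t : Gen →₀ K) : Prop := ∀ v ∈ t.support, Used n κ N v

/-- a circuit -/
structure Circ (K : Type u) [Field K] (n κ : ℕ) where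
  /-- the number of used blocks -/
  N : ℕ
  /-- the blocks -/
  β : ℕ → Blk K κ
  /-- the inputs -/
  inp : ℕ → Fin 2 → (Gen →₀ K)
  int : ∀ R, IntAll K fun g : Fin R => β g
  triv : ∀ g, N ≤ g → β g = Blk.triv K κ
  old : ∀ g < N, ∀ ε, Sup n κ g (inp g ε)

namespace Circ

variable {K : Type u} [Field K] {n κ : ℕ} (C : Circ K n κ)

/-- the linear forms of the variables of the block `g` -/
noncomputable def vl (g : ℕ) (s : Fin (κ + 2)) : Gen →₀ K :=
  Fin.cases (C.inp g 0) (fun s => Fin.cases (C.inp g 1)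
    (fun j : Fin κ => Finsupp.single (Sum.inr (g, (j : ℕ))) 1) s) s

/-- the substitution of the block `g` -/
noncomputable def ev (g : ℕ) : MvPolynomial (Fin (κ + 2)) K →ₐ[K] MvPolynomial Gen K :=
  aeval fun s => lin K (C.vl g s)

/-- the ideal of the relations -/
noncomputable def I : Ideal (MvPolynomial Gen K) :=
  Ideal.span {P | ∃ g < C.N, ∃ i : Fin κ, P = C.ev g ((C.β g).rel i)}

/-- the used generators of the circuit -/
def U (v : Gen) : Prop := Used n κ C.N v

/-- the linear form uses only used generators -/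
def S (t : Gen →₀ K) : Prop := Sup n κ C.N t

/-- points with coordinates in a field `Ω` -/
def Pt {Ω : Type u} [Field Ω] [Algebra K Ω] (q : Gen → Ω) : Prop := ∀ P ∈ C.I, aeval q P = 0

/-- no common zero on the circuit: over every algebraically closed field the common zeros have
coordinates `x_i = 0` -/
def NoZ {r : ℕ} (P : Fin r → MvPolynomial Gen K) : Prop :=
  ∀ (Ω : Type u) [Field Ω] [IsAlgClosed Ω] [Algebra K Ω] (q : Gen → Ω), C.Pt q →
    (∀ l, aeval q (P l) = 0) → ∀ i < n, q (Sum.inl i) = 0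

/-- `C'` (over `K'`) extends `C` (over `K`) -/
structure Ext {K' : Type u} [Field K'] {κ' : ℕ} (φ : K →+* K') (C' : Circ K' n κ') : Prop where
  le : C.N ≤ C'.N
  leκ : κ ≤ κ'
  I : ∀ P ∈ C.I, MvPolynomial.map φ P ∈ C'.I

/-- the span (modulo the relations) of the degree `e` forms of the blocks `< N1` -/
def Bl (e : ℕ) (P : MvPolynomial Gen K) : Prop :=
  ∃ Φ : ℕ → MvPolynomial (Fin (κ + 2)) K, (∀ g, (Φ g).IsHomogeneous e) ∧
    P - ∑ g ∈ Finset.range C.N, C.ev g (Φ g) ∈ C.I

/-- the span (modulo the relations) of the degree `e` binary forms in the linear forms of `E` -/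
def Bin (E : Finset (Gen →₀ K)) (e : ℕ) (P : MvPolynomial Gen K) : Prop :=
  ∃ Q ∈ Submodule.span K {Q : MvPolynomial Gen K | ∃ y ∈ E, ∃ y' ∈ E, ∃ a b, a + b = e ∧
    Q = lin K y ^ a * lin K y' ^ b}, P - Q ∈ C.I

end Circ

/-- the conclusion of the stage: in an extension of the circuit there is a linear form `ξ` with
`ξ ^ e = ∑ Y_l u_l`, the `Y_l` being linearly independent over the old field -/
def Out {K : Type u} [Field K] {n κ : ℕ} (C : Circ K n κ) (e : ℕ) {r : ℕ}
    (P : Fin r → MvPolynomial Gen K) : Prop :=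
  ∃ (K' : Type u) (_ : Field K') (φ : K →+* K') (κ' : ℕ) (C' : Circ K' n κ') (ξ : Gen →₀ K')
    (Y : Fin r → K'), C.Ext φ C' ∧ C'.S ξ ∧
    (∀ c : Fin r → K, ∑ l, φ (c l) * Y l = 0 → c = 0) ∧
    lin K' ξ ^ e - ∑ l, MvPolynomial.C (Y l) * MvPolynomial.map φ (P l) ∈ C'.I

/-- `P` is a homogeneous polynomial of degree `e` in the used generators -/
def Circ.Hm {K : Type u} [Field K] {n κ : ℕ} (C : Circ K n κ) (e : ℕ) (P : MvPolynomial Gen K) :
    Prop := P.IsHomogeneous e ∧ ∀ v ∈ P.vars, C.U v

/-- **the stage lemma** with the spanning hypothesis -/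
def StageBin (K : Type u) [Field K] : Prop :=
  ∀ (n κ : ℕ) (_ : 0 < n) (C : Circ K n κ) (e : ℕ) (_ : 0 < e) (r : ℕ)
    (P : Fin r → MvPolynomial Gen K) (E : Finset (Gen →₀ K)), (∀ y ∈ E, C.S y) →
    (∀ l, C.Bin E e (P l)) → C.NoZ P → Out C e P

/-- **the stage lemma** -/
def StageAll : Prop :=
  ∀ (e : ℕ) (_ : 0 < e) (K : Type u) [Field K] [Infinite K] (n κ : ℕ) (_ : 0 < n) (C : Circ K n κ)
    (r : ℕ) (P : Fin r → MvPolynomial Gen K), (∀ l, C.Hm e (P l)) → C.NoZ P → Out C e P

end Rig

end Vale.Agent.P200F.V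

end

section

namespace Vale.Agent.P200F.V

open MvPolynomial

section sub
variable {K : Type*} [Field K] {D : Type*} [Ring D] [Algebra K D] {B : Type*} [Ring B]
  [Algebra K B]

/-- monomials in two commuting elements -/
noncomputable def mon2 (Z : Fin 2 → B) (hZ : Commute (Z 0) (Z 1)) :
    Multiplicative (Fin 2 →₀ ℕ) →* B where
  toFun m := Z 0 ^ (m.toAdd 0) * Z 1 ^ (m.toAdd 1)
  map_one' := by
    rw [toAdd_one, Finsupp.zero_apply, Finsupp.zero_apply, pow_zero, pow_zero, one_mul]
  map_mul' a b := by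
    rw [toAdd_mul, Finsupp.add_apply, Finsupp.add_apply, pow_add, pow_add]
    have h := (hZ.pow_pow (b.toAdd 0) (a.toAdd 1)).eq
    calc Z 0 ^ (a.toAdd 0) * Z 0 ^ (b.toAdd 0) * (Z 1 ^ (a.toAdd 1) * Z 1 ^ (b.toAdd 1))
        = Z 0 ^ (a.toAdd 0) * (Z 0 ^ (b.toAdd 0) * Z 1 ^ (a.toAdd 1)) * Z 1 ^ (b.toAdd 1) := by
          simp only [mul_assoc]
      _ = Z 0 ^ (a.toAdd 0) * (Z 1 ^ (a.toAdd 1) * Z 0 ^ (b.toAdd 0)) * Z 1 ^ (b.toAdd 1) := by
          rw [h]
      _ = _ := by simp only [mul_assoc]

theorem mon2_apply (Z : Fin 2 → B) (hZ : Commute (Z 0) (Z 1)) (m : Fin 2 →₀ ℕ) :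
    mon2 Z hZ (Multiplicative.ofAdd m) = Z 0 ^ m 0 * Z 1 ^ m 1 := rfl

theorem commute_mon2 (Z : Fin 2 → B) (hZ : Commute (Z 0) (Z 1)) {b : B}
    (hb : ∀ δ, Commute b (Z δ)) (m : Multiplicative (Fin 2 →₀ ℕ)) : Commute b (mon2 Z hZ m) :=
  ((hb 0).pow_right _).mul_right ((hb 1).pow_right _)

theorem mem_range_mapAlgHom {M : Type*} [AddMonoid M] (S : Subalgebra K D)
    (u : AddMonoidAlgebra D M) :
    u ∈ (AddMonoidAlgebra.mapAlgHom (R := K) M S.val).range ↔ ∀ m, u.coeff m ∈ S := by
  constructor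
  · rintro ⟨v, rfl⟩ m
    have h : ((AddMonoidAlgebra.mapAlgHom (R := K) M S.val) v).coeff m = S.val (v.coeff m) :=
      AddMonoidAlgebra.coeff_mapAlgHom _ _ _
    change ((AddMonoidAlgebra.mapAlgHom (R := K) M S.val) v).coeff m ∈ S
    rw [h]
    exact (v.coeff m).2
  · intro h
    rw [← AddMonoidAlgebra.sum_coeff_single u]
    refine Subalgebra.sum_mem _ fun m _ => ?_
    refine ⟨AddMonoidAlgebra.single m ⟨u.coeff m, h m⟩, ?_⟩
    exact AddMonoidAlgebra.mapAlgHom_single _ _ _

theorem ev_coeff_mem {M σ : Type*} [AddMonoid M] (S : Subalgebra K D)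
    (ev : MvPolynomial σ K →ₐ[K] AddMonoidAlgebra D M)
    (h : ∀ v m, (ev (X v)).coeff m ∈ S) (f : MvPolynomial σ K) (m : M) :
    (ev f).coeff m ∈ S := by
  revert m
  rw [← mem_range_mapAlgHom]
  induction f using MvPolynomial.induction_on with
  | C a =>
    have h1 : ev (C a) = algebraMap K _ a := ev.commutes a
    rw [h1]
    exact Subalgebra.algebraMap_mem _ _
  | add f g hf hg =>
    rw [map_add]
    exact Subalgebra.add_mem _ hf hg
  | mul_X f v hf =>
    rw [map_mul]
    exact Subalgebra.mul_mem _ hf ((mem_range_mapAlgHom S _).2 (h v))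

/-- the elements which commute with `Z 0`, `Z 1` -/
def cen2 (c : D →ₐ[K] B) (Z : Fin 2 → B) : Subalgebra K D :=
  (Subalgebra.centralizer K (Set.range Z)).comap c

theorem mem_cen2 {c : D →ₐ[K] B} {Z : Fin 2 → B} {a : D} :
    a ∈ cen2 c Z ↔ ∀ δ, Commute (c a) (Z δ) := by
  unfold cen2
  rw [Subalgebra.mem_comap, Subalgebra.mem_centralizer_iff]
  constructor
  · intro h δ
    exact (h (Z δ) ⟨δ, rfl⟩).symm
  · rintro h _ ⟨δ, rfl⟩
    exact (h δ).eq.symm

/-- substitution -/
theorem exists_subst {σ : Type*} (c : D →ₐ[K] B) (Z : Fin 2 → B) (hZ : Commute (Z 0) (Z 1))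
    (ev : MvPolynomial σ K →ₐ[K] AddMonoidAlgebra D (Fin 2 →₀ ℕ)) (a : σ → Fin 2 → D)
    (hev : ∀ v, ev (X v) = AddMonoidAlgebra.single (Finsupp.single 0 1) (a v 0) +
      AddMonoidAlgebra.single (Finsupp.single 1 1) (a v 1))
    (hc : ∀ v ε δ, Commute (c (a v ε)) (Z δ)) :
    ∃ φ : MvPolynomial σ K →ₐ[K] B, (∀ v, φ (X v) = c (a v 0) * Z 0 + c (a v 1) * Z 1) ∧
      ∀ f, ev f = 0 → φ f = 0 := by
  classical
  set F : AddMonoidAlgebra D (Fin 2 →₀ ℕ) →+ B :=
    AddMonoidAlgebra.liftNC (c : D →+* B) (mon2 Z hZ) with hF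
  have hco : ∀ f m, (ev f).coeff m ∈ cen2 c Z := by
    refine ev_coeff_mem (cen2 c Z) ev fun v m => ?_
    rw [hev, AddMonoidAlgebra.coeff_add, Finsupp.add_apply, AddMonoidAlgebra.coeff_single,
      AddMonoidAlgebra.coeff_single, Finsupp.single_apply, Finsupp.single_apply]
    refine Subalgebra.add_mem _ ?_ ?_
    · split_ifs
      · exact mem_cen2.2 (hc v 0)
      · exact Subalgebra.zero_mem _
    · split_ifs
      · exact mem_cen2.2 (hc v 1)
      · exact Subalgebra.zero_mem _
  have hmul : ∀ f g, F (ev f * ev g) = F (ev f) * F (ev g) := by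
    intro f g
    refine AddMonoidAlgebra.liftNC_mul (c : D →+* B) (mon2 Z hZ) (ev f) (ev g) ?_
    intro x y _
    exact commute_mon2 Z hZ (mem_cen2.1 (hco g x)) _
  have hsing : ∀ m b, F (AddMonoidAlgebra.single m b) = c b * mon2 Z hZ (Multiplicative.ofAdd m) :=
    fun m b => AddMonoidAlgebra.liftNC_single _ _ _ _
  have hone : F 1 = 1 := by
    rw [AddMonoidAlgebra.one_def, hsing, map_one, one_mul]
    exact map_one _
  let φ : MvPolynomial σ K →ₐ[K] B := AlgHom.ofLinearMap
    { toFun := fun f => F (ev f)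
      map_add' := fun f g => by rw [map_add, map_add]
      map_smul' := fun r f => by
        rw [RingHom.id_apply, MvPolynomial.smul_eq_C_mul, map_mul, hmul]
        have h1 : ev (C r) = algebraMap K _ r := ev.commutes r
        have h3 : algebraMap K (AddMonoidAlgebra D (Fin 2 →₀ ℕ)) r =
            AddMonoidAlgebra.single 0 (algebraMap K D r) := rfl
        rw [h1, h3, hsing, AlgHom.commutes]
        have h2 : mon2 Z hZ (Multiplicative.ofAdd 0) = 1 := map_one _
        rw [h2, mul_one, Algebra.smul_def] }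
    (by
      change F (ev 1) = 1
      rw [map_one, hone])
    (fun f g => by
      change F (ev (f * g)) = F (ev f) * F (ev g)
      rw [map_mul, hmul])
  have hφ : ∀ f, φ f = F (ev f) := fun f => rfl
  refine ⟨φ, fun v => ?_, fun f hf => ?_⟩
  · rw [hφ, hev, map_add, hsing, hsing, mon2_apply, mon2_apply]
    simp
  · rw [hφ, hf, map_zero]

end sub

end Vale.Agent.P200F.V

end

section

namespace Vale.Agent.P200F

open MvPolynomial

/-- The degree `d` piece of an ideal, as a `K`-subspace. -/
noncomputable def piece {K : Type*} [Field K] {n : ℕ} (I : Ideal (MvPolynomial (Fin n) K))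
    (d : ℕ) : Submodule K (MvPolynomial (Fin n) K) :=
  I.restrictScalars K ⊓ homogeneousSubmodule (Fin n) K d

/-- The Hilbert function of `S / I`. -/
noncomputable def hilb {K : Type*} [Field K] {n : ℕ} (I : Ideal (MvPolynomial (Fin n) K))
    (d : ℕ) : ℕ :=
  Module.finrank K (homogeneousSubmodule (Fin n) K d) - Module.finrank K (piece I d)

/-- `lexLT m m'` : the monomial `m'` is lexicographically greater than `m`
(first variable greatest). -/
def lexLT {n : ℕ} (m m' : Fin n → ℕ) : Prop := ∃ i, (∀ k, k < i → m k = m' k) ∧ m i < m' i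

instance {n : ℕ} (m m' : Fin n → ℕ) : Decidable (lexLT m m') := by
  unfold lexLT; infer_instance

/-- Exponents of total degree `d` in the box `m i < a i`. -/
def boxD {n : ℕ} (a : Fin n → ℕ) (d : ℕ) : Finset (Fin n → ℕ) :=
  (Fintype.piFinset fun i => Finset.range (a i)).filter fun m => ∑ i, m i = d

/-- The upper shadow inside the box. -/
def upShadow {n : ℕ} (a : Fin n → ℕ) (M : Finset (Fin n → ℕ)) : Finset (Fin n → ℕ) :=
  (M.biUnion fun m => Finset.univ.image fun i => Function.update m i (m i + 1)).filter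
    fun y => ∀ i, y i < a i

/-- The `q` lexicographically greatest exponents of degree `d` in the box. -/
def lexSeg {n : ℕ} (a : Fin n → ℕ) (d q : ℕ) : Finset (Fin n → ℕ) :=
  (boxD a d).filter fun m => ((boxD a d).filter fun m' => lexLT m m').card < q

/-- Growth of lexicographic segments. -/
def up {n : ℕ} (a : Fin n → ℕ) (d q : ℕ) : ℕ := (upShadow a (lexSeg a d q)).card

/-- Homogeneous ideals. -/
def HomIdeal {K : Type*} [Field K] {n : ℕ} (I : Ideal (MvPolynomial (Fin n) K)) : Prop :=
  ∀ f ∈ I, ∀ d, homogeneousComponent d f ∈ I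

/-- The growth inequality of Eisenbud-Green-Harris for `I` with respect to degrees `a`. -/
def EGH {K : Type*} [Field K] {n : ℕ} (a : Fin n → ℕ) (I : Ideal (MvPolynomial (Fin n) K)) :
    Prop :=
  ∀ d, up a d ((boxD a d).card - hilb I d) + hilb I (d + 1) ≤ (boxD a (d + 1)).card

/-- `f` is a regular sequence: multiplication by `f i` is injective modulo the earlier ones. -/
def IsRegSeq {R : Type*} [CommRing R] {c : ℕ} (f : Fin c → R) : Prop :=
  ∀ i : Fin c, ∀ g : R, f i * g ∈ Ideal.span (f '' {j | j < i}) →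
    g ∈ Ideal.span (f '' {j | j < i})

/-- The ideal contains all forms of degree `≥ N` for some `N`. -/
def IsMPrimary {K : Type*} [Field K] {n : ℕ} (I : Ideal (MvPolynomial (Fin n) K)) : Prop :=
  ∃ N : ℕ, ∀ d, N ≤ d → ∀ g : MvPolynomial (Fin n) K, g.IsHomogeneous d → g ∈ I

/-- `f` is a product of `d` linear forms. -/
def SplitsLinear {K : Type*} [Field K] {n : ℕ} (d : ℕ) (f : MvPolynomial (Fin n) K) : Prop :=
  ∃ l : Fin d → MvPolynomial (Fin n) K, (∀ i, (l i).IsHomogeneous 1) ∧ f = ∏ i, l i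

end Vale.Agent.P200F

end

section

namespace Vale.Agent.P200F.G

open MvPolynomial

variable {K : Type*} [Field K] {n : ℕ}

attribute [local instance] MvPolynomial.gradedAlgebra

theorem decompose_eq_comp (p : MvPolynomial (Fin n) K) (i : ℕ) :
    (DirectSum.decompose (homogeneousSubmodule (Fin n) K) p i : MvPolynomial (Fin n) K) =
      homogeneousComponent i p :=
  decomposition.decompose'_apply p i

theorem homIdeal_iff {I : Ideal (MvPolynomial (Fin n) K)} :
    HomIdeal I ↔ I.IsHomogeneous (homogeneousSubmodule (Fin n) K) := by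
  constructor
  · intro h d f hf
    rw [decompose_eq_comp]
    exact h f hf d
  · intro h f hf d
    exact homogeneousComponent_mem_of_mem h hf d

/-- the component of degree `d + e` of `l * u` -/
theorem comp_mul_add {l : MvPolynomial (Fin n) K} {e : ℕ} (hl : l.IsHomogeneous e)
    (u : MvPolynomial (Fin n) K) (d : ℕ) :
    homogeneousComponent (d + e) (l * u) = l * homogeneousComponent d u := by
  rw [← decompose_eq_comp, ← decompose_eq_comp, add_comm d e]
  exact DirectSum.coe_decompose_mul_add_of_left_mem _ hl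

theorem comp_mul_of_lt {l : MvPolynomial (Fin n) K} {e : ℕ} (hl : l.IsHomogeneous e)
    (u : MvPolynomial (Fin n) K) {d : ℕ} (hd : d < e) :
    homogeneousComponent d (l * u) = 0 := by
  rw [← decompose_eq_comp]
  exact DirectSum.coe_decompose_mul_of_left_mem_of_not_le _ hl (not_le.2 hd)

theorem comp_self {g : MvPolynomial (Fin n) K} {d : ℕ} (hg : g.IsHomogeneous d) :
    homogeneousComponent d g = g := homogeneousComponent_eq_self hg

instance (d : ℕ) : Module.Finite K (homogeneousSubmodule (Fin n) K d) :=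
  Module.Finite.iff_fg.2 (homogeneousSubmodule_fg _ _ d)

theorem finrank_homogeneousSubmodule (d : ℕ) :
    Module.finrank K (homogeneousSubmodule (Fin n) K d) =
      ((Finset.univ : Finset (Fin n)).finsuppAntidiag d).card := by
  classical
  have hb : {e : Fin n →₀ ℕ | e.degree = d} =
      ↑((Finset.univ : Finset (Fin n)).finsuppAntidiag d) := by
    ext e
    simp [Finset.mem_finsuppAntidiag, Finsupp.degree_eq_sum]
  rw [homogeneousSubmodule_eq_finsupp_supported, hb,
    (AddMonoidAlgebra.supportedEquivFinsupp (R := K) (S := K)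
      (↑((Finset.univ : Finset (Fin n)).finsuppAntidiag d) : Set (Fin n →₀ ℕ))).finrank_eq,
    Module.finrank_finsupp_self]
  simp

theorem mem_piece {I : Ideal (MvPolynomial (Fin n) K)} {d : ℕ} {g : MvPolynomial (Fin n) K} :
    g ∈ piece I d ↔ g ∈ I ∧ g.IsHomogeneous d := Iff.rfl

theorem piece_le (I : Ideal (MvPolynomial (Fin n) K)) (d : ℕ) :
    piece I d ≤ homogeneousSubmodule (Fin n) K d := inf_le_right

instance finite_piece (I : Ideal (MvPolynomial (Fin n) K)) (d : ℕ) :
    Module.Finite K (piece I d) :=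
  Submodule.finiteDimensional_of_le (piece_le I d)

theorem finrank_piece_add_hilb (I : Ideal (MvPolynomial (Fin n) K)) (d : ℕ) :
    Module.finrank K (piece I d) + hilb I d =
      Module.finrank K (homogeneousSubmodule (Fin n) K d) :=
  Nat.add_sub_of_le (Submodule.finrank_mono (piece_le I d))

theorem piece_congr {I J : Ideal (MvPolynomial (Fin n) K)} {d : ℕ}
    (h : ∀ g : MvPolynomial (Fin n) K, g.IsHomogeneous d → (g ∈ I ↔ g ∈ J)) :
    piece I d = piece J d := by
  ext g
  simp only [mem_piece]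
  constructor
  · rintro ⟨h1, h2⟩
    exact ⟨(h g h2).1 h1, h2⟩
  · rintro ⟨h1, h2⟩
    exact ⟨(h g h2).2 h1, h2⟩

theorem hilb_congr {I J : Ideal (MvPolynomial (Fin n) K)} {d : ℕ}
    (h : ∀ g : MvPolynomial (Fin n) K, g.IsHomogeneous d → (g ∈ I ↔ g ∈ J)) :
    hilb I d = hilb J d := by
  rw [hilb, hilb, piece_congr h]

theorem homIdeal_sup {I J : Ideal (MvPolynomial (Fin n) K)} (hI : HomIdeal I)
    (hJ : HomIdeal J) : HomIdeal (I ⊔ J) :=
  homIdeal_iff.2 ((homIdeal_iff.1 hI).sup (homIdeal_iff.1 hJ))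

theorem homIdeal_span {s : Set (MvPolynomial (Fin n) K)}
    (h : ∀ f ∈ s, ∃ d, f.IsHomogeneous d) : HomIdeal (Ideal.span s) :=
  homIdeal_iff.2 (Ideal.homogeneous_span _ _ h)

/-- m-primary in terms of powers of the variables -/
theorem isMPrimary_iff_pow {I : Ideal (MvPolynomial (Fin n) K)} :
    IsMPrimary I ↔ ∀ i, ∃ N : ℕ, (X i : MvPolynomial (Fin n) K) ^ N ∈ I := by
  constructor
  · rintro ⟨N, hN⟩ i
    exact ⟨N, hN N le_rfl _ (isHomogeneous_X_pow i N)⟩
  · intro h
    choose N hN using h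
    refine ⟨∑ i, N i + 1, fun d hd g hg => ?_⟩
    rw [g.as_sum]
    refine I.sum_mem fun m hm => ?_
    have hdeg : ∑ i, m i = d := by
      rw [hg.degree_eq_sum_deg_support hm]
      exact (Finset.sum_subset (Finset.subset_univ _)
        fun i _ hi => Finsupp.notMem_support_iff.1 hi).symm
    obtain ⟨i, -, hi⟩ : ∃ i ∈ (Finset.univ : Finset (Fin n)), N i < m i :=
      Finset.exists_lt_of_sum_lt (by omega)
    have h1 : monomial m (coeff m g) =
        X i ^ N i * monomial (m - Finsupp.single i (N i)) (coeff m g) := by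
      rw [X_pow_eq_monomial, monomial_mul, one_mul,
        add_tsub_cancel_of_le (Finsupp.single_le_iff.2 hi.le)]
    rw [h1]
    exact I.mul_mem_right _ (hN i)

theorem isMPrimary_iff_radical {I : Ideal (MvPolynomial (Fin n) K)} :
    IsMPrimary I ↔ ∀ i, (X i : MvPolynomial (Fin n) K) ∈ I.radical := by
  rw [isMPrimary_iff_pow]
  rfl

theorem IsMPrimary.mono {I J : Ideal (MvPolynomial (Fin n) K)} (h : IsMPrimary I)
    (hIJ : I ≤ J) : IsMPrimary J := by
  obtain ⟨N, hN⟩ := h
  exact ⟨N, fun d hd g hg => hIJ (hN d hd g hg)⟩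

end Vale.Agent.P200F.G

end

section

namespace Vale.Agent.P200F.G

open MvPolynomial

variable {K : Type*} [Field K] {n : ℕ}

attribute [local instance] MvPolynomial.gradedAlgebra

/-- the irrelevant ideal -/
noncomputable def irr (K : Type*) [Field K] (n : ℕ) : Ideal (MvPolynomial (Fin n) K) :=
  Ideal.span (Set.range X)

theorem X_mem_irr (i : Fin n) : (X i : MvPolynomial (Fin n) K) ∈ irr K n :=
  Ideal.subset_span ⟨i, rfl⟩

theorem mem_irr_iff {f : MvPolynomial (Fin n) K} : f ∈ irr K n ↔ constantCoeff f = 0 := by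
  have h1 : irr K n = Ideal.span (X '' (Set.univ : Set (Fin n)) : Set (MvPolynomial (Fin n) K)) := by
    rw [irr, Set.image_univ]
  rw [h1, mem_ideal_span_X_image]
  constructor
  · intro h
    by_contra hc
    have h2 : (0 : Fin n →₀ ℕ) ∈ f.support := by
      rw [mem_support_iff]
      exact hc
    obtain ⟨i, -, hi⟩ := h 0 h2
    exact hi rfl
  · intro h m hm
    by_contra hc
    push Not at hc
    have hm0 : m = 0 := by
      ext i
      exact hc i (Set.mem_univ i)
    rw [hm0, mem_support_iff] at hm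
    exact hm h

theorem irr_eq_ker : irr K n = RingHom.ker (constantCoeff : MvPolynomial (Fin n) K →+* K) := by
  ext f
  rw [mem_irr_iff, RingHom.mem_ker]

instance irr_isMaximal : (irr K n).IsMaximal := by
  rw [irr_eq_ker]
  exact RingHom.ker_isMaximal_of_surjective _ (fun c => ⟨C c, constantCoeff_C _ c⟩)

theorem le_irr_of_homIdeal {I : Ideal (MvPolynomial (Fin n) K)} (hI : HomIdeal I)
    (hne : I ≠ ⊤) : I ≤ irr K n := by
  intro f hf
  rw [mem_irr_iff]
  by_contra hc
  apply hne
  have h1 := hI f hf 0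
  rw [homogeneousComponent_zero] at h1
  have h2 : (C (constantCoeff f)⁻¹ : MvPolynomial (Fin n) K) * C (coeff 0 f) ∈ I :=
    I.mul_mem_left _ h1
  rw [← C_mul] at h2
  have h3 : (constantCoeff f)⁻¹ * coeff 0 f = 1 := inv_mul_cancel₀ hc
  rw [h3, C_1] at h2
  exact (Ideal.eq_top_iff_one I).mpr h2

theorem homIdeal_of_mem_minimalPrimes {I p : Ideal (MvPolynomial (Fin n) K)}
    (hI : HomIdeal I) (hp : p ∈ I.minimalPrimes) : HomIdeal p := by
  rw [homIdeal_iff] at hI ⊢
  have hpp : p.IsPrime := hp.1.1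
  have h1 : (p.homogeneousCore (homogeneousSubmodule (Fin n) K)).toIdeal.IsPrime :=
    hpp.homogeneousCore
  have h2 : I ≤ (p.homogeneousCore (homogeneousSubmodule (Fin n) K)).toIdeal := by
    have h3 := Ideal.homogeneousCore_mono (homogeneousSubmodule (Fin n) K) hp.1.2
    have h4 := hI.toIdeal_homogeneousCore_eq_self
    calc I = (I.homogeneousCore (homogeneousSubmodule (Fin n) K)).toIdeal := h4.symm
      _ ≤ _ := h3
  have h3 := hp.2 ⟨h1, h2⟩ (Ideal.toIdeal_homogeneousCore_le _ p)
  have h4 : (p.homogeneousCore (homogeneousSubmodule (Fin n) K)).toIdeal = p :=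
    le_antisymm (Ideal.toIdeal_homogeneousCore_le _ p) h3
  rw [← h4]
  exact (p.homogeneousCore (homogeneousSubmodule (Fin n) K)).isHomogeneous

theorem le_height_of_isRegSeq {c : ℕ} (f : Fin c → MvPolynomial (Fin n) K)
    (hreg : IsRegSeq f) (p : Ideal (MvPolynomial (Fin n) K)) [p.IsPrime]
    (h : Ideal.span (Set.range f) ≤ p) : (c : ℕ∞) ≤ p.height := by
  induction c generalizing p with
  | zero => simp
  | succ c ih =>
    set f' : Fin c → MvPolynomial (Fin n) K := fun i => f i.castSucc with hf'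
    have himg : ∀ i : Fin c, f '' {j | j < i.castSucc} = f' '' {j | j < i} := by
      intro i
      ext g
      constructor
      · rintro ⟨j, hj, rfl⟩
        have hj' : (j : ℕ) < i := hj
        refine ⟨⟨j, by omega⟩, ?_, ?_⟩
        · exact hj'
        · rfl
      · rintro ⟨j, hj, rfl⟩
        exact ⟨j.castSucc, Fin.castSucc_lt_castSucc_iff.mpr hj, rfl⟩
    have himg2 : f '' {j | j < Fin.last c} = Set.range f' := by
      ext g
      constructor
      · rintro ⟨j, hj, rfl⟩
        have hj' : (j : ℕ) < c := hj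
        exact ⟨⟨j, hj'⟩, rfl⟩
      · rintro ⟨j, rfl⟩
        exact ⟨j.castSucc, Fin.castSucc_lt_last j, rfl⟩
    have hreg' : IsRegSeq f' := by
      intro i g hg
      have h1 := hreg i.castSucc g
      rw [himg] at h1
      exact h1 hg
    have hle : Ideal.span (Set.range f') ≤ p := by
      refine le_trans (Ideal.span_mono ?_) h
      rintro _ ⟨i, rfl⟩
      exact ⟨i.castSucc, rfl⟩
    obtain ⟨q, hq, hqp⟩ := Ideal.exists_minimalPrimes_le hle
    have hqprime : q.IsPrime := hq.1.1
    have h1 := ih f' hreg' q hq.1.2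
    have hnot : f (Fin.last c) ∉ q := by
      intro hmem
      obtain ⟨y, hy, hxy⟩ := Ideal.exists_mul_mem_of_mem_minimalPrimes hq hmem
      have h2 := hreg (Fin.last c) y
      rw [himg2] at h2
      exact hy (h2 hxy)
    have hlt : q < p := by
      refine lt_of_le_of_ne hqp ?_
      rintro rfl
      exact hnot (h (Ideal.subset_span ⟨Fin.last c, rfl⟩))
    have h3 := Ideal.height_add_one_le_of_lt_of_isPrime hlt
    push_cast
    exact le_trans (add_le_add h1 le_rfl) h3

theorem isRegSeq_X : IsRegSeq (X : Fin n → MvPolynomial (Fin n) K) := by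
  intro i g hg
  rw [mem_ideal_span_X_image] at hg ⊢
  intro m hm
  have h1 : m + Finsupp.single i 1 ∈ (X i * g).support := by
    rw [mem_support_iff] at hm ⊢
    rwa [mul_comm, coeff_mul_X]
  obtain ⟨j, hj, hj2⟩ := hg _ h1
  refine ⟨j, hj, ?_⟩
  have hji : j < i := hj
  have hne : i ≠ j := fun h => by rw [h] at hji; exact lt_irrefl _ hji
  rw [Finsupp.add_apply, Finsupp.single_eq_of_ne hne.symm, add_zero] at hj2
  exact hj2

/-- a minimal prime of an ideal with at most `c` generators has height at most `c` -/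
theorem height_le_of_minimal {s : Set (MvPolynomial (Fin n) K)} (hs : s.Finite) {c : ℕ}
    (hc : s.ncard ≤ c) {p : Ideal (MvPolynomial (Fin n) K)} (hp : p ∈ (Ideal.span s).minimalPrimes) :
    p.height ≤ c :=
  (Ideal.height_le_card_of_mem_minimalPrimes_span hs hp).trans (by exact_mod_cast hc)

theorem ncard_range_le {m : ℕ} {α : Type*} (f : Fin m → α) : (Set.range f).ncard ≤ m := by
  rw [← Set.image_univ]
  refine (Set.ncard_image_le Set.finite_univ).trans ?_
  simp

theorem height_irr : (irr K n).height = n := by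
  apply le_antisymm
  · apply height_le_of_minimal (Set.finite_range (X : Fin n → MvPolynomial (Fin n) K))
      (ncard_range_le _)
    have h1 : (irr K n).IsPrime := irr_isMaximal.isPrime
    exact ⟨⟨h1, le_rfl⟩, fun q hq _ => hq.2⟩
  · have h1 : (irr K n).IsPrime := irr_isMaximal.isPrime
    exact le_height_of_isRegSeq X isRegSeq_X (irr K n) le_rfl

theorem eq_irr_of_le_height {p : Ideal (MvPolynomial (Fin n) K)} (hp : p.IsPrime)
    (hhom : HomIdeal p) (h : (n : ℕ∞) ≤ p.height) : p = irr K n := by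
  have hle := le_irr_of_homIdeal hhom hp.ne_top
  by_contra hne
  have hlt : p < irr K n := lt_of_le_of_ne hle hne
  have h1 : (irr K n).IsPrime := irr_isMaximal.isPrime
  have h2 := Ideal.height_add_one_le_of_lt_of_isPrime hlt
  rw [height_irr] at h2
  have h3 : (n : ℕ∞) + 1 ≤ n := le_trans (add_le_add h le_rfl) h2
  have h4 : n + 1 ≤ n := by exact_mod_cast h3
  omega

theorem isMPrimary_of_height {I : Ideal (MvPolynomial (Fin n) K)} (hI : HomIdeal I)
    (h : ∀ p : Ideal (MvPolynomial (Fin n) K), p.IsPrime → I ≤ p → (n : ℕ∞) ≤ p.height) :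
    IsMPrimary I := by
  rw [isMPrimary_iff_radical]
  intro i
  rw [← Ideal.sInf_minimalPrimes, Ideal.mem_sInf]
  intro p hp
  have h1 := eq_irr_of_le_height hp.1.1 (homIdeal_of_mem_minimalPrimes hI hp) (h p hp.1.1 hp.1.2)
  rw [h1]
  exact X_mem_irr i

theorem exists_avoid [Infinite K] (V : Submodule K (MvPolynomial (Fin n) K))
    (s : Set (Ideal (MvPolynomial (Fin n) K))) (hs : s.Finite)
    (h : ∀ p ∈ s, ¬ (∀ g ∈ V, g ∈ p)) : ∃ g ∈ V, ∀ p ∈ s, g ∉ p := by
  classical
  set φ : Ideal (MvPolynomial (Fin n) K) → Submodule K V := fun p =>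
    (p.restrictScalars K).comap V.subtype with hφ
  have h1 : ⊤ ∉ hs.toFinset.image φ := by
    intro hmem
    obtain ⟨p, hp, hpt⟩ := Finset.mem_image.mp hmem
    apply h p (hs.mem_toFinset.mp hp)
    intro g hg
    have h2 : (⟨g, hg⟩ : V) ∈ φ p := by rw [hpt]; exact Submodule.mem_top
    exact h2
  have h2 := Subspace.biUnion_ne_univ_of_top_notMem h1
  obtain ⟨g, hg⟩ := (Set.ne_univ_iff_exists_notMem _).mp h2
  refine ⟨g, g.2, fun p hp hgp => hg ?_⟩
  simp only [Set.mem_iUnion]
  exact ⟨φ p, Finset.mem_image_of_mem φ (hs.mem_toFinset.mpr hp), hgp⟩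

/-- a linear form avoiding finitely many primes different from the irrelevant ideal -/
theorem exists_linear_avoid [Infinite K] (s : Set (Ideal (MvPolynomial (Fin n) K)))
    (hs : s.Finite) (hp : ∀ p ∈ s, p ≠ ⊤) (h : ∀ p ∈ s, p ≠ irr K n) :
    ∃ l : MvPolynomial (Fin n) K, l.IsHomogeneous 1 ∧ ∀ p ∈ s, l ∉ p := by
  obtain ⟨g, hg, hg2⟩ := exists_avoid (homogeneousSubmodule (Fin n) K 1) s hs (by
    intro p hps hall
    apply h p hps
    have h1 : irr K n ≤ p := by
      rw [irr, Ideal.span_le]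
      rintro _ ⟨i, rfl⟩
      exact hall _ (isHomogeneous_X K i)
    exact (irr_isMaximal.eq_of_le (hp p hps) h1).symm)
  exact ⟨g, hg, hg2⟩

/-- a homogeneous regular sequence may be completed by linear forms to an m-primary ideal -/
theorem exists_linear_extension [Infinite K] {c : ℕ} (hc : c ≤ n)
    (a : Fin c → ℕ) (hpos : ∀ i, 1 ≤ a i) (f : Fin c → MvPolynomial (Fin n) K)
    (hf : ∀ i, (f i).IsHomogeneous (a i)) (hreg : IsRegSeq f) :
    ∃ l : Fin (n - c) → MvPolynomial (Fin n) K, (∀ i, (l i).IsHomogeneous 1) ∧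
      IsMPrimary (Ideal.span (Set.range f) ⊔ Ideal.span (Set.range l)) := by
  have key : ∀ m, c + m ≤ n → ∃ l : Fin m → MvPolynomial (Fin n) K,
      (∀ i, (l i).IsHomogeneous 1) ∧ ∀ p : Ideal (MvPolynomial (Fin n) K), p.IsPrime →
        Ideal.span (Set.range f ∪ Set.range l) ≤ p → ((c + m : ℕ) : ℕ∞) ≤ p.height := by
    intro m
    induction m with
    | zero =>
      intro _
      refine ⟨fun i => i.elim0, fun i => i.elim0, fun p hp hle => ?_⟩
      exact le_height_of_isRegSeq f hreg p
        (le_trans (Ideal.span_mono Set.subset_union_left) hle)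
    | succ m ih =>
      intro hm
      obtain ⟨l, hl, hh⟩ := ih (by omega)
      set J := Ideal.span (Set.range f ∪ Set.range l) with hJ
      have hfin : (Set.range f ∪ Set.range l).Finite :=
        (Set.finite_range f).union (Set.finite_range l)
      have hcard : (Set.range f ∪ Set.range l).ncard ≤ c + m :=
        (Set.ncard_union_le _ _).trans (add_le_add (ncard_range_le f) (ncard_range_le l))
      obtain ⟨g, hg, hg2⟩ := exists_linear_avoid J.minimalPrimes
        J.finite_minimalPrimes_of_isNoetherianRing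
        (fun p hp => hp.1.1.ne_top) (by
          intro p hp hpirr
          have h1 := height_le_of_minimal hfin hcard hp
          rw [hpirr, height_irr] at h1
          have h2 : n ≤ c + m := by exact_mod_cast h1
          omega)
      refine ⟨Fin.snoc l g, ?_, ?_⟩
      · intro i
        refine Fin.lastCases ?_ (fun j => ?_) i
        · rw [Fin.snoc_last]; exact hg
        · rw [Fin.snoc_castSucc]; exact hl j
      · intro p hp hle
        have hJp : J ≤ p := by
          refine le_trans (Ideal.span_mono ?_) hle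
          apply Set.union_subset_union_right
          rintro _ ⟨i, rfl⟩
          exact ⟨i.castSucc, Fin.snoc_castSucc (α := fun _ => MvPolynomial (Fin n) K) _ _ _⟩
        have hgp : g ∈ p := by
          apply hle
          apply Ideal.subset_span
          right
          exact ⟨Fin.last m, Fin.snoc_last (α := fun _ => MvPolynomial (Fin n) K) _ _⟩
        obtain ⟨q, hq, hqp⟩ := Ideal.exists_minimalPrimes_le hJp
        have hqprime : q.IsPrime := hq.1.1
        have hlt : q < p := by
          refine lt_of_le_of_ne hqp ?_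
          rintro rfl
          exact hg2 q hq hgp
        have h1 := hh q hqprime hq.1.2
        have h2 := Ideal.height_add_one_le_of_lt_of_isPrime hlt
        have h3 : ((c + (m + 1) : ℕ) : ℕ∞) = ((c + m : ℕ) : ℕ∞) + 1 := by push_cast; ring
        rw [h3]
        exact le_trans (add_le_add h1 le_rfl) h2
  obtain ⟨l, hl, hh⟩ := key (n - c) (by omega)
  refine ⟨l, hl, ?_⟩
  rw [← Ideal.span_union]
  apply isMPrimary_of_height
  · apply homIdeal_span
    rintro g (⟨i, rfl⟩ | ⟨i, rfl⟩)
    · exact ⟨a i, hf i⟩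
    · exact ⟨1, hl i⟩
  · intro p hp hle
    have h1 := hh p hp hle
    rwa [show c + (n - c) = n by omega] at h1

end Vale.Agent.P200F.G

end

section

namespace Vale.Agent.P200F

open MvPolynomial

section bc
variable {K L : Type*} [Field K] [Field L] [Algebra K L] {σ : Type*}

/-- apply a linear functional to all coefficients -/
noncomputable def bcc (φ : L →ₗ[K] K) (p : MvPolynomial σ L) : MvPolynomial σ K :=
  ∑ m ∈ p.support, monomial m (φ (coeff m p))

lemma coeff_bcc (φ : L →ₗ[K] K) (p : MvPolynomial σ L) (m : σ →₀ ℕ) :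
    coeff m (bcc φ p) = φ (coeff m p) := by
  classical
  unfold bcc
  rw [coeff_sum]
  simp only [coeff_monomial]
  rw [Finset.sum_ite_eq']
  split_ifs with h
  · rfl
  · rw [MvPolynomial.notMem_support_iff.1 h, map_zero]

lemma bcc_add (φ : L →ₗ[K] K) (p q : MvPolynomial σ L) : bcc φ (p + q) = bcc φ p + bcc φ q := by
  ext m
  rw [coeff_add, coeff_bcc, coeff_bcc, coeff_bcc, coeff_add, map_add]

lemma bcc_zero (φ : L →ₗ[K] K) : bcc φ (0 : MvPolynomial σ L) = 0 := by
  ext m
  rw [coeff_bcc, coeff_zero, coeff_zero, map_zero]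

lemma bcc_sum {ι : Type*} (s : Finset ι) (φ : L →ₗ[K] K) (p : ι → MvPolynomial σ L) :
    bcc φ (∑ i ∈ s, p i) = ∑ i ∈ s, bcc φ (p i) := by
  classical
  induction s using Finset.induction_on with
  | empty => rw [Finset.sum_empty, Finset.sum_empty, bcc_zero]
  | insert a s ha ih => rw [Finset.sum_insert ha, Finset.sum_insert ha, bcc_add, ih]

lemma bcc_smul_map (φ : L →ₗ[K] K) (c : L) (u : MvPolynomial σ K) :
    bcc φ (c • MvPolynomial.map (algebraMap K L) u) = φ c • u := by
  ext m
  rw [coeff_bcc, coeff_smul, coeff_smul, coeff_map, smul_eq_mul, smul_eq_mul, mul_comm c,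
    ← Algebra.smul_def, map_smul, smul_eq_mul, mul_comm]

lemma bcc_map_mul (φ : L →ₗ[K] K) (r : MvPolynomial σ K) (p : MvPolynomial σ L) :
    bcc φ (MvPolynomial.map (algebraMap K L) r * p) = r * bcc φ p := by
  classical
  ext m
  rw [coeff_bcc, coeff_mul, coeff_mul, map_sum]
  refine Finset.sum_congr rfl fun x _ => ?_
  rw [coeff_map, coeff_bcc, ← Algebra.smul_def, map_smul, smul_eq_mul]

lemma bcc_C_mul (φ : L →ₗ[K] K) (c : L) (p : MvPolynomial σ L) :
    bcc φ (C c * p) = bcc (φ ∘ₗ LinearMap.mulLeft K c) p := by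
  ext m
  rw [coeff_bcc, coeff_bcc, coeff_C_mul]
  rfl

lemma bcc_X_mul (φ : L →ₗ[K] K) (i : σ) (p : MvPolynomial σ L) :
    bcc φ (X i * p) = X i * bcc φ p := by
  rw [← bcc_map_mul, map_X]

/-- `p ∈ I L[x]` implies that all coordinates are in `I` -/
lemma bcc_mem {I : Ideal (MvPolynomial σ K)} {p : MvPolynomial σ L}
    (hp : p ∈ I.map (MvPolynomial.map (algebraMap K L))) : ∀ φ : L →ₗ[K] K, bcc φ p ∈ I := by
  unfold Ideal.map at hp
  induction hp using Submodule.span_induction with
  | mem x hx =>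
    obtain ⟨i, hi, rfl⟩ := hx
    intro φ
    rw [← mul_one (MvPolynomial.map (algebraMap K L) i), bcc_map_mul]
    exact I.mul_mem_right _ hi
  | zero => intro φ; rw [bcc_zero]; exact I.zero_mem
  | add x y _ _ hx hy => intro φ; rw [bcc_add]; exact I.add_mem (hx φ) (hy φ)
  | smul q x hm hx =>
    induction q using MvPolynomial.induction_on generalizing x with
    | C a =>
      intro φ
      rw [smul_eq_mul, bcc_C_mul]
      exact hx _
    | add q r hq hr =>
      intro φ
      rw [add_smul, bcc_add]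
      exact I.add_mem (hq x hm hx φ) (hr x hm hx φ)
    | mul_X q i hq =>
      intro φ
      rw [smul_eq_mul, mul_right_comm, mul_comm, bcc_X_mul]
      exact I.mul_mem_left _ (hq x hm hx φ)

/-- expansion in a basis -/
lemma bcc_expand {ι : Type*} (B : Module.Basis ι K L) (p : MvPolynomial σ L) :
    ∃ T : Finset ι, p = ∑ α ∈ T, B α • MvPolynomial.map (algebraMap K L) (bcc (B.coord α) p) := by
  classical
  refine ⟨p.support.biUnion fun m => (B.repr (coeff m p)).support, ?_⟩
  ext m
  rw [coeff_sum]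
  have h1 : ∀ α, coeff m (B α • MvPolynomial.map (algebraMap K L) (bcc (B.coord α) p)) =
      (B.repr (coeff m p) α) • B α := by
    intro α
    rw [coeff_smul, coeff_map, coeff_bcc, smul_eq_mul, mul_comm, ← Algebra.smul_def,
      Module.Basis.coord_apply]
  rw [Finset.sum_congr rfl fun α _ => h1 α]
  by_cases hm : m ∈ p.support
  · conv_lhs => rw [← B.linearCombination_repr (coeff m p), Finsupp.linearCombination_apply,
      Finsupp.sum]
    refine Finset.sum_subset (Finset.subset_biUnion_of_mem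
      (fun m => (B.repr (coeff m p)).support) hm) fun α _ hα => ?_
    rw [Finsupp.notMem_support_iff.1 hα, zero_smul]
  · rw [MvPolynomial.notMem_support_iff.1 hm, map_zero]
    simp

lemma mem_map_of_bcc {ι : Type*} (B : Module.Basis ι K L) {I : Ideal (MvPolynomial σ K)}
    {p : MvPolynomial σ L} (h : ∀ α, bcc (B.coord α) p ∈ I) :
    p ∈ I.map (MvPolynomial.map (algebraMap K L)) := by
  obtain ⟨T, hT⟩ := bcc_expand B p
  rw [hT]
  refine Ideal.sum_mem _ fun α _ => ?_
  rw [← C_mul']
  exact Ideal.mul_mem_left _ _ (Ideal.mem_map_of_mem _ (h α))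

lemma mem_map_iff_bcc {I : Ideal (MvPolynomial σ K)} {p : MvPolynomial σ L} :
    p ∈ I.map (MvPolynomial.map (algebraMap K L)) ↔ ∀ φ : L →ₗ[K] K, bcc φ p ∈ I :=
  ⟨bcc_mem, fun h => mem_map_of_bcc (Module.Basis.ofVectorSpace K L) fun _ => h _⟩

lemma homogeneousComponent_bcc (φ : L →ₗ[K] K) (d : ℕ) (p : MvPolynomial σ L) :
    homogeneousComponent d (bcc φ p) = bcc φ (homogeneousComponent d p) := by
  classical
  ext m
  rw [coeff_homogeneousComponent, coeff_bcc, coeff_bcc, coeff_homogeneousComponent]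
  split_ifs
  · rfl
  · rw [map_zero]

lemma bcc_isHomogeneous (φ : L →ₗ[K] K) {d : ℕ} {p : MvPolynomial σ L} (hp : p.IsHomogeneous d) :
    (bcc φ p).IsHomogeneous d := by
  rw [← homogeneousComponent_eq_self hp, ← homogeneousComponent_bcc]
  exact homogeneousComponent_isHomogeneous _ _

/-- extension of scalars preserves the dimension of graded pieces of an ideal -/
theorem finrank_deg_map (I : Ideal (MvPolynomial σ K)) (d : ℕ)
    [Module.Finite K (I.restrictScalars K ⊓ homogeneousSubmodule σ K d :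
      Submodule K (MvPolynomial σ K))] :
    Module.finrank L ((I.map (MvPolynomial.map (algebraMap K L))).restrictScalars L ⊓
      homogeneousSubmodule σ L d : Submodule L (MvPolynomial σ L)) =
    Module.finrank K (I.restrictScalars K ⊓ homogeneousSubmodule σ K d :
      Submodule K (MvPolynomial σ K)) := by
  classical
  set V : Submodule K (MvPolynomial σ K) := I.restrictScalars K ⊓ homogeneousSubmodule σ K d
    with hV
  let u := Module.finBasis K V
  let w : Fin (Module.finrank K V) → MvPolynomial σ L := fun i =>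
    MvPolynomial.map (algebraMap K L) (u i : MvPolynomial σ K)
  have hind : LinearIndependent L w := by
    rw [Fintype.linearIndependent_iff]
    intro c hc i
    have h1 : ∀ φ : L →ₗ[K] K, φ (c i) = 0 := by
      intro φ
      have h2 := congrArg (bcc φ) hc
      rw [bcc_sum, bcc_zero] at h2
      have h3 : ∑ i, φ (c i) • u i = 0 := by
        apply V.injective_subtype
        rw [map_sum, map_zero, ← h2]
        refine Finset.sum_congr rfl fun i _ => ?_
        rw [bcc_smul_map]
        rfl
      exact Fintype.linearIndependent_iff.1 u.linearIndependent _ h3 i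
    have B := Module.Basis.ofVectorSpace K L
    apply B.ext_elem
    intro α
    rw [map_zero, Finsupp.zero_apply]
    exact h1 (B.coord α)
  have hspan : ((I.map (MvPolynomial.map (algebraMap K L))).restrictScalars L ⊓
      homogeneousSubmodule σ L d : Submodule L (MvPolynomial σ L)) =
      Submodule.span L (Set.range w) := by
    apply le_antisymm
    · rintro p ⟨hp, hpd⟩
      obtain ⟨T, hT⟩ := bcc_expand (Module.Basis.ofVectorSpace K L) p
      rw [hT]
      refine Submodule.sum_mem _ fun α _ => Submodule.smul_mem _ _ ?_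
      have h1 : bcc ((Module.Basis.ofVectorSpace K L).coord α) p ∈ V :=
        ⟨bcc_mem hp _, bcc_isHomogeneous _ hpd⟩
      have h2 := congrArg V.subtype (u.sum_repr ⟨_, h1⟩)
      rw [map_sum] at h2
      rw [← (show V.subtype ⟨_, h1⟩ = bcc ((Module.Basis.ofVectorSpace K L).coord α) p from rfl),
        ← h2, map_sum]
      refine Submodule.sum_mem _ fun i _ => ?_
      rw [map_smul, smul_eq_C_mul, map_mul, map_C, C_mul']
      exact Submodule.smul_mem _ _ (Submodule.subset_span ⟨i, rfl⟩)
    · rw [Submodule.span_le]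
      rintro _ ⟨i, rfl⟩
      exact ⟨Ideal.mem_map_of_mem _ (u i).2.1, IsHomogeneous.map (u i).2.2 _⟩
  rw [hspan, finrank_span_eq_card hind, Fintype.card_fin]

lemma map_span_image {s : Set (MvPolynomial σ K)} :
    (Ideal.span s).map (MvPolynomial.map (algebraMap K L)) =
      Ideal.span ((MvPolynomial.map (algebraMap K L)) '' s) := Ideal.map_span _ _

end bc

end Vale.Agent.P200F

end

section

namespace Vale.Agent.P200F.G

open MvPolynomial

variable {K : Type*} [Field K] {L : Type*} [Field L] [Algebra K L] {n : ℕ}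

theorem homIdeal_baseChange {I : Ideal (MvPolynomial (Fin n) K)} (hI : HomIdeal I) :
    HomIdeal (I.map (MvPolynomial.map (σ := Fin n) (algebraMap K L))) := by
  intro p hp d
  rw [mem_map_iff_bcc] at hp ⊢
  intro φ
  rw [← homogeneousComponent_bcc]
  exact hI _ (hp φ) d

theorem hilb_baseChange (I : Ideal (MvPolynomial (Fin n) K)) (hI : HomIdeal I) (d : ℕ) :
    hilb (I.map (MvPolynomial.map (σ := Fin n) (algebraMap K L))) d = hilb I d := by
  have h1 : Module.Finite K (homogeneousSubmodule (Fin n) K d) :=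
    Module.Finite.iff_fg.2 (homogeneousSubmodule_fg (Fin n) K d)
  have h2 : Module.Finite K (I.restrictScalars K ⊓ homogeneousSubmodule (Fin n) K d :
      Submodule K (MvPolynomial (Fin n) K)) :=
    Submodule.finiteDimensional_of_le (S₂ := homogeneousSubmodule (Fin n) K d) inf_le_right
  have h3 := finrank_deg_map (L := L) I d
  have h4 : Module.Finite K ((⊤ : Ideal (MvPolynomial (Fin n) K)).restrictScalars K ⊓
      homogeneousSubmodule (Fin n) K d : Submodule K (MvPolynomial (Fin n) K)) :=
    Submodule.finiteDimensional_of_le (S₂ := homogeneousSubmodule (Fin n) K d) inf_le_right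
  have h5 := finrank_deg_map (L := L) (⊤ : Ideal (MvPolynomial (Fin n) K)) d
  rw [Ideal.map_top, Submodule.restrictScalars_top, Submodule.restrictScalars_top, top_inf_eq,
    top_inf_eq] at h5
  unfold hilb piece
  rw [h3, h5]

theorem isRegSeq_baseChange {c : ℕ} (f : Fin c → MvPolynomial (Fin n) K)
    (a : Fin c → ℕ) (hf : ∀ i, (f i).IsHomogeneous (a i)) (hreg : IsRegSeq f) :
    IsRegSeq fun i => MvPolynomial.map (σ := Fin n) (algebraMap K L) (f i) := by
  intro i g hg
  have e1 : (fun i => MvPolynomial.map (σ := Fin n) (algebraMap K L) (f i)) '' {j | j < i} =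
      (MvPolynomial.map (σ := Fin n) (algebraMap K L)) '' (f '' {j | j < i}) := by
    rw [Set.image_image]
  rw [e1, ← map_span_image] at hg ⊢
  rw [mem_map_iff_bcc] at hg ⊢
  intro φ
  have h1 := hg φ
  rw [bcc_map_mul] at h1
  exact hreg i _ h1

end Vale.Agent.P200F.G

end
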