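import Vale.Agent.P200F.Ns
import Vale.Agent.P200F.A1

set_option linter.all false

section

namespace Vale.Agent.P200F.G

variable {n : ℕ}

theorem lexLT_irrefl (m : Fin n → ℕ) : ¬ lexLT m m := by
  rintro ⟨i, _, h⟩
  exact lt_irrefl _ h

theorem lexLT_trans {m₁ m₂ m₃ : Fin n → ℕ} (h : lexLT m₁ m₂) (h' : lexLT m₂ m₃) :
    lexLT m₁ m₃ := by
  obtain ⟨i, hi, hi'⟩ := h
  obtain ⟨j, hj, hj'⟩ := h'
  rcases lt_trichotomy i j with hij | rfl | hij
  · exact ⟨i, fun k hk => (hi k hk).trans (hj k (hk.trans hij)), by rw [← hj i hij]; exact hi'⟩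
  · exact ⟨i, fun k hk => (hi k hk).trans (hj k hk), hi'.trans hj'⟩
  · exact ⟨j, fun k hk => (hi k (hk.trans hij)).trans (hj k hk), by rw [hi j hij]; exact hj'⟩

/-- the first index where two exponents differ -/
theorem exists_first_ne {m m' : Fin n → ℕ} (h : m ≠ m') :
    ∃ i, (∀ k, k < i → m k = m' k) ∧ m i ≠ m' i := by
  classical
  have hne : (Finset.univ.filter fun i => m i ≠ m' i).Nonempty := by
    obtain ⟨i, hi⟩ := Function.ne_iff.1 h
    exact ⟨i, by simpa using hi⟩
  refine ⟨(Finset.univ.filter fun i => m i ≠ m' i).min' hne, fun k hk => ?_, ?_⟩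
  · by_contra hk'
    exact absurd (Finset.min'_le _ k (by simpa using hk')) (not_le.2 hk)
  · have := Finset.min'_mem _ hne
    simpa using this

theorem lexLT_trichotomy (m m' : Fin n → ℕ) : lexLT m m' ∨ m = m' ∨ lexLT m' m := by
  by_cases h : m = m'
  · exact Or.inr (Or.inl h)
  · obtain ⟨i, hi, hi'⟩ := exists_first_ne h
    rcases lt_or_gt_of_ne hi' with h1 | h1
    · exact Or.inl ⟨i, hi, h1⟩
    · exact Or.inr (Or.inr ⟨i, fun k hk => (hi k hk).symm, h1⟩)

theorem mem_boxD {a : Fin n → ℕ} {d : ℕ} {m : Fin n → ℕ} :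
    m ∈ boxD a d ↔ (∀ i, m i < a i) ∧ ∑ i, m i = d := by
  simp [boxD]

theorem mem_upShadow {a : Fin n → ℕ} {M : Finset (Fin n → ℕ)} {y : Fin n → ℕ} :
    y ∈ upShadow a M ↔
      (∀ i, y i < a i) ∧ ∃ m ∈ M, ∃ i, y = Function.update m i (m i + 1) := by
  simp only [upShadow, Finset.mem_filter, Finset.mem_biUnion, Finset.mem_image, Finset.mem_univ,
    true_and]
  constructor
  · rintro ⟨⟨m, hm, i, hi⟩, h⟩
    exact ⟨h, m, hm, i, hi.symm⟩
  · rintro ⟨h, m, hm, i, hi⟩
    exact ⟨⟨m, hm, i, hi.symm⟩, h⟩

theorem sum_update_succ (m : Fin n → ℕ) (i : Fin n) :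
    ∑ j, Function.update m i (m i + 1) j = ∑ j, m j + 1 := by
  rw [Finset.sum_update_of_mem (Finset.mem_univ i), Finset.sdiff_singleton_eq_erase]
  have := Finset.add_sum_erase Finset.univ m (Finset.mem_univ i)
  omega

theorem sum_update_pred {m : Fin n → ℕ} {i : Fin n} (hi : 0 < m i) :
    ∑ j, Function.update m i (m i - 1) j + 1 = ∑ j, m j := by
  rw [Finset.sum_update_of_mem (Finset.mem_univ i), Finset.sdiff_singleton_eq_erase]
  have := Finset.add_sum_erase Finset.univ m (Finset.mem_univ i)
  omega

theorem upShadow_subset_boxD {a : Fin n → ℕ} {d : ℕ} {M : Finset (Fin n → ℕ)}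
    (hM : M ⊆ boxD a d) : upShadow a M ⊆ boxD a (d + 1) := by
  intro y hy
  obtain ⟨h, m, hm, i, rfl⟩ := mem_upShadow.1 hy
  rw [mem_boxD, sum_update_succ, (mem_boxD.1 (hM hm)).2]
  exact ⟨h, rfl⟩

theorem upShadow_mono {a : Fin n → ℕ} {M M' : Finset (Fin n → ℕ)} (h : M ⊆ M') :
    upShadow a M ⊆ upShadow a M' := by
  intro y hy
  obtain ⟨h1, m, hm, i, h2⟩ := mem_upShadow.1 hy
  exact mem_upShadow.2 ⟨h1, m, h hm, i, h2⟩

theorem upShadow_empty {a : Fin n → ℕ} : upShadow a ∅ = ∅ := by
  simp [upShadow]

theorem lexSeg_subset {a : Fin n → ℕ} {d q : ℕ} : lexSeg a d q ⊆ boxD a d :=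
  Finset.filter_subset _ _

theorem mem_lexSeg {a : Fin n → ℕ} {d q : ℕ} {m : Fin n → ℕ} :
    m ∈ lexSeg a d q ↔ m ∈ boxD a d ∧ ((boxD a d).filter fun m' => lexLT m m').card < q := by
  simp [lexSeg]

/-- the number of larger elements is strictly decreasing -/
theorem rank_lt {a : Fin n → ℕ} {d : ℕ} {m m' : Fin n → ℕ} (hm' : m' ∈ boxD a d)
    (h : lexLT m m') : ((boxD a d).filter fun x => lexLT m' x).card <
      ((boxD a d).filter fun x => lexLT m x).card := by
  apply Finset.card_lt_card
  refine ⟨fun x hx => ?_, fun hsub => ?_⟩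
  · simp only [Finset.mem_filter] at hx ⊢
    exact ⟨hx.1, lexLT_trans h hx.2⟩
  · have h1 : m' ∈ (boxD a d).filter fun x => lexLT m x := by
      simp only [Finset.mem_filter]
      exact ⟨hm', h⟩
    have h2 := hsub h1
    simp only [Finset.mem_filter] at h2
    exact lexLT_irrefl _ h2.2

theorem rank_lt_card {a : Fin n → ℕ} {d : ℕ} {m : Fin n → ℕ} (hm : m ∈ boxD a d) :
    ((boxD a d).filter fun x => lexLT m x).card < (boxD a d).card := by
  apply Finset.card_lt_card
  refine ⟨Finset.filter_subset _ _, fun hsub => ?_⟩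
  have h2 := hsub hm
  simp only [Finset.mem_filter] at h2
  exact lexLT_irrefl _ h2.2

theorem rank_injOn (a : Fin n → ℕ) (d : ℕ) :
    Set.InjOn (fun m => ((boxD a d).filter fun x => lexLT m x).card) (boxD a d : Set _) := by
  intro m hm m' hm' h
  simp only at h
  rcases lexLT_trichotomy m m' with h1 | h1 | h1
  · exact absurd h (rank_lt hm' h1).ne'
  · exact h1
  · exact absurd h (rank_lt hm h1).ne

theorem card_lexSeg (a : Fin n → ℕ) (d q : ℕ) :
    (lexSeg a d q).card = min q (boxD a d).card := by
  classical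
  set r : (Fin n → ℕ) → ℕ := fun m => ((boxD a d).filter fun x => lexLT m x).card with hr
  have himg : (boxD a d).image r = Finset.range (boxD a d).card := by
    apply Finset.eq_of_subset_of_card_le
    · intro t ht
      obtain ⟨m, hm, rfl⟩ := Finset.mem_image.1 ht
      exact Finset.mem_range.2 (rank_lt_card hm)
    · rw [Finset.card_image_of_injOn (rank_injOn a d), Finset.card_range]
  have himg2 : (lexSeg a d q).image r = Finset.range (min q (boxD a d).card) := by
    ext t
    rw [Finset.mem_image, Finset.mem_range, lt_min_iff]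
    constructor
    · rintro ⟨m, hm, rfl⟩
      exact ⟨(mem_lexSeg.1 hm).2, rank_lt_card (mem_lexSeg.1 hm).1⟩
    · rintro ⟨h1, h2⟩
      rw [← Finset.mem_range, ← himg, Finset.mem_image] at h2
      obtain ⟨m, hm, rfl⟩ := h2
      exact ⟨m, mem_lexSeg.2 ⟨hm, h1⟩, rfl⟩
  rw [← Finset.card_image_of_injOn ((rank_injOn a d).mono fun x hx => lexSeg_subset hx), himg2,
    Finset.card_range]

theorem lexSeg_upClosed {a : Fin n → ℕ} {d q : ℕ} {m m' : Fin n → ℕ}
    (hm : m ∈ lexSeg a d q) (hm' : m' ∈ boxD a d) (h : lexLT m m') : m' ∈ lexSeg a d q :=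
  mem_lexSeg.2 ⟨hm', (rank_lt hm' h).trans (mem_lexSeg.1 hm).2⟩

theorem eq_lexSeg_of_upClosed {a : Fin n → ℕ} {d : ℕ} {M : Finset (Fin n → ℕ)}
    (hM : M ⊆ boxD a d) (h : ∀ m ∈ M, ∀ m' ∈ boxD a d, lexLT m m' → m' ∈ M) :
    M = lexSeg a d M.card := by
  ext m
  rw [mem_lexSeg]
  constructor
  · intro hm
    refine ⟨hM hm, Finset.card_lt_card ⟨fun x hx => ?_, fun hsub => ?_⟩⟩
    · rw [Finset.mem_filter] at hx
      exact h m hm x hx.1 hx.2
    · have h2 := hsub hm
      rw [Finset.mem_filter] at h2
      exact lexLT_irrefl _ h2.2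
  · rintro ⟨hm, hcard⟩
    by_contra hmM
    refine absurd hcard (not_lt.2 (Finset.card_le_card fun x hx => ?_))
    rw [Finset.mem_filter]
    refine ⟨hM hx, ?_⟩
    rcases lexLT_trichotomy m x with h1 | h1 | h1
    · exact h1
    · exact absurd (h1 ▸ hx) hmM
    · exact absurd (h x hx m hm h1) hmM

theorem lexSeg_mono {a : Fin n → ℕ} {d q q' : ℕ} (h : q ≤ q') :
    lexSeg a d q ⊆ lexSeg a d q' := by
  intro m hm
  rw [mem_lexSeg] at hm ⊢
  exact ⟨hm.1, hm.2.trans_le h⟩

/-- `m' ≤ m` pointwise with a strict inequality somewhere contradicts equal degrees -/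
theorem sum_ne_of_le {m m' : Fin n → ℕ} (h : ∀ k, m' k ≤ m k) {k0 : Fin n} (h0 : m' k0 < m k0)
    (hs : ∑ i, m i ≤ ∑ i, m' i) : False :=
  absurd (Finset.sum_lt_sum (fun k _ => h k) ⟨k0, Finset.mem_univ _, h0⟩) (not_lt.2 hs)

theorem upShadow_lexSeg_upClosed {a : Fin n → ℕ} {d q : ℕ} {y y' : Fin n → ℕ}
    (hy : y ∈ upShadow a (lexSeg a d q)) (hy' : y' ∈ boxD a (d + 1)) (h : lexLT y y') :
    y' ∈ upShadow a (lexSeg a d q) := by
  classical
  obtain ⟨hyb, m, hm, i, hym⟩ := mem_upShadow.1 hy
  obtain ⟨j, hj, hj'⟩ := h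
  obtain ⟨hyb', hys'⟩ := mem_boxD.1 hy'
  have hms := (mem_boxD.1 (lexSeg_subset hm)).2
  have hmy : ∀ k, m k ≤ y k := by
    intro k
    rw [hym]
    by_cases hk : k = i
    · subst hk
      simp
    · simp [hk]
  -- the last index in the support of `y'`
  have hne : (Finset.univ.filter fun k => 0 < y' k).Nonempty :=
    ⟨j, by
      rw [Finset.mem_filter]
      exact ⟨Finset.mem_univ _, by omega⟩⟩
  set l := (Finset.univ.filter fun k => 0 < y' k).max' hne with hl
  have hlpos : 0 < y' l := by
    have := Finset.max'_mem _ hne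
    rw [Finset.mem_filter] at this
    exact this.2
  have hlast : ∀ k, l < k → y' k = 0 := by
    intro k hk
    by_contra hk'
    refine absurd (Finset.le_max' _ k ?_) (not_le.2 hk)
    rw [Finset.mem_filter]
    exact ⟨Finset.mem_univ _, by omega⟩
  have hjl : j ≤ l := by
    refine Finset.le_max' _ j ?_
    rw [Finset.mem_filter]
    exact ⟨Finset.mem_univ _, by omega⟩
  set m' := Function.update y' l (y' l - 1) with hm'def
  have hm's : ∑ k, m' k = d := by
    have := sum_update_pred hlpos
    rw [← hm'def] at this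
    omega
  have hm'l : m' l = y' l - 1 := by simp [hm'def]
  have hm'k : ∀ k, k ≠ l → m' k = y' k := by
    intro k hk
    simp [hm'def, hk]
  have hm'le : ∀ k, m' k ≤ y' k := by
    intro k
    by_cases hk : k = l
    · rw [hk, hm'l]
      omega
    · rw [hm'k k hk]
  have hm'box : m' ∈ boxD a d :=
    mem_boxD.2 ⟨fun k => (hm'le k).trans_lt (hyb' k), hm's⟩
  have hmem : m' ∈ lexSeg a d q := by
    rcases lexLT_trichotomy m m' with h1 | h1 | h1
    · exact lexSeg_upClosed hm hm'box h1
    · rw [← h1]
      exact hm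
    · exfalso
      obtain ⟨k0, hk0, hk0'⟩ := h1
      rcases lt_trichotomy k0 j with h2 | h2 | h2
      · have e1 := hmy k0
        have e2 := hj k0 h2
        have e3 := hm'k k0 (h2.trans_le hjl).ne
        omega
      · subst h2
        have e1 := hmy k0
        have e2 : y' k0 ≤ m' k0 + 1 := by
          by_cases hk : k0 = l
          · rw [hk, hm'l]
            omega
          · rw [hm'k k0 hk]
            omega
        omega
      · have e1 := hk0 j h2
        have e2 := hmy j
        have e3 : j = l := by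
          by_contra hk
          have := hm'k j hk
          omega
        refine sum_ne_of_le (m := m) (m' := m') (fun k => ?_) hk0' (by omega)
        rcases lt_or_ge k k0 with h3 | h3
        · exact (hk0 k h3).le
        · have e4 : l < k := by
            rw [← e3]
            exact h2.trans_le h3
          rw [hm'k k e4.ne', hlast k e4]
          exact Nat.zero_le _
  refine mem_upShadow.2 ⟨hyb', m', hmem, l, ?_⟩
  rw [hm'l, hm'def, Function.update_idem, Nat.sub_add_cancel hlpos, Function.update_eq_self]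

theorem upShadow_lexSeg (a : Fin n → ℕ) (d q : ℕ) :
    upShadow a (lexSeg a d q) = lexSeg a (d + 1) (up a d q) :=
  eq_lexSeg_of_upClosed (upShadow_subset_boxD lexSeg_subset)
    fun _ hy _ hy' h => upShadow_lexSeg_upClosed hy hy' h

theorem up_mono {a : Fin n → ℕ} {d q q' : ℕ} (h : q ≤ q') : up a d q ≤ up a d q' :=
  Finset.card_le_card (upShadow_mono (lexSeg_mono h))

theorem up_zero (a : Fin n → ℕ) (d : ℕ) : up a d 0 = 0 := by
  have h : lexSeg a d 0 = ∅ := by
    rw [← Finset.card_eq_zero, card_lexSeg, Nat.zero_min]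
  rw [up, h, upShadow_empty, Finset.card_empty]

/-- one step of filling from the end: if `y < z` lexicographically, `deg y < deg z`, both in
the box, then some `y + e_k` is in the box and is lexicographically at most `z`. -/
theorem exists_step {a : Fin n → ℕ} {y z : Fin n → ℕ} (hy : ∀ i, y i < a i)
    (hz : ∀ i, z i < a i) (hyz : lexLT y z) (hdeg : ∑ i, y i < ∑ i, z i) :
    ∃ k, (∀ i, Function.update y k (y k + 1) i < a i) ∧
      (Function.update y k (y k + 1) = z ∨ lexLT (Function.update y k (y k + 1)) z) := by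
  obtain ⟨i, hi, hi'⟩ := hyz
  by_cases hk : ∃ k, i < k ∧ y k + 1 < a k
  · obtain ⟨k, hik, hk⟩ := hk
    refine ⟨k, fun j => ?_, Or.inr ⟨i, fun j hj => ?_, ?_⟩⟩
    · by_cases hjk : j = k
      · subst hjk
        simpa using hk
      · simpa [hjk] using hy j
    · rw [Function.update_of_ne (hj.trans hik).ne]
      exact hi j hj
    · rw [Function.update_of_ne hik.ne]
      exact hi'
  · simp only [not_exists, not_and, not_lt] at hk
    have h1 : ∀ k, i < k → z k ≤ y k := fun k hik => by
      have := hk k hik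
      have := hz k
      omega
    refine ⟨i, fun j => ?_, ?_⟩
    · by_cases hji : j = i
      · subst hji
        have := hz j
        simp only [Function.update_self]
        omega
      · simpa [hji] using hy j
    · rcases lexLT_trichotomy (Function.update y i (y i + 1)) z with h2 | h2 | h2
      · exact Or.inr h2
      · exact Or.inl h2
      · exfalso
        obtain ⟨k0, hk0, hk0'⟩ := h2
        refine sum_ne_of_le (m := Function.update y i (y i + 1)) (m' := z) (fun k => ?_) hk0' ?_
        · rcases lt_trichotomy k i with h3 | h3 | h3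
          · rw [Function.update_of_ne h3.ne]
            exact (hi k h3).ge
          · subst h3
            by_contra hcon
            have h4 : Function.update y k (y k + 1) k < z k := not_le.1 hcon
            rcases lt_trichotomy k0 k with h5 | h5 | h5
            · rw [Function.update_of_ne h5.ne, hi k0 h5] at hk0'
              exact lt_irrefl _ hk0'
            · subst h5
              exact lt_asymm hk0' h4
            · exact absurd (hk0 k h5) h4.ne'
          · rw [Function.update_of_ne h3.ne']
            exact h1 k h3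
        · rw [sum_update_succ]
          exact hdeg

end Vale.Agent.P200F.G

end

section

namespace Vale.Agent.P200F.G

section Rows

variable {N : ℕ} {i l : Fin N}

/-- Replace the coordinates `i` and `l`. -/
private def mkv (i l : Fin N) (c : Fin N → ℕ) (x z : ℕ) : Fin N → ℕ :=
  Function.update (Function.update c i x) l z

private lemma mkv_i (h : i ≠ l) (c : Fin N → ℕ) (x z : ℕ) : mkv i l c x z i = x := by
  unfold mkv
  rw [Function.update_of_ne h, Function.update_self]

private lemma mkv_l (c : Fin N → ℕ) (x z : ℕ) : mkv i l c x z l = z := by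
  unfold mkv
  rw [Function.update_self]

private lemma mkv_of {j : Fin N} (h1 : j ≠ i) (h2 : j ≠ l) (c : Fin N → ℕ) (x z : ℕ) :
    mkv i l c x z j = c j := by
  unfold mkv
  rw [Function.update_of_ne h2, Function.update_of_ne h1]

private lemma mkv_ext (h : i ≠ l) {c : Fin N → ℕ} {x z : ℕ} {y : Fin N → ℕ} (h1 : y i = x)
    (h2 : y l = z) (h3 : ∀ j, j ≠ i → j ≠ l → y j = c j) : mkv i l c x z = y := by
  funext j
  by_cases hj : j = i
  · subst hj
    rw [mkv_i h, h1]
  · by_cases hj' : j = l
    · subst hj'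
      rw [mkv_l, h2]
    · rw [mkv_of hj hj', h3 j hj hj']

private lemma mkv_mkv (h : i ≠ l) (c : Fin N → ℕ) (x z x' z' : ℕ) :
    mkv i l (mkv i l c x z) x' z' = mkv i l c x' z' :=
  mkv_ext h (mkv_i h _ _ _) (mkv_l _ _ _) fun j h1 h2 => by rw [mkv_of h1 h2, mkv_of h1 h2]

private lemma mkv_self (h : i ≠ l) (y : Fin N → ℕ) : mkv i l y (y i) (y l) = y :=
  mkv_ext h rfl rfl fun _ _ _ => rfl

private lemma sum_mkv (h : i ≠ l) (c : Fin N → ℕ) (x z : ℕ) :
    ∑ j, mkv i l c x z j = ∑ j ∈ (Finset.univ.erase i).erase l, c j + x + z := by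
  rw [← Finset.add_sum_erase Finset.univ _ (Finset.mem_univ i),
    ← Finset.add_sum_erase (Finset.univ.erase i) _ (Finset.mem_erase.2 ⟨h.symm, Finset.mem_univ l⟩),
    mkv_i h, mkv_l]
  have : ∑ j ∈ (Finset.univ.erase i).erase l, mkv i l c x z j =
      ∑ j ∈ (Finset.univ.erase i).erase l, c j := by
    refine Finset.sum_congr rfl fun j hj => ?_
    rw [Finset.mem_erase, Finset.mem_erase] at hj
    exact mkv_of hj.2.1 hj.1 _ _ _
  rw [this]
  ring

/-- The row of `M` over the outer coordinates `c` with sum `t` of the two inner coordinates. -/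
private def rowc (i l : Fin N) (M : Finset (Fin N → ℕ)) (c : Fin N → ℕ) (t : ℕ) : Finset ℕ :=
  (Finset.range (t + 1)).filter fun x => mkv i l c x (t - x) ∈ M

private lemma mem_rowc {M : Finset (Fin N → ℕ)} {c : Fin N → ℕ} {t x : ℕ} :
    x ∈ rowc i l M c t ↔ x ≤ t ∧ mkv i l c x (t - x) ∈ M := by
  unfold rowc
  rw [Finset.mem_filter, Finset.mem_range, Nat.lt_succ_iff]

private lemma rowc_congr (h : i ≠ l) {M : Finset (Fin N → ℕ)} {c c' : Fin N → ℕ} (t : ℕ)
    (hc : ∀ j, j ≠ i → j ≠ l → c j = c' j) : rowc i l M c t = rowc i l M c' t := by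
  ext x
  rw [mem_rowc, mem_rowc, mkv_ext h (mkv_i h _ _ _) (mkv_l _ _ _)
    (fun j h1 h2 => by rw [mkv_of h1 h2, hc j h1 h2])]

/-- The key of a vector: the outer coordinates and the sum of the two inner coordinates. -/
private def keyc (i l : Fin N) (y : Fin N → ℕ) : (Fin N → ℕ) × ℕ := (mkv i l y 0 0, y i + y l)

private lemma sum_rowc (h : i ≠ l) (M : Finset (Fin N → ℕ)) (U : Finset ((Fin N → ℕ) × ℕ))
    (hU : ∀ y ∈ M, keyc i l y ∈ U) (hU' : ∀ κ ∈ U, mkv i l κ.1 0 0 = κ.1)
    (g : (Fin N → ℕ) → ℕ) :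
    ∑ y ∈ M, g y = ∑ κ ∈ U, ∑ x ∈ rowc i l M κ.1 κ.2, g (mkv i l κ.1 x (κ.2 - x)) := by
  rw [← Finset.sum_fiberwise_of_maps_to hU]
  refine Finset.sum_congr rfl fun κ hκ => ?_
  have hback : ∀ y, keyc i l y = κ → mkv i l κ.1 (y i) (κ.2 - y i) = y := by
    rintro y rfl
    change mkv i l (mkv i l y 0 0) (y i) (y i + y l - y i) = y
    rw [mkv_mkv h, Nat.add_sub_cancel_left, mkv_self h]
  refine Finset.sum_nbij' (fun y => y i) (fun x => mkv i l κ.1 x (κ.2 - x)) ?_ ?_ ?_ ?_ ?_
  · intro y hy
    rw [Finset.mem_filter] at hy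
    rw [mem_rowc, hback y hy.2]
    refine ⟨?_, hy.1⟩
    rw [← hy.2]
    exact Nat.le_add_right _ _
  · intro x hx
    rw [mem_rowc] at hx
    rw [Finset.mem_filter]
    refine ⟨hx.2, ?_⟩
    unfold keyc
    rw [mkv_mkv h, mkv_i h, mkv_l, hU' κ hκ, Nat.add_sub_cancel' hx.1]
  · intro y hy
    rw [Finset.mem_filter] at hy
    exact hback y hy.2
  · intro x _
    exact mkv_i h _ _ _
  · intro y hy
    rw [Finset.mem_filter] at hy
    rw [hback y hy.2]

end Rows

section Intervals

/-- The interval of values of the first inner coordinate. -/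
private def Iv (A B t : ℕ) : Finset ℕ :=
  (Finset.range (t + 1)).filter fun x => x < A ∧ t - x < B

private lemma mem_Iv {A B t x : ℕ} : x ∈ Iv A B t ↔ x ≤ t ∧ x < A ∧ t - x < B := by
  unfold Iv
  rw [Finset.mem_filter, Finset.mem_range, Nat.lt_succ_iff]

/-- The top segment of size `r` of the interval. -/
private def Tp (A B t r : ℕ) : Finset ℕ :=
  (Iv A B t).filter fun x => min t (A - 1) < x + r

private lemma mem_Tp {A B t r x : ℕ} :
    x ∈ Tp A B t r ↔ (x ≤ t ∧ x < A ∧ t - x < B) ∧ min t (A - 1) < x + r := by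
  unfold Tp
  rw [Finset.mem_filter, mem_Iv]

private lemma Tp_mono {A B t r r' : ℕ} (h : r ≤ r') : Tp A B t r ⊆ Tp A B t r' := by
  intro x hx
  rw [mem_Tp] at hx ⊢
  exact ⟨hx.1, by omega⟩

private lemma card_Tp_le (A B t r : ℕ) : (Tp A B t r).card ≤ r := by
  have h : Tp A B t r ⊆ Finset.Icc (min t (A - 1) + 1 - r) (min t (A - 1)) := by
    intro x hx
    rw [mem_Tp] at hx
    rw [Finset.mem_Icc]
    omega
  refine (Finset.card_le_card h).trans ?_
  rw [Nat.card_Icc]
  omega

private lemma card_Tp {A B t : ℕ} {X : Finset ℕ} (hX : X ⊆ Iv A B t) :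
    (Tp A B t X.card).card = X.card := by
  rcases Finset.eq_empty_or_nonempty X with rfl | ⟨x, hx⟩
  · have := card_Tp_le A B t (∅ : Finset ℕ).card
    rw [Finset.card_empty] at this ⊢
    omega
  have hx' := mem_Iv.1 (hX hx)
  have h1 : Iv A B t = Finset.Icc (t + 1 - B) (min t (A - 1)) := by
    ext z
    rw [mem_Iv, Finset.mem_Icc]
    omega
  have h2 : Tp A B t X.card =
      Finset.Icc (max (t + 1 - B) (min t (A - 1) + 1 - X.card)) (min t (A - 1)) := by
    ext z
    rw [mem_Tp, Finset.mem_Icc]
    omega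
  have h3 := Finset.card_le_card hX
  rw [h1, Nat.card_Icc] at h3
  rw [h2, Nat.card_Icc]
  omega

/-- The two-dimensional shadow. -/
private def Sh (A B t : ℕ) (X : Finset ℕ) : Finset ℕ :=
  (Iv A B (t + 1)).filter fun x => x ∈ X ∨ (1 ≤ x ∧ x - 1 ∈ X)

private lemma mem_Sh {A B t x : ℕ} {X : Finset ℕ} :
    x ∈ Sh A B t X ↔ (x ≤ t + 1 ∧ x < A ∧ t + 1 - x < B) ∧ (x ∈ X ∨ (1 ≤ x ∧ x - 1 ∈ X)) := by
  unfold Sh
  rw [Finset.mem_filter, mem_Iv]

private lemma Sh_Tp {A B t : ℕ} (hAB : A ≤ B) {X : Finset ℕ} (hX : X ⊆ Iv A B t) :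
    Sh A B t (Tp A B t X.card) ⊆ Tp A B (t + 1) (Sh A B t X).card := by
  intro x hx
  rw [mem_Sh, mem_Tp, mem_Tp] at hx
  rw [mem_Tp]
  refine ⟨hx.1, ?_⟩
  -- `X` is nonempty
  have hne : X.Nonempty := by
    rw [← Finset.card_pos]
    omega
  rcases lt_or_ge (t + 1) A with ht | ht
  · -- the interval grows upwards
    obtain ⟨z, hz, hmax⟩ := Finset.exists_max_image X id hne
    have hz' := mem_Iv.1 (hX hz)
    have hsub : insert (z + 1) X ⊆ Sh A B t X := by
      intro w hw
      rw [Finset.mem_insert] at hw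
      rw [mem_Sh]
      rcases hw with rfl | hw
      · exact ⟨by omega, Or.inr ⟨by omega, by simpa using hz⟩⟩
      · have := mem_Iv.1 (hX hw)
        exact ⟨by omega, Or.inl hw⟩
    have hnot : z + 1 ∉ X := fun h => by
      have := hmax _ h
      simp only [id] at this
      omega
    have := Finset.card_le_card hsub
    rw [Finset.card_insert_of_notMem hnot] at this
    omega
  · -- the upper end is `A - 1`
    by_contra hcon
    have hcard : (Sh A B t X).card < X.card := by omega
    have hlow : t + 1 - B ∈ X ∧ B ≤ t + 1 := by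
      by_contra hlow
      have hsub : X ⊆ Sh A B t X := by
        intro w hw
        have hw' := mem_Iv.1 (hX hw)
        rw [mem_Sh]
        refine ⟨?_, Or.inl hw⟩
        have : ¬ (w = t + 1 - B ∧ B ≤ t + 1) := by
          rintro ⟨rfl, h⟩
          exact hlow ⟨hw, h⟩
        omega
      have := Finset.card_le_card hsub
      omega
    have hsub : X.erase (t + 1 - B) ⊆ Sh A B t X := by
      intro w hw
      rw [Finset.mem_erase] at hw
      have hw' := mem_Iv.1 (hX hw.2)
      rw [mem_Sh]
      exact ⟨by omega, Or.inl hw.2⟩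
    have heq : X.erase (t + 1 - B) = Sh A B t X := by
      refine Finset.eq_of_subset_of_card_le hsub ?_
      rw [Finset.card_erase_of_mem hlow.1]
      omega
    have hall : ∀ j, t + 1 - B + j < A → t + 1 - B + j ∈ X := by
      intro j
      induction j with
      | zero => intro _; exact hlow.1
      | succ j ih =>
        intro hj
        have h1 := ih (by omega)
        have h2 : t + 1 - B + (j + 1) ∈ Sh A B t X := by
          rw [mem_Sh]
          have h1' := mem_Iv.1 (hX h1)
          refine ⟨by omega, Or.inr ⟨by omega, ?_⟩⟩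
          have : t + 1 - B + (j + 1) - 1 = t + 1 - B + j := by omega
          rwa [this]
        rw [← heq] at h2
        exact Finset.mem_of_mem_erase h2
    -- now the shadow is the whole interval
    have hfull : Iv A B (t + 1) ⊆ Sh A B t X := by
      intro w hw
      rw [mem_Iv] at hw
      rw [mem_Sh]
      refine ⟨hw, Or.inl ?_⟩
      have := hall (w - (t + 1 - B)) (by omega)
      have e : t + 1 - B + (w - (t + 1 - B)) = w := by omega
      rwa [e] at this
    have h1 : Iv A B (t + 1) = Finset.Icc (t + 1 + 1 - B) (A - 1) := by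
      ext z
      rw [mem_Iv, Finset.mem_Icc]
      omega
    have h2 := Finset.card_le_card hfull
    rw [h1, Nat.card_Icc] at h2
    omega

/-- The top segment maximizes the sum. -/
private lemma sum_Tp {A B t : ℕ} {X : Finset ℕ} (hX : X ⊆ Iv A B t) :
    ∑ x ∈ Tp A B t X.card, (t - x) + (X \ Tp A B t X.card).card ≤ ∑ x ∈ X, (t - x) := by
  set T := Tp A B t X.card with hT
  have hcard : (T \ X).card = (X \ T).card := by
    have h1 := Finset.card_sdiff_add_card_inter T X
    have h2 := Finset.card_sdiff_add_card_inter X T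
    rw [Finset.inter_comm] at h2
    have h3 : T.card = X.card := card_Tp hX
    omega
  have e1 : ∑ x ∈ T, (t - x) = ∑ x ∈ T ∩ X, (t - x) + ∑ x ∈ T \ X, (t - x) :=
    (Finset.sum_inter_add_sum_sdiff T X _).symm
  have e2 : ∑ x ∈ X, (t - x) = ∑ x ∈ T ∩ X, (t - x) + ∑ x ∈ X \ T, (t - x) := by
    rw [Finset.inter_comm]
    exact (Finset.sum_inter_add_sum_sdiff X T _).symm
  set θ := min t (A - 1) + 1 - X.card with hθ
  have h1 : ∑ x ∈ T \ X, (t - x) ≤ (T \ X).card * (t - θ) := by
    rw [← smul_eq_mul]
    refine Finset.sum_le_card_nsmul _ _ _ fun x hx => ?_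
    rw [Finset.mem_sdiff, hT, mem_Tp] at hx
    omega
  have h2 : (X \ T).card * (t - θ) + (X \ T).card ≤ ∑ x ∈ X \ T, (t - x) := by
    have : (X \ T).card * (t - θ) + (X \ T).card = (X \ T).card • (t - θ + 1) := by
      rw [smul_eq_mul]
      ring
    rw [this]
    refine Finset.card_nsmul_le_sum _ _ _ fun x hx => ?_
    rw [Finset.mem_sdiff, hT, mem_Tp] at hx
    have hx' := mem_Iv.1 (hX hx.1)
    have := hx.2
    have h0 : 0 < X.card := Finset.card_pos.2 ⟨x, hx.1⟩
    omega
  rw [hcard] at h1
  omega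

end Intervals

section Compress

variable {N : ℕ} {i l : Fin N} {a : Fin N → ℕ} {d : ℕ} {M : Finset (Fin N → ℕ)}

private lemma rowc_subset_Iv (h : i ≠ l) (hM : M ⊆ boxD a d) (c : Fin N → ℕ) (t : ℕ) :
    rowc i l M c t ⊆ Iv (a i) (a l) t := by
  intro x hx
  rw [mem_rowc] at hx
  have hb := (mem_boxD.1 (hM hx.2)).1
  have h1 := hb i
  have h2 := hb l
  rw [mkv_i h] at h1
  rw [mkv_l] at h2
  exact mem_Iv.2 ⟨hx.1, h1, h2⟩

/-- The compressed set. -/
private def cmp (i l : Fin N) (a : Fin N → ℕ) (d : ℕ) (M : Finset (Fin N → ℕ)) :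
    Finset (Fin N → ℕ) :=
  (boxD a d).filter fun y => min (y i + y l) (a i - 1) < y i + (rowc i l M y (y i + y l)).card

private lemma cmp_subset : cmp i l a d M ⊆ boxD a d := Finset.filter_subset _ _

private lemma rowc_cmp (h : i ≠ l) (hM : M ⊆ boxD a d) (c : Fin N → ℕ) (t : ℕ) :
    rowc i l (cmp i l a d M) c t = Tp (a i) (a l) t (rowc i l M c t).card := by
  ext x
  rw [mem_rowc, mem_Tp]
  unfold cmp
  rw [Finset.mem_filter, mkv_i h, mkv_l]
  constructor
  · rintro ⟨hx, hb, hlt⟩
    have hb' := (mem_boxD.1 hb).1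
    have h1 := hb' i
    have h2 := hb' l
    rw [mkv_i h] at h1
    rw [mkv_l] at h2
    rw [Nat.add_sub_cancel' hx, rowc_congr h t (c' := c) (fun j h1 h2 => mkv_of h1 h2 _ _ _)] at hlt
    exact ⟨⟨hx, h1, h2⟩, hlt⟩
  · rintro ⟨⟨hx, h1, h2⟩, hlt⟩
    refine ⟨hx, ?_, ?_⟩
    · have hpos : 0 < (rowc i l M c t).card := by omega
      obtain ⟨z, hz⟩ := Finset.card_pos.1 hpos
      rw [mem_rowc] at hz
      obtain ⟨hz1, hz2⟩ := mem_boxD.1 (hM hz.2)
      rw [mem_boxD]
      constructor
      · intro j
        by_cases hj : j = i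
        · subst hj
          rw [mkv_i h]
          exact h1
        · by_cases hj' : j = l
          · subst hj'
            rw [mkv_l]
            exact h2
          · have := hz1 j
            rw [mkv_of hj hj'] at this ⊢
            exact this
      · rw [sum_mkv h] at hz2 ⊢
        omega
    · rw [Nat.add_sub_cancel' hx, rowc_congr h t (c' := c) (fun j h1 h2 => mkv_of h1 h2 _ _ _)]
      exact hlt

private lemma update_mkv (h : i ≠ l) {k : Fin N} (hk1 : k ≠ i) (hk2 : k ≠ l) (c : Fin N → ℕ)
    (x z v : ℕ) : Function.update (mkv i l c x z) k v = mkv i l (Function.update c k v) x z := by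
  symm
  refine mkv_ext h ?_ ?_ ?_
  · rw [Function.update_of_ne hk1.symm, mkv_i h]
  · rw [Function.update_of_ne hk2.symm, mkv_l]
  · intro j h1 h2
    by_cases hj : j = k
    · subst hj
      rw [Function.update_self, Function.update_self]
    · rw [Function.update_of_ne hj, Function.update_of_ne hj, mkv_of h1 h2]

/-- Analysis of the rows of a shadow. -/
private lemma mem_rowc_upShadow (h : i ≠ l) {c : Fin N → ℕ} {t x : ℕ}
    (hx : x ∈ rowc i l (upShadow a M) c t) :
    x ∈ Iv (a i) (a l) t ∧ (∀ j, j ≠ i → j ≠ l → c j < a j) ∧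
      ((∃ t', t = t' + 1 ∧ (x ∈ rowc i l M c t' ∨ (1 ≤ x ∧ x - 1 ∈ rowc i l M c t'))) ∨
        ∃ k, k ≠ i ∧ k ≠ l ∧ 0 < c k ∧ x ∈ rowc i l M (Function.update c k (c k - 1)) t) := by
  rw [mem_rowc, mem_upShadow] at hx
  obtain ⟨hxt, hb, m, hm, k, hk⟩ := hx
  have h1 := hb i
  have h2 := hb l
  rw [mkv_i h] at h1
  rw [mkv_l] at h2
  refine ⟨mem_Iv.2 ⟨hxt, h1, h2⟩, ?_, ?_⟩
  · intro j hj1 hj2
    have := hb j
    rwa [mkv_of hj1 hj2] at this
  · by_cases hki : k = i
    · subst hki
      left
      have e1 : x = m k + 1 := by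
        have := congrFun hk k
        rwa [mkv_i h, Function.update_self] at this
      have e2 : t - x = m l := by
        have := congrFun hk l
        rwa [mkv_l, Function.update_of_ne h.symm] at this
      refine ⟨t - 1, by omega, Or.inr ⟨by omega, ?_⟩⟩
      rw [mem_rowc]
      refine ⟨by omega, ?_⟩
      have e3 : mkv k l c (x - 1) (t - 1 - (x - 1)) = m := by
        refine mkv_ext h (by omega) (by omega) fun j hj1 hj2 => ?_
        have := congrFun hk j
        rw [mkv_of hj1 hj2, Function.update_of_ne hj1] at this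
        exact this.symm
      rw [e3]
      exact hm
    · by_cases hkl : k = l
      · subst hkl
        left
        have e1 : x = m i := by
          have := congrFun hk i
          rwa [mkv_i h, Function.update_of_ne h] at this
        have e2 : t - x = m k + 1 := by
          have := congrFun hk k
          rwa [mkv_l, Function.update_self] at this
        refine ⟨t - 1, by omega, Or.inl ?_⟩
        rw [mem_rowc]
        refine ⟨by omega, ?_⟩
        have e3 : mkv i k c x (t - 1 - x) = m := by
          refine mkv_ext h (by omega) (by omega) fun j hj1 hj2 => ?_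
          have := congrFun hk j
          rw [mkv_of hj1 hj2, Function.update_of_ne hj2] at this
          exact this.symm
        rw [e3]
        exact hm
      · right
        have e0 : c k = m k + 1 := by
          have := congrFun hk k
          rwa [mkv_of hki hkl, Function.update_self] at this
        refine ⟨k, hki, hkl, by omega, ?_⟩
        rw [mem_rowc]
        refine ⟨hxt, ?_⟩
        have e3 : mkv i l (Function.update c k (c k - 1)) x (t - x) = m := by
          rw [← update_mkv h hki hkl, hk, Function.update_idem]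
          have : c k - 1 = m k := by omega
          rw [this, Function.update_eq_self]
        rw [e3]
        exact hm

private lemma Sh_rowc_subset (h : i ≠ l) {c : Fin N → ℕ} {t : ℕ}
    (hc : ∀ j, j ≠ i → j ≠ l → c j < a j) :
    Sh (a i) (a l) t (rowc i l M c t) ⊆ rowc i l (upShadow a M) c (t + 1) := by
  intro x hx
  rw [mem_Sh] at hx
  obtain ⟨⟨hxt, hxA, hxB⟩, hx⟩ := hx
  have hbox : ∀ j, mkv i l c x (t + 1 - x) j < a j := by
    intro j
    by_cases hj : j = i
    · subst hj
      rwa [mkv_i h]
    · by_cases hj' : j = l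
      · subst hj'
        rwa [mkv_l]
      · rw [mkv_of hj hj']
        exact hc j hj hj'
  rw [mem_rowc, mem_upShadow]
  refine ⟨hxt, hbox, ?_⟩
  rcases hx with hx | ⟨hx1, hx⟩
  · rw [mem_rowc] at hx
    refine ⟨_, hx.2, l, ?_⟩
    rw [mkv_l]
    refine mkv_ext h ?_ ?_ ?_
    · rw [Function.update_of_ne h, mkv_i h]
    · rw [Function.update_self]
      omega
    · intro j hj1 hj2
      rw [Function.update_of_ne hj2, mkv_of hj1 hj2]
  · rw [mem_rowc] at hx
    refine ⟨_, hx.2, i, ?_⟩
    rw [mkv_i h]
    refine mkv_ext h ?_ ?_ ?_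
    · rw [Function.update_self]
      omega
    · rw [Function.update_of_ne h.symm, mkv_l]
      omega
    · intro j hj1 hj2
      rw [Function.update_of_ne hj1, mkv_of hj1 hj2]

private lemma rowc_pred_subset (h : i ≠ l) (hM : M ⊆ boxD a d) {c : Fin N → ℕ} {t : ℕ}
    (hc : ∀ j, j ≠ i → j ≠ l → c j < a j) {k : Fin N} (hk1 : k ≠ i) (hk2 : k ≠ l)
    (hk : 0 < c k) :
    rowc i l M (Function.update c k (c k - 1)) t ⊆ rowc i l (upShadow a M) c t := by
  intro x hx
  have hxI := mem_Iv.1 (rowc_subset_Iv h hM _ _ hx)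
  rw [mem_rowc] at hx
  rw [mem_rowc, mem_upShadow]
  refine ⟨hx.1, ?_, _, hx.2, k, ?_⟩
  · intro j
    by_cases hj : j = i
    · subst hj
      rw [mkv_i h]
      exact hxI.2.1
    · by_cases hj' : j = l
      · subst hj'
        rw [mkv_l]
        exact hxI.2.2
      · rw [mkv_of hj hj']
        exact hc j hj hj'
  · rw [update_mkv h hk1 hk2, mkv_of hk1 hk2, Function.update_self, Function.update_idem]
    have : c k - 1 + 1 = c k := by omega
    rw [this, Function.update_eq_self]

private lemma card_rowc_upShadow_cmp (h : i ≠ l) (hAB : a i ≤ a l) (hM : M ⊆ boxD a d)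
    (c : Fin N → ℕ) (t : ℕ) :
    (rowc i l (upShadow a (cmp i l a d M)) c t).card ≤ (rowc i l (upShadow a M) c t).card := by
  refine le_trans (Finset.card_le_card ?_) (card_Tp_le (a i) (a l) t _)
  intro x hx
  obtain ⟨hxI, hc, hx'⟩ := mem_rowc_upShadow h hx
  clear hx
  rcases hx' with ⟨t', rfl, hx⟩ | ⟨k, hk1, hk2, hk, hx⟩
  · rw [rowc_cmp h hM] at hx
    have h1 : x ∈ Sh (a i) (a l) t' (Tp (a i) (a l) t' (rowc i l M c t').card) :=
      mem_Sh.2 ⟨mem_Iv.1 hxI, hx⟩
    exact Tp_mono (Finset.card_le_card (Sh_rowc_subset h hc))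
      (Sh_Tp hAB (rowc_subset_Iv h hM c t') h1)
  · rw [rowc_cmp h hM] at hx
    exact Tp_mono (Finset.card_le_card (rowc_pred_subset h hM hc hk1 hk2 hk)) hx

/-- Two-coordinate compression. -/
private lemma compress_aux (h : i ≠ l) (hAB : a i ≤ a l) (hM : M ⊆ boxD a d)
    (m : Fin N → ℕ) (hm : m ∈ M) (hlast : 0 < m l) (hcap : m i + 1 < a i)
    (hviol : Function.update (Function.update m l (m l - 1)) i (m i + 1) ∉ M) :
    ∃ M' ⊆ boxD a d, M'.card = M.card ∧ (upShadow a M').card ≤ (upShadow a M).card ∧
      ∑ m ∈ M', m l < ∑ m ∈ M, m l := by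
  classical
  set U : Finset ((Fin N → ℕ) × ℕ) := (boxD a d ∪ boxD a (d + 1)).image (keyc i l) with hUdef
  have hU1 : ∀ S : Finset (Fin N → ℕ), S ⊆ boxD a d → ∀ y ∈ S, keyc i l y ∈ U := fun S hS y hy =>
    Finset.mem_image_of_mem _ (Finset.mem_union_left _ (hS hy))
  have hU2 : ∀ S : Finset (Fin N → ℕ), S ⊆ boxD a d → ∀ y ∈ upShadow a S, keyc i l y ∈ U :=
    fun S hS y hy =>
      Finset.mem_image_of_mem _ (Finset.mem_union_right _ (upShadow_subset_boxD hS hy))
  have hU' : ∀ κ ∈ U, mkv i l κ.1 0 0 = κ.1 := by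
    intro κ hκ
    obtain ⟨y, _, rfl⟩ := Finset.mem_image.1 hκ
    exact mkv_mkv h _ _ _ _ _
  have hcards : ∀ S : Finset (Fin N → ℕ), (∀ y ∈ S, keyc i l y ∈ U) →
      S.card = ∑ κ ∈ U, (rowc i l S κ.1 κ.2).card := by
    intro S hS
    have := sum_rowc h S U hS hU' (fun _ => 1)
    simpa using this
  have hlasts : ∀ S : Finset (Fin N → ℕ), (∀ y ∈ S, keyc i l y ∈ U) →
      ∑ y ∈ S, y l = ∑ κ ∈ U, ∑ x ∈ rowc i l S κ.1 κ.2, (κ.2 - x) := by
    intro S hS
    have := sum_rowc h S U hS hU' (fun y => y l)
    simpa only [mkv_l] using this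
  refine ⟨cmp i l a d M, cmp_subset, ?_, ?_, ?_⟩
  · rw [hcards _ (hU1 _ cmp_subset), hcards _ (hU1 _ hM)]
    refine Finset.sum_congr rfl fun κ _ => ?_
    rw [rowc_cmp h hM, card_Tp (rowc_subset_Iv h hM _ _)]
  · rw [hcards _ (hU2 _ cmp_subset), hcards _ (hU2 _ hM)]
    exact Finset.sum_le_sum fun κ _ => card_rowc_upShadow_cmp h hAB hM _ _
  · rw [hlasts _ (hU1 _ cmp_subset), hlasts _ (hU1 _ hM)]
    refine Finset.sum_lt_sum (fun κ _ => ?_) ⟨keyc i l m, hU1 _ hM m hm, ?_⟩
    · rw [rowc_cmp h hM]
      have := sum_Tp (rowc_subset_Iv h hM κ.1 κ.2)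
      omega
    · rw [rowc_cmp h hM]
      have h1 := sum_Tp (rowc_subset_Iv h hM (keyc i l m).1 (keyc i l m).2)
      set X := rowc i l M (keyc i l m).1 (keyc i l m).2 with hX
      set t := (keyc i l m).2 with ht
      have ht' : t = m i + m l := rfl
      have hpos : 0 < (X \ Tp (a i) (a l) t X.card).card := by
        rw [Finset.card_pos, Finset.sdiff_nonempty]
        intro hsub
        have heq : X = Tp (a i) (a l) t X.card :=
          Finset.eq_of_subset_of_card_le hsub (card_Tp_le _ _ _ _)
        have hmX : m i ∈ X := by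
          rw [hX, mem_rowc, ht']
          refine ⟨Nat.le_add_right _ _, ?_⟩
          change mkv i l (mkv i l m 0 0) (m i) (m i + m l - m i) ∈ M
          rw [mkv_mkv h, Nat.add_sub_cancel_left, mkv_self h]
          exact hm
        have hmT := mem_Tp.1 (heq ▸ hmX : m i ∈ Tp (a i) (a l) t X.card)
        have h2 : m i + 1 ∈ X := by
          rw [heq, mem_Tp]
          rw [ht'] at hmT ⊢
          omega
        rw [hX, mem_rowc, ht'] at h2
        apply hviol
        have h3 := h2.2
        change mkv i l (mkv i l m 0 0) (m i + 1) (m i + m l - (m i + 1)) ∈ M at h3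
        rw [mkv_mkv h] at h3
        have h4 : Function.update (Function.update m l (m l - 1)) i (m i + 1) =
            mkv i l m (m i + 1) (m i + m l - (m i + 1)) := by
          unfold mkv
          rw [Function.update_comm h.symm]
          congr 1
          omega
        rw [h4]
        exact h3
      omega

end Compress

variable {n : ℕ}

/-- If `M` is not stable for moving one unit from the last coordinate to coordinate `i`,
then the compression in the coordinates `i, last` keeps the cardinality, does not increase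
the shadow and strictly decreases the total of the last coordinates. -/
theorem compress_pair (a : Fin (n + 1) → ℕ) (ha : Monotone a) (d : ℕ)
    (M : Finset (Fin (n + 1) → ℕ)) (hM : M ⊆ boxD a d) (i : Fin (n + 1))
    (hi : i ≠ Fin.last n) (m : Fin (n + 1) → ℕ) (hm : m ∈ M) (hlast : 0 < m (Fin.last n))
    (hcap : m i + 1 < a i)
    (hviol : Function.update (Function.update m (Fin.last n) (m (Fin.last n) - 1)) i (m i + 1)
      ∉ M) :
    ∃ M' ⊆ boxD a d, M'.card = M.card ∧ (upShadow a M').card ≤ (upShadow a M).card ∧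
      ∑ m ∈ M', m (Fin.last n) < ∑ m ∈ M, m (Fin.last n) :=
  compress_aux hi (ha (Fin.le_last i)) hM m hm hlast hcap hviol

/-- Every `M` may be replaced by a set stable in the last variable, of the same size and with
a shadow which is not larger. -/
theorem exists_stable (a : Fin (n + 1) → ℕ) (ha : Monotone a) (d : ℕ)
    (M : Finset (Fin (n + 1) → ℕ)) (hM : M ⊆ boxD a d) :
    ∃ M' ⊆ boxD a d, M'.card = M.card ∧ (upShadow a M').card ≤ (upShadow a M).card ∧
      ∀ m ∈ M', ∀ i, i ≠ Fin.last n → 0 < m (Fin.last n) → m i + 1 < a i →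
        Function.update (Function.update m (Fin.last n) (m (Fin.last n) - 1)) i (m i + 1)
          ∈ M' := by
  obtain ⟨s, hs⟩ : ∃ s, ∑ m ∈ M, m (Fin.last n) = s := ⟨_, rfl⟩
  induction s using Nat.strong_induction_on generalizing M with
  | _ s ih =>
    by_cases hst : ∀ m ∈ M, ∀ i, i ≠ Fin.last n → 0 < m (Fin.last n) → m i + 1 < a i →
        Function.update (Function.update m (Fin.last n) (m (Fin.last n) - 1)) i (m i + 1) ∈ M
    · exact ⟨M, hM, rfl, le_rfl, hst⟩
    · push Not at hst
      obtain ⟨m, hm, i, hi, hlast, hcap, hviol⟩ := hst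
      obtain ⟨M₁, hM₁, hc₁, hs₁, hl₁⟩ := compress_pair a ha d M hM i hi m hm hlast hcap hviol
      obtain ⟨M₂, hM₂, hc₂, hs₂, hst₂⟩ := ih _ (hs ▸ hl₁) M₁ hM₁ rfl
      exact ⟨M₂, hM₂, hc₂.trans hc₁, hs₂.trans hs₁, hst₂⟩

end Vale.Agent.P200F.G

end

section

namespace Vale.Agent.P200F.G

variable {n : ℕ}

/-- Append a last coordinate. -/
private def sn (y : Fin n → ℕ) (t : ℕ) : Fin (n + 1) → ℕ := Fin.snoc (α := fun _ => ℕ) y t

/-- Forget the last coordinate. -/
private def ini (m : Fin (n + 1) → ℕ) : Fin n → ℕ := fun i => m i.castSucc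

private lemma sn_last (y : Fin n → ℕ) (t : ℕ) : sn y t (Fin.last n) = t := by simp [sn]

private lemma sn_castSucc (y : Fin n → ℕ) (t : ℕ) (i : Fin n) : sn y t i.castSucc = y i := by
  simp [sn]

private lemma ini_sn (y : Fin n → ℕ) (t : ℕ) : ini (sn y t) = y := by
  funext i
  exact sn_castSucc y t i

private lemma sn_ini (m : Fin (n + 1) → ℕ) : sn (ini m) (m (Fin.last n)) = m := by
  funext i
  refine Fin.lastCases ?_ (fun j => ?_) i
  · rw [sn_last]
  · rw [sn_castSucc]; rfl

private lemma sn_inj {y y' : Fin n → ℕ} {t t' : ℕ} (h : sn y t = sn y' t') : y = y' ∧ t = t' := by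
  constructor
  · rw [← ini_sn y t, h, ini_sn]
  · rw [← sn_last y t, h, sn_last]

private lemma sum_sn (y : Fin n → ℕ) (t : ℕ) : ∑ i, sn y t i = ∑ i, y i + t := by
  rw [Fin.sum_univ_castSucc, sn_last]
  simp only [sn_castSucc]

private lemma lexLT_sn {y y' : Fin n → ℕ} {t t' : ℕ} :
    lexLT (sn y t) (sn y' t') ↔ lexLT y y' ∨ (y = y' ∧ t < t') := by
  constructor
  · rintro ⟨i, h1, h2⟩
    revert h1 h2
    refine Fin.lastCases ?_ (fun j => ?_) i
    · intro h1 h2
      rw [sn_last, sn_last] at h2
      refine Or.inr ⟨?_, h2⟩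
      funext k
      have := h1 k.castSucc (Fin.castSucc_lt_last k)
      rwa [sn_castSucc, sn_castSucc] at this
    · intro h1 h2
      rw [sn_castSucc, sn_castSucc] at h2
      refine Or.inl ⟨j, fun k hk => ?_, h2⟩
      have := h1 k.castSucc (Fin.castSucc_lt_castSucc_iff.2 hk)
      rwa [sn_castSucc, sn_castSucc] at this
  · rintro (⟨j, h1, h2⟩ | ⟨rfl, h⟩)
    · refine ⟨j.castSucc, fun k => ?_, by rwa [sn_castSucc, sn_castSucc]⟩
      refine Fin.lastCases ?_ (fun k => ?_) k
      · intro hk
        exact absurd hk (not_lt.2 (Fin.castSucc_lt_last j).le)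
      · intro hk
        rw [sn_castSucc, sn_castSucc]
        exact h1 k (Fin.castSucc_lt_castSucc_iff.1 hk)
    · refine ⟨Fin.last n, fun k => ?_, by rwa [sn_last, sn_last]⟩
      refine Fin.lastCases ?_ (fun k => ?_) k
      · intro hk
        exact absurd hk (lt_irrefl _)
      · intro _
        rw [sn_castSucc, sn_castSucc]

/-- The slice of `M` at height `t` of the last coordinate. -/
private def sl (M : Finset (Fin (n + 1) → ℕ)) (t : ℕ) : Finset (Fin n → ℕ) :=
  (M.filter fun m => m (Fin.last n) = t).image ini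

private lemma mem_sl {M : Finset (Fin (n + 1) → ℕ)} {t : ℕ} {y : Fin n → ℕ} :
    y ∈ sl M t ↔ sn y t ∈ M := by
  unfold sl
  rw [Finset.mem_image]
  constructor
  · rintro ⟨m, hm, rfl⟩
    rw [Finset.mem_filter] at hm
    rw [← hm.2, sn_ini]
    exact hm.1
  · intro h
    exact ⟨sn y t, Finset.mem_filter.2 ⟨h, sn_last y t⟩, ini_sn y t⟩

private lemma card_sl (M : Finset (Fin (n + 1) → ℕ)) (t : ℕ) :
    (sl M t).card = (M.filter fun m => m (Fin.last n) = t).card := by
  unfold sl
  refine Finset.card_image_of_injOn ?_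
  intro m hm m' hm' h
  have h1 : m (Fin.last n) = t := (Finset.mem_filter.1 (Finset.mem_coe.1 hm)).2
  have h2 : m' (Fin.last n) = t := (Finset.mem_filter.1 (Finset.mem_coe.1 hm')).2
  rw [← sn_ini m, ← sn_ini m', h1, h2]
  have h3 : ini m = ini m' := h
  rw [h3]

private lemma card_eq_sum_sl {a : Fin (n + 1) → ℕ} {d : ℕ} {M : Finset (Fin (n + 1) → ℕ)}
    (hM : M ⊆ boxD a d) : M.card = ∑ t ∈ Finset.range (a (Fin.last n)), (sl M t).card := by
  rw [Finset.card_eq_sum_card_fiberwise (f := fun m => m (Fin.last n))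
    (t := Finset.range (a (Fin.last n)))]
  · exact Finset.sum_congr rfl fun t _ => (card_sl M t).symm
  · intro m hm
    exact Finset.mem_coe.2 (Finset.mem_range.2 ((mem_boxD.1 (hM hm)).1 _))

private lemma sn_mem_boxD {a : Fin (n + 1) → ℕ} {d t : ℕ} {y : Fin n → ℕ} :
    sn y t ∈ boxD a d ↔ t < a (Fin.last n) ∧ t ≤ d ∧ y ∈ boxD (ini a) (d - t) := by
  rw [mem_boxD, mem_boxD, sum_sn]
  constructor
  · rintro ⟨h1, h2⟩
    refine ⟨by simpa [sn_last] using h1 (Fin.last n), by omega, fun i => ?_, by omega⟩
    have := h1 i.castSucc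
    rwa [sn_castSucc] at this
  · rintro ⟨h1, h2, h3, h4⟩
    refine ⟨fun i => ?_, by omega⟩
    refine Fin.lastCases ?_ (fun j => ?_) i
    · rwa [sn_last]
    · rw [sn_castSucc]
      exact h3 j

private lemma sl_subset {a : Fin (n + 1) → ℕ} {d : ℕ} {M : Finset (Fin (n + 1) → ℕ)}
    (hM : M ⊆ boxD a d) (t : ℕ) : sl M t ⊆ boxD (ini a) (d - t) := fun _ hy =>
  (sn_mem_boxD.1 (hM (mem_sl.1 hy))).2.2

private lemma sl_le {a : Fin (n + 1) → ℕ} {d : ℕ} {M : Finset (Fin (n + 1) → ℕ)}
    (hM : M ⊆ boxD a d) {t : ℕ} (h : (sl M t).Nonempty) : t < a (Fin.last n) ∧ t ≤ d := by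
  obtain ⟨y, hy⟩ := h
  have := sn_mem_boxD.1 (hM (mem_sl.1 hy))
  exact ⟨this.1, this.2.1⟩

private lemma update_sn_castSucc (y : Fin n → ℕ) (t : ℕ) (i : Fin n) (c : ℕ) :
    Function.update (sn y t) i.castSucc c = sn (Function.update y i c) t := by
  funext j
  refine Fin.lastCases ?_ (fun j => ?_) j
  · rw [Function.update_of_ne (Fin.castSucc_lt_last i).ne', sn_last, sn_last]
  · rw [sn_castSucc]
    by_cases h : j = i
    · subst h
      simp
    · rw [Function.update_of_ne (fun h' => h (Fin.castSucc_injective n h')),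
        Function.update_of_ne h, sn_castSucc]

private lemma update_sn_last (y : Fin n → ℕ) (t c : ℕ) :
    Function.update (sn y t) (Fin.last n) c = sn y c := by
  funext j
  refine Fin.lastCases ?_ (fun j => ?_) j
  · simp [sn_last]
  · rw [sn_castSucc, Function.update_of_ne (Fin.castSucc_lt_last j).ne, sn_castSucc]

/-- Stability for moves from the last coordinate. -/
private def Stab (a : Fin (n + 1) → ℕ) (M : Finset (Fin (n + 1) → ℕ)) : Prop :=
  ∀ m ∈ M, ∀ i, i ≠ Fin.last n → 0 < m (Fin.last n) → m i + 1 < a i →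
    Function.update (Function.update m (Fin.last n) (m (Fin.last n) - 1)) i (m i + 1) ∈ M

private lemma stab_sl {a : Fin (n + 1) → ℕ} {M : Finset (Fin (n + 1) → ℕ)} (h : Stab a M)
    {y : Fin n → ℕ} {t : ℕ} (hy : y ∈ sl M (t + 1)) {i : Fin n} (hi : y i + 1 < ini a i) :
    Function.update y i (y i + 1) ∈ sl M t := by
  have h1 := h _ (mem_sl.1 hy) i.castSucc (Fin.castSucc_lt_last i).ne
    (by rw [sn_last]; omega) (by rw [sn_castSucc]; exact hi)
  rw [sn_last, update_sn_last, sn_castSucc, update_sn_castSucc] at h1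
  exact mem_sl.2 h1

private lemma stab_upShadow_sl {a : Fin (n + 1) → ℕ} {M : Finset (Fin (n + 1) → ℕ)}
    (h : Stab a M) (t : ℕ) : upShadow (ini a) (sl M (t + 1)) ⊆ sl M t := by
  intro y hy
  obtain ⟨h1, m, hm, i, rfl⟩ := mem_upShadow.1 hy
  refine stab_sl h hm ?_
  have := h1 i
  rwa [Function.update_self] at this

/-- The size of the shadow of a stable set. -/
private lemma stab_card_upShadow {a : Fin (n + 1) → ℕ} {M : Finset (Fin (n + 1) → ℕ)} {d k : ℕ}
    (hM : M ⊆ boxD a d) (h : Stab a M) (hk : a (Fin.last n) = k + 1) :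
    (upShadow a M).card + (sl M k).card =
      M.card + (upShadow (ini a) (sl M 0)).card := by
  classical
  have e1 : (upShadow a M).card =
      ((upShadow a M).filter fun y => y (Fin.last n) ≠ 0).card +
        ((upShadow a M).filter fun y => ¬ y (Fin.last n) ≠ 0).card :=
    (Finset.card_filter_add_card_filter_not _).symm
  have e2 : M.card = (M.filter fun m => m (Fin.last n) = k).card +
      (M.filter fun m => ¬ m (Fin.last n) = k).card :=
    (Finset.card_filter_add_card_filter_not _).symm
  have e3 : ((upShadow a M).filter fun y => ¬ y (Fin.last n) ≠ 0).card =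
      (upShadow (ini a) (sl M 0)).card := by
    symm
    refine Finset.card_bij (fun y _ => sn y 0) ?_ ?_ ?_
    · intro y hy
      obtain ⟨h1, m, hm, i, rfl⟩ := mem_upShadow.1 hy
      rw [Finset.mem_filter]
      refine ⟨mem_upShadow.2 ⟨?_, sn m 0, mem_sl.1 hm, i.castSucc, ?_⟩, by simp [sn_last]⟩
      · intro j
        refine Fin.lastCases ?_ (fun j => ?_) j
        · rw [sn_last]; omega
        · rw [sn_castSucc]; exact h1 j
      · rw [sn_castSucc, update_sn_castSucc]
    · intro y _ y' _ hyy
      exact (sn_inj hyy).1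
    · intro y hy
      rw [Finset.mem_filter] at hy
      obtain ⟨hy1, hy2⟩ := hy
      have hy3 : y (Fin.last n) = 0 := by
        by_contra h'
        exact hy2 h'
      obtain ⟨h1, m, hm, i, hyi⟩ := mem_upShadow.1 hy1
      have hi : i ≠ Fin.last n := by
        rintro rfl
        rw [hyi, Function.update_self] at hy3
        omega
      obtain ⟨j, rfl⟩ := Fin.exists_castSucc_eq.2 hi
      have hm0 : m (Fin.last n) = 0 := by
        rw [hyi, Function.update_of_ne (Fin.castSucc_lt_last j).ne'] at hy3
        exact hy3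
      refine ⟨ini y, mem_upShadow.2 ⟨fun i => h1 _, ini m, mem_sl.2 ?_, j, ?_⟩, ?_⟩
      · rw [← hm0, sn_ini]; exact hm
      · funext l
        change y l.castSucc = _
        rw [hyi]
        by_cases hl : l = j
        · subst hl
          simp [ini]
        · rw [Function.update_of_ne (fun h' => hl (Fin.castSucc_injective n h')),
            Function.update_of_ne hl]
          rfl
      · rw [← hy3, sn_ini]
  have e4 : ((upShadow a M).filter fun y => y (Fin.last n) ≠ 0).card =
      (M.filter fun m => ¬ m (Fin.last n) = k).card := by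
    symm
    refine Finset.card_bij (fun m _ => Function.update m (Fin.last n) (m (Fin.last n) + 1))
      ?_ ?_ ?_
    · intro m hm
      rw [Finset.mem_filter] at hm
      have hmb := (mem_boxD.1 (hM hm.1)).1
      rw [Finset.mem_filter]
      refine ⟨mem_upShadow.2 ⟨?_, m, hm.1, Fin.last n, rfl⟩, by simp⟩
      intro j
      by_cases hj : j = Fin.last n
      · subst hj
        rw [Function.update_self]
        have := hmb (Fin.last n)
        have := hm.2
        omega
      · rw [Function.update_of_ne hj]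
        exact hmb j
    · intro m _ m' _ hmm
      funext j
      by_cases hj : j = Fin.last n
      · subst hj
        have := congrFun hmm (Fin.last n)
        simp only [Function.update_self] at this
        omega
      · have := congrFun hmm j
        rwa [Function.update_of_ne hj, Function.update_of_ne hj] at this
    · intro y hy
      rw [Finset.mem_filter] at hy
      obtain ⟨hy1, hy2⟩ := hy
      obtain ⟨h1, m, hm, i, hyi⟩ := mem_upShadow.1 hy1
      have key : Function.update y (Fin.last n) (y (Fin.last n) - 1) ∈ M := by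
        by_cases hi : i = Fin.last n
        · subst hi
          have : Function.update y (Fin.last n) (y (Fin.last n) - 1) = m := by
            funext j
            by_cases hj : j = Fin.last n
            · subst hj
              rw [Function.update_self, hyi, Function.update_self]
              omega
            · rw [Function.update_of_ne hj, hyi, Function.update_of_ne hj]
          rw [this]
          exact hm
        · have hyl : y (Fin.last n) = m (Fin.last n) := by
            rw [hyi, Function.update_of_ne (Ne.symm hi)]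
          have h3 := h m hm i hi (by omega) (by
            have := h1 i
            rwa [hyi, Function.update_self] at this)
          have : Function.update y (Fin.last n) (y (Fin.last n) - 1) =
              Function.update (Function.update m (Fin.last n) (m (Fin.last n) - 1)) i
                (m i + 1) := by
            rw [Function.update_comm (Ne.symm hi), ← hyi, hyl]
          rw [this]
          exact h3
      refine ⟨_, Finset.mem_filter.2 ⟨key, ?_⟩, ?_⟩
      · rw [Function.update_self]
        have := h1 (Fin.last n)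
        omega
      · simp only [Function.update_self, Function.update_idem]
        have : y (Fin.last n) - 1 + 1 = y (Fin.last n) := by omega
        rw [this, Function.update_eq_self]
  rw [card_sl]
  omega

private lemma lexSeg_stab (a : Fin (n + 1) → ℕ) (d q : ℕ) : Stab a (lexSeg a d q) := by
  intro m hm i hi hpos hcap
  have hmb := mem_boxD.1 (lexSeg_subset hm)
  refine lexSeg_upClosed hm (mem_boxD.2 ⟨?_, ?_⟩) ?_
  · intro j
    by_cases hj : j = i
    · subst hj
      rw [Function.update_self]
      exact hcap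
    · rw [Function.update_of_ne hj]
      by_cases hj' : j = Fin.last n
      · subst hj'
        rw [Function.update_self]
        have := hmb.1 (Fin.last n)
        omega
      · rw [Function.update_of_ne hj']
        exact hmb.1 j
  · obtain ⟨j, rfl⟩ := Fin.exists_castSucc_eq.2 hi
    have h1 : m = sn (ini m) (m (Fin.last n)) := (sn_ini m).symm
    have h2 : Function.update (Function.update m (Fin.last n) (m (Fin.last n) - 1)) j.castSucc
        (m j.castSucc + 1) = sn (Function.update (ini m) j (ini m j + 1))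
          (m (Fin.last n) - 1) := by
      conv_lhs => rw [h1]
      rw [update_sn_last, sn_last, sn_castSucc, update_sn_castSucc]
    have h3 : ∑ i, Function.update (ini m) j (ini m j + 1) i = ∑ i, ini m i + 1 := by
      rw [Finset.sum_update_of_mem (Finset.mem_univ j)]
      have := Finset.add_sum_erase Finset.univ (ini m) (Finset.mem_univ j)
      rw [← Finset.sdiff_singleton_eq_erase] at this
      omega
    rw [h2, sum_sn, h3]
    have h4 := hmb.2
    rw [h1, sum_sn] at h4
    omega
  · refine ⟨i, fun k hk => ?_, by rw [Function.update_self]; omega⟩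
    rw [Function.update_of_ne hk.ne, Function.update_of_ne]
    rintro rfl
    exact absurd hk (not_lt.2 (Fin.le_last i))

private lemma sl_upClosed {a : Fin (n + 1) → ℕ} {d q t : ℕ} {y y' : Fin n → ℕ}
    (hy : y ∈ sl (lexSeg a d q) t) (hy' : y' ∈ boxD (ini a) (d - t)) (h : lexLT y y') :
    y' ∈ sl (lexSeg a d q) t := by
  have h1 := mem_sl.1 hy
  have h2 := sn_mem_boxD.1 (lexSeg_subset h1)
  exact mem_sl.2 (lexSeg_upClosed h1 (sn_mem_boxD.2 ⟨h2.1, h2.2.1, hy'⟩)
    (lexLT_sn.2 (Or.inl h)))

/-- **Clements-Lindstrom**: among all sets of degree `d` exponents of given size in a box with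
weakly increasing sides, the lexicographic segment has the smallest shadow. -/
theorem clementsLindstrom {n : ℕ} (a : Fin n → ℕ) (ha : Monotone a) (d : ℕ)
    (M : Finset (Fin n → ℕ)) (hM : M ⊆ boxD a d) :
    up a d M.card ≤ (upShadow a M).card := by
  induction n generalizing d with
  | zero =>
    have : upShadow a (lexSeg a d M.card) = ∅ := by
      ext y
      constructor
      · intro hy
        obtain ⟨_, m, _, i, _⟩ := mem_upShadow.1 hy
        exact i.elim0
      · intro h
        simp at h
    unfold up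
    rw [this]
    simp
  | succ n ih =>
    have ha' : Monotone (ini a) := fun i j hij => ha (Fin.castSucc_le_castSucc_iff.2 hij)
    have IH : ∀ (d : ℕ) (M : Finset (Fin n → ℕ)), M ⊆ boxD (ini a) d →
        up (ini a) d M.card ≤ (upShadow (ini a) M).card := fun d M hM => ih (ini a) ha' d M hM
    obtain ⟨M', hM', hcard, hsh, hst⟩ := exists_stable a ha d M hM
    rw [← hcard]
    refine le_trans ?_ hsh
    clear hsh hcard hM M
    have hS : Stab a M' := hst
    -- trivial case of an empty box
    rcases Nat.eq_zero_or_pos (a (Fin.last n)) with ha0 | hapos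
    · have : M' = ∅ := by
        rw [Finset.eq_empty_iff_forall_notMem]
        intro m hm
        have := (mem_boxD.1 (hM' hm)).1 (Fin.last n)
        omega
      rw [this, Finset.card_empty, up_zero]
      exact Nat.zero_le _
    obtain ⟨k, hk⟩ : ∃ k, a (Fin.last n) = k + 1 := ⟨a (Fin.last n) - 1, by omega⟩
    set q := M'.card with hq
    set L := lexSeg a d q with hL
    have hLb : L ⊆ boxD a d := lexSeg_subset
    have hLcard : L.card = q := by
      rw [hL, card_lexSeg, min_eq_left]
      exact Finset.card_le_card hM'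
    have hLst : Stab a L := lexSeg_stab a d q
    -- the segments `N t`
    let N : ℕ → Finset (Fin n → ℕ) := fun t => lexSeg (ini a) (d - t) (sl M' t).card
    have hNb : ∀ t, N t ⊆ boxD (ini a) (d - t) := fun t => lexSeg_subset
    have hNcard : ∀ t, (N t).card = (sl M' t).card := fun t => by
      change (lexSeg _ _ _).card = _
      rw [card_lexSeg, min_eq_left]
      exact Finset.card_le_card (sl_subset hM' t)
    have hNup : ∀ t y y', y ∈ N t → y' ∈ boxD (ini a) (d - t) → lexLT y y' → y' ∈ N t :=
      fun t y y' h1 h2 h3 => lexSeg_upClosed h1 h2 h3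
    have hNst : ∀ t, upShadow (ini a) (N (t + 1)) ⊆ N t := by
      intro t
      rcases Finset.eq_empty_or_nonempty (sl M' (t + 1)) with he | hne
      · have : N (t + 1) = ∅ := by
          rw [← Finset.card_eq_zero, hNcard, he, Finset.card_empty]
        rw [this, upShadow_empty]
        exact Finset.empty_subset _
      · have h1 := (sl_le hM' hne).2
        have h2 : d - (t + 1) + 1 = d - t := by omega
        change upShadow (ini a) (lexSeg (ini a) (d - (t + 1)) (sl M' (t + 1)).card) ⊆ _
        rw [upShadow_lexSeg, h2]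
        refine lexSeg_mono ?_
        exact (IH _ _ (sl_subset hM' (t + 1))).trans
          (Finset.card_le_card (stab_upShadow_sl hS t))
    have hNle : ∀ t, (N t).Nonempty → t < a (Fin.last n) ∧ t ≤ d := by
      intro t ht
      rw [← Finset.card_pos, hNcard, Finset.card_pos] at ht
      exact sl_le hM' ht
    have hsum : ∑ t ∈ Finset.range (a (Fin.last n)), (N t).card =
        ∑ t ∈ Finset.range (a (Fin.last n)), (sl L t).card := by
      rw [← card_eq_sum_sl hLb, hLcard, hq, card_eq_sum_sl hM']
      exact Finset.sum_congr rfl fun t _ => hNcard t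
    have hLup : ∀ t y y', y ∈ sl L t → y' ∈ boxD (ini a) (d - t) → lexLT y y' → y' ∈ sl L t :=
      fun t y y' h1 h2 h3 => sl_upClosed h1 h2 h3
    -- climbing
    have climb : ∀ (j t : ℕ) (z : Fin n → ℕ), z ∈ boxD (ini a) (d - t) →
        ∀ y, y ∈ N (t + j) → (y = z ∨ lexLT y z) → z ∈ N t := by
      intro j
      induction j with
      | zero =>
        intro t z hz y hy hyz
        rcases hyz with rfl | hyz
        · exact hy
        · exact hNup t y z hy hz hyz
      | succ j ihj =>
        intro t z hz y hy hyz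
        have hy' := mem_boxD.1 (hNb _ hy)
        have hz' := mem_boxD.1 hz
        have hle := (hNle _ ⟨y, hy⟩).2
        have hdeg : ∑ i, y i < ∑ i, z i := by
          rw [hy'.2, hz'.2]
          omega
        have hlt : lexLT y z := by
          rcases hyz with rfl | h
          · exact absurd hdeg (lt_irrefl _)
          · exact h
        obtain ⟨i, hi1, hi2⟩ := exists_step hy'.1 hz'.1 hlt hdeg
        refine ihj t z hz _ ?_ hi2
        refine hNst (t + j) (mem_upShadow.2 ⟨hi1, y, hy, i, rfl⟩)
    -- (3a)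
    have h3a : (sl L 0).card ≤ (sl M' 0).card := by
      by_contra hcon
      push Not at hcon
      rw [← hNcard 0] at hcon
      obtain ⟨y, hyL, hyN⟩ := Finset.exists_mem_notMem_of_card_lt_card hcon
      have hyb := sn_mem_boxD.1 (hLb (mem_sl.1 hyL))
      have hsub : ∀ t, N t ⊆ sl L t := by
        intro t z hz
        by_contra hzL
        have hzb := hNb t hz
        have hzle := hNle t ⟨z, hz⟩
        have hzb' : sn z t ∈ boxD a d := sn_mem_boxD.2 ⟨hzle.1, hzle.2, hzb⟩
        have h1 : sn z t ∉ L := fun h => hzL (mem_sl.2 h)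
        have h2 : ¬ lexLT (sn y 0) (sn z t) := fun h =>
          h1 (lexSeg_upClosed (mem_sl.1 hyL) hzb' h)
        apply hyN
        refine climb t 0 y hyb.2.2 z (by rwa [Nat.zero_add]) ?_
        rcases lexLT_trichotomy (sn y 0) (sn z t) with h | h | h
        · exact absurd h h2
        · exact Or.inl (sn_inj h).1.symm
        · rcases lexLT_sn.1 h with h | ⟨h, h'⟩
          · exact Or.inr h
          · omega
      have hlt : ∑ t ∈ Finset.range (a (Fin.last n)), (N t).card <
          ∑ t ∈ Finset.range (a (Fin.last n)), (sl L t).card :=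
        Finset.sum_lt_sum (fun t _ => Finset.card_le_card (hsub t))
          ⟨0, Finset.mem_range.2 hapos, hcon⟩
      omega
    -- (3b)
    have h3b : (sl M' k).card ≤ (sl L k).card := by
      by_contra hcon
      push Not at hcon
      rw [← hNcard k] at hcon
      obtain ⟨y, hyN, hyL⟩ := Finset.exists_mem_notMem_of_card_lt_card hcon
      have hyb := hNb k hyN
      have hyle := hNle k ⟨y, hyN⟩
      have hyb' : sn y k ∈ boxD a d := sn_mem_boxD.2 ⟨hyle.1, hyle.2, hyb⟩
      have h1 : sn y k ∉ L := fun h => hyL (mem_sl.2 h)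
      have hsub : ∀ t, sl L t ⊆ N t := by
        intro t z hz
        have hzL := mem_sl.1 hz
        have hzb := sn_mem_boxD.1 (hLb hzL)
        have h2 : ¬ lexLT (sn z t) (sn y k) := fun h => h1 (lexSeg_upClosed hzL hyb' h)
        have htk : t ≤ k := by omega
        obtain ⟨j, rfl⟩ := Nat.exists_eq_add_of_le htk
        refine climb j t z hzb.2.2 y hyN ?_
        rcases lexLT_trichotomy (sn z t) (sn y (t + j)) with h | h | h
        · exact absurd h h2
        · exact Or.inl (sn_inj h).1.symm
        · rcases lexLT_sn.1 h with h | ⟨h, h'⟩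
          · exact Or.inr h
          · omega
      have hlt : ∑ t ∈ Finset.range (a (Fin.last n)), (sl L t).card <
          ∑ t ∈ Finset.range (a (Fin.last n)), (N t).card :=
        Finset.sum_lt_sum (fun t _ => Finset.card_le_card (hsub t))
          ⟨k, Finset.mem_range.2 (by omega), hcon⟩
      omega
    -- conclusion
    have hA := stab_card_upShadow hM' hS hk
    have hB := stab_card_upShadow hLb hLst hk
    have hC : up (ini a) (d - 0) (sl M' 0).card ≤ (upShadow (ini a) (sl M' 0)).card :=
      IH (d - 0) _ (sl_subset hM' 0)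
    have hD : up (ini a) (d - 0) (sl L 0).card ≤ up (ini a) (d - 0) (sl M' 0).card := up_mono h3a
    have hE : sl L 0 = lexSeg (ini a) (d - 0) (sl L 0).card :=
      eq_lexSeg_of_upClosed (sl_subset hLb 0) fun m hm m' hm' h => hLup 0 m m' hm hm' h
    have hF : (upShadow (ini a) (sl L 0)).card = up (ini a) (d - 0) (sl L 0).card := by
      conv_lhs => rw [hE]
      rfl
    have hG : up a d q = (upShadow a L).card := rfl
    omega

end Vale.Agent.P200F.G

end
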