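import Vale.Agent.P200F.Ns
import Vale.Agent.P200F.FDefs
import Vale.Agent.P200F.A2

set_option linter.all false

section

namespace Vale.Agent.P200F.G

open MvPolynomial

variable {K : Type*} [Field K] {n c : ℕ}

/-- the degrees `a`, completed by `N` -/
def extDeg (_ : c ≤ n) (a : Fin c → ℕ) (N : ℕ) : Fin n → ℕ :=
  fun i => if h : i.1 < c then a ⟨i.1, h⟩ else N

theorem extDeg_castLE (h : c ≤ n) (a : Fin c → ℕ) (N : ℕ) (i : Fin c) :
    extDeg h a N (Fin.castLE h i) = a i := by
  simp [extDeg]

theorem extDeg_of_not_lt (h : c ≤ n) (a : Fin c → ℕ) (N : ℕ) {i : Fin n} (hi : ¬ i.1 < c) :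
    extDeg h a N i = N := by
  simp [extDeg, hi]

theorem forall_lt_extDeg_iff (h : c ≤ n) (a : Fin c → ℕ) {N : ℕ} (m : Fin n → ℕ)
    (hm : ∑ i, m i < N) :
    (∀ i, m i < extDeg h a N i) ↔ ∀ i : Fin c, m (Fin.castLE h i) < a i := by
  constructor
  · intro H i
    have := H (Fin.castLE h i)
    rwa [extDeg_castLE] at this
  · intro H i
    by_cases hi : i.1 < c
    · have h1 : i = Fin.castLE h ⟨i.1, hi⟩ := rfl
      rw [h1, extDeg_castLE]
      exact H _
    · rw [extDeg_of_not_lt h a N hi]
      exact lt_of_le_of_lt (Finset.single_le_sum (fun j _ => Nat.zero_le (m j))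
        (Finset.mem_univ i)) hm

theorem mem_outside_iff (h : c ≤ n) (a : Fin c → ℕ) {N e : ℕ} (hN : e < N)
    (m : Fin n →₀ ℕ) : m ∈ outside h a e ↔ (m : Fin n → ℕ) ∈ boxD (extDeg h a N) e := by
  rw [mem_boxD]
  constructor
  · rintro ⟨h1, h2⟩
    exact ⟨(forall_lt_extDeg_iff h a _ (by omega)).mpr h1, h2⟩
  · rintro ⟨h1, h2⟩
    exact ⟨(forall_lt_extDeg_iff h a _ (by omega)).mp h1, h2⟩

/-- exponents of the monomials of degree `d` inside `P` -/
def insideP (h : c ≤ n) (a : Fin c → ℕ) (d : ℕ) : Set (Fin n →₀ ℕ) :=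
  {m | (∃ i, a i ≤ m (Fin.castLE h i)) ∧ ∑ i, m i = d}

theorem powerIdeal_eq (h : c ≤ n) (a : Fin c → ℕ) : powerIdeal K h a =
    Ideal.span ((fun s => monomial s (1 : K)) ''
      (Set.range fun i : Fin c => Finsupp.single (Fin.castLE h i) (a i))) := by
  rw [powerIdeal, ← Set.range_comp]
  congr 2
  funext i
  exact X_pow_eq_monomial

theorem mem_powerIdeal_iff (h : c ≤ n) (a : Fin c → ℕ) {x : MvPolynomial (Fin n) K} :
    x ∈ powerIdeal K h a ↔ ∀ m ∈ x.support, ∃ i, a i ≤ m (Fin.castLE h i) := by
  rw [powerIdeal_eq, mem_ideal_span_monomial_image]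
  constructor
  · intro H m hm
    obtain ⟨_, ⟨i, rfl⟩, hi⟩ := H m hm
    exact ⟨i, Finsupp.single_le_iff.mp hi⟩
  · intro H m hm
    obtain ⟨i, hi⟩ := H m hm
    exact ⟨_, ⟨i, rfl⟩, Finsupp.single_le_iff.mpr hi⟩

theorem weight_one_eq (m : Fin n →₀ ℕ) : Finsupp.weight (1 : Fin n → ℕ) m = ∑ i, m i := by
  rw [Finsupp.weight_apply, Finsupp.sum_fintype _ _ (by simp)]
  simp

theorem isHomogeneous_iff_support {x : MvPolynomial (Fin n) K} {d : ℕ} :
    x.IsHomogeneous d ↔ ∀ m ∈ x.support, ∑ i, m i = d := by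
  constructor
  · intro H m hm
    have h1 : Finsupp.weight (1 : Fin n → ℕ) m = d := H (mem_support_iff.mp hm)
    rwa [weight_one_eq] at h1
  · intro H m hm
    show Finsupp.weight (1 : Fin n → ℕ) m = d
    rw [weight_one_eq]
    exact H m (mem_support_iff.mpr hm)

theorem homogeneousSubmodule_eq_restrict (d : ℕ) :
    homogeneousSubmodule (Fin n) K d = restrictSupport K {m : Fin n →₀ ℕ | ∑ i, m i = d} := by
  ext x
  rw [mem_homogeneousSubmodule, isHomogeneous_iff_support, mem_restrictSupport_iff]
  rfl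

theorem degPart_powerIdeal (h : c ≤ n) (a : Fin c → ℕ) (d : ℕ) :
    degPart (powerIdeal K h a) d = restrictSupport K (insideP h a d) := by
  ext x
  rw [degPart, Submodule.mem_inf, Submodule.restrictScalars_mem, mem_powerIdeal_iff,
    mem_homogeneousSubmodule, isHomogeneous_iff_support, mem_restrictSupport_iff]
  constructor
  · rintro ⟨h1, h2⟩ m hm
    exact ⟨h1 m hm, h2 m hm⟩
  · intro H
    exact ⟨fun m hm => (H hm).1, fun m hm => (H hm).2⟩

theorem finite_degree_eq (d : ℕ) : {m : Fin n →₀ ℕ | ∑ i, m i = d}.Finite := by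
  have : {m : Fin n →₀ ℕ | ∑ i, m i = d} =
      ↑((Finset.univ : Finset (Fin n)).finsuppAntidiag d) := by
    ext e
    simp [Finset.mem_finsuppAntidiag]
  rw [this]
  exact Finset.finite_toSet _

theorem finrank_restrictSupport (s : Set (Fin n →₀ ℕ)) (hs : s.Finite) :
    Module.finrank K (restrictSupport K s) = s.ncard := by
  have := hs.fintype
  rw [Module.finrank_eq_card_basis (basisRestrictSupport K s), Set.ncard_eq_toFinset_card',
    Set.toFinset_card]

theorem outside_finite (h : c ≤ n) (a : Fin c → ℕ) (d : ℕ) : (outside h a d).Finite :=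
  (finite_degree_eq d).subset fun _ hm => hm.2

theorem finrank_homogeneous_eq (h : c ≤ n) (a : Fin c → ℕ) (d : ℕ) :
    Module.finrank K (homogeneousSubmodule (Fin n) K d) =
      Module.finrank K (degPart (powerIdeal K h a) d) + (outside h a d).ncard := by
  have hin : (insideP h a d).Finite := (finite_degree_eq d).subset fun _ hm => hm.2
  rw [homogeneousSubmodule_eq_restrict, degPart_powerIdeal,
    finrank_restrictSupport _ (finite_degree_eq d), finrank_restrictSupport _ hin,
    ← Set.ncard_union_eq _ hin (outside_finite h a d)]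
  · congr 1
    ext m
    constructor
    · intro hm
      by_cases hc : ∃ i, a i ≤ m (Fin.castLE h i)
      · exact Or.inl ⟨hc, hm⟩
      · push Not at hc
        exact Or.inr ⟨hc, hm⟩
    · rintro (hm | hm)
      · exact hm.2
      · exact hm.2
  · rw [Set.disjoint_left]
    rintro m ⟨⟨i, hi⟩, -⟩ ⟨h2, -⟩
    exact absurd (h2 i) (not_lt.mpr hi)

/-- finite sets of exponents as finsets of functions -/
theorem ncard_eq_card_of_iff {s : Set (Fin n →₀ ℕ)} {t : Finset (Fin n → ℕ)}
    (H : ∀ m : Fin n →₀ ℕ, m ∈ s ↔ (m : Fin n → ℕ) ∈ t) : s.ncard = t.card := by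
  have h1 : (fun m : Fin n →₀ ℕ => (m : Fin n → ℕ)) '' s = ↑t := by
    ext x
    constructor
    · rintro ⟨m, hm, rfl⟩
      exact (H m).mp hm
    · intro hx
      refine ⟨Finsupp.equivFunOnFinite.symm x, ?_, ?_⟩
      · rw [H]
        have : ((Finsupp.equivFunOnFinite.symm x : Fin n →₀ ℕ) : Fin n → ℕ) = x := rfl
        rw [this]
        exact hx
      · rfl
  rw [← Set.ncard_image_of_injective s (DFunLike.coe_injective (F := Fin n →₀ ℕ)), h1,
    Set.ncard_coe_finset]

theorem qdim_eq (h : c ≤ n) (a : Fin c → ℕ) (I : Ideal (MvPolynomial (Fin n) K)) {N e : ℕ}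
    (hN : e < N) : qdim h a I e = (boxD (extDeg h a N) e).card - hilb I e := by
  have h1 : (outside h a e).ncard = (boxD (extDeg h a N) e).card :=
    ncard_eq_card_of_iff fun m => mem_outside_iff h a hN m
  have h2 := finrank_homogeneous_eq (K := K) h a e
  have h3 := finrank_piece_add_hilb I e
  have h4 : degPart I e = piece I e := rfl
  rw [qdim, h4, ← h1]
  omega

theorem ncard_larger (h : c ≤ n) (a : Fin c → ℕ) {N e : ℕ} (hN : e < N) (m : Fin n →₀ ℕ) :
    {e' | e' ∈ outside h a e ∧ lexGT e' m}.ncard =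
      ((boxD (extDeg h a N) e).filter fun m' => lexLT (m : Fin n → ℕ) m').card := by
  apply ncard_eq_card_of_iff
  intro x
  rw [Finset.mem_filter, Set.mem_ofPred_eq, mem_outside_iff h a hN]
  constructor
  · rintro ⟨h1, i, h2, h3⟩
    exact ⟨h1, i, fun k hk => (h3 k hk).symm, h2⟩
  · rintro ⟨h1, i, h2, h3⟩
    exact ⟨h1, i, h3, fun k hk => (h2 k hk).symm⟩

/-- exponents of the monomials in the lex-plus-powers ideal -/
def lppSet (K : Type*) [Field K] (h : c ≤ n) (a : Fin c → ℕ) (I : Ideal (MvPolynomial (Fin n) K)) :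
    Set (Fin n →₀ ℕ) :=
  {m | (∃ i, a i ≤ m (Fin.castLE h i)) ∨
    (m ∈ outside h a (∑ i, m i) ∧
      {e' | e' ∈ outside h a (∑ i, m i) ∧ lexGT e' m}.ncard < qdim h a I (∑ i, m i))}

theorem lexPlusPowers_eq (h : c ≤ n) (a : Fin c → ℕ) (I : Ideal (MvPolynomial (Fin n) K)) :
    lexPlusPowers h a I = restrictSupport K (lppSet K h a I) := by
  apply le_antisymm
  · apply iSup_le
    intro d
    apply sup_le
    · rw [degPart_powerIdeal]
      apply restrictSupport_mono
      rintro m ⟨hm, -⟩
      exact Or.inl hm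
    · rw [Submodule.span_le]
      rintro _ ⟨m, ⟨hm, hm2⟩, rfl⟩
      show monomial m (1 : K) ∈ restrictSupport K (lppSet K h a I)
      rw [monomial_mem_restrictSupport]
      left
      right
      have h1 : ∑ i, m i = d := hm.2
      rw [h1]
      exact ⟨hm, hm2⟩
  · rw [restrictSupport_eq_span, Submodule.span_le]
    rintro _ ⟨m, hm, rfl⟩
    show monomial m (1 : K) ∈ lexPlusPowers h a I
    apply Submodule.mem_iSup_of_mem (∑ i, m i)
    rcases hm with hm | hm
    · apply Submodule.mem_sup_left
      rw [degPart_powerIdeal, monomial_mem_restrictSupport]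
      exact Or.inl ⟨hm, rfl⟩
    · apply Submodule.mem_sup_right
      exact Submodule.subset_span ⟨m, hm, rfl⟩

theorem lexPlusPowers_isIdeal_of_growth (h : c ≤ n) (a : Fin c → ℕ)
    (I : Ideal (MvPolynomial (Fin n) K))
    (hgrow : ∀ d, ∃ N, d + 2 ≤ N ∧
      up (extDeg h a N) d ((boxD (extDeg h a N) d).card - hilb I d) + hilb I (d + 1) ≤
        (boxD (extDeg h a N) (d + 1)).card) :
    ∃ J : Ideal (MvPolynomial (Fin n) K), J.restrictScalars K = lexPlusPowers h a I := by
  have hup : ∀ m ∈ lppSet K h a I, ∀ i, m + Finsupp.single i 1 ∈ lppSet K h a I := by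
    intro m hm i
    by_cases hin : ∃ j, a j ≤ (m + Finsupp.single i 1 : Fin n →₀ ℕ) (Fin.castLE h j)
    · exact Or.inl hin
    · right
      have hm' : ¬ ∃ j, a j ≤ m (Fin.castLE h j) := by
        rintro ⟨j, hj⟩
        exact hin ⟨j, hj.trans (by simp)⟩
      rcases hm with hm | ⟨hm1, hm2⟩
      · exact absurd hm hm'
      · obtain ⟨N, hN, hg⟩ := hgrow (∑ i, m i)
        set d := ∑ i, m i with hd
        set A := extDeg h a N with hA
        have hsum : ∑ j, (m + Finsupp.single i 1 : Fin n →₀ ℕ) j = d + 1 := by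
          simp only [Finsupp.add_apply, Finset.sum_add_distrib]
          rw [← hd]
          congr 1
          rw [Finset.sum_eq_single i]
          · simp
          · intro j _ hj
            rw [Finsupp.single_eq_of_ne hj]
          · intro hi
            exact absurd (Finset.mem_univ i) hi
        push Not at hin
        have hout : m + Finsupp.single i 1 ∈ outside h a (d + 1) := ⟨hin, hsum⟩
        rw [hsum]
        refine ⟨hout, ?_⟩
        have h1 : (m : Fin n → ℕ) ∈ lexSeg A d ((boxD A d).card - hilb I d) := by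
          rw [lexSeg, Finset.mem_filter]
          refine ⟨(mem_outside_iff h a (by omega) m).mp hm1, ?_⟩
          rw [← qdim_eq h a I (by omega), ← ncard_larger h a (by omega)]
          exact hm2
        have hfun : ((m + Finsupp.single i 1 : Fin n →₀ ℕ) : Fin n → ℕ) =
            Function.update (m : Fin n → ℕ) i (m i + 1) := by
          funext j
          by_cases hj : j = i
          · subst hj; simp
          · rw [Function.update_of_ne hj, Finsupp.add_apply, Finsupp.single_eq_of_ne hj, add_zero]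
        have h2 : ((m + Finsupp.single i 1 : Fin n →₀ ℕ) : Fin n → ℕ) ∈
            upShadow A (lexSeg A d ((boxD A d).card - hilb I d)) := by
          rw [mem_upShadow]
          refine ⟨?_, m, h1, i, hfun⟩
          exact (mem_boxD.mp ((mem_outside_iff h a (by omega) _).mp hout)).1
        rw [upShadow_lexSeg] at h2
        have h3 := lexSeg_mono (a := A) (d := d + 1)
          (show up A d ((boxD A d).card - hilb I d) ≤ (boxD A (d + 1)).card - hilb I (d + 1) by
            omega) h2
        rw [lexSeg, Finset.mem_filter, ← qdim_eq h a I (by omega), ← ncard_larger h a (by omega)]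
          at h3
        exact h3.2
  have hupper : IsUpperSet (lppSet K h a I) := by
    intro m m' hmm' hm
    obtain ⟨x, rfl⟩ := exists_add_of_le hmm'
    clear hmm'
    revert m
    induction x using Finsupp.induction_linear with
    | zero =>
      intro m hm
      simpa using hm
    | add x y hx hy =>
      intro m hm
      rw [← add_assoc]
      exact hy (hx hm)
    | single i k =>
      induction k with
      | zero =>
        intro m hm
        simpa using hm
      | succ k ih =>
        intro m hm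
        rw [Finsupp.single_add, ← add_assoc]
        exact hup _ (ih hm) i
  exact ⟨restrictSupportIdeal K (lppSet K h a I) hupper, by
    rw [restrictScalars_restrictSupportIdeal, lexPlusPowers_eq]⟩

/-- a product of equal linear forms -/
theorem splitsLinear_pow_fin {l : MvPolynomial (Fin n) K} (hl : l.IsHomogeneous 1) (N : ℕ) :
    SplitsLinear N (l ^ N) :=
  ⟨fun _ => l, fun _ => hl, by simp⟩

/-- the degree `e` piece does not see forms of degree `> e` -/
theorem hilb_sup_span_high {I : Ideal (MvPolynomial (Fin n) K)} (hI : HomIdeal I)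
    (s : Set (MvPolynomial (Fin n) K)) {N : ℕ} (hs : ∀ f ∈ s, f.IsHomogeneous N) {e : ℕ}
    (he : e < N) : hilb (I ⊔ Ideal.span s) e = hilb I e := by
  have hcomp : ∀ v ∈ Ideal.span s, homogeneousComponent e v = 0 := by
    intro v hv
    refine Submodule.span_induction (p := fun v _ => ∀ w, homogeneousComponent e (w * v) = 0)
      ?_ ?_ ?_ ?_ hv 1 |> fun h1 => by rwa [one_mul] at h1
    · intro x hx w
      rw [mul_comm]
      exact comp_mul_of_lt (hs x hx) w he
    · intro w
      rw [mul_zero, map_zero]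
    · intro x y _ _ hx hy w
      rw [mul_add, map_add, hx, hy, add_zero]
    · intro b x _ hx w
      rw [smul_eq_mul, ← mul_assoc]
      exact hx _
  refine hilb_congr fun g hg => ⟨fun h => ?_, fun h => Ideal.mem_sup_left h⟩
  obtain ⟨i, hi, j, hj, rfl⟩ := Submodule.mem_sup.1 h
  rw [← comp_self hg, map_add, hcomp j hj, add_zero]
  exact hI _ hi _

theorem monotone_extDeg (h : c ≤ n) (a : Fin c → ℕ) (ha : Monotone a) {N : ℕ}
    (hN : ∀ i, a i ≤ N) : Monotone (extDeg h a N) := by
  intro i j hij
  have hij' : i.1 ≤ j.1 := hij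
  unfold extDeg
  by_cases hj : j.1 < c
  · have hi : i.1 < c := lt_of_le_of_lt hij' hj
    simp only [hi, hj, dif_pos]
    exact ha hij'
  · by_cases hi : i.1 < c
    · simp only [hi, hj, dif_pos, dif_neg, not_false_iff]
      exact hN _
    · simp only [hi, hj, dif_neg, not_false_iff]
      exact le_rfl

end Vale.Agent.P200F.G

end

section

namespace Vale.Agent.P200F.B

open MvPolynomial Module
open Vale.Agent.P200F.G

variable {K : Type*} [Field K] {n c : ℕ}

/-- components of the elements of an ideal, from those of the multiples of the generators -/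
theorem comp_mem_of_span {s : Set (MvPolynomial (Fin n) K)} {d : ℕ}
    {W : Submodule K (MvPolynomial (Fin n) K)}
    (H : ∀ x ∈ s, ∀ w, homogeneousComponent d (w * x) ∈ W) {v : MvPolynomial (Fin n) K}
    (hv : v ∈ Ideal.span s) : homogeneousComponent d v ∈ W := by
  refine Submodule.span_induction (p := fun v _ => ∀ w, homogeneousComponent d (w * v) ∈ W)
      ?_ ?_ ?_ ?_ hv 1 |> fun h1 => by rwa [one_mul] at h1
  · exact H
  · intro w
    rw [mul_zero, map_zero]
    exact W.zero_mem
  · intro x y _ _ hx hy w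
    rw [mul_add, map_add]
    exact W.add_mem (hx w) (hy w)
  · intro b x _ hx w
    rw [smul_eq_mul, ← mul_assoc]
    exact hx _

theorem piece_span_le {s : Set (MvPolynomial (Fin n) K)} {d : ℕ}
    {W : Submodule K (MvPolynomial (Fin n) K)}
    (H : ∀ x ∈ s, ∀ w, homogeneousComponent d (w * x) ∈ W) : piece (Ideal.span s) d ≤ W := by
  intro g hg
  rw [← comp_self hg.2]
  exact comp_mem_of_span H hg.1

end Vale.Agent.P200F.B

end

section

namespace Vale.Agent.P200F.L

open MvPolynomial Module
open Vale.Agent.P200F.B Vale.Agent.P200F.G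

variable {K L : Type*} [Field K] [Field L] [Algebra K L] {n : ℕ}

theorem mem_restrictSupport_iff {R : Type*} [CommSemiring R] {S : Set (Fin n →₀ ℕ)}
    {g : MvPolynomial (Fin n) R} :
    g ∈ restrictSupport R S ↔ ∀ m, coeff m g ≠ 0 → m ∈ S := by
  constructor
  · intro h m hm
    exact h (MvPolynomial.mem_support_iff.2 hm)
  · intro h m hm
    exact h m (MvPolynomial.mem_support_iff.1 hm)

end Vale.Agent.P200F.L

end

section

namespace Vale.Agent.P200F.M

open MvPolynomial Module
open Vale.Agent.P200F.B Vale.Agent.P200F.G Vale.Agent.P200F.L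

/-- polynomials with central variables over a division ring -/
abbrev YR (D : Type*) [DivisionRing D] (n : ℕ) : Type _ := AddMonoidAlgebra D (Fin n →₀ ℕ)

section ring
variable {D R : Type*} [DivisionRing D] [Ring R] [Module D R] [IsScalarTower D R R] {n : ℕ}

end ring

section poly
variable {D : Type*} [DivisionRing D] {n : ℕ}

/-- forms of degree `d` -/
def YD (D : Type*) [DivisionRing D] (n d : ℕ) : Submodule D (YR D n) where
  carrier := {u | ∀ m, u.coeff m ≠ 0 → ∑ i, m i = d}
  add_mem' := by
    intro a b ha hb m hm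
    by_contra h
    have h1 : a.coeff m = 0 := by
      by_contra h'
      exact h (ha m h')
    have h2 : b.coeff m = 0 := by
      by_contra h'
      exact h (hb m h')
    apply hm
    rw [AddMonoidAlgebra.coeff_add, Finsupp.add_apply, h1, h2, add_zero]
  zero_mem' := by
    intro m hm
    exact absurd (by rw [AddMonoidAlgebra.coeff_zero, Finsupp.zero_apply]) hm
  smul_mem' := by
    intro k a ha m hm
    refine ha m fun h => hm ?_
    rw [AddMonoidAlgebra.coeff_smul_apply, h, smul_zero]

/-- polynomials supported on a set of exponents -/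
def monD (D : Type*) [DivisionRing D] {n : ℕ} (M : Set (Fin n →₀ ℕ)) : Submodule D (YR D n) where
  carrier := {u | ∀ m, u.coeff m ≠ 0 → m ∈ M}
  add_mem' := by
    intro a b ha hb m hm
    by_contra h
    have h1 : a.coeff m = 0 := by
      by_contra h'
      exact h (ha m h')
    have h2 : b.coeff m = 0 := by
      by_contra h'
      exact h (hb m h')
    apply hm
    rw [AddMonoidAlgebra.coeff_add, Finsupp.add_apply, h1, h2, add_zero]
  zero_mem' := by
    intro m hm
    exact absurd (by rw [AddMonoidAlgebra.coeff_zero, Finsupp.zero_apply]) hm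
  smul_mem' := by
    intro k a ha m hm
    refine ha m fun h => hm ?_
    rw [AddMonoidAlgebra.coeff_smul_apply, h, smul_zero]

/-- the linear form with coefficients `e` -/
noncomputable def lin (e : Fin n → D) : YR D n :=
  ∑ k, AddMonoidAlgebra.single (Finsupp.single k 1) (e k)

/-- the variables -/
noncomputable def zv (D : Type*) [DivisionRing D] (n : ℕ) : Fin n → YR D n := fun k =>
  AddMonoidAlgebra.single (Finsupp.single k 1) 1

/-- extension of coefficients -/
noncomputable def bD {K : Type*} (D : Type*) [Field K] [DivisionRing D] [Algebra K D] {n : ℕ} :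
    MvPolynomial (Fin n) K →+* YR D n :=
  AddMonoidAlgebra.mapRingHom (Fin n →₀ ℕ) (algebraMap K D)

/-- the `D`-space generated by a space of polynomials -/
noncomputable def VD {K : Type*} (D : Type*) [Field K] [DivisionRing D] [Algebra K D] {n : ℕ}
    (V : Submodule K (MvPolynomial (Fin n) K)) : Submodule D (YR D n) :=
  Submodule.span D (bD D '' (V : Set (MvPolynomial (Fin n) K)))

/-- the weight used in the degenerations: the last variable is the heaviest -/
def wt (B : ℕ) (m : Fin n →₀ ℕ) : ℕ := ∑ i, m i * B ^ (i : ℕ)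

/-- lowest monomials of a space of forms -/
def inm (B : ℕ) (V : Submodule D (YR D n)) : Set (Fin n →₀ ℕ) :=
  {m | ∃ u ∈ V, u.coeff m ≠ 0 ∧ ∀ m', wt B m' < wt B m → u.coeff m' = 0}

end poly

end Vale.Agent.P200F.M

end

section

namespace Vale.Agent.P200F.M

open MvPolynomial Module
open Vale.Agent.P200F.B Vale.Agent.P200F.G Vale.Agent.P200F.L

variable {D : Type*} [DivisionRing D] {n : ℕ}

/-- the monomials in the forms `ξ_i` -/
noncomputable def xim (E : Fin n → Fin n → D) (m : Fin n →₀ ℕ) : YR D n :=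
  (List.ofFn fun i => lin (E i) ^ m i).prod

/-- `z ^ m ↦ ξ ^ m`, left linear -/
noncomputable def theta (E : Fin n → Fin n → D) : YR D n →ₗ[D] YR D n where
  toFun u := Finsupp.linearCombination D (xim E) u.coeff
  map_add' := fun u v => by rw [AddMonoidAlgebra.coeff_add, map_add]
  map_smul' := fun c u => by
    rw [AddMonoidAlgebra.coeff_smul, map_smul, RingHom.id_apply]

theorem theta_apply (E : Fin n → Fin n → D) (u : YR D n) :
    theta E u = Finsupp.linearCombination D (xim E) u.coeff := rfl

theorem theta_single (E : Fin n → Fin n → D) (m : Fin n →₀ ℕ) (c : D) :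
    theta E (AddMonoidAlgebra.single m c) = c • xim E m := by
  rw [theta_apply, AddMonoidAlgebra.coeff_single, Finsupp.linearCombination_single]

theorem m4_single_mem {d : ℕ} {m : Fin n →₀ ℕ} (hm : ∑ i, m i = d) (c : D) :
    (AddMonoidAlgebra.single m c : YR D n) ∈ YD D n d := by
  intro m' hm'
  rw [AddMonoidAlgebra.coeff_single, Finsupp.single_apply] at hm'
  by_cases h : m = m'
  · rw [← h]
    exact hm
  · rw [if_neg h] at hm'
    exact absurd rfl hm'

theorem m4_deg_single (k : Fin n) : ∑ i, (Finsupp.single k 1 : Fin n →₀ ℕ) i = 1 := by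
  classical
  simp only [Finsupp.single_apply]
  simp

theorem m4_deg_add (a b : Fin n →₀ ℕ) : ∑ i, (a + b) i = ∑ i, a i + ∑ i, b i := by
  simp only [Finsupp.add_apply, Finset.sum_add_distrib]

theorem m4_sum_single (u : YR D n) :
    u = ∑ m ∈ u.coeff.support, AddMonoidAlgebra.single m (u.coeff m) :=
  (AddMonoidAlgebra.sum_coeff_single u).symm

theorem lin_mem (e : Fin n → D) : lin e ∈ YD D n 1 :=
  Submodule.sum_mem _ fun k _ => m4_single_mem (m4_deg_single k) _

theorem mul_mem_YD {a b : ℕ} {u v : YR D n} (hu : u ∈ YD D n a) (hv : v ∈ YD D n b) :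
    u * v ∈ YD D n (a + b) := by
  rw [AddMonoidAlgebra.mul_def]
  refine Submodule.sum_mem _ fun m₁ h₁ => Submodule.sum_mem _ fun m₂ h₂ => ?_
  refine m4_single_mem ?_ _
  rw [m4_deg_add, hu m₁ (Finsupp.mem_support_iff.1 h₁), hv m₂ (Finsupp.mem_support_iff.1 h₂)]

theorem m4_one_mem : (1 : YR D n) ∈ YD D n 0 := by
  rw [AddMonoidAlgebra.one_def]
  exact m4_single_mem (by simp) _

theorem m4_pow_mem {a : ℕ} {u : YR D n} (hu : u ∈ YD D n a) (k : ℕ) :
    u ^ k ∈ YD D n (k * a) := by
  induction k with
  | zero =>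
    rw [pow_zero, Nat.zero_mul]
    exact m4_one_mem
  | succ k ih =>
    rw [pow_succ, Nat.succ_mul]
    exact mul_mem_YD ih hu

theorem m4_prod_mem : ∀ (k : ℕ) (f : Fin k → YR D n) (a : Fin k → ℕ),
    (∀ i, f i ∈ YD D n (a i)) → (List.ofFn f).prod ∈ YD D n (∑ i, a i) := by
  intro k
  induction k with
  | zero =>
    intro f a _
    rw [List.ofFn_zero, List.prod_nil, Fin.sum_univ_zero]
    exact m4_one_mem
  | succ k ih =>
    intro f a h
    rw [List.ofFn_succ, List.prod_cons, Fin.sum_univ_succ]
    exact mul_mem_YD (h 0) (ih _ _ fun i => h i.succ)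

theorem xim_mem (E : Fin n → Fin n → D) (m : Fin n →₀ ℕ) : xim E m ∈ YD D n (∑ i, m i) := by
  refine m4_prod_mem n _ (fun i => m i) fun i => ?_
  have h := m4_pow_mem (lin_mem (E i)) (m i)
  rwa [Nat.mul_one] at h

theorem theta_mem (E : Fin n → Fin n → D) {d : ℕ} {u : YR D n} (hu : u ∈ YD D n d) :
    theta E u ∈ YD D n d := by
  rw [theta_apply, Finsupp.linearCombination_apply]
  refine Submodule.sum_mem _ fun m hm => Submodule.smul_mem _ _ ?_
  have h := xim_mem E m
  rwa [hu m (Finsupp.mem_support_iff.1 hm)] at h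

theorem m4_prod_ofFn {R : Type*} [Monoid R] (x : R) : ∀ (k : ℕ) (f g : Fin k → R) (i : Fin k),
    (∀ j, j ≠ i → g j = f j) → g i = f i * x → (∀ j, f j * x = x * f j) →
    (List.ofFn g).prod = (List.ofFn f).prod * x := by
  intro k
  induction k with
  | zero =>
    intro f g i
    exact i.elim0
  | succ k ih =>
    intro f g i hne heq hcomm
    rw [List.ofFn_succ, List.ofFn_succ, List.prod_cons, List.prod_cons]
    rcases Fin.eq_zero_or_eq_succ i with h | ⟨i', h⟩
    · subst h
      have h1 : (fun j : Fin k => g j.succ) = fun j => f j.succ := by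
        funext j
        exact hne _ (Fin.succ_ne_zero j)
      have h2 : Commute (List.ofFn fun j : Fin k => f j.succ).prod x := by
        apply Commute.list_prod_left
        intro y hy
        rw [List.mem_ofFn] at hy
        obtain ⟨j, rfl⟩ := hy
        exact hcomm _
      rw [h1, heq, mul_assoc, mul_assoc, h2.eq]
    · subst h
      rw [hne 0 (Fin.succ_ne_zero i').symm, ih (fun j => f j.succ) (fun j => g j.succ) i'
        (fun j hj => hne _ fun h => hj (Fin.succ_injective _ h)) heq (fun j => hcomm _), mul_assoc]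

theorem m4_xim_zero (E : Fin n → Fin n → D) : xim E 0 = 1 := by
  unfold xim
  apply List.prod_eq_one
  intro y hy
  rw [List.mem_ofFn] at hy
  obtain ⟨j, rfl⟩ := hy
  rw [Finsupp.zero_apply, pow_zero]

/-- the variables are combinations of the forms `ξ_i` -/
theorem m4_zv_eq (E : Fin n → Fin n → D) (hind : LinearIndependent D E) (k : Fin n) :
    ∃ c : Fin n → D, ∀ (m : Fin n →₀ ℕ) (a : D),
      (AddMonoidAlgebra.single m a : YR D n) * zv D n k =
        ∑ i, AddMonoidAlgebra.single m (a * c i) * lin (E i) := by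
  classical
  have hspan : Submodule.span D (Set.range E) = ⊤ :=
    hind.span_eq_top_of_card_eq_finrank' (by rw [Module.finrank_fin_fun, Fintype.card_fin])
  have hk : (Pi.single k 1 : Fin n → D) ∈ Submodule.span D (Set.range E) := by
    rw [hspan]
    exact Submodule.mem_top
  rw [Submodule.mem_span_range_iff_exists_fun] at hk
  obtain ⟨c, hc⟩ := hk
  refine ⟨c, fun m a => ?_⟩
  have h1 : ∀ l, ∑ i, c i * E i l = if l = k then 1 else 0 := by
    intro l
    have h2 := congrFun hc l
    rw [Finset.sum_apply, Pi.single_apply] at h2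
    exact h2
  have h3 : ∀ i, (AddMonoidAlgebra.single m (a * c i) : YR D n) * lin (E i) =
      ∑ l, AddMonoidAlgebra.single (m + Finsupp.single l 1) (a * (c i * E i l)) := by
    intro i
    unfold lin
    rw [Finset.mul_sum]
    refine Finset.sum_congr rfl fun l _ => ?_
    rw [AddMonoidAlgebra.single_mul_single, mul_assoc]
  rw [Finset.sum_congr rfl fun i _ => h3 i, Finset.sum_comm]
  have h4 : ∀ l, ∑ i, (AddMonoidAlgebra.single (m + Finsupp.single l 1) (a * (c i * E i l)) :
      YR D n) = AddMonoidAlgebra.single (m + Finsupp.single l 1) (if l = k then a else 0) := by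
    intro l
    have h5 : (if l = k then a else 0) = ∑ i, a * (c i * E i l) := by
      rw [← Finset.mul_sum, h1]
      split_ifs
      · rw [mul_one]
      · rw [mul_zero]
    rw [h5]
    exact (map_sum (AddMonoidAlgebra.singleAddHom (m + Finsupp.single l 1)) _ _).symm
  rw [Finset.sum_congr rfl fun l _ => h4 l]
  rw [Finset.sum_eq_single k]
  · rw [if_pos rfl]
    unfold zv
    rw [AddMonoidAlgebra.single_mul_single, mul_one]
  · intro l _ hl
    rw [if_neg hl, AddMonoidAlgebra.single_zero]
  · intro h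
    exact absurd (Finset.mem_univ k) h

theorem m4_zv_mem (k : Fin n) : zv D n k ∈ YD D n 1 := m4_single_mem (m4_deg_single k) _

/-- polynomials of degree at most `N` -/
def m4W (D : Type*) [DivisionRing D] (n N : ℕ) : Submodule D (YR D n) where
  carrier := {u | ∀ m, u.coeff m ≠ 0 → ∑ i, m i ≤ N}
  add_mem' := by
    intro a b ha hb m hm
    by_contra h
    have h1 : a.coeff m = 0 := by
      by_contra h'
      exact h (ha m h')
    have h2 : b.coeff m = 0 := by
      by_contra h'
      exact h (hb m h')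
    apply hm
    rw [AddMonoidAlgebra.coeff_add, Finsupp.add_apply, h1, h2, add_zero]
  zero_mem' := by
    intro m hm
    exact absurd (by rw [AddMonoidAlgebra.coeff_zero, Finsupp.zero_apply]) hm
  smul_mem' := by
    intro k a ha m hm
    refine ha m fun h => hm ?_
    rw [AddMonoidAlgebra.coeff_smul_apply, h, smul_zero]

theorem m4_YD_le {d N : ℕ} (h : d ≤ N) : YD D n d ≤ m4W D n N := by
  intro u hu m hm
  rw [hu m hm]
  exact h

theorem m4_exists_W (u : YR D n) : ∃ N, u ∈ m4W D n N := by
  refine ⟨∑ m ∈ u.coeff.support, ∑ i, m i, fun m hm => ?_⟩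
  exact Finset.single_le_sum (f := fun m : Fin n →₀ ℕ => ∑ i, m i) (fun _ _ => Nat.zero_le _)
    (Finsupp.mem_support_iff.2 hm)

theorem m4_finite_W (N : ℕ) : Module.Finite D (m4W D n N) := by
  have hfin : {m : Fin n →₀ ℕ | ∑ i, m i ≤ N}.Finite := by
    refine (Set.finite_Iic (Finsupp.equivFunOnFinite.symm fun _ => N)).subset fun m hm i => ?_
    refine le_trans ?_ hm
    exact Finset.single_le_sum (f := fun i => m i) (fun _ _ => Nat.zero_le _) (Finset.mem_univ i)
  have hspan : m4W D n N ≤ Submodule.span D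
      ((fun m : Fin n →₀ ℕ => (AddMonoidAlgebra.single m 1 : YR D n)) ''
        {m : Fin n →₀ ℕ | ∑ i, m i ≤ N}) := by
    intro u hu
    rw [m4_sum_single u]
    refine Submodule.sum_mem _ fun m hm => ?_
    have h1 : (AddMonoidAlgebra.single m (u.coeff m) : YR D n) =
        u.coeff m • AddMonoidAlgebra.single m 1 := by
      rw [AddMonoidAlgebra.smul_single', mul_one]
    rw [h1]
    refine Submodule.smul_mem _ _ (Submodule.subset_span ⟨m, ?_, rfl⟩)
    exact hu m (Finsupp.mem_support_iff.1 hm)
  have hf := FiniteDimensional.span_of_finite D (hfin.image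
    (fun m : Fin n →₀ ℕ => (AddMonoidAlgebra.single m 1 : YR D n)))
  exact Submodule.finiteDimensional_of_le hspan

end Vale.Agent.P200F.M

end

section

namespace Vale.Agent.P200F.M

open MvPolynomial Module
open Vale.Agent.P200F.B Vale.Agent.P200F.G Vale.Agent.P200F.L

variable {K D : Type*} [Field K] [DivisionRing D] [Algebra K D] {n : ℕ}

theorem bD_coeff (v : MvPolynomial (Fin n) K) (m : Fin n →₀ ℕ) :
    (bD D v).coeff m = algebraMap K D (MvPolynomial.coeff m v) :=
  AddMonoidAlgebra.coeff_mapRingHom _ _ _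

theorem bD_smul (k : K) (v : MvPolynomial (Fin n) K) :
    bD D (k • v) = algebraMap K D k • bD D v := by
  ext m
  rw [bD_coeff, AddMonoidAlgebra.coeff_smul_apply, bD_coeff, MvPolynomial.coeff_smul, smul_eq_mul,
    smul_eq_mul, map_mul]

theorem bD_monomial (m : Fin n →₀ ℕ) (a : K) :
    bD D (monomial m a : MvPolynomial (Fin n) K) =
      AddMonoidAlgebra.single m (algebraMap K D a) :=
  AddMonoidAlgebra.mapRingHom_single _ _ _

theorem bD_X (i : Fin n) : bD D (X i : MvPolynomial (Fin n) K) = zv D n i := by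
  have h : bD D (X i : MvPolynomial (Fin n) K) =
      AddMonoidAlgebra.single (Finsupp.single i 1) (algebraMap K D 1) := bD_monomial _ _
  rw [h, map_one]
  rfl

/-- apply a linear functional to all coefficients -/
noncomputable def m1c (φ : D →ₗ[K] K) (u : YR D n) : MvPolynomial (Fin n) K :=
  AddMonoidAlgebra.map φ.toAddMonoidHom u

theorem m1c_coeff (φ : D →ₗ[K] K) (u : YR D n) (m : Fin n →₀ ℕ) :
    MvPolynomial.coeff m (m1c φ u) = φ (u.coeff m) := rfl

theorem m1c_zero (φ : D →ₗ[K] K) : m1c φ (0 : YR D n) = 0 := AddMonoidAlgebra.map_zero _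

theorem m1c_add (φ : D →ₗ[K] K) (u v : YR D n) : m1c φ (u + v) = m1c φ u + m1c φ v :=
  AddMonoidAlgebra.map_add _ _ _

theorem m1c_sum {ι : Type*} (φ : D →ₗ[K] K) (s : Finset ι) (u : ι → YR D n) :
    m1c φ (∑ i ∈ s, u i) = ∑ i ∈ s, m1c φ (u i) :=
  AddMonoidAlgebra.map_sum _ _ _

theorem m1c_smul_bD (φ : D →ₗ[K] K) (c : D) (v : MvPolynomial (Fin n) K) :
    m1c φ (c • bD D v) = φ c • v := by
  refine MvPolynomial.ext _ _ fun m => ?_
  rw [m1c_coeff, AddMonoidAlgebra.coeff_smul_apply, bD_coeff, MvPolynomial.coeff_smul, smul_eq_mul,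
    smul_eq_mul, ← Algebra.commutes, ← Algebra.smul_def, map_smul, smul_eq_mul, mul_comm]

theorem m1c_smul (φ : D →ₗ[K] K) (c : D) (u : YR D n) :
    m1c φ (c • u) = m1c (φ ∘ₗ LinearMap.mulLeft K c) u := by
  refine MvPolynomial.ext _ _ fun m => ?_
  rw [m1c_coeff, m1c_coeff, AddMonoidAlgebra.coeff_smul_apply]
  rfl

theorem m1c_mul_bD (φ : D →ₗ[K] K) (u : YR D n) (v : MvPolynomial (Fin n) K) :
    m1c φ (u * bD D v) = m1c φ u * v := by
  induction u using AddMonoidAlgebra.induction_linear with
  | zero => rw [zero_mul, m1c_zero, zero_mul]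
  | add a b ha hb => rw [add_mul, m1c_add, ha, hb, m1c_add, add_mul]
  | single m c =>
    induction v using MvPolynomial.induction_on' with
    | add p q hp hq => rw [map_add, mul_add, m1c_add, hp, hq, mul_add]
    | monomial m' a =>
      have h1 : ∀ (k : Fin n →₀ ℕ) (c : D), m1c φ (AddMonoidAlgebra.single k c : YR D n) =
          monomial k (φ c) := fun k c => AddMonoidAlgebra.map_single _ _ _
      rw [bD_monomial, AddMonoidAlgebra.single_mul_single, h1, h1, monomial_mul, ←
        Algebra.commutes, ← Algebra.smul_def, map_smul, smul_eq_mul, mul_comm]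

/-- expansion in a basis, for all large finite sets -/
theorem m1c_expand {ι : Type*} (B : Module.Basis ι K D) (u : YR D n) :
    ∃ T : Finset ι, ∀ T' : Finset ι, T ⊆ T' →
      u = ∑ α ∈ T', B α • bD D (m1c (B.coord α) u) := by
  classical
  refine ⟨u.coeff.support.biUnion fun m => (B.repr (u.coeff m)).support, ?_⟩
  intro T' hT'
  ext m
  rw [AddMonoidAlgebra.coeff_sum, Finsupp.finsetSum_apply]
  have h1 : ∀ α, (B α • bD D (m1c (B.coord α) u)).coeff m = (B.repr (u.coeff m) α) • B α := by
    intro α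
    rw [AddMonoidAlgebra.coeff_smul_apply, bD_coeff, m1c_coeff, smul_eq_mul, ← Algebra.commutes,
      ← Algebra.smul_def, Module.Basis.coord_apply]
  rw [Finset.sum_congr rfl fun α _ => h1 α]
  by_cases hm : m ∈ u.coeff.support
  · conv_lhs => rw [← B.linearCombination_repr (u.coeff m), Finsupp.linearCombination_apply,
      Finsupp.sum]
    refine Finset.sum_subset ((Finset.subset_biUnion_of_mem
      (fun m => (B.repr (u.coeff m)).support) hm).trans hT') fun α _ hα => ?_
    rw [Finsupp.notMem_support_iff.1 hα, zero_smul]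
  · rw [Finsupp.notMem_support_iff.1 hm, map_zero]
    simp

theorem m1c_mem {V : Submodule K (MvPolynomial (Fin n) K)} {u : YR D n} (hu : u ∈ VD D V) :
    ∀ l : D →ₗ[K] K, m1c l u ∈ V := by
  unfold VD at hu
  induction hu using Submodule.span_induction with
  | mem x hx =>
    obtain ⟨v, hv, rfl⟩ := hx
    intro l
    have h := m1c_smul_bD l (1 : D) v
    rw [one_smul] at h
    rw [h]
    exact V.smul_mem _ hv
  | zero =>
    intro l
    rw [m1c_zero]
    exact V.zero_mem
  | add x y _ _ hx hy =>
    intro l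
    rw [m1c_add]
    exact V.add_mem (hx l) (hy l)
  | smul c x _ hx =>
    intro l
    rw [m1c_smul]
    exact hx _

theorem mem_VD_of_m1c {ι : Type*} (B : Module.Basis ι K D)
    {V : Submodule K (MvPolynomial (Fin n) K)} {u : YR D n}
    (h : ∀ α, m1c (B.coord α) u ∈ V) : u ∈ VD D V := by
  obtain ⟨T, hT⟩ := m1c_expand B u
  rw [hT T (Finset.Subset.refl T)]
  exact Submodule.sum_mem _ fun α _ => Submodule.smul_mem _ _
    (Submodule.subset_span ⟨_, h α, rfl⟩)

theorem mem_VD_iff_m1c {V : Submodule K (MvPolynomial (Fin n) K)} {u : YR D n} :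
    u ∈ VD D V ↔ ∀ l : D →ₗ[K] K, m1c l u ∈ V :=
  ⟨m1c_mem, fun h => mem_VD_of_m1c (Module.Basis.ofVectorSpace K D) fun _ => h _⟩

theorem mul_single_mem_VD (V : Submodule K (MvPolynomial (Fin n) K)) {u : YR D n}
    (hu : u ∈ VD D V) (c : D) : u * AddMonoidAlgebra.single 0 c ∈ VD D V := by
  rw [mem_VD_iff_m1c] at hu ⊢
  intro l
  have h1 : m1c l (u * AddMonoidAlgebra.single 0 c) = m1c (l ∘ₗ LinearMap.mulRight K c) u := by
    refine MvPolynomial.ext _ _ fun m => ?_
    rw [m1c_coeff, m1c_coeff, AddMonoidAlgebra.coeff_mul_single_zero]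
    rfl
  rw [h1]
  exact hu _

theorem VD_mono {V W : Submodule K (MvPolynomial (Fin n) K)} (h : V ≤ W) :
    VD D V ≤ VD D W :=
  Submodule.span_mono (Set.image_mono h)

theorem functionals_separate {c : D} (h : ∀ φ : D →ₗ[K] K, φ c = 0) : c = 0 := by
  have B := Module.Basis.ofVectorSpace K D
  apply B.ext_elem
  intro α
  rw [map_zero, Finsupp.zero_apply]
  exact h (B.coord α)

theorem VD_eq_span {ι : Type*} [Fintype ι] (V : Submodule K (MvPolynomial (Fin n) K))
    (b : Module.Basis ι K V) :
    VD D V = Submodule.span D (Set.range fun i =>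
      bD D (b i : MvPolynomial (Fin n) K)) := by
  apply le_antisymm
  · unfold VD
    rw [Submodule.span_le]
    rintro _ ⟨v, hv, rfl⟩
    have h4 := congrArg V.subtype (b.sum_repr ⟨v, hv⟩)
    rw [map_sum] at h4
    have h5 : v = ∑ i, b.repr ⟨v, hv⟩ i • (b i : MvPolynomial (Fin n) K) := h4.symm
    have h6 : bD D v = ∑ i, algebraMap K D (b.repr ⟨v, hv⟩ i) •
        bD D (b i : MvPolynomial (Fin n) K) := by
      conv_lhs => rw [h5]
      rw [map_sum]
      exact Finset.sum_congr rfl fun i _ => bD_smul _ _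
    rw [h6]
    exact Submodule.sum_mem _ fun i _ => Submodule.smul_mem _ _
      (Submodule.subset_span ⟨i, rfl⟩)
  · rw [Submodule.span_le]
    rintro _ ⟨i, rfl⟩
    exact Submodule.subset_span ⟨_, (b i).2, rfl⟩

theorem finrank_VD (V : Submodule K (MvPolynomial (Fin n) K)) [Module.Finite K V] :
    finrank D (VD D V) = finrank K V := by
  classical
  let b := Module.finBasis K V
  have hb : LinearIndependent K (fun i => (b i : MvPolynomial (Fin n) K)) :=
    b.linearIndependent.map' V.subtype V.ker_subtype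
  have hw : LinearIndependent D (fun i => bD D (b i : MvPolynomial (Fin n) K)) := by
    rw [Fintype.linearIndependent_iff]
    intro c hc i
    refine functionals_separate (K := K) fun φ => ?_
    have h3 : ∑ i, φ (c i) • (b i : MvPolynomial (Fin n) K) = 0 := by
      have h2 := congrArg (m1c φ) hc
      rw [m1c_sum, m1c_zero] at h2
      rw [← h2]
      exact Finset.sum_congr rfl fun i _ => (m1c_smul_bD _ _ _).symm
    exact Fintype.linearIndependent_iff.1 hb _ h3 i
  rw [VD_eq_span V b, finrank_span_eq_card hw, Fintype.card_fin]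

theorem isHomogeneous_iff_sum {v : MvPolynomial (Fin n) K} {d : ℕ} :
    v.IsHomogeneous d ↔ ∀ m, MvPolynomial.coeff m v ≠ 0 → ∑ i, m i = d := by
  have h1 : ∀ m : Fin n →₀ ℕ, Finsupp.weight (1 : Fin n → ℕ) m = ∑ i, m i := by
    intro m
    have h2 := congrArg (fun f : (Fin n →₀ ℕ) →+ ℕ => f m)
      (Finsupp.degree_eq_weight_one (σ := Fin n) (R := ℕ))
    exact h2.symm.trans (Finsupp.degree_eq_sum m)
  constructor
  · intro h m hm
    rw [← h1]
    exact h hm
  · intro h m hm
    rw [h1]
    exact h m hm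

theorem VD_homogeneous (d : ℕ) : VD D (homogeneousSubmodule (Fin n) K d) = YD D n d := by
  ext u
  rw [mem_VD_iff_m1c]
  constructor
  · intro h m hm
    by_contra hM
    refine hm (functionals_separate (K := K) fun φ => ?_)
    by_contra hφ
    refine hM ((isHomogeneous_iff_sum.1 (h φ)) m ?_)
    rw [m1c_coeff]
    exact hφ
  · intro h l
    show (m1c l u).IsHomogeneous d
    rw [isHomogeneous_iff_sum]
    intro m hm
    rw [m1c_coeff] at hm
    refine h m fun h0 => hm ?_
    rw [h0, map_zero]

instance finite_YD (d : ℕ) : Module.Finite D (YD D n d) := by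
  classical
  let f : YD D n d →ₗ[D] (Finset.finsuppAntidiag (Finset.univ : Finset (Fin n)) d → D) :=
    { toFun := fun u m => (u : YR D n).coeff m.1
      map_add' := fun u v => rfl
      map_smul' := fun c u => rfl }
  refine Module.Finite.of_injective f fun u v huv => ?_
  apply Subtype.ext
  ext m
  by_cases hm : ∑ i, m i = d
  · have hm' : m ∈ Finset.finsuppAntidiag (Finset.univ : Finset (Fin n)) d :=
      Finset.mem_finsuppAntidiag.2 ⟨hm, Finset.subset_univ _⟩
    exact congrFun huv ⟨m, hm'⟩
  · have h1 : ∀ w : YD D n d, (w : YR D n).coeff m = 0 := by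
      intro w
      by_contra h
      exact hm (w.2 m h)
    rw [h1, h1]

end Vale.Agent.P200F.M

end

section

namespace Vale.Agent.P200F.M

open MvPolynomial Module
open Vale.Agent.P200F.B Vale.Agent.P200F.G Vale.Agent.P200F.L

variable {D : Type*} [DivisionRing D] {n : ℕ}

section cut
variable {M W : Type*} [AddCommGroup M] [Module D M] [AddCommGroup W] [Module D W]

/-- the part of `C` killed by `π 0, …, π (i - 1)` -/
def degCut (C : Submodule D M) (π : ℕ → M →ₗ[D] W) (i : ℕ) : Submodule D M where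
  carrier := {F | F ∈ C ∧ ∀ j < i, π j F = 0}
  add_mem' := by
    rintro a b ⟨ha, ha'⟩ ⟨hb, hb'⟩
    refine ⟨C.add_mem ha hb, fun j hj => ?_⟩
    rw [map_add, ha' j hj, hb' j hj, add_zero]
  zero_mem' := ⟨C.zero_mem, fun j _ => map_zero _⟩
  smul_mem' := by
    rintro k a ⟨ha, ha'⟩
    refine ⟨C.smul_mem k ha, fun j hj => ?_⟩
    rw [map_smul, ha' j hj, smul_zero]

theorem mem_degCut {C : Submodule D M} {π : ℕ → M →ₗ[D] W} {i : ℕ} {F : M} :
    F ∈ degCut C π i ↔ F ∈ C ∧ ∀ j < i, π j F = 0 := Iff.rfl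

theorem degCut_succ (C : Submodule D M) (π : ℕ → M →ₗ[D] W) (i : ℕ) :
    degCut C π (i + 1) = degCut C π i ⊓ LinearMap.ker (π i) := by
  ext F
  rw [Submodule.mem_inf, mem_degCut, mem_degCut, LinearMap.mem_ker]
  constructor
  · rintro ⟨h1, h2⟩
    exact ⟨⟨h1, fun j hj => h2 j (by omega)⟩, h2 i (by omega)⟩
  · rintro ⟨⟨h1, h2⟩, h3⟩
    refine ⟨h1, fun j hj => ?_⟩
    rcases Nat.lt_succ_iff_lt_or_eq.1 hj with h | h
    · exact h2 j h
    · rw [h]
      exact h3

theorem degCut_le (C : Submodule D M) (π : ℕ → M →ₗ[D] W) (i : ℕ) : degCut C π i ≤ C :=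
  fun _ h => h.1

theorem degCut_zero (C : Submodule D M) (π : ℕ → M →ₗ[D] W) : degCut C π 0 = C :=
  le_antisymm (degCut_le C π 0) fun _ h => ⟨h, fun _ hj => absurd hj (Nat.not_lt_zero _)⟩

theorem deg_finrank_map_add (C : Submodule D M) [Module.Finite D C] (f : M →ₗ[D] W) :
    finrank D (C.map f) + finrank D (C ⊓ LinearMap.ker f : Submodule D M) = finrank D C := by
  have h := LinearMap.finrank_range_add_finrank_ker (f.domRestrict C)
  rw [LinearMap.range_domRestrict] at h
  rw [← h]
  congr 1
  have h2 : (LinearMap.ker (f.domRestrict C)).map C.subtype = C ⊓ LinearMap.ker f := by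
    rw [LinearMap.ker_domRestrict, Submodule.map_comap_subtype]
  rw [← h2]
  exact (LinearEquiv.finrank_eq (Submodule.equivSubtypeMap C _)).symm

theorem finrank_degCut (C : Submodule D M) (π : ℕ → M →ₗ[D] W) [Module.Finite D C] (N : ℕ) :
    finrank D C = ∑ i ∈ Finset.range N, finrank D ((degCut C π i).map (π i)) +
      finrank D (degCut C π N) := by
  induction N with
  | zero => rw [Finset.sum_range_zero, zero_add, degCut_zero]
  | succ N ih =>
    have h0 : Module.Finite D (degCut C π N) :=
      Submodule.finiteDimensional_of_le (degCut_le C π N)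
    rw [ih, Finset.sum_range_succ, degCut_succ, add_assoc, deg_finrank_map_add]

theorem finrank_le_of_degCut (U W' : Submodule D M) (π : ℕ → M →ₗ[D] W) [Module.Finite D U]
    [Module.Finite D W'] (N : ℕ) (hN : degCut U π N = ⊥)
    (h : ∀ i, (degCut U π i).map (π i) ≤ (degCut W' π i).map (π i)) :
    finrank D U ≤ finrank D W' := by
  rw [finrank_degCut U π N, finrank_degCut W' π N, hN, finrank_bot, add_zero]
  refine le_trans (Finset.sum_le_sum fun i _ => ?_) (Nat.le_add_right _ _)
  have h0 : Module.Finite D (degCut W' π i) := Submodule.finiteDimensional_of_le (degCut_le W' π i)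
  have h1 : Module.Finite D ((degCut W' π i).map (π i)) := inferInstance
  exact Submodule.finrank_mono (h i)

end cut

theorem deg_digits {B : ℕ} {n : ℕ} (f g : Fin n → ℕ) (hf : ∀ i, f i < B) (hg : ∀ i, g i < B)
    (h : ∑ i, f i * B ^ (i : ℕ) = ∑ i, g i * B ^ (i : ℕ)) : f = g := by
  induction n with
  | zero => exact Subsingleton.elim _ _
  | succ n ih =>
    have key : ∀ f : Fin (n + 1) → ℕ, ∑ i, f i * B ^ (i : ℕ) =
        f 0 + B * ∑ i : Fin n, f i.succ * B ^ (i : ℕ) := by
      intro f
      rw [Fin.sum_univ_succ, Finset.mul_sum]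
      congr 1
      · simp
      · refine Finset.sum_congr rfl fun i _ => ?_
        rw [Fin.val_succ, pow_succ]
        ring
    rw [key, key] at h
    have h0 : f 0 = g 0 := by
      have := congrArg (· % B) h
      simpa [Nat.add_mul_mod_self_left, Nat.mod_eq_of_lt (hf 0), Nat.mod_eq_of_lt (hg 0)] using this
    have hB : 0 < B := lt_of_le_of_lt (Nat.zero_le _) (hf 0)
    rw [h0] at h
    have h1 := Nat.eq_of_mul_eq_mul_left hB (Nat.add_left_cancel h)
    have h2 := ih (fun i => f i.succ) (fun i => g i.succ) (fun i => hf _) (fun i => hg _) h1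
    funext i
    refine Fin.cases h0 (fun j => ?_) i
    exact congrFun h2 j

theorem deg_le_sum (m : Fin n →₀ ℕ) (i : Fin n) : m i ≤ ∑ i, m i :=
  Finset.single_le_sum (f := fun i => m i) (fun _ _ => Nat.zero_le _) (Finset.mem_univ i)

theorem wt_injOn {B e : ℕ} (hB : e < B) {m m' : Fin n →₀ ℕ} (hm : ∑ i, m i = e)
    (hm' : ∑ i, m' i = e) (h : wt B m = wt B m') : m = m' := by
  apply DFunLike.coe_injective
  exact deg_digits _ _ (fun i => lt_of_le_of_lt (deg_le_sum m i) (by omega))
    (fun i => lt_of_le_of_lt (deg_le_sum m' i) (by omega)) h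

theorem inm_subset {B e : ℕ} {V : Submodule D (YR D n)} (hV : V ≤ YD D n e) {m : Fin n →₀ ℕ}
    (hm : m ∈ inm B V) : ∑ i, m i = e := by
  obtain ⟨u, hu, h, -⟩ := hm
  exact hV hu m h

theorem deg_finite (n e : ℕ) : {m : Fin n →₀ ℕ | ∑ i, m i = e}.Finite := by
  refine Set.Finite.subset (Set.Finite.preimage (f := fun m : Fin n →₀ ℕ => (m : Fin n → ℕ))
    (DFunLike.coe_injective.injOn) (Set.Finite.pi' (t := fun _ : Fin n => Set.Iic e)
      fun _ => Set.finite_Iic e)) ?_
  intro m hm
  change ∀ i, m i ≤ e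
  intro i
  have h : ∑ i, m i = e := hm
  rw [← h]
  exact deg_le_sum m i

theorem monD_eq_supported (M : Set (Fin n →₀ ℕ)) :
    monD D M = AddMonoidAlgebra.supported D D M := by
  ext u
  rw [AddMonoidAlgebra.mem_supported']
  constructor
  · intro h m hm
    by_contra h0
    exact hm (h m h0)
  · intro h m hm
    by_contra h0
    exact hm (h m h0)

theorem finrank_monD {e : ℕ} (M : Set (Fin n →₀ ℕ)) (hM : ∀ m ∈ M, ∑ i, m i = e) :
    finrank D (monD D M) = M.ncard := by
  have hf : M.Finite := (deg_finite n e).subset hM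
  have h1 := hf.fintype
  rw [monD_eq_supported, LinearEquiv.finrank_eq (AddMonoidAlgebra.supportedEquivFinsupp M),
    Module.finrank_finsupp_self, Set.ncard_eq_toFinset_card', Set.toFinset_card]

theorem finite_monD {e : ℕ} (M : Set (Fin n →₀ ℕ)) (hM : ∀ m ∈ M, ∑ i, m i = e) :
    Module.Finite D (monD D M) := by
  have hf : M.Finite := (deg_finite n e).subset hM
  have h1 := hf.fintype
  rw [monD_eq_supported]
  exact Module.Finite.equiv (AddMonoidAlgebra.supportedEquivFinsupp (R := D) (S := D) M).symm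

/-- the part of weight `w - k` -/
noncomputable def degPart (D : Type*) [DivisionRing D] {n : ℕ} (B k w : ℕ) :
    YR D n →ₗ[D] YR D n where
  toFun u := AddMonoidAlgebra.ofCoeff (u.coeff.filter fun m => wt B m + k = w)
  map_add' u v := by
    apply AddMonoidAlgebra.coeff_injective
    exact Finsupp.filter_add
  map_smul' k u := by
    apply AddMonoidAlgebra.coeff_injective
    exact Finsupp.filter_smul

theorem degPart_coeff (B k w : ℕ) (u : YR D n) (m : Fin n →₀ ℕ) :
    (degPart D B k w u).coeff m = if wt B m + k = w then u.coeff m else 0 :=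
  Finsupp.filter_apply _ _ _

theorem deg_wt_lt (B : ℕ) (hB : 0 < B) {e : ℕ} {m : Fin n →₀ ℕ} (hm : ∑ i, m i = e) :
    wt B m < e * B ^ n + 1 := by
  rw [wt, ← hm, Finset.sum_mul]
  refine Nat.lt_succ_of_le (Finset.sum_le_sum fun i _ => ?_)
  exact Nat.mul_le_mul_left _ (Nat.pow_le_pow_right hB (le_of_lt i.2))

theorem deg_yr_ext {u v : YR D n} (h : ∀ m, u.coeff m = v.coeff m) : u = v :=
  AddMonoidAlgebra.coeff_injective (Finsupp.ext h)

theorem degCut_eq_bot {B e : ℕ} (hB : 0 < B) {V : Submodule D (YR D n)} (hV : V ≤ YD D n e) :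
    degCut V (degPart D B 0) (e * B ^ n + 1) = ⊥ := by
  rw [eq_bot_iff]
  rintro u ⟨hu, hu'⟩
  rw [Submodule.mem_bot]
  apply deg_yr_ext
  intro m
  rw [AddMonoidAlgebra.coeff_zero, Finsupp.zero_apply]
  by_contra h
  have h1 := hV hu m h
  have h2 := hu' (wt B m) (deg_wt_lt B hB h1)
  have h3 : (degPart D B 0 (wt B m) u).coeff m = 0 := by
    rw [h2, AddMonoidAlgebra.coeff_zero, Finsupp.zero_apply]
  rw [degPart_coeff, if_pos (by omega)] at h3
  exact h h3

theorem deg_lower {B w : ℕ} {V : Submodule D (YR D n)} {u : YR D n}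
    (hu : u ∈ degCut V (degPart D B 0) w) {m : Fin n →₀ ℕ} (hm : wt B m < w) :
    u.coeff m = 0 := by
  have h2 := hu.2 (wt B m) hm
  have h3 : (degPart D B 0 (wt B m) u).coeff m = 0 := by
    rw [h2, AddMonoidAlgebra.coeff_zero, Finsupp.zero_apply]
  rwa [degPart_coeff, if_pos (by omega)] at h3

theorem degPart_degPart (B k w w' : ℕ) (u : YR D n) :
    degPart D B k w' (degPart D B k w u) = if w' = w then degPart D B k w u else 0 := by
  apply deg_yr_ext
  intro m
  rw [degPart_coeff, degPart_coeff]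
  by_cases h : w' = w
  · rw [if_pos h, degPart_coeff, h]
    by_cases h1 : wt B m + k = w
    · rw [if_pos h1, if_pos h1]
    · rw [if_neg h1, if_neg h1]
  · rw [if_neg h, AddMonoidAlgebra.coeff_zero, Finsupp.zero_apply]
    by_cases h1 : wt B m + k = w'
    · rw [if_pos h1, if_neg (by omega)]
    · rw [if_neg h1]

theorem ncard_inm {B e : ℕ} (hB : e < B) {V : Submodule D (YR D n)} (hV : V ≤ YD D n e) :
    (inm B V).ncard = finrank D V := by
  have hM : ∀ m ∈ inm B V, ∑ i, m i = e := fun m hm => inm_subset hV hm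
  have h0 : Module.Finite D (YD D n e) := by
    have := finite_monD (D := D) {m : Fin n →₀ ℕ | ∑ i, m i = e} (fun m hm => hm)
    exact this
  have h1 : Module.Finite D V := Submodule.finiteDimensional_of_le hV
  have h2 := finite_monD (D := D) (inm B V) hM
  have hI : monD D (inm B V) ≤ YD D n e := fun u hu m hm => hM m (hu m hm)
  rw [← finrank_monD (D := D) (inm B V) hM]
  apply le_antisymm
  · refine finrank_le_of_degCut _ _ (degPart D B 0) _ (degCut_eq_bot (by omega) hI) ?_
    intro w
    rintro _ ⟨x, hx, rfl⟩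
    by_cases hz : degPart D B 0 w x = 0
    · rw [hz]
      exact Submodule.zero_mem _
    · have h3 : ∃ m, (degPart D B 0 w x).coeff m ≠ 0 := by
        by_contra hc
        push Not at hc
        apply hz
        apply deg_yr_ext
        intro m
        rw [hc m, AddMonoidAlgebra.coeff_zero, Finsupp.zero_apply]
      obtain ⟨m, hm⟩ := h3
      rw [degPart_coeff] at hm
      have hw : wt B m + 0 = w := by
        by_contra hc
        exact hm (if_neg hc)
      rw [if_pos hw] at hm
      have hmI : m ∈ inm B V := hx.1 m hm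
      obtain ⟨u, hu, hu1, hu2⟩ := hmI
      refine ⟨(x.coeff m * (u.coeff m)⁻¹) • u, ⟨V.smul_mem _ hu, ?_⟩, ?_⟩
      · intro j hj
        rw [map_smul]
        have : degPart D B 0 j u = 0 := by
          apply deg_yr_ext
          intro m'
          rw [degPart_coeff, AddMonoidAlgebra.coeff_zero, Finsupp.zero_apply]
          by_cases hc : wt B m' + 0 = j
          · rw [if_pos hc]
            exact hu2 m' (by omega)
          · rw [if_neg hc]
        rw [this, smul_zero]
      · rw [map_smul]
        apply deg_yr_ext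
        intro m'
        rw [AddMonoidAlgebra.coeff_smul_apply, degPart_coeff, degPart_coeff]
        by_cases hc : wt B m' + 0 = w
        · rw [if_pos hc, if_pos hc]
          by_cases hd : ∑ i, m' i = e
          · have : m' = m := wt_injOn hB hd (hI hx.1 m hm) (by omega)
            rw [this, smul_eq_mul, mul_assoc, inv_mul_cancel₀ hu1, mul_one]
          · have h4 : u.coeff m' = 0 := by
              by_contra h5
              exact hd (hV hu m' h5)
            have h6 : x.coeff m' = 0 := by
              by_contra h5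
              exact hd (hI hx.1 m' h5)
            rw [h4, h6, smul_zero]
        · rw [if_neg hc, if_neg hc, smul_zero]
  · refine finrank_le_of_degCut _ _ (degPart D B 0) _ (degCut_eq_bot (by omega) hV) ?_
    intro w
    rintro _ ⟨x, hx, rfl⟩
    refine ⟨degPart D B 0 w x, ⟨?_, ?_⟩, ?_⟩
    · intro m hm
      rw [degPart_coeff] at hm
      have hw : wt B m + 0 = w := by
        by_contra hc
        exact hm (if_neg hc)
      rw [if_pos hw] at hm
      exact ⟨x, hx.1, hm, fun m' hm' => deg_lower hx (by omega)⟩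
    · intro j hj
      rw [degPart_degPart, if_neg (by omega)]
    · rw [degPart_degPart, if_pos rfl]

theorem deg_digits_lt {B : ℕ} {n : ℕ} (f : Fin n → ℕ) (hf : ∀ i, f i < B) :
    ∑ i, f i * B ^ (i : ℕ) < B ^ n := by
  induction n with
  | zero => simp
  | succ n ih =>
    rw [Fin.sum_univ_castSucc, Fin.val_last]
    have h1 := ih (fun i => f i.castSucc) (fun i => hf _)
    have h2 : f (Fin.last n) + 1 ≤ B := hf _
    calc ∑ i : Fin n, f i.castSucc * B ^ ((i.castSucc : Fin (n + 1)) : ℕ) +
          f (Fin.last n) * B ^ n < B ^ n + f (Fin.last n) * B ^ n := by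
            refine Nat.add_lt_add_right ?_ _
            simpa only [Fin.val_castSucc] using h1
      _ = (f (Fin.last n) + 1) * B ^ n := by ring
      _ ≤ B * B ^ n := Nat.mul_le_mul_right _ h2
      _ = B ^ (n + 1) := by ring

end Vale.Agent.P200F.M

end

section

set_option linter.all false

namespace Vale.Agent.P200F.V

open MvPolynomial Module
open Vale.Agent.P200F.B Vale.Agent.P200F.G Vale.Agent.P200F.L Vale.Agent.P200F.M

variable {K : Type*} [Field K] {n : ℕ}

/-- `m'` is lower than `m`: at the last difference `m'` is smaller -/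
def cl (m' m : Fin n →₀ ℕ) : Prop := ∃ i, m' i < m i ∧ ∀ j, i < j → m' j = m j

theorem v7_digits {B : ℕ} : ∀ {n : ℕ} (f g : Fin n → ℕ) (_ : ∀ i, f i < B)
    (_ : ∃ i, f i < g i ∧ ∀ j, i < j → f j = g j),
    ∑ i, f i * B ^ (i : ℕ) < ∑ i, g i * B ^ (i : ℕ) := by
  intro n
  induction n with
  | zero =>
    rintro f g hf ⟨i, -⟩
    exact i.elim0
  | succ n ih =>
    rintro f g hf ⟨i, hi, hj⟩
    rw [Fin.sum_univ_castSucc, Fin.sum_univ_castSucc]
    simp only [Fin.val_last, Fin.val_castSucc]
    induction i using Fin.lastCases with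
    | last =>
      have h1 := deg_digits_lt (fun i : Fin n => f i.castSucc) (fun i => hf _)
      have h2 : (f (Fin.last n) + 1) * B ^ n ≤ g (Fin.last n) * B ^ n := Nat.mul_le_mul_right _ hi
      rw [add_mul, one_mul] at h2
      have h3 : 0 ≤ ∑ i : Fin n, g i.castSucc * B ^ (i : ℕ) := Nat.zero_le _
      omega
    | cast i =>
      have h1 := ih (fun i => f i.castSucc) (fun i => g i.castSucc) (fun i => hf _)
        ⟨i, hi, fun j hij => hj _ (Fin.castSucc_lt_castSucc_iff.2 hij)⟩
      rw [hj (Fin.last n) (Fin.castSucc_lt_last i)]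
      omega

theorem v7_lt {m m' : Fin n →₀ ℕ} (h : m ≠ m') : cl m m' ∨ cl m' m := by
  classical
  have h1 : (Finset.univ.filter fun i => m i ≠ m' i).Nonempty := by
    by_contra hc
    rw [Finset.not_nonempty_iff_eq_empty, Finset.filter_eq_empty_iff] at hc
    apply h
    ext i
    have := hc (Finset.mem_univ i)
    push Not at this
    exact this
  set i := (Finset.univ.filter fun i => m i ≠ m' i).max' h1 with hi
  have h2 : m i ≠ m' i := (Finset.mem_filter.1 (Finset.max'_mem _ h1)).2
  have h3 : ∀ j, i < j → m j = m' j := by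
    intro j hj
    by_contra hc
    have := Finset.le_max' (Finset.univ.filter fun i => m i ≠ m' i) j
      (Finset.mem_filter.2 ⟨Finset.mem_univ j, hc⟩)
    exact absurd hj (not_lt.2 this)
  rcases lt_or_gt_of_ne h2 with h4 | h4
  · exact Or.inl ⟨i, h4, h3⟩
  · exact Or.inr ⟨i, h4, fun j hj => (h3 j hj).symm⟩

/-- for exponents of the same degree `cl` is the comparison of weights of `M/Defs.lean` -/
theorem wt_lt_iff {B e : ℕ} (hB : e < B) {m m' : Fin n →₀ ℕ} (hm : ∑ i, m i = e)
    (hm' : ∑ i, m' i = e) : wt B m' < wt B m ↔ cl m' m := by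
  have h1 : ∀ m : Fin n →₀ ℕ, ∑ i, m i = e → ∀ i, m i < B := fun m hm i =>
    lt_of_le_of_lt (deg_le_sum m i) (by omega)
  constructor
  · intro h
    rcases eq_or_ne m' m with h2 | h2
    · rw [h2] at h
      exact absurd h (lt_irrefl _)
    · rcases v7_lt h2 with h3 | h3
      · exact h3
      · have := v7_digits (fun i => m i) (fun i => m' i) (h1 m hm) h3
        exact absurd (lt_trans h this) (lt_irrefl _)
  · intro h
    exact v7_digits (fun i => m' i) (fun i => m i) (h1 m' hm') h

theorem v7_deg {e : ℕ} {V : Submodule K (MvPolynomial (Fin n) K)}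
    (hV : V ≤ homogeneousSubmodule (Fin n) K e) {u : MvPolynomial (Fin n) K} (hu : u ∈ V)
    {m : Fin n →₀ ℕ} (hm : MvPolynomial.coeff m u ≠ 0) : ∑ i, m i = e :=
  isHomogeneous_iff_sum.1 (hV hu) m hm

theorem v7_finite (d : ℕ) : Module.Finite K (homogeneousSubmodule (Fin n) K d) := by
  classical
  let f : homogeneousSubmodule (Fin n) K d →ₗ[K]
      (Finset.finsuppAntidiag (Finset.univ : Finset (Fin n)) d → K) :=
    { toFun := fun u m => MvPolynomial.coeff m.1 (u : MvPolynomial (Fin n) K)
      map_add' := fun u v => rfl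
      map_smul' := fun c u => rfl }
  refine Module.Finite.of_injective f fun u v huv => ?_
  apply Subtype.ext
  ext m
  by_cases hm : ∑ i, m i = d
  · have hm' : m ∈ Finset.finsuppAntidiag (Finset.univ : Finset (Fin n)) d :=
      Finset.mem_finsuppAntidiag.2 ⟨hm, Finset.subset_univ _⟩
    exact congrFun huv ⟨m, hm'⟩
  · have h1 : ∀ w : homogeneousSubmodule (Fin n) K d,
        MvPolynomial.coeff m (w : MvPolynomial (Fin n) K) = 0 := by
      intro w
      by_contra h
      exact hm (v7_deg le_rfl w.2 h)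
    rw [h1, h1]

end Vale.Agent.P200F.V

end

section

namespace Vale.Agent.P200F.V

open MvPolynomial Module
open Vale.Agent.P200F.B Vale.Agent.P200F.G Vale.Agent.P200F.L Vale.Agent.P200F.M

section aux

variable {K : Type*} [Field K] {A : Type*} [Ring A] [Algebra K A] {n : ℕ}

end aux

section closed

universe u

variable {L : Type u} [Field L] {n c : ℕ}

end closed

section final

universe u

variable {K : Type u} [Field K] {n c : ℕ}

/-- the ideal generated by a set of monomials -/
noncomputable def monIdeal (K : Type*) [Field K] {n : ℕ} (M : Set (Fin n →₀ ℕ)) :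
    Ideal (MvPolynomial (Fin n) K) :=
  Ideal.span ((fun m => monomial m (1 : K)) '' M)

theorem up_add {M : Set (Fin n →₀ ℕ)} (hM : ∀ m ∈ M, ∀ i, m + Finsupp.single i 1 ∈ M)
    {m : Fin n →₀ ℕ} (hm : m ∈ M) (m' : Fin n →₀ ℕ) : m + m' ∈ M := by
  induction m' using Finsupp.induction with
  | zero => rwa [add_zero]
  | single_add i k g _ _ ih =>
    have h1 : ∀ k : ℕ, m + (Finsupp.single i k + g) ∈ M := by
      intro k
      induction k with
      | zero => rwa [Finsupp.single_zero, zero_add]
      | succ k ih' =>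
        have h2 := hM _ ih' i
        have h3 : m + (Finsupp.single i (k + 1) + g) =
            m + (Finsupp.single i k + g) + Finsupp.single i 1 := by
          rw [Finsupp.single_add]
          abel
        rwa [h3]
    exact h1 k

theorem mem_monIdeal {M : Set (Fin n →₀ ℕ)} (hM : ∀ m ∈ M, ∀ i, m + Finsupp.single i 1 ∈ M)
    {g : MvPolynomial (Fin n) K} : g ∈ monIdeal K M ↔ ∀ m, coeff m g ≠ 0 → m ∈ M := by
  rw [monIdeal, mem_ideal_span_monomial_image]
  constructor
  · intro h m hm
    obtain ⟨m', hm', hle⟩ := h m (mem_support_iff.2 hm)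
    rw [← tsub_add_cancel_of_le hle, add_comm]
    exact up_add hM hm' _
  · intro h m hm
    exact ⟨m, h m (mem_support_iff.1 hm), le_rfl⟩

theorem piece_monIdeal {M : Set (Fin n →₀ ℕ)}
    (hM : ∀ m ∈ M, ∀ i, m + Finsupp.single i 1 ∈ M) (d : ℕ) :
    piece (monIdeal K M) d = restrictSupport K {m | m ∈ M ∧ ∑ i, m i = d} := by
  ext g
  rw [piece, Submodule.mem_inf, Submodule.restrictScalars_mem, mem_monIdeal hM,
    mem_homogeneousSubmodule, G.isHomogeneous_iff_support, L.mem_restrictSupport_iff]
  constructor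
  · rintro ⟨h1, h2⟩ m hm
    exact ⟨h1 m hm, h2 m (mem_support_iff.2 hm)⟩
  · intro h
    exact ⟨fun m hm => (h m hm).1, fun m hm => (h m (mem_support_iff.1 hm)).2⟩

end final

end Vale.Agent.P200F.V

end

section

namespace Vale.Agent.P200F.W

open MvPolynomial Module
open Vale.Agent.P200F.B Vale.Agent.P200F.G Vale.Agent.P200F.L Vale.Agent.P200F.M Vale.Agent.P200F.V

section aux

variable {K : Type*} [Field K] {D : Type*} [DivisionRing D] {n : ℕ}

/-- the lowest monomials of a space over `D`, with the order `cl` -/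
def w17low (U : Submodule D (YR D n)) : Set (Fin n →₀ ℕ) :=
  {m | ∃ u ∈ U, u.coeff m ≠ 0 ∧ ∀ m', cl m' m → u.coeff m' = 0}

theorem w17_exists_set (p : (Fin n →₀ ℕ) → Prop) :
    ∃ S : Set (Fin n →₀ ℕ), ∀ m, m ∈ S ↔ p m := ⟨{m | p m}, fun _ => Iff.rfl⟩

theorem w17_low_eq {B e : ℕ} (hB : e < B) {U : Submodule D (YR D n)} (hU : U ≤ YD D n e) :
    w17low U = inm B U := by
  ext m
  constructor
  · rintro ⟨u, hu, h1, h2⟩
    refine ⟨u, hu, h1, fun m' hm' => ?_⟩
    by_contra h3
    exact h3 (h2 m' ((wt_lt_iff hB (hU hu m h1) (hU hu m' h3)).1 hm'))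
  · rintro ⟨u, hu, h1, h2⟩
    refine ⟨u, hu, h1, fun m' hm' => ?_⟩
    by_contra h3
    exact h3 (h2 m' ((wt_lt_iff hB (hU hu m h1) (hU hu m' h3)).2 hm'))

theorem w17_coeff_mul_zv (u : YR D n) (i : Fin n) (m' : Fin n →₀ ℕ) :
    (u * zv D n i).coeff m' = if m' i = 0 then 0 else u.coeff (m' - Finsupp.single i 1) := by
  classical
  induction u using AddMonoidAlgebra.induction_linear with
  | zero =>
    rw [zero_mul, AddMonoidAlgebra.coeff_zero, Finsupp.zero_apply, Finsupp.zero_apply, ite_self]
  | add a b ha hb =>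
    rw [add_mul, AddMonoidAlgebra.coeff_add, Finsupp.add_apply, ha, hb,
      AddMonoidAlgebra.coeff_add, Finsupp.add_apply]
    split_ifs
    · rw [add_zero]
    · rfl
  | single m c =>
    unfold zv
    rw [AddMonoidAlgebra.single_mul_single, mul_one, AddMonoidAlgebra.coeff_single,
      AddMonoidAlgebra.coeff_single, Finsupp.single_apply, Finsupp.single_apply]
    by_cases h : m' i = 0
    · rw [if_pos h, if_neg]
      rintro rfl
      rw [Finsupp.add_apply, Finsupp.single_eq_same] at h
      omega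
    · rw [if_neg h]
      have h2 : m + Finsupp.single i 1 = m' ↔ m = m' - Finsupp.single i 1 := by
        constructor
        · rintro rfl
          rw [add_tsub_cancel_right]
        · intro h1
          rw [h1, tsub_add_cancel_of_le]
          rw [Finsupp.single_le_iff]
          omega
      simp only [h2]

theorem w17_low_mul {U U' : Submodule D (YR D n)} (i : Fin n)
    (h : ∀ u ∈ U, u * zv D n i ∈ U') {m : Fin n →₀ ℕ} (hm : m ∈ w17low U) :
    m + Finsupp.single i 1 ∈ w17low U' := by
  obtain ⟨u, hu, h1, h2⟩ := hm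
  refine ⟨u * zv D n i, h u hu, ?_, fun m' hm' => ?_⟩
  · rw [w17_coeff_mul_zv, if_neg, add_tsub_cancel_right]
    · exact h1
    · rw [Finsupp.add_apply, Finsupp.single_eq_same]
      omega
  · rw [w17_coeff_mul_zv]
    by_cases hi : m' i = 0
    · rw [if_pos hi]
    · rw [if_neg hi]
      apply h2
      obtain ⟨j, hj, hk⟩ := hm'
      have e1 : ∀ k, (m' - Finsupp.single i 1 : Fin n →₀ ℕ) k =
          m' k - (Finsupp.single i 1 : Fin n →₀ ℕ) k := fun k => Finsupp.tsub_apply _ _ _
      have e2 : ∀ k, (m + Finsupp.single i 1 : Fin n →₀ ℕ) k =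
          m k + (Finsupp.single i 1 : Fin n →₀ ℕ) k := fun k => Finsupp.add_apply _ _ _
      have e3 : ∀ k, (Finsupp.single i 1 : Fin n →₀ ℕ) k ≤ m' k := by
        intro k
        by_cases hki : i = k
        · rw [← hki, Finsupp.single_eq_same]
          omega
        · rw [Finsupp.single_eq_of_ne (fun h => hki h.symm)]
          exact Nat.zero_le _
      refine ⟨j, ?_, fun k hjk => ?_⟩
      · have a1 := e1 j
        have a2 := e2 j
        have a3 := e3 j
        rw [a1]
        rw [a2] at hj
        omega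
      · have a1 := e1 k
        have a2 := e2 k
        have a3 := e3 k
        have a4 := hk k hjk
        rw [a1]
        rw [a2] at a4
        omega

theorem w17_lin_eq (e : Fin n → D) :
    M.lin e = ∑ k, zv D n k * AddMonoidAlgebra.single 0 (e k) := by
  unfold M.lin
  refine Finset.sum_congr rfl fun k _ => ?_
  unfold zv
  rw [AddMonoidAlgebra.single_mul_single, one_mul, add_zero]

variable [Algebra K D]

theorem w17_VD_mul_zv {V V' : Submodule K (MvPolynomial (Fin n) K)} (k : Fin n)
    (h : ∀ v ∈ V, v * X k ∈ V') {u : YR D n} (hu : u ∈ VD D V) : u * zv D n k ∈ VD D V' := by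
  rw [mem_VD_iff_m1c] at hu ⊢
  intro φ
  rw [← bD_X (K := K), m1c_mul_bD]
  exact h _ (hu φ)

theorem w17_VD_mul_lin {V V' : Submodule K (MvPolynomial (Fin n) K)}
    (h : ∀ v ∈ V, ∀ k, v * X k ∈ V') (e : Fin n → D) {u : YR D n} (hu : u ∈ VD D V) :
    u * M.lin e ∈ VD D V' := by
  rw [w17_lin_eq, Finset.mul_sum]
  refine Submodule.sum_mem _ fun k _ => ?_
  rw [← mul_assoc]
  exact mul_single_mem_VD V' (w17_VD_mul_zv k (fun v hv => h v hv k) hu) _

end aux

section count

variable {K : Type*} [Field K] {n : ℕ}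

/-- the number of exponents outside `S` -/
theorem w17_card (a : Fin n → ℕ) (I : Ideal (MvPolynomial (Fin n) K)) {S : Set (Fin n →₀ ℕ)}
    (hup : ∀ m ∈ S, ∀ i, m + Finsupp.single i 1 ∈ S) (hpw : ∀ i, Finsupp.single i (a i) ∈ S)
    (hdim : ∀ d, finrank K (piece I d) = finrank K (piece (monIdeal K S) d))
    (T : ℕ → Finset (Fin n → ℕ))
    (hT : ∀ d m, m ∈ T d ↔ m ∈ boxD a d ∧ Finsupp.equivFunOnFinite.symm m ∈ S) (d : ℕ) :
    (T d).card + hilb I d = (boxD a d).card := by
  classical
  set A := (Finset.univ : Finset (Fin n)).finsuppAntidiag d with hA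
  have hmA : ∀ m : Fin n →₀ ℕ, m ∈ A ↔ ∑ i, m i = d := by
    intro m
    rw [hA, Finset.mem_finsuppAntidiag]
    exact ⟨fun h => h.1, fun h => ⟨h, Finset.subset_univ _⟩⟩
  have h1 := finrank_piece_add_hilb I d
  have h2 : {m | m ∈ S ∧ ∑ i, m i = d} = ((A.filter fun m => m ∈ S : Finset (Fin n →₀ ℕ)) :
      Set (Fin n →₀ ℕ)) := by
    ext m
    rw [Finset.mem_coe, Finset.mem_filter, hmA]
    exact and_comm
  rw [hdim, piece_monIdeal hup, h2, G.finrank_restrictSupport _ (Finset.finite_toSet _),
    Set.ncard_coe_finset, G.finrank_homogeneousSubmodule, ← hA] at h1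
  have h3 := Finset.card_filter_add_card_filter_not (s := A) (fun m => m ∈ S)
  have h4 : (A.filter fun m => m ∉ S).card = ((boxD a d).filter fun m => m ∉ T d).card := by
    refine Finset.card_nbij' (fun m => (m : Fin n → ℕ)) (fun m => Finsupp.equivFunOnFinite.symm m)
      ?_ ?_ ?_ ?_
    · intro m hm
      rw [Finset.mem_coe, Finset.mem_filter, hmA] at hm
      have h5 : (Finsupp.equivFunOnFinite.symm (m : Fin n → ℕ) : Fin n →₀ ℕ) = m := by
        ext i
        rfl
      rw [Finset.mem_coe, Finset.mem_filter, hT, h5, mem_boxD]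
      refine ⟨⟨fun i => ?_, hm.1⟩, fun h => hm.2 h.2⟩
      by_contra hi
      change ¬ m i < a i at hi
      apply hm.2
      have h6 : m = Finsupp.single i (a i) + (m - Finsupp.single i (a i)) := by
        rw [add_tsub_cancel_of_le]
        rw [Finsupp.single_le_iff]
        omega
      rw [h6]
      exact up_add hup (hpw i) _
    · intro m hm
      rw [Finset.mem_coe, Finset.mem_filter, hT] at hm
      rw [Finset.mem_coe, Finset.mem_filter, hmA]
      exact ⟨(mem_boxD.1 hm.1).2, fun h => hm.2 ⟨hm.1, h⟩⟩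
    · intro m _
      ext i
      rfl
    · intro m _
      rfl
  have h5 := Finset.card_filter_add_card_filter_not (s := boxD a d) (fun m => m ∈ T d)
  have h6 : (boxD a d).filter (fun m => m ∈ T d) = T d := by
    ext m
    rw [Finset.mem_filter, hT]
    exact ⟨fun h => h.2, fun h => ⟨h.1, h⟩⟩
  rw [h6] at h5
  omega

theorem w17_egh (a : Fin n → ℕ) (hmono : Monotone a) (I : Ideal (MvPolynomial (Fin n) K))
    {S : Set (Fin n →₀ ℕ)}
    (hup : ∀ m ∈ S, ∀ i, m + Finsupp.single i 1 ∈ S) (hpw : ∀ i, Finsupp.single i (a i) ∈ S)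
    (hdim : ∀ d, finrank K (piece I d) = finrank K (piece (monIdeal K S) d)) : EGH a I := by
  classical
  obtain ⟨T, hT⟩ : ∃ T : ℕ → Finset (Fin n → ℕ), ∀ d m, m ∈ T d ↔
      m ∈ boxD a d ∧ Finsupp.equivFunOnFinite.symm m ∈ S :=
    ⟨fun d => (boxD a d).filter fun m => Finsupp.equivFunOnFinite.symm m ∈ S, fun d m =>
      Finset.mem_filter⟩
  intro d
  have hsub : T d ⊆ boxD a d := fun m hm => ((hT d m).1 hm).1
  have h1 := clementsLindstrom a hmono d (T d) hsub
  have h2 : upShadow a (T d) ⊆ T (d + 1) := by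
    intro y hy
    rw [hT]
    refine ⟨upShadow_subset_boxD hsub hy, ?_⟩
    obtain ⟨-, m, hm, i, rfl⟩ := mem_upShadow.1 hy
    have h3 := hup _ ((hT d m).1 hm).2 i
    have h4 : (Finsupp.equivFunOnFinite.symm (Function.update m i (m i + 1)) : Fin n →₀ ℕ) =
        Finsupp.equivFunOnFinite.symm m + Finsupp.single i 1 := by
      ext j
      rw [Finsupp.add_apply]
      change Function.update m i (m i + 1) j = m j + (Finsupp.single i 1 : Fin n →₀ ℕ) j
      rcases eq_or_ne j i with rfl | hj
      · rw [Function.update_self, Finsupp.single_eq_same]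
      · rw [Function.update_of_ne hj, Finsupp.single_eq_of_ne hj, add_zero]
    rw [h4]
    exact h3
  have h3 := Finset.card_le_card h2
  have h4 := w17_card a I hup hpw hdim T hT d
  have h5 := w17_card a I hup hpw hdim T hT (d + 1)
  have h6 : (boxD a d).card - hilb I d = (T d).card := by omega
  rw [h6]
  omega

end count

end Vale.Agent.P200F.W

end

section

namespace Vale.Agent.P200F.Q

open MvPolynomial Vale.Agent.P200F.G

variable {K : Type*} [Field K] {n c : ℕ}

/-- Base change to the algebraic closure and completion of the sequence by powers of linear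
forms, in a single degree `d`. -/
theorem growth_transfer (K : Type*) [Field K] {n c : ℕ} (h : c ≤ n) (a : Fin c → ℕ)
    (h2 : ∀ i, 2 ≤ a i) (f : Fin c → MvPolynomial (Fin n) K)
    (hf : ∀ i, (f i).IsHomogeneous (a i)) (hreg : IsRegularSeq f)
    (I : Ideal (MvPolynomial (Fin n) K)) (hI : HomIdeal I) (hfI : ∀ i, f i ∈ I)
    (d N : ℕ) (hN : d + 2 ≤ N)
    (hmain : ∀ F : Fin n → MvPolynomial (Fin n) (AlgebraicClosure K),
      (∀ i, (F i).IsHomogeneous (extDeg h a N i)) → IsMPrimary (Ideal.span (Set.range F)) →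
      (∀ i : Fin c, F (Fin.castLE h i) =
        MvPolynomial.map (algebraMap K (AlgebraicClosure K)) (f i)) →
      (∀ i : Fin n, ¬ i.1 < c → SplitsLinear (extDeg h a N i) (F i)) →
      ∀ I' : Ideal (MvPolynomial (Fin n) (AlgebraicClosure K)), HomIdeal I' →
        (∀ i, F i ∈ I') →
        up (extDeg h a N) d ((boxD (extDeg h a N) d).card - hilb I' d) + hilb I' (d + 1) ≤
          (boxD (extDeg h a N) (d + 1)).card) :
    up (extDeg h a N) d ((boxD (extDeg h a N) d).card - hilb I d) + hilb I (d + 1) ≤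
      (boxD (extDeg h a N) (d + 1)).card := by
  set L := AlgebraicClosure K with hL
  have hinf : Infinite L := IsAlgClosed.instInfinite
  set fL : Fin c → MvPolynomial (Fin n) L := fun i => MvPolynomial.map (algebraMap K L) (f i)
    with hfL
  set IL : Ideal (MvPolynomial (Fin n) L) := I.map (MvPolynomial.map (σ := Fin n) (algebraMap K L))
    with hIL
  have hILhom : HomIdeal IL := homIdeal_baseChange hI
  have hregL : IsRegSeq fL := isRegSeq_baseChange f a hf hreg
  have hfLhom : ∀ i, (fL i).IsHomogeneous (a i) := fun i => (hf i).map _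
  have hfIL : ∀ i, fL i ∈ IL := fun i => Ideal.mem_map_of_mem _ (hfI i)
  obtain ⟨l, hl, hlm⟩ := exists_linear_extension h a (fun i => by have := h2 i; omega) fL hfLhom
    hregL
  set A := extDeg h a N with hA
  set F : Fin n → MvPolynomial (Fin n) L := fun i =>
    if hi : i.1 < c then fL ⟨i.1, hi⟩ else (l ⟨i.1 - c, by omega⟩) ^ N with hF
  have hFhom : ∀ i, (F i).IsHomogeneous (A i) := by
    intro i
    by_cases hi : i.1 < c
    · simp only [hF, hA, extDeg, hi, dif_pos]
      exact hfLhom _
    · simp only [hF, hA, extDeg, hi, dif_neg, not_false_iff]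
      have := (hl ⟨i.1 - c, by omega⟩).pow N
      rwa [one_mul] at this
  have hFprim : IsMPrimary (Ideal.span (Set.range F)) := by
    rw [isMPrimary_iff_radical] at hlm ⊢
    intro i
    have h3 : Ideal.span (Set.range fL) ⊔ Ideal.span (Set.range l) ≤
        (Ideal.span (Set.range F)).radical := by
      apply sup_le
      · rw [Ideal.span_le]
        rintro _ ⟨j, rfl⟩
        apply Ideal.le_radical
        apply Ideal.subset_span
        refine ⟨Fin.castLE h j, ?_⟩
        simp [hF]
      · rw [Ideal.span_le]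
        rintro _ ⟨j, rfl⟩
        refine ⟨N, Ideal.subset_span ⟨⟨j.1 + c, by omega⟩, ?_⟩⟩
        simp [hF]
    have h4 := Ideal.radical_mono h3 (hlm i)
    rwa [Ideal.radical_idem] at h4
  set S : Set (MvPolynomial (Fin n) L) := Set.range fun j => l j ^ N with hS
  have hShom : ∀ g ∈ S, g.IsHomogeneous N := by
    rintro _ ⟨j, rfl⟩
    have := (hl j).pow N
    rwa [one_mul] at this
  set I' := IL ⊔ Ideal.span S with hI'
  have hI'hom : HomIdeal I' := G.homIdeal_sup hILhom (G.homIdeal_span fun g hg => ⟨N, hShom g hg⟩)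
  have hFI' : ∀ i, F i ∈ I' := by
    intro i
    by_cases hi : i.1 < c
    · simp only [hF, hi, dif_pos]
      exact Ideal.mem_sup_left (hfIL _)
    · simp only [hF, hi, dif_neg, not_false_iff]
      exact Ideal.mem_sup_right (Ideal.subset_span ⟨_, rfl⟩)
  have key := hmain F hFhom hFprim (fun i => by
      simp only [hF, hfL, Fin.val_castLE, i.2, dif_pos]
      rfl) (fun i hi => by
      simp only [hF, hA, extDeg, hi, dif_neg, not_false_iff]
      exact splitsLinear_pow_fin (hl _) N) I' hI'hom hFI'
  have e1 : hilb I' d = hilb I d := by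
    rw [hI', hilb_sup_span_high hILhom S hShom (by omega), hIL, hilb_baseChange I hI]
  have e2 : hilb I' (d + 1) = hilb I (d + 1) := by
    rw [hI', hilb_sup_span_high hILhom S hShom (by omega), hIL, hilb_baseChange I hI]
  rw [e1, e2] at key
  exact key

theorem two_le_extDeg (h : c ≤ n) (a : Fin c → ℕ) (h2 : ∀ i, 2 ≤ a i) {N : ℕ} (hN : 2 ≤ N)
    (i : Fin n) : 2 ≤ extDeg h a N i := by
  by_cases hi : i.1 < c
  · simp only [extDeg, hi, dif_pos]; exact h2 _
  · simp only [extDeg, hi, dif_neg, not_false_iff]; exact hN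

end Vale.Agent.P200F.Q

end

section

namespace Vale.Agent.P200F.V

open MvPolynomial Module
open Vale.Agent.P200F.B Vale.Agent.P200F.G Vale.Agent.P200F.L Vale.Agent.P200F.M

universe u

/-- commuting linear forms `ξ_i` over `D` with
`ξ_i ^ a_i = G_i + ∑_(j > i) L_(i,j) ξ_j ^ a_i`, `G_i` over the central field `K` -/
structure Roots (K D : Type u) [Field K] [DivisionRing D] [Algebra K D] {n : ℕ} (a : Fin n → ℕ)
    (E : Fin n → Fin n → D) (Lc : Fin n → Fin n → K) (G : Fin n → MvPolynomial (Fin n) K) :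
    Prop where
  comm : ∀ i j, (M.lin (E i) * M.lin (E j) : YR D n) = M.lin (E j) * M.lin (E i)
  hom : ∀ i, (G i).IsHomogeneous (a i)
  prim : IsMPrimary (Ideal.span (Set.range G))
  pow : ∀ i, (M.lin (E i) ^ a i : YR D n) =
    bD D (G i) + ∑ j ∈ Finset.Ioi i, bD D (C (Lc i j)) * M.lin (E j) ^ a i

/-- **(E)** the output of the circuits -/
def EOut (k : Type u) [Field k] : Prop :=
  ∀ (n : ℕ) (a : Fin n → ℕ), Monotone a → (∀ i, 2 ≤ a i) →
    ∀ f : Fin n → MvPolynomial (Fin n) k, (∀ i, (f i).IsHomogeneous (a i)) →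
      IsMPrimary (Ideal.span (Set.range f)) →
      ∃ (K : Type u) (_ : Field K) (_ : Algebra k K) (D : Type u) (_ : DivisionRing D)
        (_ : Algebra K D) (E : Fin n → Fin n → D) (Lc : Fin n → Fin n → K)
        (G : Fin n → MvPolynomial (Fin n) K), Roots K D a E Lc G ∧
        ∀ i, G i ∈ (Ideal.span (Set.range f)).map (MvPolynomial.map (algebraMap k K))

/-- **(F)** monomial ideals from commuting linear forms -/
def FProp (K D : Type u) [Field K] [DivisionRing D] [Algebra K D] : Prop :=
  ∀ (n : ℕ) (a : Fin n → ℕ), (∀ i, 1 ≤ a i) → ∀ (E : Fin n → Fin n → D)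
    (Lc : Fin n → Fin n → K) (G : Fin n → MvPolynomial (Fin n) K), Roots K D a E Lc G →
    ∀ I : Ideal (MvPolynomial (Fin n) K), HomIdeal I → (∀ i, G i ∈ I) →
      ∃ S : Set (Fin n →₀ ℕ), (∀ m ∈ S, ∀ i, m + Finsupp.single i 1 ∈ S) ∧
        (∀ i, Finsupp.single i (a i) ∈ S) ∧
        ∀ d, finrank K (piece I d) = finrank K (piece (monIdeal K S) d)

/-- the conjecture for `c = n`, in terms of monomial ideals -/
def MonAt (k : Type u) [Field k] : Prop :=
  ∀ (n : ℕ) (a : Fin n → ℕ), Monotone a → (∀ i, 2 ≤ a i) →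
    ∀ f : Fin n → MvPolynomial (Fin n) k, (∀ i, (f i).IsHomogeneous (a i)) →
      IsMPrimary (Ideal.span (Set.range f)) →
      ∀ I : Ideal (MvPolynomial (Fin n) k), HomIdeal I → (∀ i, f i ∈ I) →
        ∃ S : Set (Fin n →₀ ℕ), (∀ m ∈ S, ∀ i, m + Finsupp.single i 1 ∈ S) ∧
          (∀ i, Finsupp.single i (a i) ∈ S) ∧
          ∀ d, finrank k (piece I d) = finrank k (piece (monIdeal k S) d)

/-- the dimension of the pieces does not change when the field is extended -/
theorem finrank_piece_map {k K : Type*} [Field k] [Field K] [Algebra k K] {n : ℕ}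
    (I : Ideal (MvPolynomial (Fin n) k)) (hI : HomIdeal I) (d : ℕ) :
    finrank K (piece (I.map (MvPolynomial.map (σ := Fin n) (algebraMap k K))) d) =
      finrank k (piece I d) := by
  have h4 := finrank_piece_add_hilb (I.map (MvPolynomial.map (σ := Fin n) (algebraMap k K))) d
  have h5 := finrank_piece_add_hilb I d
  rw [hilb_baseChange I hI] at h4
  have h6 : finrank K (homogeneousSubmodule (Fin n) K d) =
      finrank k (homogeneousSubmodule (Fin n) k d) := by
    rw [finrank_homogeneousSubmodule, finrank_homogeneousSubmodule]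
  omega

/-- the pieces of a monomial ideal over different fields -/
theorem finrank_piece_monIdeal_eq (k K : Type*) [Field k] [Field K] {n : ℕ}
    {S : Set (Fin n →₀ ℕ)} (hup : ∀ m ∈ S, ∀ i, m + Finsupp.single i 1 ∈ S) (d : ℕ) :
    finrank K (piece (monIdeal K S) d) = finrank k (piece (monIdeal k S) d) := by
  have hfin : {m : Fin n →₀ ℕ | m ∈ S ∧ ∑ i, m i = d}.Finite :=
    (deg_finite n d).subset fun m hm => hm.2
  rw [piece_monIdeal hup, piece_monIdeal hup, G.finrank_restrictSupport _ hfin,
    G.finrank_restrictSupport _ hfin]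

theorem monAt_of (k : Type u) [Field k]
    (hF : ∀ (K D : Type u) [Field K] [DivisionRing D] [Algebra K D], FProp K D)
    (hE : EOut k) : MonAt k := by
  intro n a hmono h2 f hf hm I hI hfI
  obtain ⟨K, _, _, D, _, _, E, Lc, Gf, hR, hG⟩ := hE n a hmono h2 f hf hm
  have hle : Ideal.span (Set.range f) ≤ I := by
    rw [Ideal.span_le]
    rintro _ ⟨i, rfl⟩
    exact hfI i
  obtain ⟨S, hup, hpw, hdim⟩ := hF K D n a (fun i => le_trans one_le_two (h2 i)) E Lc Gf hR
    (I.map (MvPolynomial.map (algebraMap k K))) (homIdeal_baseChange hI)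
    (fun i => Ideal.map_mono hle (hG i))
  refine ⟨S, hup, hpw, fun d => ?_⟩
  rw [← finrank_piece_map (K := K) I hI, hdim, finrank_piece_monIdeal_eq k K hup]

/-- **The conjecture of Eisenbud, Green and Harris** from `MonAt`. -/
theorem egh_of_monAt (K : Type u) [Field K] (hmon : MonAt (AlgebraicClosure K)) {n c : ℕ}
    (h : c ≤ n) (a : Fin c → ℕ)
    (ha : Monotone a) (h2 : ∀ i, 2 ≤ a i) (f : Fin c → MvPolynomial (Fin n) K)
    (hf : ∀ i, (f i).IsHomogeneous (a i)) (hreg : IsRegularSeq f)
    (I : Ideal (MvPolynomial (Fin n) K)) (hI : HomIdeal I) (hfI : ∀ i, f i ∈ I) :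
    ∃ J : Ideal (MvPolynomial (Fin n) K), J.restrictScalars K = lexPlusPowers h a I := by
  apply lexPlusPowers_isIdeal_of_growth
  intro d
  set N := d + 2 + ∑ i, a i with hN
  refine ⟨N, by omega, ?_⟩
  have haN : ∀ i, a i ≤ N := by
    intro i
    have := Finset.single_le_sum (fun j _ => Nat.zero_le (a j)) (Finset.mem_univ i)
    omega
  refine Q.growth_transfer K h a h2 f hf hreg I hI hfI d N (by omega) ?_
  intro F hF hFm hFf hFs I' hI' hFI'
  obtain ⟨S, hup, hpw, hdim⟩ := hmon n _ (monotone_extDeg h a ha haN)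
    (Q.two_le_extDeg h a h2 (by omega)) F hF hFm I' hI' hFI'
  exact W.w17_egh _ (monotone_extDeg h a ha haN) I' hup hpw hdim d

/-- the same statement, with the interfaces -/
theorem egh_of_out (K : Type u) [Field K]
    (hF : ∀ (K D : Type u) [Field K] [DivisionRing D] [Algebra K D], FProp K D)
    (hE : EOut (AlgebraicClosure K)) {n c : ℕ} (h : c ≤ n) (a : Fin c → ℕ)
    (ha : Monotone a) (h2 : ∀ i, 2 ≤ a i) (f : Fin c → MvPolynomial (Fin n) K)
    (hf : ∀ i, (f i).IsHomogeneous (a i)) (hreg : IsRegularSeq f)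
    (I : Ideal (MvPolynomial (Fin n) K)) (hI : ∀ g ∈ I, ∀ d, homogeneousComponent d g ∈ I)
    (hfI : ∀ i, f i ∈ I) :
    ∃ J : Ideal (MvPolynomial (Fin n) K), J.restrictScalars K = lexPlusPowers h a I :=
  egh_of_monAt K (monAt_of _ hF hE) h a ha h2 f hf hreg I hI hfI

end Vale.Agent.P200F.V

end
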