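import Vale.Agent.P200F.Ns
import Vale.Agent.P200F.A3

set_option linter.all false

section

namespace Vale.Agent.P200F.V

open MvPolynomial
open Vale.Agent.P200F.M

universe u

/-- names of the variables and of the elements -/
abbrev Tix (N R κ : ℕ) : Type := Fin N ⊕ Fin R × Fin κ

section wiring
variable {K : Type u} [Field K] {N R κ : ℕ}

/-- the inputs of the blocks -/
noncomputable def inpF (cf : Fin R → Fin 2 → Tix N R κ → K) (g : Fin R) (ε : Fin 2) :
    MvPolynomial (Tix N R κ) K := ∑ v, C (cf g ε v) * X v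

/-- the variables of the block `g` -/
noncomputable def sbF (cf : Fin R → Fin 2 → Tix N R κ → K) (g : Fin R) :
    Fin (κ + 2) → MvPolynomial (Tix N R κ) K :=
  Fin.cases (inpF cf g 0) (Fin.cases (inpF cf g 1) fun i => X (Sum.inr (g, i)))

theorem sbF_zero (cf : Fin R → Fin 2 → Tix N R κ → K) (g : Fin R) : sbF cf g 0 = inpF cf g 0 := rfl

theorem sbF_succ (cf : Fin R → Fin 2 → Tix N R κ → K) (g : Fin R) (i : Fin κ) :
    sbF cf g i.succ.succ = X (Sum.inr (g, i)) := rfl

end wiring

section eval
variable {K : Type u} [Field K] {D : Type u} [DivisionRing D] [Algebra K D] {N R κ : ℕ}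

/-- the constants -/
noncomputable def cst0 (K : Type u) [Field K] (D : Type u) [DivisionRing D] [Algebra K D] (N : ℕ) :
    D →ₐ[K] YR D N where
  toFun d := AddMonoidAlgebra.single 0 d
  map_one' := rfl
  map_mul' a b := by rw [AddMonoidAlgebra.single_mul_single, add_zero]
  map_zero' := AddMonoidAlgebra.single_zero _
  map_add' a b := AddMonoidAlgebra.single_add _ _ _
  commutes' _ := rfl

theorem cst0_apply (d : D) : cst0 K D N d = AddMonoidAlgebra.single 0 d := rfl

theorem commute_zv (a : Fin N) (u : YR D N) : Commute (zv D N a) u := by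
  change zv D N a * u = u * zv D N a
  induction u using AddMonoidAlgebra.induction_linear with
  | zero => rw [zero_mul, mul_zero]
  | add b c hb hc => rw [mul_add, add_mul, hb, hc]
  | single m b =>
    unfold zv
    rw [AddMonoidAlgebra.single_mul_single, AddMonoidAlgebra.single_mul_single, one_mul, mul_one,
      add_comm]

/-- the inputs -/
noncomputable def evX (cf : Fin R → Fin 2 → Tix N R κ → K) (V : Fin R → Fin κ → Fin 2 → D)
    (g : Fin R) (ε : Fin 2) : YR D N :=
  ∑ v : Tix N R κ, cst0 K D N (algebraMap K D (cf g ε v)) * (match v with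
    | Sum.inl a => zv D N a
    | Sum.inr p => if _h : p.1 < g then
        cst0 K D N (V p.1 p.2 0) * evX cf V p.1 0 + cst0 K D N (V p.1 p.2 1) * evX cf V p.1 1
      else 0)
termination_by g.val
decreasing_by all_goals exact _h

/-- the elements -/
noncomputable def evW (cf : Fin R → Fin 2 → Tix N R κ → K) (V : Fin R → Fin κ → Fin 2 → D) :
    Tix N R κ → YR D N
  | Sum.inl a => zv D N a
  | Sum.inr p => cst0 K D N (V p.1 p.2 0) * evX cf V p.1 0 +
      cst0 K D N (V p.1 p.2 1) * evX cf V p.1 1

theorem evX_eq {cf : Fin R → Fin 2 → Tix N R κ → K}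
    (hcf : ∀ g ε p, cf g ε (Sum.inr p) ≠ 0 → p.1 < g) (V : Fin R → Fin κ → Fin 2 → D)
    (g : Fin R) (ε : Fin 2) :
    evX cf V g ε = ∑ v, cst0 K D N (algebraMap K D (cf g ε v)) * evW cf V v := by
  rw [evX]
  refine Finset.sum_congr rfl fun v _ => ?_
  rcases v with a | p
  · rfl
  · by_cases h : p.1 < g
    · simp only [dif_pos h]
      rfl
    · have h0 : cf g ε (Sum.inr p) = 0 := by
        by_contra h1
        exact h (hcf g ε p h1)
      rw [h0, map_zero, map_zero, zero_mul, zero_mul]

section main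
variable {cf : Fin R → Fin 2 → Tix N R κ → K}
  (hcf : ∀ g ε p, cf g ε (Sum.inr p) ≠ 0 → p.1 < g) {V : Fin R → Fin κ → Fin 2 → D}

theorem exists_lin_add {u v : YR D N} (hu : ∃ E : Fin N → D, u = M.lin E)
    (hv : ∃ E : Fin N → D, v = M.lin E) : ∃ E : Fin N → D, u + v = M.lin E := by
  obtain ⟨E, rfl⟩ := hu
  obtain ⟨F, rfl⟩ := hv
  refine ⟨E + F, ?_⟩
  unfold M.lin
  rw [← Finset.sum_add_distrib]
  refine Finset.sum_congr rfl fun k _ => ?_
  rw [Pi.add_apply, AddMonoidAlgebra.single_add]

theorem exists_lin_mul (d : D) {u : YR D N} (hu : ∃ E : Fin N → D, u = M.lin E) :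
    ∃ E : Fin N → D, cst0 K D N d * u = M.lin E := by
  obtain ⟨E, rfl⟩ := hu
  refine ⟨fun k => d * E k, ?_⟩
  unfold M.lin
  rw [Finset.mul_sum]
  refine Finset.sum_congr rfl fun k _ => ?_
  rw [cst0_apply, AddMonoidAlgebra.single_mul_single, zero_add]

theorem exists_lin_sum {ι : Type*} (s : Finset ι) (u : ι → YR D N)
    (hu : ∀ i, ∃ E : Fin N → D, u i = M.lin E) : ∃ E : Fin N → D, ∑ i ∈ s, u i = M.lin E := by
  classical
  induction s using Finset.induction_on with
  | empty =>
    refine ⟨0, ?_⟩
    rw [Finset.sum_empty]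
    unfold M.lin
    refine (Finset.sum_eq_zero fun k _ => ?_).symm
    rw [Pi.zero_apply, AddMonoidAlgebra.single_zero]
  | insert i s hi ih =>
    rw [Finset.sum_insert hi]
    exact exists_lin_add (hu i) ih

theorem zv_lin (a : Fin N) : ∃ E : Fin N → D, zv D N a = M.lin E := by
  classical
  refine ⟨Pi.single a 1, ?_⟩
  unfold M.lin zv
  rw [Finset.sum_eq_single a]
  · rw [Pi.single_eq_same]
  · intro b _ hb
    rw [Pi.single_eq_of_ne hb, AddMonoidAlgebra.single_zero]
  · intro h
    exact absurd (Finset.mem_univ a) h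

include hcf in
theorem evX_lin (g : Fin R) (ε : Fin 2) : ∃ E : Fin N → D, evX cf V g ε = M.lin E := by
  induction h : g.val using Nat.strong_induction_on generalizing g ε with
  | _ r ih =>
    subst h
    rw [evX_eq hcf]
    refine exists_lin_sum _ _ fun v => ?_
    rcases v with a | p
    · exact exists_lin_mul _ (zv_lin a)
    · by_cases h0 : cf g ε (Sum.inr p) = 0
      · refine ⟨0, ?_⟩
        rw [h0, map_zero, map_zero, zero_mul]
        unfold M.lin
        refine (Finset.sum_eq_zero fun k _ => ?_).symm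
        rw [Pi.zero_apply, AddMonoidAlgebra.single_zero]
      · have h1 := hcf g ε p h0
        exact exists_lin_mul _ (exists_lin_add (exists_lin_mul _ (ih _ h1 p.1 0 rfl))
          (exists_lin_mul _ (ih _ h1 p.1 1 rfl)))

include hcf in
theorem evW_lin (v : Tix N R κ) : ∃ E : Fin N → D, evW cf V v = M.lin E := by
  rcases v with a | p
  · exact zv_lin a
  · exact exists_lin_add (exists_lin_mul _ (evX_lin hcf _ _)) (exists_lin_mul _ (evX_lin hcf _ _))

variable (hV : ∀ g h, g ≠ h → ∀ i j ε δ, V g i ε * V h j δ = V h j δ * V g i ε)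

include hcf hV in
/-- the constants of the block `g' ≥ g` commute with the inputs of the block `g` -/
theorem commute_evX (g : Fin R) (ε : Fin 2) (g' : Fin R) (hg : g ≤ g') (i : Fin κ) (δ : Fin 2) :
    Commute (cst0 K D N (V g' i δ)) (evX cf V g ε) := by
  induction h : g.val using Nat.strong_induction_on generalizing g ε with
  | _ r ih =>
    subst h
    rw [evX_eq hcf]
    refine Commute.sum_right _ _ _ fun v _ => ?_
    have hc : Commute (cst0 K D N (V g' i δ)) (cst0 K D N (algebraMap K D (cf g ε v))) := by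
      rw [AlgHom.commutes]
      exact (Algebra.commutes _ _).symm
    rcases v with a | p
    · exact hc.mul_right (commute_zv a _).symm
    · by_cases h0 : cf g ε (Sum.inr p) = 0
      · rw [h0, map_zero, map_zero, zero_mul]
        exact Commute.zero_right _
      · have h3 := hcf g ε p h0
        have h2 : g' ≠ p.1 := by
          intro h'
          rw [← h'] at h3
          exact absurd h3 (not_lt.2 hg)
        have h1 : ∀ ε, Commute (cst0 K D N (V g' i δ))
            (cst0 K D N (V p.1 p.2 ε) * evX cf V p.1 ε) := by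
          intro ε
          refine Commute.mul_right ?_ (ih _ h3 p.1 ε (h3.le.trans hg) rfl)
          change _ * _ = _ * _
          rw [← map_mul, ← map_mul, hV g' p.1 h2]
        exact hc.mul_right ((h1 0).add_right (h1 1))

include hcf hV in
theorem commute_cst_evW (g' : Fin R) (i : Fin κ) (δ : Fin 2) (v : Tix N R κ)
    (hv : ∀ p, v = Sum.inr p → p.1 < g') : Commute (cst0 K D N (V g' i δ)) (evW cf V v) := by
  rcases v with a | p
  · exact (commute_zv a _).symm
  · have h3 := hv p rfl
    have h1 : ∀ ε, Commute (cst0 K D N (V g' i δ))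
        (cst0 K D N (V p.1 p.2 ε) * evX cf V p.1 ε) := by
      intro ε
      refine Commute.mul_right ?_ (commute_evX hcf hV _ _ _ h3.le _ _)
      change _ * _ = _ * _
      rw [← map_mul, ← map_mul, hV g' p.1 (ne_of_gt h3)]
    exact (h1 0).add_right (h1 1)

include hcf in
theorem commute_sum_evX (g : Fin R) (ε : Fin 2) {b : YR D N}
    (hb : ∀ v, (∀ p, v = Sum.inr p → p.1 < g) → Commute (evW cf V v) b)  :
    Commute (evX cf V g ε) b := by
  rw [evX_eq hcf]
  refine Commute.sum_left _ _ _ fun v _ => ?_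
  by_cases h0 : cf g ε v = 0
  · rw [h0, map_zero, map_zero, zero_mul]
    exact Commute.zero_left _
  · refine Commute.mul_left ?_ (hb v fun p hp => ?_)
    · rw [AlgHom.commutes]
      exact Algebra.commutes _ _
    · subst hp
      exact hcf g ε p h0

variable {β : Fin R → Blk K κ}

/-- the coefficients of the variables of a block -/
def cfV (a : Fin κ → Fin 2 → D) : Fin (κ + 2) → Fin 2 → D :=
  Fin.cases (Pi.single 0 1) (Fin.cases (Pi.single 1 1) a)

include hcf hV in
/-- the substitution of a block whose inputs commute -/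
theorem exists_phi (g : Fin R) (hg : Commute (evX cf V g 0) (evX cf V g 1))
    (he : IsEv (β g) (V g)) :
    ∃ φ : MvPolynomial (Fin (κ + 2)) K →ₐ[K] YR D N,
      φ (X 0) = evX cf V g 0 ∧ φ (X 1) = evX cf V g 1 ∧
      (∀ i : Fin κ, φ (X i.succ.succ) = evW cf V (Sum.inr (g, i))) ∧
      ∀ i, φ ((β g).rel i) = 0 := by
  obtain ⟨ev, h0, h1, h2, h3⟩ := he
  obtain ⟨φ, hφ, hφ0⟩ := exists_subst (cst0 K D N) (evX cf V g) hg ev (cfV (V g)) (fun v => by
    refine Fin.cases ?_ (fun v => Fin.cases ?_ (fun i => ?_) v) v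
    · rw [h0]
      change _ = AddMonoidAlgebra.single _ ((Pi.single 0 1 : Fin 2 → D) 0) +
        AddMonoidAlgebra.single _ ((Pi.single 0 1 : Fin 2 → D) 1)
      rw [Pi.single_eq_same, Pi.single_eq_of_ne (by decide : (1 : Fin 2) ≠ 0),
        AddMonoidAlgebra.single_zero, add_zero]
    · have h1' : ev (X (Fin.succ 0)) = AddMonoidAlgebra.single (Finsupp.single 1 1) 1 := h1
      rw [h1']
      change _ = AddMonoidAlgebra.single _ ((Pi.single 1 1 : Fin 2 → D) 0) +
        AddMonoidAlgebra.single _ ((Pi.single 1 1 : Fin 2 → D) 1)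
      rw [Pi.single_eq_same, Pi.single_eq_of_ne (by decide : (0 : Fin 2) ≠ 1),
        AddMonoidAlgebra.single_zero, zero_add]
    · exact h2 i) (fun v ε δ => by
    refine Fin.cases ?_ (fun v => Fin.cases ?_ (fun i => ?_) v) v
    · change Commute (cst0 K D N ((Pi.single 0 1 : Fin 2 → D) ε)) _
      by_cases h : ε = 0
      · rw [h, Pi.single_eq_same, map_one]
        exact Commute.one_left _
      · rw [Pi.single_eq_of_ne h, map_zero]
        exact Commute.zero_left _
    · change Commute (cst0 K D N ((Pi.single 1 1 : Fin 2 → D) ε)) _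
      by_cases h : ε = 1
      · rw [h, Pi.single_eq_same, map_one]
        exact Commute.one_left _
      · rw [Pi.single_eq_of_ne h, map_zero]
        exact Commute.zero_left _
    · exact commute_evX hcf hV g δ g le_rfl i ε)
  refine ⟨φ, ?_, ?_, fun i => hφ i.succ.succ, fun i => hφ0 _ (h3 i)⟩
  · rw [hφ]
    change cst0 K D N ((Pi.single 0 1 : Fin 2 → D) 0) * _ +
      cst0 K D N ((Pi.single 0 1 : Fin 2 → D) 1) * _ = _
    rw [Pi.single_eq_same, Pi.single_eq_of_ne (by decide : (1 : Fin 2) ≠ 0), map_one, map_zero,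
      one_mul, zero_mul, add_zero]
  · rw [hφ]
    change cst0 K D N ((Pi.single 1 1 : Fin 2 → D) 0) * _ +
      cst0 K D N ((Pi.single 1 1 : Fin 2 → D) 1) * _ = _
    rw [Pi.single_eq_same, Pi.single_eq_of_ne (by decide : (0 : Fin 2) ≠ 1), map_one, map_zero,
      one_mul, zero_mul, zero_add]

variable (he : ∀ g, IsEv (β g) (V g))

include hcf hV he in
theorem commute_evW_lt (r : ℕ) : ∀ v v' : Tix N R κ, (∀ p, v = Sum.inr p → p.1.val < r) →
    (∀ p, v' = Sum.inr p → p.1.val < r) → Commute (evW cf V v) (evW cf V v') := by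
  induction r with
  | zero =>
    intro v v' hv hv'
    rcases v with a | p
    · exact commute_zv a _
    · exact absurd (hv p rfl) (Nat.not_lt_zero _)
  | succ r ih =>
    have hX : ∀ (g : Fin R) (ε : Fin 2) (v' : Tix N R κ), g.val = r →
        (∀ p, v' = Sum.inr p → p.1.val < r) → Commute (evX cf V g ε) (evW cf V v') := by
      intro g ε v' hg hv'
      refine commute_sum_evX hcf g ε fun v hv => ih v v' (fun p hp => ?_) hv'
      have := hv p hp
      rw [← hg]
      exact this
    have hXX : ∀ g : Fin R, g.val = r → Commute (evX cf V g 0) (evX cf V g 1) := by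
      intro g hg
      refine commute_sum_evX hcf g 0 fun v hv => (hX g 1 v hg fun p hp => ?_).symm
      have := hv p hp
      rw [← hg]
      exact this
    have hmix : ∀ (p : Fin R × Fin κ) (v' : Tix N R κ), p.1.val = r →
        (∀ p, v' = Sum.inr p → p.1.val < r) → Commute (evW cf V (Sum.inr p)) (evW cf V v') := by
      intro p v' hp hv'
      have h1 : ∀ ε, Commute (cst0 K D N (V p.1 p.2 ε) * evX cf V p.1 ε) (evW cf V v') := by
        intro ε
        refine Commute.mul_left ?_ (hX _ _ _ hp hv')
        refine commute_cst_evW hcf hV _ _ _ _ fun q hq => ?_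
        have := hv' q hq
        rw [← hp] at this
        exact this
      exact (h1 0).add_left (h1 1)
    intro v v' hv hv'
    rcases v with a | p
    · exact commute_zv a _
    · rcases v' with a | p'
      · exact (commute_zv a _).symm
      · have hp := hv p rfl
        have hp' := hv' p' rfl
        rcases Nat.lt_succ_iff_lt_or_eq.1 hp with h | h
        · rcases Nat.lt_succ_iff_lt_or_eq.1 hp' with h' | h'
          · refine ih _ _ (fun q hq => ?_) fun q hq => ?_
            · rw [← Sum.inr_injective hq]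
              exact h
            · rw [← Sum.inr_injective hq]
              exact h'
          · refine (hmix p' _ h' fun q hq => ?_).symm
            rw [← Sum.inr_injective hq]
            exact h
        · rcases Nat.lt_succ_iff_lt_or_eq.1 hp' with h' | h'
          · refine hmix p _ h fun q hq => ?_
            rw [← Sum.inr_injective hq]
            exact h'
          · obtain ⟨g, i⟩ := p
            obtain ⟨g', i'⟩ := p'
            have hgg : g' = g := Fin.ext (h'.trans h.symm)
            subst hgg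
            obtain ⟨φ, -, -, h2, -⟩ := exists_phi hcf hV g' (hXX g' h) (he g')
            rw [← h2, ← h2]
            change _ * _ = _ * _
            rw [← map_mul, ← map_mul, mul_comm]

include hcf hV he in
theorem commute_evW (v v' : Tix N R κ) : Commute (evW cf V v) (evW cf V v') :=
  commute_evW_lt hcf hV he R v v' (fun p _ => p.1.2) fun p _ => p.1.2

include hcf hV he in
/-- **Evaluation of the circuit.** -/
theorem exists_eval :
    ∃ Ψ : MvPolynomial (Tix N R κ) K →ₐ[K] YR D N,
      (∀ a, Ψ (X (Sum.inl a)) = zv D N a) ∧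
      (∀ v, ∃ E : Fin N → D, Ψ (X v) = M.lin E) ∧
      ∀ g i, Ψ (aeval (sbF cf g) ((β g).rel i)) = 0 := by
  have hcomm : ∀ a ∈ Set.range (evW cf V), ∀ b ∈ Set.range (evW cf V), a * b = b * a := by
    rintro _ ⟨v, rfl⟩ _ ⟨v', rfl⟩
    exact commute_evW hcf hV he v v'
  obtain ⟨Ψ, hΨ⟩ : ∃ Ψ : MvPolynomial (Tix N R κ) K →ₐ[K] YR D N, ∀ v, Ψ (X v) = evW cf V v := by
    let _ := Algebra.adjoinCommRingOfComm K hcomm
    refine ⟨(Algebra.adjoin K (Set.range (evW cf V))).val.comp
      (aeval fun v => ⟨evW cf V v, Algebra.subset_adjoin ⟨v, rfl⟩⟩), fun v => ?_⟩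
    rw [AlgHom.comp_apply, aeval_X]
    rfl
  refine ⟨Ψ, fun a => hΨ _, fun v => ?_, fun g i => ?_⟩
  · rw [hΨ]
    exact evW_lin hcf v
  · have hX : ∀ ε, Ψ (inpF cf g ε) = evX cf V g ε := by
      intro ε
      rw [evX_eq hcf, inpF, map_sum]
      refine Finset.sum_congr rfl fun v _ => ?_
      rw [map_mul, hΨ]
      have h5 : Ψ (C (cf g ε v)) = cst0 K D N (algebraMap K D (cf g ε v)) :=
        (Ψ.commutes _).trans ((cst0 K D N).commutes _).symm
      rw [h5]
    have hg : Commute (evX cf V g 0) (evX cf V g 1) := by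
      rw [← hX, ← hX]
      change _ * _ = _ * _
      rw [← map_mul, ← map_mul, mul_comm]
    obtain ⟨φ, h0, h1, h2, h3⟩ := exists_phi hcf hV g hg (he g)
    have hφ : Ψ.comp (aeval (sbF cf g)) = φ := by
      refine MvPolynomial.algHom_ext fun v => ?_
      rw [AlgHom.comp_apply, aeval_X]
      refine Fin.cases ?_ (fun v => Fin.cases ?_ (fun j => ?_) v) v
      · rw [sbF_zero, hX, h0]
      · change Ψ (inpF cf g 1) = φ (X 1)
        rw [hX, h1]
      · rw [sbF_succ, hΨ, h2]
    rw [← h3 i, ← hφ]
    rfl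

end main

/-- **The tower and the evaluation.** -/
theorem exists_alg (hstep : Step K κ) (β : Fin R → Blk K κ) (hI : IntAll K β)
    (cf : Fin R → Fin 2 → Tix N R κ → K)
    (hcf : ∀ g ε p, cf g ε (Sum.inr p) ≠ 0 → p.1 < g) :
    ∃ (D : Type u) (_ : DivisionRing D) (_ : Algebra K D)
      (Ψ : MvPolynomial (Tix N R κ) K →ₐ[K] YR D N),
      (∀ a, Ψ (X (Sum.inl a)) = zv D N a) ∧
      (∀ v, ∃ E : Fin N → D, Ψ (X v) = M.lin E) ∧
      ∀ g i, Ψ (aeval (sbF cf g) ((β g).rel i)) = 0 := by
  obtain ⟨D, i1, i2, -, V, -, hV, he⟩ := tower hstep R β K hI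
  obtain ⟨Ψ, h⟩ := exists_eval hcf (fun g h hgh => hV g h hgh) he
  exact ⟨D, i1, i2, Ψ, h⟩

end eval

end Vale.Agent.P200F.V

end

section

namespace Vale.Agent.P200F.V.Rig

open MvPolynomial
open Vale.Agent.P200F.M

universe u

section
variable {K : Type u} [Field K] {n κ N : ℕ}

/-- the used generators -/
def geV (n N κ : ℕ) : Tix n N κ → Gen
  | Sum.inl a => Sum.inl a
  | Sum.inr p => Sum.inr (p.1, p.2)

theorem geV_injective : Function.Injective (geV n N κ) := by
  intro v w h
  rcases v with a | p <;> rcases w with b | q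
  · exact congrArg _ (Fin.ext (Sum.inl_injective h))
  · exact absurd h (by simp [geV])
  · exact absurd h (by simp [geV])
  · have h1 := Sum.inr_injective h
    rw [Prod.mk.injEq] at h1
    obtain ⟨g, i⟩ := p
    obtain ⟨g', i'⟩ := q
    have h2 : g = g' := Fin.ext h1.1
    have h3 : i = i' := Fin.ext h1.2
    rw [h2, h3]

/-- the substitution which forgets the other generators -/
noncomputable def geT (K : Type u) [Field K] (n N κ : ℕ) : Gen → MvPolynomial (Tix n N κ) K
  | Sum.inl i => if h : i < n then X (Sum.inl ⟨i, h⟩) else 0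
  | Sum.inr p => if h : p.1 < N ∧ p.2 < κ then X (Sum.inr (⟨p.1, h.1⟩, ⟨p.2, h.2⟩)) else 0

theorem geT_geV (v : Tix n N κ) : geT K n N κ (geV n N κ v) = X v := by
  rcases v with a | p
  · exact dif_pos a.2
  · exact dif_pos (⟨p.1.2, p.2.2⟩ : (p.1 : ℕ) < N ∧ (p.2 : ℕ) < κ)

theorem exists_geV {v : Gen} (hv : Used n κ N v) : ∃ w, geV n N κ w = v := by
  rcases v with i | p
  · exact ⟨Sum.inl ⟨i, hv⟩, rfl⟩
  · exact ⟨Sum.inr (⟨p.1, hv.1⟩, ⟨p.2, hv.2⟩), rfl⟩

theorem geT_lin {t : Gen →₀ K} (ht : Sup n κ N t) :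
    aeval (geT K n N κ) (lin K t) = ∑ w : Tix n N κ, C (t (geV n N κ w)) * X w := by
  classical
  have h1 : t.support ⊆ Finset.univ.image (geV n N κ) := by
    intro v hv
    obtain ⟨w, rfl⟩ := exists_geV (ht v hv)
    exact Finset.mem_image_of_mem _ (Finset.mem_univ _)
  unfold lin
  rw [Finsupp.linearCombination_apply, Finsupp.sum, map_sum]
  have h2 : ∀ v, aeval (geT K n N κ) (t v • (X v : MvPolynomial Gen K)) =
      C (t v) * geT K n N κ v := by
    intro v
    rw [map_smul, aeval_X, MvPolynomial.smul_eq_C_mul]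
  rw [Finset.sum_congr rfl fun v _ => h2 v, Finset.sum_subset h1 fun v _ hv => by
    rw [Finsupp.notMem_support_iff.1 hv, C_0, zero_mul], Finset.sum_image
    fun v _ w _ h => geV_injective h]
  exact Finset.sum_congr rfl fun w _ => by rw [geT_geV]

theorem Sup.mono {t : Gen →₀ K} {N' : ℕ} (h : N ≤ N') (ht : Sup n κ N t) : Sup n κ N' t := by
  intro v hv
  have h1 := ht v hv
  rcases v with i | p
  · exact h1
  · exact ⟨h1.1.trans_le h, h1.2⟩

end

/-- **Evaluation.** -/
theorem rig_eval {K : Type u} [Field K] {n κ : ℕ} (hstep : Step K κ) (C : Circ K n κ) :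
    ∃ (D : Type u) (_ : DivisionRing D) (_ : Algebra K D)
      (Ψ : MvPolynomial Gen K →ₐ[K] YR D n),
      (∀ i : Fin n, Ψ (X (Sum.inl (i : ℕ))) = zv D n i) ∧
      (∀ t, C.S t → ∃ E : Fin n → D, Ψ (lin K t) = M.lin E) ∧
      ∀ P ∈ C.I, Ψ P = 0 := by
  classical
  set cf : Fin C.N → Fin 2 → Tix n C.N κ → K := fun g ε v => C.inp g ε (geV n C.N κ v) with hcf0
  have hcf : ∀ g ε p, cf g ε (Sum.inr p) ≠ 0 → p.1 < g := by
    intro g ε p h
    exact (C.old g g.2 ε _ (Finsupp.mem_support_iff.2 h)).1
  obtain ⟨D, i1, i2, Ψ, h1, h2, h3⟩ := exists_alg hstep (fun g : Fin C.N => C.β g) (C.int C.N) cf hcf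
  refine ⟨D, i1, i2, Ψ.comp (aeval (geT K n C.N κ)), fun i => ?_, fun t ht => ?_, fun P hP => ?_⟩
  · rw [AlgHom.comp_apply, aeval_X]
    have h4 : geT K n C.N κ (Sum.inl (i : ℕ)) = X (Sum.inl i) := geT_geV (Sum.inl i)
    rw [h4, h1]
  · rw [AlgHom.comp_apply, geT_lin ht, map_sum]
    refine exists_lin_sum _ _ fun w => ?_
    rw [map_mul]
    have h5 : Ψ (MvPolynomial.C (t (geV n C.N κ w))) =
        cst0 K D n (algebraMap K D (t (geV n C.N κ w))) :=
      (Ψ.commutes _).trans ((cst0 K D n).commutes _).symm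
    rw [h5]
    exact exists_lin_mul _ (h2 w)
  · have hI : C.I ≤ RingHom.ker (Ψ.comp (aeval (geT K n C.N κ))) := by
      unfold Circ.I
      rw [Ideal.span_le]
      rintro _ ⟨g, hg, i, rfl⟩
      change (Ψ.comp (aeval (geT K n C.N κ))) (C.ev g ((C.β g).rel i)) = 0
      rw [AlgHom.comp_apply]
      have h6 : (aeval (geT K n C.N κ)).comp (C.ev g) = aeval (sbF cf ⟨g, hg⟩) := by
        refine MvPolynomial.algHom_ext fun s => ?_
        rw [AlgHom.comp_apply, Circ.ev, aeval_X, aeval_X]
        refine Fin.cases ?_ (fun s => Fin.cases ?_ (fun j => ?_) s) s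
        · exact geT_lin ((C.old g hg 0).mono hg.le)
        · exact geT_lin ((C.old g hg 1).mono hg.le)
        · change aeval (geT K n C.N κ) (lin K (Finsupp.single (Sum.inr (g, (j : ℕ))) 1)) = _
          unfold lin
          rw [Finsupp.linearCombination_single, one_smul, aeval_X, sbF_succ]
          exact geT_geV (Sum.inr (⟨g, hg⟩, j))
      have h7 : aeval (geT K n C.N κ) (C.ev g ((C.β g).rel i)) =
          aeval (sbF cf ⟨g, hg⟩) ((C.β g).rel i) := by
        rw [← h6]
        rfl
      rw [h7]
      exact h3 ⟨g, hg⟩ i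
    exact hI hP

end Vale.Agent.P200F.V.Rig

end

section

namespace Vale.Agent.P200F.V.Rig

open MvPolynomial
open Vale.Agent.P200F.M

universe u

section
variable {K : Type u} [Field K] {D : Type u} [DivisionRing D] [Algebra K D] {n : ℕ}

theorem ro_cst_bD (a : K) :
    (bD D (MvPolynomial.C a : MvPolynomial (Fin n) K) : YR D n) = algebraMap K (YR D n) a := by
  have h : (MvPolynomial.C a : MvPolynomial (Fin n) K) = monomial 0 a := rfl
  rw [h, bD_monomial]
  rfl

theorem ro_bD (Ψ : MvPolynomial Gen K →ₐ[K] YR D n)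
    (h : ∀ i : Fin n, Ψ (X (Sum.inl (i : ℕ))) = zv D n i) (G : MvPolynomial (Fin n) K) :
    Ψ (rename (fun i : Fin n => (Sum.inl (i : ℕ) : Gen)) G) = bD D G := by
  induction G using MvPolynomial.induction_on with
  | C a =>
    rw [rename_C, ro_cst_bD]
    exact Ψ.commutes a
  | add p q hp hq => rw [map_add, map_add, hp, hq, map_add]
  | mul_X p i hp =>
    rw [map_mul, map_mul, hp, rename_X, h, map_mul, bD_X]

end

theorem ro_prim {k K : Type*} [Field k] [Field K] [Algebra k K] {n : ℕ}
    {I : Ideal (MvPolynomial (Fin n) k)} (h : IsMPrimary I) :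
    IsMPrimary (I.map (MvPolynomial.map (σ := Fin n) (algebraMap k K))) := by
  obtain ⟨N, hN⟩ := h
  refine ⟨N, fun d hd g hg => ?_⟩
  rw [← MvPolynomial.support_sum_monomial_coeff g]
  refine Ideal.sum_mem _ fun m hm => ?_
  have h1 : (monomial m (1 : k)).IsHomogeneous d := by
    refine isHomogeneous_monomial _ ?_
    have h2 := hg (mem_support_iff.1 hm)
    rw [← h2]
    exact (congrArg (fun f : (Fin n →₀ ℕ) →+ ℕ => f m)
      (Finsupp.degree_eq_weight_one (σ := Fin n) (R := ℕ)))
  have h3 := Ideal.mem_map_of_mem (MvPolynomial.map (σ := Fin n) (algebraMap k K)) (hN d hd _ h1)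
  rw [map_monomial, map_one] at h3
  have h4 : monomial m (coeff m g) = MvPolynomial.C (coeff m g) * monomial m (1 : K) := by
    rw [C_mul_monomial, mul_one]
  rw [h4]
  exact Ideal.mul_mem_left _ _ h3

/-- the conclusion of `exists_circ` -/
def ROCirc (k : Type u) [Field k] : Prop :=
  ∀ (n : ℕ) (_ : 0 < n) (f : Fin n → MvPolynomial (Fin n) k) (d : Fin n → ℕ)
    (_ : ∀ i, 0 < d i) (_ : Monotone d) (_ : ∀ i, (f i).IsHomogeneous (d i))
    (_ : ∃ m, ∀ P : MvPolynomial (Fin n) k, P.IsHomogeneous m → P ∈ Ideal.span (Set.range f)),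
    ∃ (K : Type u) (_ : Field K) (φ : k →+* K) (κ : ℕ) (C : Circ K n κ) (ξ : Fin n → (Gen →₀ K))
      (G : Fin n → MvPolynomial (Fin n) K) (L : Fin n → Fin n → K),
      (∀ i, C.S (ξ i)) ∧ (∀ i, (G i).IsHomogeneous (d i)) ∧
      (∀ i, G i ∈ Ideal.span (Set.range fun i => MvPolynomial.map φ (f i))) ∧
      Ideal.span (Set.range G) = Ideal.span (Set.range fun i => MvPolynomial.map φ (f i)) ∧
      ∀ i, lin K (ξ i) ^ d i - rename (fun i : Fin n => (Sum.inl (i : ℕ) : Gen)) (G i) -
        ∑ j ∈ Finset.univ.filter (fun j => i < j), MvPolynomial.C (L i j) * lin K (ξ j) ^ d i ∈ C.I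

/-- **Output.** -/
theorem ro_eOut (hstep : ∀ (K : Type u) [Field K] (κ : ℕ), Step K κ) (k : Type u) [Field k]
    (hC : ROCirc k) : EOut k := by
  intro n a hmono h2 f hf hm
  rcases Nat.eq_zero_or_pos n with rfl | hn
  · refine ⟨k, inferInstance, inferInstance, k, inferInstance, inferInstance, fun i => i.elim0,
      fun i => i.elim0, fun i => i.elim0, ⟨fun i => i.elim0, fun i => i.elim0, ?_,
      fun i => i.elim0⟩, fun i => i.elim0⟩
    have h1 : (Set.range fun i : Fin 0 => (i.elim0 : MvPolynomial (Fin 0) k)) = Set.range f := by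
      rw [Set.range_eq_empty, Set.range_eq_empty]
    rw [h1]
    exact hm
  · obtain ⟨m, hm'⟩ := id hm
    obtain ⟨K, _, φ, κ, C, ξ, G, L, hS, hG, hGf, hspan, hrel⟩ := hC n hn f a
      (fun i => lt_of_lt_of_le two_pos (h2 i)) hmono hf ⟨m, fun P hP => hm' m le_rfl P hP⟩
    let _ : Algebra k K := φ.toAlgebra
    obtain ⟨D, _, _, Ψ, hx, hlin, hI⟩ := rig_eval (hstep K κ) C
    choose E hE using fun i => hlin (ξ i) (hS i)
    have hmap : (Ideal.span (Set.range f)).map (MvPolynomial.map (σ := Fin n) (algebraMap k K)) =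
        Ideal.span (Set.range fun i => MvPolynomial.map φ (f i)) := by
      rw [Ideal.map_span, ← Set.range_comp]
      rfl
    refine ⟨K, inferInstance, inferInstance, D, inferInstance, inferInstance, E, L, G,
      ⟨fun i j => ?_, hG, ?_, fun i => ?_⟩, fun i => ?_⟩
    · have h1 : Ψ (lin K (ξ i) * lin K (ξ j)) = Ψ (lin K (ξ j) * lin K (ξ i)) := by rw [mul_comm]
      rwa [map_mul Ψ, map_mul Ψ, hE, hE] at h1
    · rw [hspan, ← hmap]
      exact ro_prim hm
    · have h1 := hI _ (hrel i)
      rw [map_sub, map_sub, map_pow, hE, ro_bD Ψ hx, map_sum] at h1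
      rw [sub_eq_zero, sub_eq_iff_eq_add'] at h1
      rw [h1]
      congr 1
      have h2 : Finset.univ.filter (fun j => i < j) = Finset.Ioi i := by
        ext j
        simp
      rw [h2]
      refine Finset.sum_congr rfl fun j _ => ?_
      rw [map_mul, map_pow, hE, ro_cst_bD]
      congr 1
      exact Ψ.commutes _
    · rw [hmap]
      exact hGf i

end Vale.Agent.P200F.V.Rig

end

section

namespace Vale.Agent.P200F.V

open MvPolynomial Module
open Vale.Agent.P200F.B Vale.Agent.P200F.G Vale.Agent.P200F.L Vale.Agent.P200F.M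

variable {D : Type*} [DivisionRing D] {n : ℕ}

/-- the forms commute in the polynomial ring -/
def LinComm (E : Fin n → Fin n → D) : Prop :=
  ∀ i j, (M.lin (E i) * M.lin (E j) : YR D n) = M.lin (E j) * M.lin (E i)

theorem tg_xim_add (E : Fin n → Fin n → D) (hc : LinComm E) (m : Fin n →₀ ℕ) (i : Fin n) :
    xim E (m + Finsupp.single i 1) = xim E m * M.lin (E i) := by
  refine m4_prod_ofFn (M.lin (E i)) n _ _ i (fun j hj => ?_) ?_ fun j => ?_
  · rw [Finsupp.add_apply, Finsupp.single_apply, if_neg (Ne.symm hj), add_zero]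
  · rw [Finsupp.add_apply, Finsupp.single_apply, if_pos rfl, pow_succ]
  · exact (Commute.pow_left (hc j i) (m j)).eq

theorem tg_xim_pow (E : Fin n → Fin n → D) (hc : LinComm E) (m : Fin n →₀ ℕ) (i : Fin n)
    (k : ℕ) : xim E (m + Finsupp.single i k) = xim E m * M.lin (E i) ^ k := by
  induction k with
  | zero => rw [Finsupp.single_zero, add_zero, pow_zero, mul_one]
  | succ k ih =>
    rw [Finsupp.single_add, ← add_assoc, tg_xim_add E hc, ih, pow_succ, mul_assoc]

theorem tg_xim_single (E : Fin n → Fin n → D) (hc : LinComm E) (i : Fin n) (k : ℕ) :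
    xim E (Finsupp.single i k) = M.lin (E i) ^ k := by
  have h := tg_xim_pow E hc 0 i k
  rwa [zero_add, m4_xim_zero, one_mul] at h

theorem tg_theta_mul_zv (E : Fin n → Fin n → D) (hc : LinComm E) (u : YR D n) (i : Fin n) :
    theta E (u * zv D n i) = theta E u * M.lin (E i) := by
  induction u using AddMonoidAlgebra.induction_linear with
  | zero => rw [zero_mul, map_zero, zero_mul]
  | add a b ha hb => rw [add_mul, map_add, map_add, add_mul, ha, hb]
  | single m c =>
    unfold zv
    rw [AddMonoidAlgebra.single_mul_single, mul_one, theta_single, theta_single,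
      tg_xim_add E hc, smul_mul_assoc]

theorem tg_single_range (E : Fin n → Fin n → D) (hc : LinComm E)
    (hind : LinearIndependent D E) : ∀ (d : ℕ) (m : Fin n →₀ ℕ) (c : D), ∑ i, m i = d →
      (AddMonoidAlgebra.single m c : YR D n) ∈ (YD D n d).map (theta E) := by
  intro d
  induction d with
  | zero =>
    intro m c hm
    have h0 : m = 0 := by
      ext i
      exact (Finset.sum_eq_zero_iff.1 hm) i (Finset.mem_univ i)
    subst h0
    refine ⟨AddMonoidAlgebra.single 0 c, m4_single_mem (by simp) c, ?_⟩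
    rw [theta_single, m4_xim_zero, AddMonoidAlgebra.one_def, AddMonoidAlgebra.smul_single',
      mul_one]
  | succ d ih =>
    intro m c hm
    obtain ⟨k, hk⟩ : ∃ k, m k ≠ 0 := by
      by_contra hcon
      push Not at hcon
      rw [Finset.sum_eq_zero fun i _ => hcon i] at hm
      omega
    obtain ⟨m', hm'⟩ : ∃ m' : Fin n →₀ ℕ, m = m' + Finsupp.single k 1 := by
      refine ⟨m - Finsupp.single k 1, ?_⟩
      rw [tsub_add_cancel_of_le]
      rw [Finsupp.single_le_iff]
      omega
    have hd : ∑ i, m' i = d := by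
      rw [hm', m4_deg_add, m4_deg_single] at hm
      omega
    have h1 : (AddMonoidAlgebra.single m c : YR D n) =
        AddMonoidAlgebra.single m' c * zv D n k := by
      unfold zv
      rw [AddMonoidAlgebra.single_mul_single, mul_one, hm']
    obtain ⟨a, ha⟩ := m4_zv_eq E hind k
    rw [h1, ha]
    refine Submodule.sum_mem _ fun i _ => ?_
    obtain ⟨w, hw, hw'⟩ := ih m' (c * a i) hd
    refine ⟨w * zv D n i, mul_mem_YD hw (m4_zv_mem i), ?_⟩
    rw [tg_theta_mul_zv E hc, hw']

theorem tg_map_theta (E : Fin n → Fin n → D) (hc : LinComm E)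
    (hind : LinearIndependent D E) (d : ℕ) : (YD D n d).map (theta E) = YD D n d := by
  apply le_antisymm
  · rintro _ ⟨u, hu, rfl⟩
    exact theta_mem E hu
  · intro u hu
    rw [m4_sum_single u]
    refine Submodule.sum_mem _ fun m hm => ?_
    exact tg_single_range E hc hind d m _ (hu m (Finsupp.mem_support_iff.1 hm))

theorem tg_theta_injective (E : Fin n → Fin n → D) (hc : LinComm E)
    (hind : LinearIndependent D E) : Function.Injective (theta E) := by
  rw [← LinearMap.ker_eq_bot, LinearMap.ker_eq_bot']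
  intro u hu
  obtain ⟨N, hN⟩ := m4_exists_W u
  have hmaps : ∀ w ∈ m4W D n N, theta E w ∈ m4W D n N := by
    intro w hw
    rw [m4_sum_single w, map_sum]
    refine Submodule.sum_mem _ fun m hm => ?_
    exact m4_YD_le (hw m (Finsupp.mem_support_iff.1 hm))
      (theta_mem E (m4_single_mem rfl _))
  have hsurj : Function.Surjective ((theta E).restrict hmaps) := by
    rintro ⟨w, hw⟩
    have h1 : w ∈ (m4W D n N).map (theta E) := by
      rw [m4_sum_single w]
      refine Submodule.sum_mem _ fun m hm => ?_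
      exact Submodule.map_mono (m4_YD_le (hw m (Finsupp.mem_support_iff.1 hm)))
        (tg_single_range E hc hind _ m _ rfl)
    obtain ⟨y, hy, hy'⟩ := h1
    exact ⟨⟨y, hy⟩, Subtype.ext hy'⟩
  have hfin := m4_finite_W (D := D) (n := n) N
  have hinj : Function.Injective ((theta E).restrict hmaps) :=
    LinearMap.injective_iff_surjective.2 hsurj
  have h2 : (⟨u, hN⟩ : m4W D n N) = 0 := by
    apply hinj
    rw [map_zero]
    exact Subtype.ext hu
  exact congrArg Subtype.val h2

theorem tg_finrank_comap (E : Fin n → Fin n → D) (hc : LinComm E)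
    (hind : LinearIndependent D E) {d : ℕ} (V : Submodule D (YR D n)) (hV : V ≤ YD D n d) :
    V.comap (theta E) ≤ YD D n d ∧ finrank D (V.comap (theta E)) = finrank D V := by
  have hinj := tg_theta_injective E hc hind
  constructor
  · intro u hu
    have h1 : theta E u ∈ YD D n d := hV hu
    rw [← tg_map_theta E hc hind d] at h1
    obtain ⟨w, hw, hw'⟩ := h1
    rwa [← hinj hw']
  · have hle : V ≤ LinearMap.range (theta E) := by
      intro v hv
      have h1 := hV hv
      rw [← tg_map_theta E hc hind d] at h1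
      obtain ⟨w, _, hw'⟩ := h1
      exact ⟨w, hw'⟩
    exact (Submodule.comap_equiv_self_of_inj_of_le hinj hle).finrank_eq

end Vale.Agent.P200F.V

end

section

namespace Vale.Agent.P200F.V

open MvPolynomial Module
open Vale.Agent.P200F.B Vale.Agent.P200F.G Vale.Agent.P200F.L Vale.Agent.P200F.M

/-- growth of the number of monomials -/
theorem tg_growth (m C : ℕ) : C * m.multichoose (m * C + 1) < (m + 1).multichoose (m * C + 1) := by
  rcases Nat.eq_zero_or_pos m with rfl | hm
  · simp
  · obtain ⟨p, rfl⟩ := Nat.exists_eq_add_of_le' hm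
    rw [Nat.multichoose_eq, Nat.multichoose_eq]
    generalize ht : (p + 1) * C + 1 = t
    have e1 : p + 1 + t - 1 = p + t := by omega
    have e2 : p + 1 + 1 + t - 1 = p + t + 1 := by omega
    rw [e1, e2]
    have h1 : (p + t).choose t = (p + t).choose p := by
      rw [← Nat.choose_symm (Nat.le_add_right p t)]
      congr 1
      omega
    have h2 : (p + t + 1).choose t = (p + t + 1).choose (p + 1) := by
      have h3 : p + 1 ≤ p + t + 1 := by omega
      rw [← Nat.choose_symm h3]
      congr 1
      omega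
    have h3 := Nat.add_one_mul_choose_eq (p + t) p
    rw [h1, h2]
    have h4 : 0 < (p + t).choose p := Nat.choose_pos (Nat.le_add_right p t)
    have h5 : (p + 1) * (C * (p + t).choose p) < (p + 1) * (p + t + 1).choose (p + 1) := by
      rw [mul_comm (p + 1) ((p + t + 1).choose (p + 1)), ← h3]
      have h6 : (p + 1) * (C * (p + t).choose p) = ((p + 1) * C) * (p + t).choose p := by ring
      rw [h6]
      exact Nat.mul_lt_mul_of_pos_right (by omega) h4
    exact Nat.lt_of_mul_lt_mul_left h5

theorem tg_multichoose_mono (m : ℕ) {s t : ℕ} (h : s ≤ t) :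
    (m + 1).multichoose s ≤ (m + 1).multichoose t := by
  rw [Nat.multichoose_eq, Nat.multichoose_eq]
  have e1 : ∀ s, m + 1 + s - 1 = m + s := fun s => by omega
  have e2 : ∀ s, (m + s).choose s = (m + s).choose m := by
    intro s
    rw [← Nat.choose_symm (Nat.le_add_right m s)]
    congr 1
    omega
  rw [e1, e1, e2, e2]
  exact Nat.choose_le_choose m (by omega)

section ind

variable {D : Type*} [DivisionRing D] {n : ℕ}

theorem tg_monD_eq (d : ℕ) : YD D n d = monD D {m : Fin n →₀ ℕ | ∑ i, m i = d} := rfl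

theorem tg_mem_antidiag {d : ℕ} {m : Fin n →₀ ℕ} :
    m ∈ (Finset.univ : Finset (Fin n)).finsuppAntidiag d ↔ ∑ i, m i = d := by
  rw [Finset.mem_finsuppAntidiag]
  exact ⟨fun h => h.1, fun h => ⟨h, Finset.subset_univ _⟩⟩

theorem tg_finrank_YD (d : ℕ) : finrank D (YD D n d) = n.multichoose d := by
  rw [tg_monD_eq, finrank_monD (e := d) {m : Fin n →₀ ℕ | ∑ i, m i = d} fun m hm => hm]
  have h1 : {m : Fin n →₀ ℕ | ∑ i, m i = d} =
      (((Finset.univ : Finset (Fin n)).finsuppAntidiag d : Finset (Fin n →₀ ℕ)) :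
        Set (Fin n →₀ ℕ)) := by
    ext m
    rw [Finset.mem_coe, tg_mem_antidiag]
    exact Iff.rfl
  rw [h1, Set.ncard_coe_finset, Finset.card_finsuppAntidiag_nat_eq_multichoose, Finset.card_univ,
    Fintype.card_fin]

/-- forms of large degree are left combinations of the `ξ_i` -/
def TgGen (E : Fin n → Fin n → D) (N : ℕ) : Prop :=
  ∀ d, N ≤ d → ∀ u ∈ YD D n (d + 1), ∃ w : Fin n → YR D n, (∀ i, w i ∈ YD D n d) ∧
    u = ∑ i, w i * M.lin (E i)

/-- the finite generating set of the forms of degree `N + t` -/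
noncomputable def tgSet [DecidableEq (YR D n)] (E : Fin n → Fin n → D) (k : Fin n) (N t : ℕ) :
    Finset (YR D n) :=
  ((Finset.univ : Finset (Fin n)).finsuppAntidiag N ×ˢ
    ((Finset.univ : Finset (Fin n)).erase k).finsuppAntidiag t).image
      fun p => AddMonoidAlgebra.single p.1 1 * xim E p.2

theorem tg_ind (E : Fin n → Fin n → D) (hc : LinComm E) (N : ℕ) (hN : TgGen E N) :
    LinearIndependent D E := by
  classical
  rw [Fintype.linearIndependent_iff]
  intro c hc0 k
  by_contra hk
  -- one form is a combination of the others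
  obtain ⟨b, hb⟩ : ∃ b : Fin n → D, (M.lin (E k) : YR D n) =
      ∑ i ∈ Finset.univ.erase k, AddMonoidAlgebra.single 0 (b i) * M.lin (E i) := by
    refine ⟨fun i => -((c k)⁻¹ * c i), ?_⟩
    have h1 : ∀ l, ∑ i, c i * E i l = 0 := by
      intro l
      have h2 := congrFun hc0 l
      rw [Finset.sum_apply] at h2
      exact h2
    have h2 : ∀ i (a : D), (AddMonoidAlgebra.single 0 a * M.lin (E i) : YR D n) =
        ∑ l, AddMonoidAlgebra.single (Finsupp.single l 1) (a * E i l) := by
      intro i a
      unfold M.lin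
      rw [Finset.mul_sum]
      refine Finset.sum_congr rfl fun l _ => ?_
      rw [AddMonoidAlgebra.single_mul_single, zero_add]
    rw [Finset.sum_congr rfl fun i _ => h2 i _, Finset.sum_comm]
    unfold M.lin
    refine Finset.sum_congr rfl fun l _ => ?_
    have h3 : ∑ i ∈ Finset.univ.erase k, -((c k)⁻¹ * c i) * E i l = E k l := by
      have h4 := h1 l
      rw [← Finset.add_sum_erase _ _ (Finset.mem_univ k)] at h4
      have h5 : ∑ i ∈ Finset.univ.erase k, c i * E i l = -(c k * E k l) :=
        eq_neg_of_add_eq_zero_right h4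
      have h6 : ∑ i ∈ Finset.univ.erase k, -((c k)⁻¹ * c i) * E i l =
          -((c k)⁻¹ * ∑ i ∈ Finset.univ.erase k, c i * E i l) := by
        rw [Finset.mul_sum, ← Finset.sum_neg_distrib]
        refine Finset.sum_congr rfl fun i _ => ?_
        rw [neg_mul, mul_assoc]
      rw [h6, h5, mul_neg, neg_neg, ← mul_assoc, inv_mul_cancel₀ hk, one_mul]
    rw [← h3]
    exact map_sum (AddMonoidAlgebra.singleAddHom (Finsupp.single l 1)) _ _
  -- generation without the form `k`
  have hgen : ∀ d, N ≤ d → ∀ u ∈ YD D n (d + 1), ∃ w : Fin n → YR D n,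
      (∀ i, w i ∈ YD D n d) ∧ u = ∑ i ∈ Finset.univ.erase k, w i * M.lin (E i) := by
    intro d hd u hu
    obtain ⟨w, hw, rfl⟩ := hN d hd u hu
    refine ⟨fun i => w i + w k * AddMonoidAlgebra.single 0 (b i), fun i => ?_, ?_⟩
    · refine Submodule.add_mem _ (hw i) ?_
      have h1 := mul_mem_YD (hw k) (m4_single_mem (n := n) (d := 0) (m := 0) (by simp) (b i))
      rwa [add_zero] at h1
    · rw [← Finset.sum_erase_add _ _ (Finset.mem_univ k), hb, Finset.mul_sum,
        ← Finset.sum_add_distrib]
      refine Finset.sum_congr rfl fun i _ => ?_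
      rw [add_mul, mul_assoc]
  -- the generating sets
  have hspan : ∀ t, YD D n (N + t) ≤ Submodule.span D (tgSet E k N t : Set (YR D n)) := by
    intro t
    induction t with
    | zero =>
      intro u hu
      rw [add_zero] at hu
      rw [m4_sum_single u]
      refine Submodule.sum_mem _ fun m hm => ?_
      have h1 : (AddMonoidAlgebra.single m (u.coeff m) : YR D n) =
          u.coeff m • (AddMonoidAlgebra.single m 1 * xim E 0) := by
        rw [m4_xim_zero, mul_one, AddMonoidAlgebra.smul_single', mul_one]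
      rw [h1]
      refine Submodule.smul_mem _ _ (Submodule.subset_span ?_)
      rw [Finset.mem_coe, tgSet, Finset.mem_image]
      refine ⟨(m, 0), ?_, rfl⟩
      rw [Finset.mem_product]
      refine ⟨tg_mem_antidiag.2 (hu m (Finsupp.mem_support_iff.1 hm)), ?_⟩
      rw [Finset.mem_finsuppAntidiag]
      exact ⟨by simp, by simp⟩
    | succ t ih =>
      intro u hu
      obtain ⟨w, hw, rfl⟩ := hgen (N + t) (by omega) u hu
      refine Submodule.sum_mem _ fun i hi => ?_
      have h1 : ∀ v ∈ Submodule.span D (tgSet E k N t : Set (YR D n)),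
          v * M.lin (E i) ∈ Submodule.span D (tgSet E k N (t + 1) : Set (YR D n)) := by
        intro v hv
        induction hv using Submodule.span_induction with
        | mem v hv =>
          rw [Finset.mem_coe, tgSet, Finset.mem_image] at hv
          obtain ⟨⟨β, α⟩, hp, rfl⟩ := hv
          rw [Finset.mem_product] at hp
          refine Submodule.subset_span ?_
          rw [Finset.mem_coe, tgSet, Finset.mem_image]
          refine ⟨(β, α + Finsupp.single i 1), ?_, ?_⟩
          · rw [Finset.mem_product]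
            refine ⟨hp.1, ?_⟩
            have h2 := Finset.mem_finsuppAntidiag.1 hp.2
            rw [Finset.mem_finsuppAntidiag]
            constructor
            · have h3 : ∑ j ∈ Finset.univ.erase k, (Finsupp.single i 1 : Fin n →₀ ℕ) j = 1 := by
                rw [Finset.sum_eq_single_of_mem i hi, Finsupp.single_eq_same]
                intro j _ hj
                exact Finsupp.single_eq_of_ne hj
              have h4 : ∑ j ∈ Finset.univ.erase k, α j = t := h2.1
              change ∑ j ∈ Finset.univ.erase k, (α + Finsupp.single i 1 : Fin n →₀ ℕ) j = t + 1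
              rw [Finset.sum_congr rfl fun j _ => Finsupp.add_apply α (Finsupp.single i 1) j,
                Finset.sum_add_distrib, h3, h4]
            · refine (Finsupp.support_add).trans (Finset.union_subset h2.2 ?_)
              refine Finsupp.support_single_subset.trans ?_
              rw [Finset.singleton_subset_iff]
              exact hi
          · rw [tg_xim_add E hc, mul_assoc]
        | zero =>
          rw [zero_mul]
          exact Submodule.zero_mem _
        | add x y _ _ hx hy =>
          rw [add_mul]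
          exact Submodule.add_mem _ hx hy
        | smul r x _ hx =>
          rw [smul_mul_assoc]
          exact Submodule.smul_mem _ _ hx
      exact h1 _ (ih (hw i))
  -- counting
  obtain ⟨m, rfl⟩ : ∃ m, n = m + 1 := ⟨n - 1, by have := k.pos; omega⟩
  set C := ((Finset.univ : Finset (Fin (m + 1))).finsuppAntidiag N).card with hC
  have h1 := tg_growth m C
  have h2 : finrank D (YD D (m + 1) (N + (m * C + 1))) ≤ (tgSet E k N (m * C + 1)).card := by
    refine (Submodule.finrank_mono (hspan (m * C + 1))).trans ?_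
    exact finrank_span_finset_le_card _
  have h3 : (tgSet E k N (m * C + 1)).card ≤ C * m.multichoose (m * C + 1) := by
    refine Finset.card_image_le.trans ?_
    rw [Finset.card_product, Finset.card_finsuppAntidiag_nat_eq_multichoose
      (s := (Finset.univ : Finset (Fin (m + 1))).erase k), Finset.card_erase_of_mem
      (Finset.mem_univ k), Finset.card_univ, Fintype.card_fin, Nat.add_sub_cancel]
  rw [tg_finrank_YD] at h2
  have h4 := tg_multichoose_mono m (show m * C + 1 ≤ N + (m * C + 1) by omega)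
  omega

end ind

section gen

variable {K : Type*} [Field K] {D : Type*} [DivisionRing D] [Algebra K D] {n : ℕ}

/-- left combinations of the `ξ_i` with coefficients of degree `d` -/
def tgComb (E : Fin n → Fin n → D) (d : ℕ) : Submodule D (YR D n) where
  carrier := {u | ∃ w : Fin n → YR D n, (∀ i, w i ∈ YD D n d) ∧ u = ∑ i, w i * M.lin (E i)}
  add_mem' := by
    rintro _ _ ⟨w, hw, rfl⟩ ⟨w', hw', rfl⟩
    refine ⟨fun i => w i + w' i, fun i => Submodule.add_mem _ (hw i) (hw' i), ?_⟩
    rw [← Finset.sum_add_distrib]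
    exact Finset.sum_congr rfl fun i _ => (add_mul _ _ _).symm
  zero_mem' := ⟨fun _ => 0, fun _ => Submodule.zero_mem _, by simp⟩
  smul_mem' := by
    rintro r _ ⟨w, hw, rfl⟩
    refine ⟨fun i => r • w i, fun i => Submodule.smul_mem _ _ (hw i), ?_⟩
    rw [Finset.smul_sum]
    exact Finset.sum_congr rfl fun i _ => (smul_mul_assoc _ _ _).symm

theorem tg_bD_mem {e : ℕ} {v : MvPolynomial (Fin n) K} (hv : v.IsHomogeneous e) :
    bD D v ∈ YD D n e := by
  rw [← VD_homogeneous (K := K)]
  exact Submodule.subset_span ⟨v, hv, rfl⟩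

/-- the relations give all forms of large degree -/
theorem tg_gen (a : Fin n → ℕ) (ha : ∀ i, 1 ≤ a i) (E : Fin n → Fin n → D)
    (G : Fin n → MvPolynomial (Fin n) K) (hG : ∀ i, (G i).IsHomogeneous (a i))
    (hprim : IsMPrimary (Ideal.span (Set.range G)))
    (hrel : ∀ i, (bD D (G i) : YR D n) ∈ tgComb E (a i - 1)) : ∃ N, TgGen E N := by
  obtain ⟨N, hN⟩ := hprim
  refine ⟨N, fun d hd u hu => ?_⟩
  -- the polynomials over `K` which are combinations
  let W : Submodule K (MvPolynomial (Fin n) K) :=
    { carrier := {v | bD D v ∈ tgComb E d}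
      add_mem' := by
        intro v v' hv hv'
        change bD D (v + v') ∈ tgComb E d
        rw [map_add]
        exact Submodule.add_mem _ hv hv'
      zero_mem' := by
        change bD D 0 ∈ tgComb E d
        rw [map_zero]
        exact Submodule.zero_mem _
      smul_mem' := by
        intro r v hv
        change bD D (r • v) ∈ tgComb E d
        rw [bD_smul]
        exact Submodule.smul_mem _ _ hv }
  have hW : piece (Ideal.span (Set.range G)) (d + 1) ≤ W := by
    refine piece_span_le ?_
    rintro _ ⟨i, rfl⟩ w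
    change bD D (homogeneousComponent (d + 1) (w * G i)) ∈ tgComb E d
    rw [mul_comm]
    rcases lt_or_ge (d + 1) (a i) with hlt | hge
    · rw [comp_mul_of_lt (hG i) w hlt, map_zero]
      exact Submodule.zero_mem _
    · obtain ⟨e, he⟩ := Nat.exists_eq_add_of_le' hge
      rw [he, comp_mul_add (hG i), mul_comm, map_mul]
      obtain ⟨v, hv, hv'⟩ := hrel i
      rw [hv', Finset.mul_sum]
      refine ⟨fun j => bD D (homogeneousComponent e w) * v j, fun j => ?_, ?_⟩
      · have h1 := mul_mem_YD (tg_bD_mem (D := D) (homogeneousComponent_isHomogeneous e w)) (hv j)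
        have h2 : e + (a i - 1) = d := by
          have := ha i
          omega
        rwa [h2] at h1
      · exact Finset.sum_congr rfl fun j _ => (mul_assoc _ _ _).symm
  have hall : VD D (homogeneousSubmodule (Fin n) K (d + 1)) ≤ tgComb E d := by
    refine Submodule.span_le.2 ?_
    rintro _ ⟨v, hv, rfl⟩
    exact hW ⟨hN (d + 1) (by omega) v hv, hv⟩
  rw [VD_homogeneous] at hall
  exact hall hu

end gen

end Vale.Agent.P200F.V

end

section

namespace Vale.Agent.P200F.V

open MvPolynomial Module
open Vale.Agent.P200F.B Vale.Agent.P200F.G Vale.Agent.P200F.L Vale.Agent.P200F.M Vale.Agent.P200F.W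

section degen

variable {K : Type*} [Field K] {D : Type*} [DivisionRing D] [Algebra K D] {n : ℕ}

/-- the lowest monomials of the elements `u` with `θ u ∈ D ⊗ I` -/
theorem tg_degenerate (a : Fin n → ℕ) (E : Fin n → Fin n → D) (hc : LinComm E)
    (hind : LinearIndependent D E) (I : Ideal (MvPolynomial (Fin n) K))
    (hpow : ∀ i, ∃ u : YR D n, theta E u ∈ VD D (piece I (a i)) ∧
      u.coeff (Finsupp.single i (a i)) ≠ 0 ∧
        ∀ m', cl m' (Finsupp.single i (a i)) → u.coeff m' = 0) :
    ∃ S : Set (Fin n →₀ ℕ), (∀ m ∈ S, ∀ i, m + Finsupp.single i 1 ∈ S) ∧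
      (∀ i, Finsupp.single i (a i) ∈ S) ∧
      ∀ d, finrank K (piece I d) = finrank K (piece (monIdeal K S) d) := by
  have hle : ∀ d, VD D (piece I d) ≤ YD D n d := by
    intro d
    rw [← VD_homogeneous (K := K)]
    exact M.VD_mono (G.piece_le I d)
  have hcle : ∀ d, (VD D (piece I d)).comap (theta E) ≤ YD D n d := fun d =>
    (tg_finrank_comap E hc hind _ (hle d)).1
  have hmul : ∀ d, ∀ v ∈ piece I d, ∀ k, v * X k ∈ piece I (d + 1) := by
    intro d v hv k
    refine ⟨I.mul_mem_right _ hv.1, ?_⟩
    exact ((mem_homogeneousSubmodule _ _).1 hv.2).mul (isHomogeneous_X K k)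
  obtain ⟨S, hS⟩ := w17_exists_set fun m =>
      m ∈ w17low ((VD D (piece I (∑ i, m i))).comap (theta E))
  have hup : ∀ m ∈ S, ∀ i, m + Finsupp.single i 1 ∈ S := by
    intro m hm i
    rw [hS] at hm ⊢
    have h2 : ∑ j, (m + Finsupp.single i 1 : Fin n →₀ ℕ) j = ∑ i, m i + 1 := by
      rw [m4_deg_add, m4_deg_single]
    rw [h2]
    refine w17_low_mul i (fun u hu => ?_) hm
    change theta E (u * zv D n i) ∈ VD D (piece I (∑ i, m i + 1))
    rw [tg_theta_mul_zv E hc]
    exact w17_VD_mul_lin (hmul _) _ hu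
  have hdegm : ∀ d, ∀ m ∈ inm (d + 1) ((VD D (piece I d)).comap (theta E)), ∑ i, m i = d :=
    fun d m hm => inm_subset (hcle d) hm
  have hdeg : ∀ d, {m | m ∈ S ∧ ∑ i, m i = d} =
      inm (d + 1) ((VD D (piece I d)).comap (theta E)) := by
    intro d
    rw [← w17_low_eq (Nat.lt_succ_self d) (hcle d)]
    ext m
    constructor
    · rintro ⟨h1, h2⟩
      rw [hS, h2] at h1
      exact h1
    · intro h1
      have h2 : ∑ i, m i = d := by
        rw [w17_low_eq (Nat.lt_succ_self d) (hcle d)] at h1
        exact hdegm d m h1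
      refine ⟨?_, h2⟩
      rw [hS, h2]
      exact h1
  have hfin : ∀ d, (inm (d + 1) ((VD D (piece I d)).comap (theta E))).Finite := fun d =>
    (deg_finite n d).subset fun m hm => hdegm d m hm
  have hdim : ∀ d, finrank K (piece I d) = finrank K (piece (monIdeal K S) d) := by
    intro d
    have h0 : Module.Finite K (homogeneousSubmodule (Fin n) K d) := v7_finite d
    have h1 : Module.Finite K (piece I d) := Submodule.finiteDimensional_of_le (G.piece_le I d)
    rw [piece_monIdeal hup, hdeg, G.finrank_restrictSupport _ (hfin d),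
      ncard_inm (Nat.lt_succ_self d) (hcle d), (tg_finrank_comap E hc hind _ (hle d)).2,
      M.finrank_VD]
  refine ⟨S, hup, fun i => ?_, hdim⟩
  have h1 : ∑ j, (Finsupp.single i (a i) : Fin n →₀ ℕ) j = a i := by
    classical
    simp only [Finsupp.single_apply]
    simp
  rw [hS, h1]
  obtain ⟨u, hu, hu1, hu2⟩ := hpow i
  exact ⟨u, hu, hu1, hu2⟩

end degen

section target

variable {K : Type*} [Field K] {D : Type*} [DivisionRing D] [Algebra K D] {n : ℕ}

/-- the data of the target: commuting forms with triangular relations -/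
structure TgData (K : Type*) [Field K] (D : Type*) [DivisionRing D] [Algebra K D] (n : ℕ)
    (a : Fin n → ℕ) where
  /-- the rows of coefficients of the forms -/
  E : Fin n → Fin n → D
  comm : LinComm E
  /-- the forms over the centre -/
  G : Fin n → MvPolynomial (Fin n) K
  hom : ∀ i, (G i).IsHomogeneous (a i)
  prim : IsMPrimary (Ideal.span (Set.range G))
  /-- the coefficients of the relations -/
  L : Fin n → Fin n → D
  rel : ∀ i, (M.lin (E i) ^ a i : YR D n) =
    bD D (G i) + ∑ j ∈ Finset.univ.filter (i < ·), L i j • (M.lin (E j) ^ a i : YR D n)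

variable {a : Fin n → ℕ}

theorem TgData.mem_comb (ρ : TgData K D n a) (ha : ∀ i, 1 ≤ a i) (i : Fin n) :
    (bD D (ρ.G i) : YR D n) ∈ tgComb ρ.E (a i - 1) := by
  classical
  have hp : ∀ j, (M.lin (ρ.E j) ^ a i : YR D n) ∈ tgComb ρ.E (a i - 1) := by
    intro j
    refine ⟨fun k => if k = j then M.lin (ρ.E j) ^ (a i - 1) else 0, fun k => ?_, ?_⟩
    · dsimp only
      split_ifs
      · have h := m4_pow_mem (lin_mem (ρ.E j)) (a i - 1)
        rwa [Nat.mul_one] at h
      · exact Submodule.zero_mem _
    · rw [Finset.sum_eq_single j]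
      · dsimp only
        rw [if_pos rfl, ← pow_succ, Nat.sub_add_cancel (ha i)]
      · intro k _ hk
        dsimp only
        rw [if_neg hk, zero_mul]
      · intro h
        exact absurd (Finset.mem_univ j) h
  rw [eq_sub_of_add_eq (ρ.rel i).symm]
  exact Submodule.sub_mem _ (hp i)
    (Submodule.sum_mem _ fun j _ => Submodule.smul_mem _ _ (hp j))

theorem TgData.ind (ρ : TgData K D n a) (ha : ∀ i, 1 ≤ a i) : LinearIndependent D ρ.E := by
  obtain ⟨N, hN⟩ := tg_gen a ha ρ.E ρ.G ρ.hom ρ.prim (ρ.mem_comb ha)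
  exact tg_ind ρ.E ρ.comm N hN

/-- the polynomial in the `z_i` with value `G_i` -/
noncomputable def TgData.init (ρ : TgData K D n a) (i : Fin n) : YR D n :=
  AddMonoidAlgebra.single (Finsupp.single i (a i)) 1 -
    ∑ j ∈ Finset.univ.filter (i < ·), AddMonoidAlgebra.single (Finsupp.single j (a i)) (ρ.L i j)

theorem TgData.theta_init (ρ : TgData K D n a) (i : Fin n) :
    theta ρ.E (ρ.init i) = bD D (ρ.G i) := by
  rw [TgData.init, map_sub, theta_single, one_smul, tg_xim_single ρ.E ρ.comm, map_sum, ρ.rel i,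
    sub_eq_iff_eq_add]
  congr 1
  refine Finset.sum_congr rfl fun j _ => ?_
  rw [theta_single, tg_xim_single ρ.E ρ.comm]

theorem TgData.init_coeff (ρ : TgData K D n a) (i : Fin n) (m : Fin n →₀ ℕ)
    (hm : ∀ j, i < j → Finsupp.single j (a i) ≠ m) :
    (ρ.init i).coeff m = if Finsupp.single i (a i) = m then 1 else 0 := by
  classical
  rw [TgData.init, AddMonoidAlgebra.coeff_sub, Finsupp.sub_apply, AddMonoidAlgebra.coeff_single,
    Finsupp.single_apply, AddMonoidAlgebra.coeff_sum, Finsupp.finsetSum_apply,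
    Finset.sum_eq_zero, sub_zero]
  intro j hj
  rw [AddMonoidAlgebra.coeff_single, Finsupp.single_apply,
    if_neg (hm j (Finset.mem_filter.1 hj).2)]

/-- a monomial ideal with the pure powers and the Hilbert function of `I` -/
theorem TgData.monomial (ρ : TgData K D n a) (ha : ∀ i, 1 ≤ a i)
    (I : Ideal (MvPolynomial (Fin n) K)) (hI : ∀ i, ρ.G i ∈ I) :
    ∃ S : Set (Fin n →₀ ℕ), (∀ m ∈ S, ∀ i, m + Finsupp.single i 1 ∈ S) ∧
      (∀ i, Finsupp.single i (a i) ∈ S) ∧
      ∀ d, finrank K (piece I d) = finrank K (piece (monIdeal K S) d) := by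
  classical
  refine tg_degenerate a ρ.E ρ.comm (ρ.ind ha) I fun i => ⟨ρ.init i, ?_, ?_, fun m' hm' => ?_⟩
  · rw [ρ.theta_init]
    exact Submodule.subset_span ⟨ρ.G i, ⟨hI i, ρ.hom i⟩, rfl⟩
  · rw [ρ.init_coeff, if_pos rfl]
    · exact one_ne_zero
    · intro j hj h
      have h1 := DFunLike.congr_fun h j
      rw [Finsupp.single_eq_same, Finsupp.single_eq_of_ne (ne_of_gt hj)] at h1
      exact absurd h1 (by have := ha i; omega)
  · obtain ⟨k, hk1, hk2⟩ := hm'
    have hki : k = i := by
      by_contra hne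
      rw [Finsupp.single_eq_of_ne hne] at hk1
      omega
    subst hki
    rw [ρ.init_coeff, if_neg]
    · rintro rfl
      exact lt_irrefl _ hk1
    · rintro j hj rfl
      have h1 := hk2 j hj
      rw [Finsupp.single_eq_same, Finsupp.single_eq_of_ne (ne_of_gt hj)] at h1
      exact absurd h1 (by have := ha k; omega)

end target

end Vale.Agent.P200F.V

end

section

namespace Vale.Agent.P200F.V

open MvPolynomial Module
open Vale.Agent.P200F.B Vale.Agent.P200F.G Vale.Agent.P200F.L Vale.Agent.P200F.M

theorem tg_bD_C_mul {K D : Type*} [Field K] [DivisionRing D] [Algebra K D] {n : ℕ} (c : K)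
    (u : YR D n) : bD D (C c : MvPolynomial (Fin n) K) * u = algebraMap K D c • u := by
  have h1 : (bD D (C c : MvPolynomial (Fin n) K) : YR D n) =
      AddMonoidAlgebra.single 0 (algebraMap K D c) := bD_monomial 0 c
  rw [h1]
  ext m
  rw [AddMonoidAlgebra.coeff_single_zero_mul, AddMonoidAlgebra.coeff_smul_apply, smul_eq_mul]

universe u

/-- the data of the target from the interface -/
noncomputable def TgData.ofRoots {K D : Type u} [Field K] [DivisionRing D] [Algebra K D] {n : ℕ}
    {a : Fin n → ℕ} {E : Fin n → Fin n → D} {Lc : Fin n → Fin n → K}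
    {G : Fin n → MvPolynomial (Fin n) K} (h : Roots K D a E Lc G) : TgData K D n a where
  E := E
  comm := h.comm
  G := G
  hom := h.hom
  prim := h.prim
  L := fun i j => algebraMap K D (Lc i j)
  rel := by
    intro i
    rw [h.pow i]
    congr 1
    refine Finset.sum_congr ?_ fun j _ => tg_bD_C_mul _ _
    ext j
    simp

/-- **(F)** -/
theorem fProp (K D : Type u) [Field K] [DivisionRing D] [Algebra K D] : FProp K D := by
  intro n a ha E Lc G h I _ hG
  exact (TgData.ofRoots h).monomial ha I hG

end Vale.Agent.P200F.V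

end
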