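import Vale.Agent.P200F.Ns
import Vale.Agent.P200F.A1

set_option linter.all false

section

namespace Vale.Agent.P200F.V

open Module

universe u

section gen
variable (D : Type u) [DivisionRing D] (κ R : ℕ) (ι : Type)

/-- the vectors of multidegree `n` -/
def pvi (n : Fin R → ℕ) : Submodule D (ι → PA D κ R) where
  carrier := {u | ∀ i, u i ∈ pp D κ R n}
  add_mem' ha hb i := Submodule.add_mem _ (ha i) (hb i)
  zero_mem' _ := Submodule.zero_mem _
  smul_mem' k _ ha i := Submodule.smul_mem _ k (ha i)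

/-- the component of multidegree `n` of a vector -/
noncomputable def cvi (n : Fin R → ℕ) : (ι → PA D κ R) →ₗ[D] (ι → PA D κ R) where
  toFun u i := cp D κ R n (u i)
  map_add' u v := by
    ext1 i
    exact map_add (cp D κ R n) _ _
  map_smul' k u := by
    ext1 i
    exact map_smul (cp D κ R n) _ _

end gen

section
variable {K : Type u} [Field K] {D : Type u} [DivisionRing D] [Algebra K D] {κ R : ℕ} {ι : Type}

/-- the multihomogeneous submodules containing the multiples of the relations -/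
structure IsGi (β : Fin R → Blk K κ) (N : Submodule (PA D κ R) (ι → PA D κ R)) : Prop where
  hom : ∀ u ∈ N, ∀ n, cvi D κ R ι n u ∈ N
  rel : ∀ g i (w : ι → PA D κ R), bm K D κ g ((β g).rel i) • w ∈ N

/-- the dimension of `(PA D κ R)^ι / N` in degree `n` -/
noncomputable def qdi (N : Submodule (PA D κ R) (ι → PA D κ R)) (n : Fin R → ℕ) : ℕ :=
  finrank D (pvi D κ R ι n) - finrank D (pvi D κ R ι n ⊓ N.restrictScalars D : Submodule D _)

theorem qdi_fin {s : ℕ} (N : Submodule (PA D κ R) (Fin s → PA D κ R)) (n : Fin R → ℕ) :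
    qdi N n = qd N n := rfl

/-- `rho N = r` -/
def IsRho (β : Blk K κ) (N : Submodule (PA D κ 1) (ι → PA D κ 1)) (r : ℤ) : Prop :=
  ∃ A B : ℤ, r = A - B ∧ ∃ m0 : ℕ, ∀ m, m0 ≤ m →
    (qdi N (fun _ => m) : ℤ) = A * hO β.e m + B * dl β.e

/-- `k` is the maximum of `rho N'`, `N' ≥ N` -/
def IsRk (β : Blk K κ) (N : Submodule (PA D κ 1) (ι → PA D κ 1)) (k : ℕ) : Prop :=
  (∃ N', N ≤ N' ∧ IsGi (fun _ : Fin 1 => β) N' ∧ IsRho β N' k) ∧
    ∀ N', N ≤ N' → IsGi (fun _ : Fin 1 => β) N' → ∀ r, IsRho β N' r → r ≤ k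

/-- `N'` is the largest object above `N` with `rho N' = rk N` -/
def IsCl (β : Blk K κ) (N N' : Submodule (PA D κ 1) (ι → PA D κ 1)) : Prop :=
  N ≤ N' ∧ IsGi (fun _ : Fin 1 => β) N' ∧ ∃ k : ℕ, IsRk β N k ∧ IsRho β N' k ∧
    ∀ N'', N ≤ N'' → IsGi (fun _ : Fin 1 => β) N'' → IsRho β N'' k → N'' ≤ N'

/-- the multiples of the relations are central -/
theorem bm_comm (g : Fin R) (p : MvPolynomial (Fin (κ + 2)) K) (a : PA D κ R) :
    bm K D κ g p * a = a * bm K D κ g p := by
  induction p using MvPolynomial.induction_on with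
  | C k =>
    have : bm K D κ (R := R) g (MvPolynomial.C k) = algebraMap K (PA D κ R) k := by
      rw [← MvPolynomial.algebraMap_eq]
      exact AlgHom.commutes _ _
    rw [this]
    exact Algebra.commutes _ _
  | add p q hp hq => rw [map_add, add_mul, mul_add, hp, hq]
  | mul_X p v hp =>
    have h1 : bm K D κ (R := R) g (MvPolynomial.X v) = va D κ R (g, v) := by
      rw [bm, AlgHom.comp_apply]
      have h2 : (AddMonoidAlgebra.mapDomainAlgHom K K
          (Finsupp.mapDomain.addMonoidHom fun v : Fin (κ + 2) => (g, v)))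
            (MvPolynomial.X v : MvPolynomial (Fin (κ + 2)) K) =
          (AddMonoidAlgebra.single (Finsupp.single (g, v) 1) (1 : K) :
            AddMonoidAlgebra K (Mon κ R)) := by
        change AddMonoidAlgebra.mapDomain _ (AddMonoidAlgebra.single (Finsupp.single v 1) (1 : K)) = _
        rw [AddMonoidAlgebra.mapDomain_single]
        congr 1
        exact Finsupp.mapDomain_single
      rw [h2, AddMonoidAlgebra.mapAlgHom_single, map_one]
      rfl
    have h3 : va D κ R (g, v) * a = a * va D κ R (g, v) := by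
      clear hp
      induction a using AddMonoidAlgebra.induction_linear with
      | zero => rw [zero_mul, mul_zero]
      | add a b ha hb => rw [add_mul, mul_add, ha, hb]
      | single m d =>
        rw [va, AddMonoidAlgebra.single_mul_single, AddMonoidAlgebra.single_mul_single, one_mul,
          mul_one, add_comm]
    rw [map_mul, h1, mul_assoc, h3, ← mul_assoc, hp, mul_assoc]

theorem isGi_iff {β : Fin R → Blk K κ} {s : ℕ} (N : Submodule (PA D κ R) (Fin s → PA D κ R)) :
    IsGi β N ↔ IsG β N := by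
  constructor
  · intro h
    refine ⟨h.hom, fun g i j => ?_⟩
    have h1 := h.rel g i (Pi.single j 1)
    have h2 : bm K D κ g ((β g).rel i) • (Pi.single j 1 : Fin s → PA D κ R) =
        Pi.single j (bm K D κ g ((β g).rel i)) := by
      rw [← Pi.single_smul, smul_eq_mul, mul_one]
    rwa [h2] at h1
  · intro h
    refine ⟨h.hom, fun g i w => ?_⟩
    have h2 : bm K D κ g ((β g).rel i) • w =
        ∑ j, w j • (Pi.single j (bm K D κ g ((β g).rel i)) : Fin s → PA D κ R) := by
      funext j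
      rw [Finset.sum_apply, Finset.sum_eq_single j]
      · rw [Pi.smul_apply, Pi.smul_apply, Pi.single_eq_same, smul_eq_mul, smul_eq_mul]
        exact bm_comm _ _ _
      · intro j' _ hj
        rw [Pi.smul_apply, Pi.single_eq_of_ne hj.symm, smul_zero]
      · intro hj
        exact absurd (Finset.mem_univ _) hj
    rw [h2]
    exact Submodule.sum_mem _ fun j _ => N.smul_mem _ (h.rel g i j)

end

section rs
variable (K : Type u) [Field K] {D : Type u} [DivisionRing D] [Algebra K D] {κ : ℕ}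

/-- constants -/
noncomputable def cpo (D : Type u) [DivisionRing D] (κ R : ℕ) (d : D) : PA D κ R :=
  AddMonoidAlgebra.single 0 d

/-- `N` in every copy -/
def cpw (I : Type) {π : Type} (N : Submodule (PA D κ 1) (π → PA D κ 1)) :
    Submodule (PA D κ 1) (I × π → PA D κ 1) where
  carrier := {w | ∀ i, (fun q => w (i, q)) ∈ N}
  add_mem' ha hb i := N.add_mem (ha i) (hb i)
  zero_mem' _ := N.zero_mem
  smul_mem' k _ ha i := N.smul_mem k (ha i)

/-- The relations of `X^I / (∑ z_(j,i,k) f_k, a_(j',i) X)`, where `X = (PA D κ 1)^π / N` and the `f k`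
are (constant) elements of `X`. -/
noncomputable def RS {I J J' π : Type} {t : ℕ} (N : Submodule (PA D κ 1) (π → PA D κ 1))
    (f : Fin t → π → D) (z : J → I → Fin t → K) (a : J' → I → K) :
    Submodule (PA D κ 1) (I × π → PA D κ 1) :=
  cpw I N ⊔
    (Submodule.span (PA D κ 1) (Set.range fun j (w : I × π) =>
        cpo D κ 1 (∑ k, algebraMap K D (z j w.1 k) * f k w.2)) ⊔
      Submodule.span (PA D κ 1) {v | ∃ (j : J') (b : π → PA D κ 1),
        v = fun w : I × π => cpo D κ 1 (algebraMap K D (a j w.1)) * b w.2})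

end rs

end Vale.Agent.P200F.V

end

section

open Polynomial

namespace Vale.Agent.P200F.U

section Hilbert

variable {A : Type*} [Ring A]

/-- the left ideal of the coefficients in degree `n` of the elements of `I` of degree `≤ n` -/
lemma mem_lead (I : Ideal A[X]) (n : ℕ) (x : A) :
    x ∈ I.leadingCoeffNth n ↔ ∃ p ∈ I, degree p ≤ n ∧ p.coeff n = x := by
  simp only [Ideal.leadingCoeffNth, Ideal.degreeLE, Submodule.mem_map, lcoeff_apply,
    Submodule.mem_inf, mem_degreeLE, Ideal.mem_ofPolynomial]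
  constructor
  · rintro ⟨p, ⟨h1, h2⟩, h3⟩
    exact ⟨p, h2, h1, h3⟩
  · rintro ⟨p, h2, h1, h3⟩
    exact ⟨p, ⟨h1, h2⟩, h3⟩

lemma mul_X_pow_mem (I : Ideal A[X]) {p : A[X]} (hp : p ∈ I) (k : ℕ) : p * X ^ k ∈ I := by
  rw [← (X_pow_mul : X ^ k * p = p * X ^ k)]
  exact I.mul_mem_left _ hp

lemma lead_mono (I : Ideal A[X]) : Monotone fun n => I.leadingCoeffNth n := by
  intro m n h x hx
  rw [mem_lead] at hx ⊢
  obtain ⟨p, hp, hd, hc⟩ := hx
  refine ⟨p * X ^ (n - m), mul_X_pow_mem I hp _, ?_, ?_⟩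
  · refine (degree_mul_le _ _).trans ?_
    refine (add_le_add hd (degree_X_pow_le _)).trans ?_
    rw [← Nat.cast_add, add_tsub_cancel_of_le h]
  · have h1 : n = m + (n - m) := (add_tsub_cancel_of_le h).symm
    conv_lhs => rw [h1]
    rw [show m + (n - m) - m = n - m by omega, coeff_mul_X_pow, hc]

theorem isNoetherianRing_polynomial [IsNoetherianRing A] : IsNoetherianRing A[X] := by
  classical
  refine isNoetherianRing_iff.2 ⟨fun (I : Ideal A[X]) => ?_⟩
  have hNA : IsNoetherian A A := isNoetherianRing_iff.1 inferInstance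
  obtain ⟨N, hN⟩ := monotone_stabilizes_iff_noetherian.2 hNA
    ⟨fun n => I.leadingCoeffNth n, lead_mono I⟩
  have hfg : Submodule.FG (I.degreeLE N) :=
    isNoetherian_submodule_left.1
      (isNoetherian_of_fg_of_noetherian _ ⟨_, degreeLE_eq_span_X_pow.symm⟩) _
  obtain ⟨s, hs⟩ := hfg
  have hs2 : ∀ x ∈ I.degreeLE N, x ∈ Ideal.span (↑s : Set A[X]) := by
    intro x hx
    rw [← hs] at hx
    refine Submodule.span_induction (fun _ hx => Ideal.subset_span hx) (Ideal.zero_mem _)
      (fun _ _ _ _ => Ideal.add_mem _) (fun c f _ hf => ?_) hx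
    rw [← C_mul']
    exact Ideal.mul_mem_left _ _ hf
  refine ⟨s, le_antisymm (Ideal.span_le.2 fun x hx => ?_) ?_⟩
  · have : x ∈ I.degreeLE N := hs ▸ Submodule.subset_span hx
    exact this.2
  · intro p hp
    change p ∈ Ideal.span (↑s : Set A[X])
    have key : ∀ k : ℕ, ∀ p ∈ I, degree p ≤ k → p ∈ Ideal.span (↑s : Set A[X]) := by
      intro k
      induction k with
      | zero =>
        intro p hp hd
        refine hs2 p ⟨mem_degreeLE.2 (hd.trans ?_), hp⟩
        exact_mod_cast Nat.zero_le N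
      | succ k ih =>
        intro p hp hd
        rcases Nat.lt_or_ge N (k + 1) with h | h
        · have hx : p.coeff (k + 1) ∈ I.leadingCoeffNth (k + 1) :=
            (mem_lead I _ _).2 ⟨p, hp, hd, rfl⟩
          have h2 := hN (k + 1) h.le
          simp only [OrderHom.coe_mk] at h2
          rw [← h2, mem_lead] at hx
          obtain ⟨q, hq, hdq, hcq⟩ := hx
          have hqs : q ∈ Ideal.span (↑s : Set A[X]) := hs2 q ⟨mem_degreeLE.2 hdq, hq⟩
          have hq' : q * X ^ (k + 1 - N) ∈ Ideal.span (↑s : Set A[X]) := mul_X_pow_mem _ hqs _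
          have hsub : p - q * X ^ (k + 1 - N) ∈ Ideal.span (↑s : Set A[X]) := by
            refine ih _ (I.sub_mem hp (mul_X_pow_mem I hq _)) ?_
            rw [degree_le_iff_coeff_zero]
            intro m hm
            have hm' : k < m := by exact_mod_cast hm
            rcases Nat.lt_or_ge (k + 1) m with h3 | h3
            · have e1 : p.coeff m = 0 := by
                refine coeff_eq_zero_of_degree_lt (hd.trans_lt ?_)
                exact_mod_cast h3
              have e2 : (q * X ^ (k + 1 - N)).coeff m = 0 := by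
                rw [show m = (m - (k + 1 - N)) + (k + 1 - N) by omega, coeff_mul_X_pow]
                refine coeff_eq_zero_of_degree_lt (hdq.trans_lt ?_)
                have : N < m - (k + 1 - N) := by omega
                exact_mod_cast this
              rw [coeff_sub, e1, e2, sub_zero]
            · have e0 : m = k + 1 := by omega
              have e2 : (q * X ^ (k + 1 - N)).coeff m = q.coeff N := by
                rw [e0]
                conv_lhs => rw [show k + 1 = N + (k + 1 - N) by omega]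
                rw [show N + (k + 1 - N) - N = k + 1 - N by omega, coeff_mul_X_pow]
              rw [coeff_sub, e2, hcq, e0, sub_self]
          have := Ideal.add_mem _ hsub hq'
          rwa [sub_add_cancel] at this
        · refine hs2 p ⟨mem_degreeLE.2 (hd.trans ?_), hp⟩
          exact_mod_cast h
    exact key p.natDegree p hp degree_le_natDegree

end Hilbert

theorem isNoetherianRing_pa {D σ : Type*} [Ring D] [IsNoetherianRing D] [Finite σ] :
    IsNoetherianRing (AddMonoidAlgebra D (σ →₀ ℕ)) := by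
  have key : ∀ n : ℕ, IsNoetherianRing (AddMonoidAlgebra D (Fin n →₀ ℕ)) := by
    intro n
    induction n with
    | zero =>
      exact isNoetherianRing_of_ringEquiv D
        (AddMonoidAlgebra.uniqueRingEquiv (Fin 0 →₀ ℕ)).symm
    | succ n ih =>
      have h1 : IsNoetherianRing (Polynomial (AddMonoidAlgebra D (Fin n →₀ ℕ))) :=
        isNoetherianRing_polynomial
      have h2 : IsNoetherianRing
          (AddMonoidAlgebra (AddMonoidAlgebra D (Fin n →₀ ℕ)) ℕ) :=
        isNoetherianRing_of_ringEquiv _ (Polynomial.toFinsuppIso _)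
      have h3 : IsNoetherianRing
          (AddMonoidAlgebra (AddMonoidAlgebra D (Fin n →₀ ℕ)) (Fin 1 →₀ ℕ)) :=
        isNoetherianRing_of_ringEquiv _
          (AddMonoidAlgebra.mapDomainRingEquiv _ (Finsupp.uniqueAddEquiv (0 : Fin 1)).symm)
      have h4 : IsNoetherianRing (AddMonoidAlgebra D ((Fin 1 →₀ ℕ) × (Fin n →₀ ℕ))) :=
        isNoetherianRing_of_ringEquiv _ AddMonoidAlgebra.curryRingEquiv.symm
      have h5 : IsNoetherianRing (AddMonoidAlgebra D ((Fin 1 ⊕ Fin n) →₀ ℕ)) :=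
        isNoetherianRing_of_ringEquiv _
          (AddMonoidAlgebra.mapDomainRingEquiv D Finsupp.sumFinsuppAddEquivProdFinsupp.symm)
      exact isNoetherianRing_of_ringEquiv _
        (AddMonoidAlgebra.mapDomainRingEquiv D
          (Finsupp.domCongr (finSumFinEquiv.trans (finCongr (Nat.add_comm 1 n)))))
  obtain ⟨n, ⟨e⟩⟩ := Finite.exists_equiv_fin σ
  have := key n
  exact isNoetherianRing_of_ringEquiv _
    (AddMonoidAlgebra.mapDomainRingEquiv D (Finsupp.domCongr e.symm))

end Vale.Agent.P200F.U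

end

section

namespace Vale.Agent.P200F.V

open Module

universe u

variable {K : Type u} [Field K] {D : Type u} [DivisionRing D] [Algebra K D] {κ R : ℕ}
  {ι : Type}

section comp

theorem a1_cp_coeff (n : Fin R → ℕ) (u : PA D κ R) (m : Mon κ R) :
    (cp D κ R n u).coeff m = if mdeg m = n then u.coeff m else 0 := by
  change (u.coeff.filter fun m => mdeg m = n) m = _
  rw [Finsupp.filter_apply]

theorem a1_cp_mem (n : Fin R → ℕ) (u : PA D κ R) : cp D κ R n u ∈ pp D κ R n := by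
  intro m hm
  rw [a1_cp_coeff] at hm
  by_contra h
  rw [if_neg h] at hm
  exact hm rfl

theorem a1_cp_of_mem {n : Fin R → ℕ} {u : PA D κ R} (hu : u ∈ pp D κ R n) :
    cp D κ R n u = u := by
  apply AddMonoidAlgebra.ext
  ext m
  rw [a1_cp_coeff]
  split_ifs with h
  · rfl
  · by_contra h'
    exact h (hu m (fun h0 => h' h0.symm))

theorem a1_cp_of_mem_ne {n n' : Fin R → ℕ} {u : PA D κ R} (hu : u ∈ pp D κ R n) (h : n' ≠ n) :
    cp D κ R n' u = 0 := by
  apply AddMonoidAlgebra.ext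
  ext m
  rw [a1_cp_coeff, AddMonoidAlgebra.coeff_zero, Finsupp.zero_apply]
  split_ifs with h1
  · by_contra h'
    exact h (h1.symm.trans (hu m h'))
  · rfl

/-- the monomials of one multidegree are finitely many -/
theorem a1_finite_mon (κ : ℕ) {R : ℕ} (n : Fin R → ℕ) : {m : Mon κ R | mdeg m = n}.Finite := by
  apply (Set.finite_Iic (Finsupp.equivFunOnFinite.symm
    (fun v : Fin R × Fin (κ + 2) => n v.1) : Mon κ R)).subset
  intro m hm
  rw [Set.mem_Iic, Finsupp.le_def]
  rintro ⟨g, v⟩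
  rw [Set.mem_ofPred_eq] at hm
  change m (g, v) ≤ n g
  rw [← hm]
  exact Finset.single_le_sum (f := fun v => m (g, v)) (fun _ _ => Nat.zero_le _)
    (Finset.mem_univ v)

theorem a1_finite_pp (n : Fin R → ℕ) : Module.Finite D (pp D κ R n) := by
  let S := (a1_finite_mon κ n).toFinset
  let e : (pp D κ R n) →ₗ[D] (S → D) :=
    { toFun := fun u m => u.1.coeff m.1
      map_add' := fun u v => rfl
      map_smul' := fun k u => by
        funext m
        change (k • u.1).coeff m.1 = k • u.1.coeff m.1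
        rw [AddMonoidAlgebra.coeff_smul_apply] }
  apply Module.Finite.of_injective e
  intro u v huv
  apply Subtype.ext
  apply AddMonoidAlgebra.ext
  ext m
  by_cases h : mdeg m = n
  · exact congrFun huv ⟨m, by simpa [S] using h⟩
  · have h1 : u.1.coeff m = 0 := by
      by_contra h'
      exact h (u.2 m h')
    have h2 : v.1.coeff m = 0 := by
      by_contra h'
      exact h (v.2 m h')
    rw [h1, h2]

theorem a1_mdeg_add (m m' : Mon κ R) : mdeg (m + m') = mdeg m + mdeg m' := by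
  funext g
  rw [Pi.add_apply]
  unfold mdeg
  rw [← Finset.sum_add_distrib]
  rfl

theorem a1_single_mem (m : Mon κ R) (d : D) : AddMonoidAlgebra.single m d ∈ pp D κ R (mdeg m) := by
  intro m' hm'
  rw [AddMonoidAlgebra.coeff_single] at hm'
  by_contra h
  rw [Finsupp.single_eq_of_ne (fun h' => h (by rw [h']))] at hm'
  exact hm' rfl

/-- products of homogeneous polynomials -/
theorem a1_mul_mem {d d' : Fin R → ℕ} {p q : PA D κ R} (hp : p ∈ pp D κ R d)
    (hq : q ∈ pp D κ R d') : p * q ∈ pp D κ R (d + d') := by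
  classical
  intro m hm
  have h1 := AddMonoidAlgebra.support_coeff_mul_subset p q (Finsupp.mem_support_iff.2 hm)
  obtain ⟨a, ha, b, hb, rfl⟩ := Finset.mem_add.1 h1
  rw [a1_mdeg_add, hp a (Finsupp.mem_support_iff.1 ha), hq b (Finsupp.mem_support_iff.1 hb)]

/-- a monomial -/
theorem a1_bm_monomial (g : Fin R) (m : Fin (κ + 2) →₀ ℕ) (a : K) :
    bm K D κ g (MvPolynomial.monomial m a) =
      AddMonoidAlgebra.single (Finsupp.mapDomain (fun v : Fin (κ + 2) => (g, v)) m)
        (algebraMap K D a) := by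
  have h1 : AddMonoidAlgebra.mapDomainAlgHom K K
      (Finsupp.mapDomain.addMonoidHom fun v : Fin (κ + 2) => (g, v))
        (AddMonoidAlgebra.single m a) =
      AddMonoidAlgebra.single (Finsupp.mapDomain (fun v : Fin (κ + 2) => (g, v)) m) a := by
    exact AddMonoidAlgebra.mapDomain_single
  change AddMonoidAlgebra.mapAlgHom (R := K) (Mon κ R) (Algebra.ofId K D)
    (AddMonoidAlgebra.mapDomainAlgHom K K
      (Finsupp.mapDomain.addMonoidHom fun v : Fin (κ + 2) => (g, v))
        (AddMonoidAlgebra.single m a)) = _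
  rw [h1, AddMonoidAlgebra.mapAlgHom_single]
  rfl

/-- the multidegree of a monomial of the block `g` -/
theorem a1_mdeg_mapDomain (g : Fin R) (m : Fin (κ + 2) →₀ ℕ) :
    mdeg (Finsupp.mapDomain (fun v : Fin (κ + 2) => (g, v)) m : Mon κ R) =
      Pi.single g m.degree := by
  funext g'
  unfold mdeg
  by_cases h : g' = g
  · subst h
    rw [Pi.single_eq_same, Finsupp.degree_eq_sum]
    apply Finset.sum_congr rfl
    intro v _
    exact Finsupp.mapDomain_apply (fun a b hab => (Prod.ext_iff.1 hab).2) m v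
  · rw [Pi.single_eq_of_ne h]
    apply Finset.sum_eq_zero
    intro v _
    apply Finsupp.mapDomain_of_notMem_range
    rintro ⟨w, hw⟩
    exact h (Prod.ext_iff.1 hw).1.symm

/-- homogeneous polynomials over `K` in one block -/
theorem a1_bm_mem (g : Fin R) {p : MvPolynomial (Fin (κ + 2)) K} {e : ℕ}
    (hp : p.IsHomogeneous e) : bm K D κ g p ∈ pp D κ R (Pi.single g e) := by
  rw [p.as_sum, map_sum]
  apply Submodule.sum_mem
  intro m hm
  rw [a1_bm_monomial]
  have h1 : m.degree = e := by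
    by_contra h
    exact (MvPolynomial.mem_support_iff.1 hm) (hp.coeff_eq_zero h)
  have h2 := a1_single_mem (Finsupp.mapDomain (fun v : Fin (κ + 2) => (g, v)) m : Mon κ R)
    (algebraMap K D (MvPolynomial.coeff m p))
  rw [a1_mdeg_mapDomain, h1] at h2
  exact h2

/-- every polynomial is the sum of its components -/
theorem a1_sum_cp (u : PA D κ R) : ∃ S : Finset (Fin R → ℕ), u = ∑ n ∈ S, cp D κ R n u := by
  classical
  refine ⟨u.coeff.support.image mdeg, ?_⟩
  apply AddMonoidAlgebra.ext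
  ext m
  rw [AddMonoidAlgebra.coeff_sum, Finsupp.finsetSum_apply,
    Finset.sum_congr rfl fun n _ => a1_cp_coeff n u m, Finset.sum_ite_eq]
  split_ifs with h
  · rfl
  · by_contra h'
    apply h
    exact Finset.mem_image_of_mem _ (Finsupp.mem_support_iff.2 h')

/-- a product with a homogeneous polynomial has no components in the other degrees -/
theorem a1_cp_mul_zero {d n : Fin R → ℕ} {p : PA D κ R} (hp : p ∈ pp D κ R d)
    (h : ∀ n', n ≠ n' + d) (u : PA D κ R) : cp D κ R n (p * u) = 0 := by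
  obtain ⟨S, hS⟩ := a1_sum_cp u
  rw [hS, Finset.mul_sum, map_sum]
  apply Finset.sum_eq_zero
  intro n' _
  apply a1_cp_of_mem_ne (a1_mul_mem hp (a1_cp_mem n' u))
  rw [add_comm]
  exact h n'

end comp

/-- the submodule generated by the relations -/
noncomputable def N0i (D : Type u) [DivisionRing D] [Algebra K D] (β : Fin R → Blk K κ)
    (ι : Type) : Submodule (PA D κ R) (ι → PA D κ R) :=
  Submodule.span _ {u | ∃ g i, ∃ w : ι → PA D κ R, u = bm K D κ g ((β g).rel i) • w}

/-- the relations are homogeneous: degree `(β g).e i` in the block `g`, degree `0` in the others -/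
theorem bm_rel_mem (β : Fin R → Blk K κ) (g : Fin R) (i : Fin κ) :
    bm K D κ g ((β g).rel i) ∈ pp D κ R (Pi.single g ((β g).e i)) := by
  apply a1_bm_mem
  unfold Blk.rel
  exact (MvPolynomial.isHomogeneous_X_pow _ _).sub ((β g).hom i)

/-- the graded pieces are finite dimensional -/
theorem finite_pvi [Finite ι] (n : Fin R → ℕ) : FiniteDimensional D (pvi D κ R ι n) := by
  have := a1_finite_pp (D := D) (κ := κ) n
  let e : (pvi D κ R ι n) →ₗ[D] (ι → pp D κ R n) :=
    { toFun := fun u i => ⟨u.1 i, u.2 i⟩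
      map_add' := fun u v => rfl
      map_smul' := fun k u => rfl }
  apply Module.Finite.of_injective e
  intro u v huv
  apply Subtype.ext
  funext i
  exact congrArg Subtype.val (congrFun huv i)

theorem cvi_mem (n : Fin R → ℕ) (u : ι → PA D κ R) : cvi D κ R ι n u ∈ pvi D κ R ι n :=
  fun i => a1_cp_mem n (u i)

theorem cvi_of_mem {n : Fin R → ℕ} {u : ι → PA D κ R} (hu : u ∈ pvi D κ R ι n) :
    cvi D κ R ι n u = u := funext fun i => a1_cp_of_mem (hu i)

theorem cvi_of_mem_ne {n n' : Fin R → ℕ} {u : ι → PA D κ R} (hu : u ∈ pvi D κ R ι n)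
    (h : n' ≠ n) : cvi D κ R ι n' u = 0 := funext fun i => a1_cp_of_mem_ne (hu i) h

/-- every vector is the sum of its components -/
theorem sum_cvi [Finite ι] (u : ι → PA D κ R) :
    ∃ S : Finset (Fin R → ℕ), u = ∑ n ∈ S, cvi D κ R ι n u := by
  classical
  have := Fintype.ofFinite ι
  refine ⟨Finset.univ.biUnion fun i => (u i).coeff.support.image mdeg, ?_⟩
  funext i
  apply AddMonoidAlgebra.ext
  ext m
  rw [Finset.sum_apply]
  have h1 : ∀ n, (cvi D κ R ι n u i).coeff m = if mdeg m = n then (u i).coeff m else 0 :=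
    fun n => a1_cp_coeff n (u i) m
  rw [AddMonoidAlgebra.coeff_sum, Finsupp.finsetSum_apply, Finset.sum_congr rfl fun n _ => h1 n,
    Finset.sum_ite_eq]
  split_ifs with h
  · rfl
  · by_contra h'
    apply h
    rw [Finset.mem_biUnion]
    exact ⟨i, Finset.mem_univ _, Finset.mem_image_of_mem _ (Finsupp.mem_support_iff.2 h')⟩

/-- components of a product with a homogeneous polynomial -/
theorem cp_mul {d : Fin R → ℕ} {p : PA D κ R} (hp : p ∈ pp D κ R d) (n : Fin R → ℕ)
    (u : PA D κ R) : cp D κ R (n + d) (p * u) = p * cp D κ R n u := by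
  obtain ⟨S, hS⟩ := a1_sum_cp u
  have key : ∀ n', cp D κ R (n + d) (p * cp D κ R n' u) = p * cp D κ R n (cp D κ R n' u) := by
    intro n'
    have h1 : p * cp D κ R n' u ∈ pp D κ R (d + n') := a1_mul_mem hp (a1_cp_mem n' u)
    by_cases h : n = n'
    · subst h
      rw [add_comm n d, a1_cp_of_mem h1, a1_cp_of_mem (a1_cp_mem n u)]
    · rw [a1_cp_of_mem_ne (a1_cp_mem n' u) h, mul_zero, a1_cp_of_mem_ne h1]
      intro h'
      rw [add_comm] at h'
      exact h (add_left_cancel h')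
  rw [hS, Finset.mul_sum, map_sum, map_sum, Finset.mul_sum]
  exact Finset.sum_congr rfl fun n' _ => key n'

/-- components of a product with a homogeneous polynomial (from the right) -/
theorem cp_mul_right {d : Fin R → ℕ} {p : PA D κ R} (hp : p ∈ pp D κ R d) (n : Fin R → ℕ)
    (u : PA D κ R) : cp D κ R (n + d) (u * p) = cp D κ R n u * p := by
  obtain ⟨S, hS⟩ := a1_sum_cp u
  have key : ∀ n', cp D κ R (n + d) (cp D κ R n' u * p) = cp D κ R n (cp D κ R n' u) * p := by
    intro n'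
    have h1 : cp D κ R n' u * p ∈ pp D κ R (n' + d) := a1_mul_mem (a1_cp_mem n' u) hp
    by_cases h : n = n'
    · subst h
      rw [a1_cp_of_mem h1, a1_cp_of_mem (a1_cp_mem n u)]
    · rw [a1_cp_of_mem_ne (a1_cp_mem n' u) h, zero_mul, a1_cp_of_mem_ne h1]
      intro h'
      exact h (add_right_cancel h')
  rw [hS, Finset.sum_mul, map_sum, map_sum, Finset.sum_mul]
  exact Finset.sum_congr rfl fun n' _ => key n'

/-- if all components of `u` are in `N`, then `u` is -/
theorem a1_mem_of_cvi [Finite ι] {N : Submodule (PA D κ R) (ι → PA D κ R)} {u : ι → PA D κ R}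
    (h : ∀ n, cvi D κ R ι n u ∈ N) : u ∈ N := by
  obtain ⟨S, hS⟩ := sum_cvi u
  rw [hS]
  exact Submodule.sum_mem _ fun n _ => h n

theorem a1_cvi_smul {d : Fin R → ℕ} {p : PA D κ R} (hp : p ∈ pp D κ R d) (n : Fin R → ℕ)
    (u : ι → PA D κ R) : cvi D κ R ι (n + d) (p • u) = p • cvi D κ R ι n u :=
  funext fun i => cp_mul hp n (u i)

/-- homogeneous elements of a submodule have all their components in it -/
theorem a1_cvi_mem_of_mem_pvi {N : Submodule (PA D κ R) (ι → PA D κ R)}
    {u : ι → PA D κ R} {n : Fin R → ℕ} (hu : u ∈ N) (hn : u ∈ pvi D κ R ι n)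
    (n' : Fin R → ℕ) : cvi D κ R ι n' u ∈ N := by
  by_cases h : n' = n
  · subst h
    rwa [cvi_of_mem hn]
  · rw [cvi_of_mem_ne hn h]
    exact N.zero_mem

/-- if the components of `u` are in `N`, then those of the multiples of `u` are -/
theorem a1_cvi_smul_mem {N : Submodule (PA D κ R) (ι → PA D κ R)} {u : ι → PA D κ R}
    (h : ∀ n, cvi D κ R ι n u ∈ N) (a : PA D κ R) (n : Fin R → ℕ) :
    cvi D κ R ι n (a • u) ∈ N := by
  obtain ⟨T, hT⟩ := a1_sum_cp a
  rw [hT, Finset.sum_smul, map_sum]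
  apply Submodule.sum_mem
  intro d _
  by_cases h1 : ∃ n', n = n' + d
  · obtain ⟨n', rfl⟩ := h1
    rw [a1_cvi_smul (a1_cp_mem d a)]
    exact N.smul_mem _ (h n')
  · have h2 : cvi D κ R ι n (cp D κ R d a • u) = 0 :=
      funext fun i => a1_cp_mul_zero (a1_cp_mem d a) (fun n' hn' => h1 ⟨n', hn'⟩) (u i)
    rw [h2]
    exact N.zero_mem

/-- a submodule generated by vectors with components in it is homogeneous -/
theorem a1_span_hom {S : Set (ι → PA D κ R)}
    (hS : ∀ u ∈ S, ∀ n, cvi D κ R ι n u ∈ Submodule.span (PA D κ R) S) :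
    ∀ u ∈ Submodule.span (PA D κ R) S, ∀ n, cvi D κ R ι n u ∈ Submodule.span (PA D κ R) S := by
  intro u hu
  induction hu using Submodule.span_induction with
  | mem x hx => exact hS x hx
  | zero =>
    intro n
    rw [map_zero]
    exact Submodule.zero_mem _
  | add a b _ _ ha hb =>
    intro n
    rw [map_add]
    exact Submodule.add_mem _ (ha n) (hb n)
  | smul a x _ hx => exact a1_cvi_smul_mem hx a

/-- `N0i` is the smallest object -/
theorem isGi_N0i (β : Fin R → Blk K κ) [Finite ι] : IsGi β (N0i D β ι) := by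
  refine ⟨a1_span_hom ?_, fun g i w => Submodule.subset_span ⟨g, i, w, rfl⟩⟩
  rintro u ⟨g, i, w, rfl⟩ n
  by_cases h : ∃ n' : Fin R → ℕ, n = n' + Pi.single g ((β g).e i)
  · obtain ⟨n', rfl⟩ := h
    rw [a1_cvi_smul (bm_rel_mem β g i)]
    exact Submodule.subset_span ⟨g, i, _, rfl⟩
  · have h2 : cvi D κ R ι n (bm K D κ g ((β g).rel i) • w) = 0 :=
      funext fun j => a1_cp_mul_zero (bm_rel_mem β g i) (fun n' hn' => h ⟨n', hn'⟩) (w j)
    rw [h2]
    exact Submodule.zero_mem _

theorem N0i_le {β : Fin R → Blk K κ} {N : Submodule (PA D κ R) (ι → PA D κ R)}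
    (h : IsGi β N) : N0i D β ι ≤ N := by
  unfold N0i
  rw [Submodule.span_le]
  rintro u ⟨g, i, w, rfl⟩
  exact h.rel g i w

/-- the sum of homogeneous submodules -/
theorem a1_sup_hom {N N' : Submodule (PA D κ R) (ι → PA D κ R)}
    (h : ∀ u ∈ N, ∀ n, cvi D κ R ι n u ∈ N) (h' : ∀ u ∈ N', ∀ n, cvi D κ R ι n u ∈ N') :
    ∀ u ∈ N ⊔ N', ∀ n, cvi D κ R ι n u ∈ N ⊔ N' := by
  intro u hu n
  obtain ⟨a, ha, b, hb, rfl⟩ := Submodule.mem_sup.1 hu
  rw [map_add]
  exact Submodule.add_mem_sup (h a ha n) (h' b hb n)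

/-- a submodule generated by homogeneous vectors and containing the relations is an object -/
theorem IsGi.sup_span {β : Fin R → Blk K κ} {N : Submodule (PA D κ R) (ι → PA D κ R)}
    (h : IsGi β N) {S : Set (ι → PA D κ R)} (hS : ∀ u ∈ S, ∃ n, u ∈ pvi D κ R ι n) :
    IsGi β (N ⊔ Submodule.span _ S) := by
  refine ⟨a1_sup_hom h.hom (a1_span_hom ?_), fun g i w => Submodule.mem_sup_left (h.rel g i w)⟩
  intro u hu
  obtain ⟨n, hn⟩ := hS u hu
  exact a1_cvi_mem_of_mem_pvi (Submodule.subset_span hu) hn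

theorem IsGi.inf {β : Fin R → Blk K κ} {N N' : Submodule (PA D κ R) (ι → PA D κ R)}
    (h : IsGi β N) (h' : IsGi β N') : IsGi β (N ⊓ N') :=
  ⟨fun u hu n => ⟨h.hom u hu.1 n, h'.hom u hu.2 n⟩, fun g i w => ⟨h.rel g i w, h'.rel g i w⟩⟩

theorem IsGi.sup {β : Fin R → Blk K κ} {N N' : Submodule (PA D κ R) (ι → PA D κ R)}
    (h : IsGi β N) (h' : IsGi β N') : IsGi β (N ⊔ N') :=
  ⟨a1_sup_hom h.hom h'.hom, fun g i w => Submodule.mem_sup_left (h.rel g i w)⟩

theorem isGi_top (β : Fin R → Blk K κ) :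
    IsGi β (⊤ : Submodule (PA D κ R) (ι → PA D κ R)) :=
  ⟨fun _ _ _ => Submodule.mem_top, fun _ _ _ => Submodule.mem_top⟩

theorem qdi_top (n : Fin R → ℕ) :
    qdi (⊤ : Submodule (PA D κ R) (ι → PA D κ R)) n = 0 := by
  have h1 : (pvi D κ R ι n ⊓ (⊤ : Submodule (PA D κ R) (ι → PA D κ R)).restrictScalars D :
      Submodule D (ι → PA D κ R)) = pvi D κ R ι n := by
    rw [Submodule.restrictScalars_top, inf_top_eq]
  unfold qdi
  rw [h1, Nat.sub_self]

end Vale.Agent.P200F.V

end

section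

namespace Vale.Agent.P200F.V

open Module

universe u

section lin
variable {F : Type*} [DivisionRing F] {V W : Type*} [AddCommGroup V] [Module F V]
  [AddCommGroup W] [Module F W]

/-- rank and nullity on a subspace -/
theorem finrank_map_add_inf_ker (f : V →ₗ[F] W) (P : Submodule F V) [FiniteDimensional F P] :
    finrank F (P.map f) + finrank F (P ⊓ LinearMap.ker f : Submodule F V) = finrank F P := by
  rw [← LinearMap.finrank_range_add_finrank_ker (f.domRestrict P), LinearMap.range_domRestrict,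
    LinearMap.ker_domRestrict, ← Submodule.map_comap_subtype,
    (Submodule.equivMapOfInjective P.subtype P.injective_subtype _).finrank_eq]

theorem finrank_prod_sub (P : Submodule F V) (Q : Submodule F W) [FiniteDimensional F P]
    [FiniteDimensional F Q] : finrank F (P.prod Q) = finrank F P + finrank F Q := by
  rw [← Module.finrank_prod]
  let e : (P.prod Q) ≃ₗ[F] P × Q :=
    { toFun := fun x => (⟨x.1.1, x.2.1⟩, ⟨x.1.2, x.2.2⟩)
      map_add' := fun _ _ => rfl
      map_smul' := fun _ _ => rfl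
      invFun := fun y => ⟨(y.1.1, y.2.1), ⟨y.1.2, y.2.2⟩⟩
      left_inv := fun _ => rfl
      right_inv := fun _ => rfl }
  exact e.finrank_eq

end lin

variable {K : Type u} [Field K] {D : Type u} [DivisionRing D] [Algebra K D] {κ R : ℕ}
  {ι ι' : Type}

/-- `pvi n ⊓ N` -/
noncomputable def pn (N : Submodule (PA D κ R) (ι → PA D κ R)) (n : Fin R → ℕ) :
    Submodule D (ι → PA D κ R) :=
  pvi D κ R ι n ⊓ N.restrictScalars D

theorem mem_pn {N : Submodule (PA D κ R) (ι → PA D κ R)} {n : Fin R → ℕ}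
    {u : ι → PA D κ R} : u ∈ pn N n ↔ u ∈ pvi D κ R ι n ∧ u ∈ N := Iff.rfl

theorem finite_pn [Finite ι] (N : Submodule (PA D κ R) (ι → PA D κ R)) (n : Fin R → ℕ) :
    FiniteDimensional D (pn N n) := by
  have := finite_pvi (D := D) (κ := κ) (ι := ι) n
  exact Submodule.finiteDimensional_of_le (inf_le_left : pn N n ≤ pvi D κ R ι n)

theorem finrank_pn_le [Finite ι] (N : Submodule (PA D κ R) (ι → PA D κ R)) (n : Fin R → ℕ) :
    finrank D (pn N n) ≤ finrank D (pvi D κ R ι n) := by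
  have := finite_pvi (D := D) (κ := κ) (ι := ι) n
  exact Submodule.finrank_mono (inf_le_left : pn N n ≤ pvi D κ R ι n)

theorem qdi_eq (N : Submodule (PA D κ R) (ι → PA D κ R)) (n : Fin R → ℕ) :
    qdi N n = finrank D (pvi D κ R ι n) - finrank D (pn N n) := rfl

theorem qdi_add [Finite ι] (N : Submodule (PA D κ R) (ι → PA D κ R)) (n : Fin R → ℕ) :
    qdi N n + finrank D (pn N n) = finrank D (pvi D κ R ι n) :=
  Nat.sub_add_cancel (finrank_pn_le N n)

theorem pn_sup {N N' : Submodule (PA D κ R) (ι → PA D κ R)}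
    (h : ∀ u ∈ N, ∀ n, cvi D κ R ι n u ∈ N) (h' : ∀ u ∈ N', ∀ n, cvi D κ R ι n u ∈ N')
    (n : Fin R → ℕ) : pn (N ⊔ N') n = pn N n ⊔ pn N' n := by
  apply le_antisymm
  · rintro u ⟨hu, hu'⟩
    obtain ⟨a, ha, b, hb, rfl⟩ := Submodule.mem_sup.1 (show u ∈ N ⊔ N' from hu')
    rw [← cvi_of_mem hu, map_add]
    exact Submodule.add_mem_sup (mem_pn.2 ⟨cvi_mem n a, h a ha n⟩)
      (mem_pn.2 ⟨cvi_mem n b, h' b hb n⟩)
  · apply sup_le
    · exact fun u hu => mem_pn.2 ⟨(mem_pn.1 hu).1, Submodule.mem_sup_left (mem_pn.1 hu).2⟩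
    · exact fun u hu => mem_pn.2 ⟨(mem_pn.1 hu).1, Submodule.mem_sup_right (mem_pn.1 hu).2⟩

/-- modularity -/
theorem qdi_mod [Finite ι] {N N' : Submodule (PA D κ R) (ι → PA D κ R)}
    (h : ∀ u ∈ N, ∀ n, cvi D κ R ι n u ∈ N) (h' : ∀ u ∈ N', ∀ n, cvi D κ R ι n u ∈ N')
    (n : Fin R → ℕ) : qdi (N ⊓ N') n + qdi (N ⊔ N') n = qdi N n + qdi N' n := by
  have := finite_pn N n
  have := finite_pn N' n
  have h1 := Submodule.finrank_sup_add_finrank_inf_eq (pn N n) (pn N' n)
  have h2 : pn (N ⊓ N') n = pn N n ⊓ pn N' n := by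
    ext u
    simp only [mem_pn, Submodule.mem_inf]
    tauto
  rw [← pn_sup h h', ← h2] at h1
  have h3 := qdi_add (N ⊓ N') n
  have h4 := qdi_add (N ⊔ N') n
  have h5 := qdi_add N n
  have h6 := qdi_add N' n
  omega

/-- homogeneous maps of degree `d` -/
def IsHomg (d : Fin R → ℕ) (φ : (ι → PA D κ R) →ₗ[PA D κ R] (ι' → PA D κ R)) : Prop :=
  ∀ n u, cvi D κ R ι' (n + d) (φ u) = φ (cvi D κ R ι n u)

theorem IsHomg.mem_pvi {d : Fin R → ℕ}
    {φ : (ι → PA D κ R) →ₗ[PA D κ R] (ι' → PA D κ R)} (hφ : IsHomg d φ)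
    {n : Fin R → ℕ} {u : ι → PA D κ R} (hu : u ∈ pvi D κ R ι n) :
    φ u ∈ pvi D κ R ι' (n + d) := by
  have h := hφ n u
  rw [cvi_of_mem hu] at h
  rw [← h]
  exact cvi_mem _ _

/-- the components of the values of a homogeneous map -/
theorem IsHomg.cvi_apply [Finite ι] {d : Fin R → ℕ}
    {φ : (ι → PA D κ R) →ₗ[PA D κ R] (ι' → PA D κ R)} (hφ : IsHomg d φ)
    (n : Fin R → ℕ) (u : ι → PA D κ R) :
    (∃ m, cvi D κ R ι' n (φ u) = φ (cvi D κ R ι m u)) ∨ cvi D κ R ι' n (φ u) = 0 := by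
  by_cases h : ∃ m, n = m + d
  · obtain ⟨m, rfl⟩ := h
    exact Or.inl ⟨m, hφ m u⟩
  · right
    obtain ⟨S, hS⟩ := sum_cvi u
    have h1 : φ u = ∑ m ∈ S, φ (cvi D κ R ι m u) := by
      conv_lhs => rw [hS]
      rw [map_sum]
    rw [h1, map_sum]
    refine Finset.sum_eq_zero fun m _ => ?_
    exact cvi_of_mem_ne (hφ.mem_pvi (cvi_mem m u)) fun h' => h ⟨m, h'⟩

/-- the dimension formula for the preimage under a homogeneous map `φ` of degree `d`:
`PA^ι / φ⁻¹ N' ≅ (N' + φ PA^ι) / N'` -/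
theorem qdi_comap [Finite ι] [Finite ι'] {d : Fin R → ℕ}
    {φ : (ι → PA D κ R) →ₗ[PA D κ R] (ι' → PA D κ R)} (hφ : IsHomg d φ)
    {N' : Submodule (PA D κ R) (ι' → PA D κ R)} (h' : ∀ u ∈ N', ∀ n, cvi D κ R ι' n u ∈ N')
    (n : Fin R → ℕ) :
    qdi (N'.comap φ) n + qdi (N' ⊔ LinearMap.range φ) (n + d) = qdi N' (n + d) := by
  have := finite_pvi (D := D) (κ := κ) (ι := ι) n
  have := finite_pn (N'.comap φ) n
  have := finite_pn N' (n + d)
  set f : (ι → PA D κ R) →ₗ[D] (ι' → PA D κ R) := φ.restrictScalars D with hf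
  have e1 : pn (N' ⊔ LinearMap.range φ) (n + d) =
      pn N' (n + d) ⊔ (pvi D κ R ι n).map f := by
    apply le_antisymm
    · rintro u ⟨hu, hu'⟩
      obtain ⟨a, ha, b, hb, rfl⟩ := Submodule.mem_sup.1
        (show u ∈ N' ⊔ LinearMap.range φ from hu')
      obtain ⟨c, rfl⟩ := LinearMap.mem_range.1 hb
      rw [← cvi_of_mem hu, map_add, hφ]
      exact Submodule.add_mem_sup (mem_pn.2 ⟨cvi_mem _ a, h' a ha _⟩)
        (Submodule.mem_map.2 ⟨_, cvi_mem n c, rfl⟩)
    · apply sup_le
      · exact fun u hu => mem_pn.2 ⟨(mem_pn.1 hu).1, Submodule.mem_sup_left (mem_pn.1 hu).2⟩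
      · rintro _ ⟨u, hu, rfl⟩
        exact mem_pn.2 ⟨hφ.mem_pvi hu, Submodule.mem_sup_right ⟨u, rfl⟩⟩
  have e2 : pn N' (n + d) ⊓ (pvi D κ R ι n).map f = (pn (N'.comap φ) n).map f := by
    ext u
    constructor
    · rintro ⟨h1, ⟨w, hw, rfl⟩⟩
      exact ⟨w, mem_pn.2 ⟨hw, (mem_pn.1 h1).2⟩, rfl⟩
    · rintro ⟨w, hw, rfl⟩
      exact ⟨mem_pn.2 ⟨hφ.mem_pvi (mem_pn.1 hw).1, (mem_pn.1 hw).2⟩, ⟨w, (mem_pn.1 hw).1, rfl⟩⟩
  have e3 : (pn (N'.comap φ) n ⊓ LinearMap.ker f : Submodule D _) =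
      pvi D κ R ι n ⊓ LinearMap.ker f := by
    ext u
    constructor
    · rintro ⟨h1, h2⟩
      exact ⟨(mem_pn.1 h1).1, h2⟩
    · rintro ⟨h1, h2⟩
      refine ⟨mem_pn.2 ⟨h1, ?_⟩, h2⟩
      rw [Submodule.mem_comap]
      have h3 : φ u = 0 := h2
      rw [h3]
      exact N'.zero_mem
  have a1 := Submodule.finrank_sup_add_finrank_inf_eq (pn N' (n + d)) ((pvi D κ R ι n).map f)
  have a2 := finrank_map_add_inf_ker f (pvi D κ R ι n)
  have a3 := finrank_map_add_inf_ker f (pn (N'.comap φ) n)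
  rw [← e1, e2] at a1
  rw [e3] at a3
  have h3 := qdi_add (N'.comap φ) n
  have h4 := qdi_add (N' ⊔ LinearMap.range φ) (n + d)
  have h5 := qdi_add N' (n + d)
  omega

theorem IsGi.comap {β : Fin R → Blk K κ} {d : Fin R → ℕ}
    {φ : (ι → PA D κ R) →ₗ[PA D κ R] (ι' → PA D κ R)} (hφ : IsHomg d φ)
    {N' : Submodule (PA D κ R) (ι' → PA D κ R)} (h' : IsGi β N') : IsGi β (N'.comap φ) where
  hom u hu n := by
    rw [Submodule.mem_comap, ← hφ]
    exact h'.hom _ hu _
  rel g i w := by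
    rw [Submodule.mem_comap, map_smul]
    exact h'.rel g i _

/-- images under homogeneous maps -/
theorem IsGi.sup_map {β : Fin R → Blk K κ} {d : Fin R → ℕ} [Finite ι]
    {φ : (ι → PA D κ R) →ₗ[PA D κ R] (ι' → PA D κ R)} (hφ : IsHomg d φ)
    {N : Submodule (PA D κ R) (ι → PA D κ R)} {N' : Submodule (PA D κ R) (ι' → PA D κ R)}
    (h : IsGi β N) (h' : IsGi β N') : IsGi β (N' ⊔ N.map φ) where
  hom u hu n := by
    obtain ⟨a, ha, b, hb, rfl⟩ := Submodule.mem_sup.1 hu
    obtain ⟨c, hc, rfl⟩ := Submodule.mem_map.1 hb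
    rw [map_add]
    refine Submodule.add_mem_sup (h'.hom a ha n) ?_
    rcases hφ.cvi_apply n c with ⟨m, hm⟩ | h0
    · rw [hm]
      exact Submodule.mem_map.2 ⟨_, h.hom c hc m, rfl⟩
    · rw [h0]
      exact Submodule.zero_mem _
  rel g i w := Submodule.mem_sup_left (h'.rel g i w)

/-- (write every vector as the sum of its components, `φ` maps `pvi n` to `pvi (n + d)`) -/
theorem IsGi.sup_range {β : Fin R → Blk K κ} {d : Fin R → ℕ} [Finite ι]
    {φ : (ι → PA D κ R) →ₗ[PA D κ R] (ι' → PA D κ R)} (hφ : IsHomg d φ)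
    {N' : Submodule (PA D κ R) (ι' → PA D κ R)} (h' : IsGi β N') :
    IsGi β (N' ⊔ LinearMap.range φ) := by
  rw [LinearMap.range_eq_map]
  exact IsGi.sup_map hφ (isGi_top β) h'

/-- matrices with entries in `PA` (acting from the right) -/
noncomputable def pmat [Fintype ι] (a : ι → ι' → PA D κ R) :
    (ι → PA D κ R) →ₗ[PA D κ R] (ι' → PA D κ R) where
  toFun u j := ∑ i, u i * a i j
  map_add' u v := by
    ext1 j
    simp only [Pi.add_apply, add_mul, Finset.sum_add_distrib]
  map_smul' k u := by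
    ext1 j
    simp only [Pi.smul_apply, smul_eq_mul, mul_assoc, Finset.mul_sum, RingHom.id_apply]

theorem pmat_apply [Fintype ι] (a : ι → ι' → PA D κ R) (u : ι → PA D κ R) (j : ι') :
    pmat a u j = ∑ i, u i * a i j := rfl

theorem pmat_isHomg [Fintype ι] {d : Fin R → ℕ} {a : ι → ι' → PA D κ R}
    (ha : ∀ i j, a i j ∈ pp D κ R d) : IsHomg d (pmat a) := by
  intro n u
  funext j
  change cp D κ R (n + d) (∑ i, u i * a i j) = ∑ i, cp D κ R n (u i) * a i j
  rw [map_sum]
  exact Finset.sum_congr rfl fun i _ => cp_mul_right (ha i j) n (u i)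

/-- the sum of two objects -/
def dsum (N : Submodule (PA D κ R) (ι → PA D κ R))
    (N' : Submodule (PA D κ R) (ι' → PA D κ R)) :
    Submodule (PA D κ R) (ι ⊕ ι' → PA D κ R) where
  carrier := {u | (fun i => u (Sum.inl i)) ∈ N ∧ (fun i => u (Sum.inr i)) ∈ N'}
  add_mem' ha hb := ⟨N.add_mem ha.1 hb.1, N'.add_mem ha.2 hb.2⟩
  zero_mem' := ⟨N.zero_mem, N'.zero_mem⟩
  smul_mem' k _ ha := ⟨N.smul_mem k ha.1, N'.smul_mem k ha.2⟩

theorem IsGi.dsum {β : Fin R → Blk K κ} {N : Submodule (PA D κ R) (ι → PA D κ R)}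
    {N' : Submodule (PA D κ R) (ι' → PA D κ R)} (h : IsGi β N) (h' : IsGi β N') :
    IsGi β (dsum N N') where
  hom _ hu n := ⟨h.hom _ hu.1 n, h'.hom _ hu.2 n⟩
  rel g i w := ⟨h.rel g i fun j => w (Sum.inl j), h'.rel g i fun j => w (Sum.inr j)⟩

/-- the two parts of a vector -/
noncomputable def spl (D : Type u) [DivisionRing D] (κ R : ℕ) (ι ι' : Type) :
    (ι ⊕ ι' → PA D κ R) →ₗ[D] (ι → PA D κ R) × (ι' → PA D κ R) where
  toFun u := (fun i => u (Sum.inl i), fun i => u (Sum.inr i))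
  map_add' _ _ := rfl
  map_smul' _ _ := rfl

theorem spl_inj : Function.Injective (spl D κ R ι ι') := by
  intro u v h
  funext j
  have h1 := congrArg Prod.fst h
  have h2 := congrArg Prod.snd h
  cases j with
  | inl j => exact congrFun h1 j
  | inr j => exact congrFun h2 j

theorem finrank_pn_dsum [Finite ι] [Finite ι'] (N : Submodule (PA D κ R) (ι → PA D κ R))
    (N' : Submodule (PA D κ R) (ι' → PA D κ R)) (n : Fin R → ℕ) :
    finrank D (pn (dsum N N') n) = finrank D (pn N n) + finrank D (pn N' n) := by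
  have := finite_pn N n
  have := finite_pn N' n
  rw [← finrank_prod_sub,
    (Submodule.equivMapOfInjective (spl D κ R ι ι') spl_inj (pn (dsum N N') n)).finrank_eq]
  have h1 : (pn (dsum N N') n).map (spl D κ R ι ι') = (pn N n).prod (pn N' n) := by
    ext ⟨a, b⟩
    constructor
    · rintro ⟨u, ⟨h1, h2⟩, h3⟩
      rw [← h3]
      exact ⟨mem_pn.2 ⟨fun i => h1 _, h2.1⟩, mem_pn.2 ⟨fun i => h1 _, h2.2⟩⟩
    · rintro ⟨h1, h2⟩
      refine ⟨Sum.elim a b, mem_pn.2 ⟨?_, (mem_pn.1 h1).2, (mem_pn.1 h2).2⟩, rfl⟩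
      intro i
      cases i with
      | inl i => exact (mem_pn.1 h1).1 i
      | inr i => exact (mem_pn.1 h2).1 i
  rw [h1]

theorem qdi_dsum [Finite ι] [Finite ι'] (N : Submodule (PA D κ R) (ι → PA D κ R))
    (N' : Submodule (PA D κ R) (ι' → PA D κ R)) (n : Fin R → ℕ) :
    qdi (dsum N N') n = qdi N n + qdi N' n := by
  have h1 := finrank_pn_dsum N N' n
  have h2 := finrank_pn_dsum (⊤ : Submodule (PA D κ R) (ι → PA D κ R))
    (⊤ : Submodule (PA D κ R) (ι' → PA D κ R)) n
  have h3 : ∀ r : Type, pn (⊤ : Submodule (PA D κ R) (r → PA D κ R)) n = pvi D κ R r n := by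
    intro r
    ext u
    exact ⟨fun h => (mem_pn.1 h).1, fun h => mem_pn.2 ⟨h, Submodule.mem_top⟩⟩
  have h4 : dsum (⊤ : Submodule (PA D κ R) (ι → PA D κ R))
      (⊤ : Submodule (PA D κ R) (ι' → PA D κ R)) = ⊤ := by
    ext u
    exact ⟨fun _ => Submodule.mem_top, fun _ => ⟨Submodule.mem_top, Submodule.mem_top⟩⟩
  rw [h4, h3, h3, h3] at h2
  have a1 := qdi_add (dsum N N') n
  have a2 := qdi_add N n
  have a3 := qdi_add N' n
  omega

/-- reindexing -/
theorem qdi_funLeft (e : ι ≃ ι') (N : Submodule (PA D κ R) (ι → PA D κ R)) (n : Fin R → ℕ) :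
    qdi (N.comap (LinearMap.funLeft (PA D κ R) (PA D κ R) e)) n = qdi N n := by
  have hinj : Function.Injective (LinearMap.funLeft D (PA D κ R) e) :=
    LinearMap.funLeft_injective_of_surjective _ _ _ e.surjective
  have h1 : (pvi D κ R ι' n).map (LinearMap.funLeft D (PA D κ R) e) = pvi D κ R ι n := by
    ext u
    constructor
    · rintro ⟨w, hw, rfl⟩
      exact fun i => hw (e i)
    · intro hu
      refine ⟨fun i => u (e.symm i), fun i => hu _, ?_⟩
      funext i
      exact congrArg u (e.symm_apply_apply i)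
  have h2 : (pn (N.comap (LinearMap.funLeft (PA D κ R) (PA D κ R) e)) n).map
      (LinearMap.funLeft D (PA D κ R) e) = pn N n := by
    ext u
    constructor
    · rintro ⟨w, hw, rfl⟩
      exact mem_pn.2 ⟨fun i => (mem_pn.1 hw).1 (e i), (mem_pn.1 hw).2⟩
    · intro hu
      have h3 : LinearMap.funLeft (PA D κ R) (PA D κ R) e (fun i => u (e.symm i)) = u := by
        funext i
        exact congrArg u (e.symm_apply_apply i)
      refine ⟨fun i => u (e.symm i), mem_pn.2 ⟨fun i => (mem_pn.1 hu).1 _, ?_⟩, h3⟩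
      rw [Submodule.mem_comap, h3]
      exact (mem_pn.1 hu).2
  have e1 := (Submodule.equivMapOfInjective _ hinj (pvi D κ R ι' n)).finrank_eq
  have e2 := (Submodule.equivMapOfInjective _ hinj
    (pn (N.comap (LinearMap.funLeft (PA D κ R) (PA D κ R) e)) n)).finrank_eq
  rw [h1] at e1
  rw [h2] at e2
  rw [qdi_eq, qdi_eq, e1, e2]

theorem isGi_funLeft {β : Fin R → Blk K κ} (e : ι ≃ ι')
    {N : Submodule (PA D κ R) (ι → PA D κ R)} (h : IsGi β N) :
    IsGi β (N.comap (LinearMap.funLeft (PA D κ R) (PA D κ R) e)) where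
  hom u hu n := by
    rw [Submodule.mem_comap]
    exact h.hom _ hu n
  rel g i w := by
    rw [Submodule.mem_comap, map_smul]
    exact h.rel g i _

/-- integrality for an arbitrary finite index type -/
theorem IntP.gen {β : Fin R → Blk K κ} (hI : IntP D β) [Finite ι]
    {N : Submodule (PA D κ R) (ι → PA D κ R)} (hN : IsGi β N) :
    ∃ f, Lam R (fun g => (β g).e) f ∧ ∃ n0 : ℕ, ∀ n : Fin R → ℕ, (∀ g, n0 ≤ n g) →
      (qdi N n : ℤ) = f fun g => n g := by
  obtain ⟨s, ⟨e⟩⟩ := Finite.exists_equiv_fin ι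
  obtain ⟨f, hf, n0, h0⟩ := hI s _ ((isGi_iff _).1 (isGi_funLeft e hN))
  refine ⟨f, hf, n0, fun n hn => ?_⟩
  rw [← h0 n hn, ← qdi_fin, qdi_funLeft]

end Vale.Agent.P200F.V

end

section

namespace Vale.Agent.P200F.V

open Module

universe u

variable {K : Type u} [Field K] {D : Type u} [DivisionRing D] [Algebra K D] {κ : ℕ}

/-- the index of the variable `η_i` -/
def a3_et (i : Fin κ) : Fin 1 × Fin (κ + 2) := (0, i.succ.succ)

theorem a3_et_inj {i j : Fin κ} (h : a3_et i = a3_et j) : i = j := by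
  unfold a3_et at h
  have := (Prod.mk.inj h).2
  exact Fin.succ_injective _ (Fin.succ_injective _ this)

theorem a3_smul (d : D) (u : PA D κ 1) : d • u = AddMonoidAlgebra.single 0 d * u := by
  apply AddMonoidAlgebra.ext
  ext m
  rw [AddMonoidAlgebra.coeff_smul_apply, AddMonoidAlgebra.coeff_single_zero_mul, smul_eq_mul]

theorem a3_single_comm (a : Mon κ 1) (u : PA D κ 1) :
    AddMonoidAlgebra.single a 1 * u = u * AddMonoidAlgebra.single a 1 := by
  induction u using AddMonoidAlgebra.induction_linear with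
  | zero => rw [mul_zero, zero_mul]
  | add u v hu hv => rw [mul_add, add_mul, hu, hv]
  | single m d =>
    rw [AddMonoidAlgebra.single_mul_single, AddMonoidAlgebra.single_mul_single, one_mul, mul_one,
      add_comm]

theorem a3_single_mul_smul (a : Mon κ 1) (c d : D) (u : PA D κ 1) :
    AddMonoidAlgebra.single a c * (d • u) = (c * d) • (AddMonoidAlgebra.single a 1 * u) := by
  rw [a3_smul d, a3_smul (c * d), ← mul_assoc, ← mul_assoc,
    AddMonoidAlgebra.single_mul_single, AddMonoidAlgebra.single_mul_single, add_zero, zero_add,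
    mul_one]

/-- the linear map with the given values on the monomials -/
noncomputable def a3_lin (F : Mon κ 1 → PA D κ 1) : PA D κ 1 →ₗ[D] PA D κ 1 :=
  (Finsupp.linearCombination D F).comp (AddMonoidAlgebra.coeffLinearEquiv D).toLinearMap

theorem a3_lin_single (F : Mon κ 1 → PA D κ 1) (m : Mon κ 1) (d : D) :
    a3_lin F (AddMonoidAlgebra.single m d) = d • F m := by
  have h : a3_lin F (AddMonoidAlgebra.single m d) =
      Finsupp.linearCombination D F (Finsupp.single m d) := rfl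
  rw [h, Finsupp.linearCombination_single]

/-- remainder of a monomial -/
noncomputable def a3_rm (β : Blk K κ) (i : Fin κ) (m : Mon κ 1) : Mon κ 1 :=
  Finsupp.update m (a3_et i) (m (a3_et i) % β.e i)

theorem a3_rm_self (β : Blk K κ) (i : Fin κ) (m : Mon κ 1) :
    a3_rm β i m (a3_et i) = m (a3_et i) % β.e i := by
  unfold a3_rm
  rw [Finsupp.coe_update, Function.update_self]

theorem a3_rm_ne (β : Blk K κ) (i : Fin κ) (m : Mon κ 1) {v : Fin 1 × Fin (κ + 2)}
    (h : v ≠ a3_et i) : a3_rm β i m v = m v := by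
  unfold a3_rm
  rw [Finsupp.coe_update, Function.update_of_ne h]

theorem a3_rm_add (β : Blk K κ) (i : Fin κ) (a m : Mon κ 1) (h : a (a3_et i) = 0) :
    a3_rm β i (a + m) = a + a3_rm β i m := by
  ext v
  by_cases hv : v = a3_et i
  · rw [hv, a3_rm_self, Finsupp.add_apply, Finsupp.add_apply, a3_rm_self, h, zero_add, zero_add]
  · rw [a3_rm_ne β i _ hv, Finsupp.add_apply, Finsupp.add_apply, a3_rm_ne β i _ hv]

theorem a3_rm_add_self (β : Blk K κ) (i : Fin κ) (m : Mon κ 1) :
    a3_rm β i (Finsupp.single (a3_et i) (β.e i) + m) = a3_rm β i m := by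
  ext v
  by_cases hv : v = a3_et i
  · rw [hv, a3_rm_self, a3_rm_self, Finsupp.add_apply, Finsupp.single_eq_same, Nat.add_mod_left]
  · rw [a3_rm_ne β i _ hv, a3_rm_ne β i _ hv, Finsupp.add_apply,
      Finsupp.single_eq_of_ne hv, zero_add]

theorem a3_rm_eq (β : Blk K κ) (i : Fin κ) (m : Mon κ 1) (h : m (a3_et i) < β.e i) :
    a3_rm β i m = m := by
  ext v
  by_cases hv : v = a3_et i
  · rw [hv, a3_rm_self, Nat.mod_eq_of_lt h]
  · rw [a3_rm_ne β i _ hv]

theorem a3_eq_rm (β : Blk K κ) (i : Fin κ) (m : Mon κ 1) :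
    m = Finsupp.single (a3_et i) (β.e i * (m (a3_et i) / β.e i)) + a3_rm β i m := by
  ext v
  by_cases hv : v = a3_et i
  · rw [hv, Finsupp.add_apply, a3_rm_self, Finsupp.single_eq_same, Nat.div_add_mod]
  · rw [Finsupp.add_apply, a3_rm_ne β i _ hv, Finsupp.single_eq_of_ne hv, zero_add]

/-- the value of `r_i` at a monomial -/
noncomputable def a3_F (D : Type u) [DivisionRing D] [Algebra K D] (β : Blk K κ) (i : Fin κ)
    (m : Mon κ 1) : PA D κ 1 :=
  bm K D κ (0 : Fin 1) (β.Phi i) ^ (m (a3_et i) / β.e i) *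
    AddMonoidAlgebra.single (a3_rm β i m) 1

/-- the reduction with respect to the relation `i` -/
noncomputable def a3_r (D : Type u) [DivisionRing D] [Algebra K D] (β : Blk K κ) (i : Fin κ) :
    PA D κ 1 →ₗ[D] PA D κ 1 :=
  a3_lin (a3_F D β i)

theorem a3_r_single (β : Blk K κ) (i : Fin κ) (m : Mon κ 1) (d : D) :
    a3_r D β i (AddMonoidAlgebra.single m d) = d • a3_F D β i m :=
  a3_lin_single _ _ _

theorem a3_r_single_mul (β : Blk K κ) (i : Fin κ) {a : Mon κ 1} (ha : a (a3_et i) = 0) (c : D)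
    (u : PA D κ 1) : a3_r D β i (AddMonoidAlgebra.single a c * u) =
      AddMonoidAlgebra.single a c * a3_r D β i u := by
  induction u using AddMonoidAlgebra.induction_linear with
  | zero => rw [mul_zero, map_zero, mul_zero]
  | add u v hu hv => rw [mul_add, map_add, hu, hv, map_add, mul_add]
  | single m d =>
    rw [AddMonoidAlgebra.single_mul_single, a3_r_single, a3_r_single, a3_single_mul_smul, a3_F,
      a3_F, a3_rm_add β i a m ha, Finsupp.add_apply, ha, zero_add, ← mul_assoc,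
      a3_single_comm a, mul_assoc, AddMonoidAlgebra.single_mul_single, mul_one]

theorem a3_r_mul (β : Blk K κ) (i : Fin κ) {p : PA D κ 1}
    (hp : ∀ m, p.coeff m ≠ 0 → m (a3_et i) = 0) (u : PA D κ 1) :
    a3_r D β i (p * u) = p * a3_r D β i u := by
  have h1 : p = ∑ m ∈ p.coeff.support, AddMonoidAlgebra.single m (p.coeff m) := by
    conv_lhs => rw [← AddMonoidAlgebra.sum_coeff_single p, Finsupp.sum]
  rw [h1, Finset.sum_mul, map_sum, Finset.sum_mul]
  apply Finset.sum_congr rfl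
  intro m hm
  exact a3_r_single_mul β i (hp m (Finsupp.mem_support_iff.1 hm)) _ u

theorem a3_r_pow_mul (β : Blk K κ) (i : Fin κ) (u : PA D κ 1) :
    a3_r D β i (AddMonoidAlgebra.single (Finsupp.single (a3_et i) (β.e i)) 1 * u) =
      bm K D κ (0 : Fin 1) (β.Phi i) * a3_r D β i u := by
  induction u using AddMonoidAlgebra.induction_linear with
  | zero => rw [mul_zero, map_zero, mul_zero]
  | add u v hu hv => rw [mul_add, map_add, hu, hv, map_add, mul_add]
  | single m d =>
    rw [AddMonoidAlgebra.single_mul_single, one_mul, a3_r_single, a3_r_single, a3_smul,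
      a3_smul d (a3_F D β i m), ← mul_assoc (bm K D κ (0 : Fin 1) (β.Phi i)),
      bm_comm _ _ (AddMonoidAlgebra.single 0 d), mul_assoc]
    congr 1
    rw [a3_F, a3_F, a3_rm_add_self, Finsupp.add_apply, Finsupp.single_eq_same,
      Nat.add_div_left _ (β.e_pos i), ← mul_assoc, ← pow_succ']

/-- the monomials of a polynomial over `K` in the variables of the block -/
theorem a3_bm_coeff (p : MvPolynomial (Fin (κ + 2)) K) (m : Mon κ 1)
    (h : (bm K D κ (0 : Fin 1) p).coeff m ≠ 0) :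
    ∃ m' ∈ p.support, m = m'.mapDomain fun v : Fin (κ + 2) => ((0 : Fin 1), v) := by
  classical
  have h1 : (bm K D κ (0 : Fin 1) p).coeff m = algebraMap K D (Finsupp.mapDomain
      (Finsupp.mapDomain fun v : Fin (κ + 2) => ((0 : Fin 1), v)) (AddMonoidAlgebra.coeff p) m) := rfl
  rw [h1] at h
  have h2 : Finsupp.mapDomain
      (Finsupp.mapDomain fun v : Fin (κ + 2) => ((0 : Fin 1), v)) (AddMonoidAlgebra.coeff p) m ≠ 0 := by
    intro h0
    rw [h0, map_zero] at h
    exact h rfl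
  have h3 := Finsupp.mapDomain_support (Finsupp.mem_support_iff.2 h2)
  rw [Finset.mem_image] at h3
  obtain ⟨m', hm', hm⟩ := h3
  exact ⟨m', hm', hm.symm⟩

theorem a3_map_apply (m' : Fin (κ + 2) →₀ ℕ) (v : Fin (κ + 2)) :
    (m'.mapDomain fun v : Fin (κ + 2) => ((0 : Fin 1), v)) (0, v) = m' v :=
  Finsupp.mapDomain_apply (f := fun v : Fin (κ + 2) => ((0 : Fin 1), v))
    (fun _ _ h => (Prod.mk.inj h).2) m' v

theorem a3_mdeg (m' : Fin (κ + 2) →₀ ℕ) :
    mdeg (m'.mapDomain fun v : Fin (κ + 2) => ((0 : Fin 1), v)) = fun _ => m'.degree := by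
  funext g
  rw [Subsingleton.elim g 0, mdeg, Finsupp.degree_eq_sum]
  exact Finset.sum_congr rfl fun v _ => a3_map_apply m' v

theorem a3_bm_mem {p : MvPolynomial (Fin (κ + 2)) K} {n : ℕ} (hp : p.IsHomogeneous n) :
    bm K D κ (0 : Fin 1) p ∈ pp D κ 1 (fun _ => n) := by
  intro m hm
  obtain ⟨m', hm', rfl⟩ := a3_bm_coeff p m hm
  rw [a3_mdeg]
  funext g
  have := hp (MvPolynomial.mem_support_iff.1 hm')
  rwa [Finsupp.degree_eq_weight_one]

theorem a3_coeff_mul {u v : PA D κ 1} {m : Mon κ 1} (h : (u * v).coeff m ≠ 0) :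
    ∃ a b, a + b = m ∧ u.coeff a ≠ 0 ∧ v.coeff b ≠ 0 := by
  classical
  by_contra hc
  apply h
  rw [AddMonoidAlgebra.coeff_mul, Finsupp.sum]
  apply Finset.sum_eq_zero
  intro a ha
  rw [Finsupp.sum]
  apply Finset.sum_eq_zero
  intro b hb
  rw [if_neg]
  intro hab
  exact hc ⟨a, b, hab, Finsupp.mem_support_iff.1 ha, Finsupp.mem_support_iff.1 hb⟩

theorem a3_pp_mul {u v : PA D κ 1} {a b : Fin 1 → ℕ} (hu : u ∈ pp D κ 1 a)
    (hv : v ∈ pp D κ 1 b) : u * v ∈ pp D κ 1 (a + b) := by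
  intro m hm
  obtain ⟨a', b', rfl, ha, hb⟩ := a3_coeff_mul hm
  rw [← hu a' ha, ← hv b' hb]
  funext g
  rw [mdeg, Pi.add_apply, mdeg, mdeg, ← Finset.sum_add_distrib]
  exact Finset.sum_congr rfl fun v _ => Finsupp.add_apply _ _ _

theorem a3_pp_pow {u : PA D κ 1} {a : ℕ} (hu : u ∈ pp D κ 1 (fun _ => a)) (q : ℕ) :
    u ^ q ∈ pp D κ 1 (fun _ => q * a) := by
  induction q with
  | zero =>
    intro m hm
    rw [pow_zero, AddMonoidAlgebra.one_def, AddMonoidAlgebra.coeff_single] at hm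
    have : m = 0 := by
      by_contra h'
      exact hm (Finsupp.single_eq_of_ne h')
    rw [this]
    funext g
    rw [mdeg, zero_mul]
    exact Finset.sum_eq_zero fun v _ => rfl
  | succ q ih =>
    have := a3_pp_mul ih hu
    rw [← pow_succ] at this
    have h1 : ((fun _ => q * a) + fun _ => a : Fin 1 → ℕ) = fun _ => (q + 1) * a := by
      funext g
      rw [Pi.add_apply, Nat.succ_mul]
    rwa [h1] at this

theorem a3_single_mem (m : Mon κ 1) (d : D) :
    (AddMonoidAlgebra.single m d : PA D κ 1) ∈ pp D κ 1 (mdeg m) := by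
  intro m' hm'
  rw [AddMonoidAlgebra.coeff_single] at hm'
  have : m' = m := by
    by_contra h'
    exact hm' (Finsupp.single_eq_of_ne h')
  rw [this]

/-- no variable `η_l`, `l ≥ i` -/
def a3_Fr (i : ℕ) (u : PA D κ 1) : Prop :=
  ∀ m, u.coeff m ≠ 0 → ∀ l : Fin κ, i ≤ l → m (a3_et l) = 0

theorem a3_Fr_mul {i : ℕ} {u v : PA D κ 1} (hu : a3_Fr i u) (hv : a3_Fr i v) :
    a3_Fr i (u * v) := by
  intro m hm l hl
  obtain ⟨a, b, rfl, ha, hb⟩ := a3_coeff_mul hm
  rw [Finsupp.add_apply, hu a ha l hl, hv b hb l hl]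

theorem a3_Fr_pow {i : ℕ} {u : PA D κ 1} (hu : a3_Fr i u) (q : ℕ) : a3_Fr i (u ^ q) := by
  induction q with
  | zero =>
    intro m hm l hl
    rw [pow_zero, AddMonoidAlgebra.one_def, AddMonoidAlgebra.coeff_single] at hm
    have : m = 0 := by
      by_contra h'
      exact hm (Finsupp.single_eq_of_ne h')
    rw [this]
    rfl
  | succ q ih =>
    rw [pow_succ]
    exact a3_Fr_mul ih hu

theorem a3_Fr_Phi (β : Blk K κ) (i : Fin κ) : a3_Fr (D := D) i (bm K D κ (0 : Fin 1) (β.Phi i)) := by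
  intro m hm l hl
  obtain ⟨m', hm', rfl⟩ := a3_bm_coeff _ m hm
  have h1 := a3_map_apply m' l.succ.succ
  rw [a3_et, h1]
  by_contra h0
  have h2 : l.succ.succ ∈ (β.Phi i).vars := by
    rw [MvPolynomial.mem_vars_iff_mem_support]
    exact ⟨m', hm', Finsupp.mem_support_iff.2 h0⟩
  have h3 := β.tri i _ h2
  rw [Fin.val_succ, Fin.val_succ] at h3
  omega

theorem a3_bm_X (v : Fin (κ + 2)) : bm K D κ (0 : Fin 1) (MvPolynomial.X v) =
    AddMonoidAlgebra.single (Finsupp.single ((0 : Fin 1), v) 1) 1 := by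
  have h1 : bm K D κ (0 : Fin 1) (MvPolynomial.X v) = AddMonoidAlgebra.mapAlgHom (R := K)
      (Mon κ 1) (Algebra.ofId K D) (AddMonoidAlgebra.mapDomain
      (Finsupp.mapDomain fun v : Fin (κ + 2) => ((0 : Fin 1), v))
      (AddMonoidAlgebra.single (Finsupp.single v 1) 1)) := rfl
  rw [h1, AddMonoidAlgebra.mapDomain_single, Finsupp.mapDomain_single,
    AddMonoidAlgebra.mapAlgHom_single, map_one]

theorem a3_bm_rel (β : Blk K κ) (i : Fin κ) : bm K D κ (0 : Fin 1) (β.rel i) =
    AddMonoidAlgebra.single (Finsupp.single (a3_et i) (β.e i)) 1 -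
      bm K D κ (0 : Fin 1) (β.Phi i) := by
  rw [Blk.rel, map_sub, map_pow, a3_bm_X, AddMonoidAlgebra.single_pow, one_pow,
    Finsupp.smul_single, smul_eq_mul, mul_one]
  rfl

theorem a3_Fr_rel (β : Blk K κ) (i : Fin κ) {j : ℕ} (hj : (i : ℕ) < j) :
    a3_Fr (D := D) j (bm K D κ (0 : Fin 1) (β.rel i)) := by
  intro m hm l hl
  rw [a3_bm_rel] at hm
  by_cases h1 : (bm K D κ (0 : Fin 1) (β.Phi i)).coeff m = 0
  · have h2 : (AddMonoidAlgebra.single (Finsupp.single (a3_et i) (β.e i)) 1 -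
        bm K D κ (0 : Fin 1) (β.Phi i)).coeff m =
        (Finsupp.single (Finsupp.single (a3_et i) (β.e i)) (1 : D)) m -
          (bm K D κ (0 : Fin 1) (β.Phi i)).coeff m := rfl
    rw [h2, h1, sub_zero] at hm
    have h3 : m = Finsupp.single (a3_et i) (β.e i) := by
      by_contra h'
      exact hm (Finsupp.single_eq_of_ne h')
    rw [h3, Finsupp.single_eq_of_ne]
    intro h4
    have := a3_et_inj h4
    rw [this] at hl
    omega
  · exact a3_Fr_Phi β i m h1 l (by omega)

theorem a3_r_rel (β : Blk K κ) (i : Fin κ) (u : PA D κ 1) :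
    a3_r D β i (bm K D κ (0 : Fin 1) (β.rel i) * u) = 0 := by
  rw [a3_bm_rel, sub_mul, map_sub, a3_r_pow_mul, a3_r_mul β i (u := u), sub_self]
  intro m hm
  exact a3_Fr_Phi β i m hm i le_rfl

/-- the elements which are zero in the quotient -/
def a3_N (D : Type u) [DivisionRing D] [Algebra K D] (β : Blk K κ) (u : PA D κ 1) : Prop :=
  (fun _ => u) ∈ N0i D (fun _ : Fin 1 => β) (Fin 1)

theorem a3_N_add {β : Blk K κ} {u v : PA D κ 1} (hu : a3_N D β u) (hv : a3_N D β v) :
    a3_N D β (u + v) :=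
  Submodule.add_mem _ hu hv

theorem a3_N_zero {β : Blk K κ} : a3_N D β 0 :=
  Submodule.zero_mem _

theorem a3_N_mul {β : Blk K κ} (w : PA D κ 1) {u : PA D κ 1} (hu : a3_N D β u) :
    a3_N D β (w * u) :=
  Submodule.smul_mem _ w hu

theorem a3_N_rel (β : Blk K κ) (i : Fin κ) : a3_N D β (bm K D κ (0 : Fin 1) (β.rel i)) := by
  have h1 : (fun _ => bm K D κ (0 : Fin 1) (β.rel i) : Fin 1 → PA D κ 1) =
      bm K D κ (0 : Fin 1) (β.rel i) • (fun _ => 1) := by
    funext j
    rw [Pi.smul_apply, smul_eq_mul, mul_one]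
  rw [a3_N, h1]
  exact Submodule.subset_span ⟨0, i, fun _ => 1, rfl⟩

theorem a3_N_pow (β : Blk K κ) (i : Fin κ) (q : ℕ) :
    a3_N D β (AddMonoidAlgebra.single (Finsupp.single (a3_et i) (β.e i)) 1 ^ q -
      bm K D κ (0 : Fin 1) (β.Phi i) ^ q) := by
  induction q with
  | zero =>
    rw [pow_zero, pow_zero, sub_self]
    exact a3_N_zero
  | succ q ih =>
    have h1 : AddMonoidAlgebra.single (Finsupp.single (a3_et i) (β.e i)) 1 ^ (q + 1) -
        bm K D κ (0 : Fin 1) (β.Phi i) ^ (q + 1) =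
        AddMonoidAlgebra.single (Finsupp.single (a3_et i) (β.e i)) 1 ^ q *
          bm K D κ (0 : Fin 1) (β.rel i) + bm K D κ (0 : Fin 1) (β.Phi i) *
          (AddMonoidAlgebra.single (Finsupp.single (a3_et i) (β.e i)) 1 ^ q -
            bm K D κ (0 : Fin 1) (β.Phi i) ^ q) := by
      rw [a3_bm_rel, mul_sub, mul_sub, bm_comm _ _ (AddMonoidAlgebra.single _ _ ^ q),
        ← pow_succ, ← pow_succ']
      abel
    rw [h1]
    exact a3_N_add (a3_N_mul _ (a3_N_rel β i)) (a3_N_mul _ ih)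

theorem a3_N_r (β : Blk K κ) (i : Fin κ) (u : PA D κ 1) : a3_N D β (u - a3_r D β i u) := by
  induction u using AddMonoidAlgebra.induction_linear with
  | zero =>
    rw [map_zero, sub_zero]
    exact a3_N_zero
  | add u v hu hv =>
    have h1 : u + v - a3_r D β i (u + v) = (u - a3_r D β i u) + (v - a3_r D β i v) := by
      rw [map_add]
      abel
    rw [h1]
    exact a3_N_add hu hv
  | single m d =>
    have h1 : (AddMonoidAlgebra.single m d : PA D κ 1) = d •
        (AddMonoidAlgebra.single (a3_rm β i m) 1 *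
        AddMonoidAlgebra.single (Finsupp.single (a3_et i) (β.e i)) 1 ^ (m (a3_et i) / β.e i)) := by
      rw [AddMonoidAlgebra.single_pow, one_pow, AddMonoidAlgebra.single_mul_single, one_mul,
        Finsupp.smul_single, smul_eq_mul, a3_smul, AddMonoidAlgebra.single_mul_single, zero_add,
        mul_one, mul_comm (m (a3_et i) / β.e i), add_comm, ← a3_eq_rm]
    rw [a3_r_single, h1, a3_F, ← map_pow, bm_comm, map_pow, ← smul_sub, ← mul_sub, a3_smul]
    exact a3_N_mul _ (a3_N_mul _ (a3_N_pow β i _))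

end Vale.Agent.P200F.V

end

section

namespace Vale.Agent.P200F.V

open Module

universe u

variable {K : Type u} [Field K] {D : Type u} [DivisionRing D] [Algebra K D] {κ : ℕ}

theorem a3_F_mem (β : Blk K κ) (i : Fin κ) (m : Mon κ 1) : a3_F D β i m ∈ pp D κ 1 (mdeg m) := by
  have h1 := a3_pp_mul (a3_pp_pow (a3_bm_mem (D := D) (β.hom i)) (m (a3_et i) / β.e i))
    (a3_single_mem (a3_rm β i m) (1 : D))
  have h2 : ((fun _ => m (a3_et i) / β.e i * β.e i) + mdeg (a3_rm β i m) : Fin 1 → ℕ) =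
      mdeg m := by
    funext g
    conv_rhs => rw [a3_eq_rm β i m]
    rw [Subsingleton.elim g 0, Pi.add_apply, mdeg, mdeg]
    have h3 : ∀ v : Fin (κ + 2), (Finsupp.single (a3_et i) (β.e i * (m (a3_et i) / β.e i)) +
        a3_rm β i m) (0, v) = (Finsupp.single (a3_et i) (β.e i * (m (a3_et i) / β.e i))) (0, v) +
        a3_rm β i m (0, v) := fun v => Finsupp.add_apply _ _ _
    have h5 : ∑ v : Fin (κ + 2), (Finsupp.single (a3_et i) (β.e i * (m (a3_et i) / β.e i)))
        ((0 : Fin 1), v) = β.e i * (m (a3_et i) / β.e i) := by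
      rw [Finset.sum_eq_single i.succ.succ]
      · exact Finsupp.single_eq_same
      · intro v _ hv
        rw [Finsupp.single_eq_of_ne]
        intro h
        exact hv (Prod.mk.inj h).2
      · intro h
        exact absurd (Finset.mem_univ _) h
    rw [Finset.sum_congr rfl fun v _ => h3 v, Finset.sum_add_distrib, h5, mul_comm]
  rw [h2] at h1
  exact h1

theorem a3_r_mem (β : Blk K κ) (i : Fin κ) {n : Fin 1 → ℕ} {u : PA D κ 1}
    (hu : u ∈ pp D κ 1 n) : a3_r D β i u ∈ pp D κ 1 n := by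
  have h1 : u = ∑ m ∈ u.coeff.support, AddMonoidAlgebra.single m (u.coeff m) := by
    conv_lhs => rw [← AddMonoidAlgebra.sum_coeff_single u, Finsupp.sum]
  rw [h1, map_sum]
  apply Submodule.sum_mem
  intro m hm
  rw [a3_r_single, ← hu m (Finsupp.mem_support_iff.1 hm)]
  exact Submodule.smul_mem _ _ (a3_F_mem β i m)

/-- the exponents of the `η_l`, `l ≥ j`, are small -/
def a3_T (β : Blk K κ) (j : ℕ) (u : PA D κ 1) : Prop :=
  ∀ m, u.coeff m ≠ 0 → ∀ l : Fin κ, j ≤ l → m (a3_et l) < β.e l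

theorem a3_r_T (β : Blk K κ) (i : Fin κ) {u : PA D κ 1} (hu : a3_T β (i + 1) u) :
    a3_T β i (a3_r D β i u) := by
  have h1 : u = ∑ m ∈ u.coeff.support, AddMonoidAlgebra.single m (u.coeff m) := by
    conv_lhs => rw [← AddMonoidAlgebra.sum_coeff_single u, Finsupp.sum]
  intro m' hm' l hl
  rw [h1, map_sum, AddMonoidAlgebra.coeff_sum, Finsupp.finsetSum_apply] at hm'
  obtain ⟨m, hm, hmm⟩ := Finset.exists_ne_zero_of_sum_ne_zero hm'
  rw [a3_r_single, AddMonoidAlgebra.coeff_smul_apply] at hmm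
  have h2 : (a3_F D β i m).coeff m' ≠ 0 := by
    intro h0
    rw [h0, smul_zero] at hmm
    exact hmm rfl
  obtain ⟨a, b, rfl, ha, hb⟩ := a3_coeff_mul h2
  have h3 : a (a3_et l) = 0 := a3_Fr_pow (a3_Fr_Phi β i) _ a ha l hl
  have h4 : b = a3_rm β i m := by
    by_contra h'
    apply hb
    rw [AddMonoidAlgebra.coeff_single]
    exact Finsupp.single_eq_of_ne h'
  rw [Finsupp.add_apply, h3, zero_add, h4]
  by_cases hli : l = i
  · rw [hli, a3_rm_self]
    exact Nat.mod_lt _ (β.e_pos i)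
  · rw [a3_rm_ne β i m (fun h => hli (a3_et_inj h))]
    apply hu m (Finsupp.mem_support_iff.1 hm) l
    have : (l : ℕ) ≠ i := fun h => hli (Fin.ext h)
    omega

/-- the composition `r_0 ∘ ... ∘ r_(j-1)` -/
noncomputable def a3_R (D : Type u) [DivisionRing D] [Algebra K D] (β : Blk K κ) (j : ℕ) :
    PA D κ 1 →ₗ[D] PA D κ 1 :=
  Nat.rec LinearMap.id (fun j f => if h : j < κ then f.comp (a3_r D β ⟨j, h⟩) else f) j

theorem a3_R_zero (β : Blk K κ) (u : PA D κ 1) : a3_R D β 0 u = u := rfl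

theorem a3_R_succ (β : Blk K κ) {j : ℕ} (h : j < κ) (u : PA D κ 1) :
    a3_R D β (j + 1) u = a3_R D β j (a3_r D β ⟨j, h⟩ u) := by
  have h1 : a3_R D β (j + 1) = if h : j < κ then (a3_R D β j).comp (a3_r D β ⟨j, h⟩) else
      a3_R D β j := rfl
  rw [h1, dif_pos h, LinearMap.comp_apply]

theorem a3_R_rel (β : Blk K κ) {j : ℕ} (hj : j ≤ κ) (i : Fin κ) (hi : (i : ℕ) < j)
    (u : PA D κ 1) : a3_R D β j (bm K D κ (0 : Fin 1) (β.rel i) * u) = 0 := by
  induction j generalizing u with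
  | zero => omega
  | succ j ih =>
    rw [a3_R_succ β (by omega)]
    by_cases hij : (i : ℕ) = j
    · have h1 : (⟨j, by omega⟩ : Fin κ) = i := Fin.ext hij.symm
      rw [h1, a3_r_rel, map_zero]
    · rw [a3_r_mul, ih (by omega) (by omega)]
      intro m hm
      exact a3_Fr_rel β i (j := j) (by omega) m hm ⟨j, by omega⟩ le_rfl

theorem a3_R_N (β : Blk K κ) {j : ℕ} (hj : j ≤ κ) (u : PA D κ 1) :
    a3_N D β (u - a3_R D β j u) := by
  induction j generalizing u with
  | zero =>
    rw [a3_R_zero, sub_self]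
    exact a3_N_zero
  | succ j ih =>
    rw [a3_R_succ β (by omega)]
    have h1 := a3_N_add (a3_N_r β ⟨j, by omega⟩ u) (ih (by omega) (a3_r D β ⟨j, by omega⟩ u))
    rw [sub_add_sub_cancel] at h1
    exact h1

theorem a3_R_T (β : Blk K κ) {j : ℕ} (hj : j ≤ κ) {u : PA D κ 1} (hu : a3_T β j u) :
    a3_T β 0 (a3_R D β j u) := by
  induction j generalizing u with
  | zero => exact hu
  | succ j ih =>
    rw [a3_R_succ β (by omega)]
    exact ih (by omega) (a3_r_T β ⟨j, by omega⟩ hu)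

theorem a3_R_mem (β : Blk K κ) {j : ℕ} (hj : j ≤ κ) {n : Fin 1 → ℕ} {u : PA D κ 1}
    (hu : u ∈ pp D κ 1 n) : a3_R D β j u ∈ pp D κ 1 n := by
  induction j generalizing u with
  | zero => exact hu
  | succ j ih =>
    rw [a3_R_succ β (by omega)]
    exact ih (by omega) (a3_r_mem β ⟨j, by omega⟩ hu)

theorem a3_R_single_mul (β : Blk K κ) {j : ℕ} (hj : j ≤ κ) {a : Mon κ 1}
    (ha : ∀ i, a (a3_et i) = 0) (c : D) (u : PA D κ 1) :
    a3_R D β j (AddMonoidAlgebra.single a c * u) =
      AddMonoidAlgebra.single a c * a3_R D β j u := by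
  induction j generalizing u with
  | zero => rfl
  | succ j ih =>
    rw [a3_R_succ β (by omega), a3_R_succ β (by omega), a3_r_single_mul β _ (ha _),
      ih (by omega)]

theorem a3_R_fix (β : Blk K κ) {j : ℕ} (hj : j ≤ κ) {m : Mon κ 1}
    (hm : ∀ i, m (a3_et i) < β.e i) : a3_R D β j (AddMonoidAlgebra.single m 1) =
      AddMonoidAlgebra.single m 1 := by
  induction j with
  | zero => rfl
  | succ j ih =>
    rw [a3_R_succ β (by omega), a3_r_single, a3_F, Nat.div_eq_of_lt (hm _), pow_zero, one_mul,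
      a3_rm_eq β _ m (hm _), one_smul, ih (by omega)]

/-- the monomial `x^(a 0) y^(a 1) η^k` -/
noncomputable def a3_g {e : Fin κ → ℕ} (k : ∀ i, Fin (e i)) (a : Fin 2 →₀ ℕ) : Mon κ 1 :=
  Finsupp.single (0, 0) (a 0) + Finsupp.single (0, 1) (a 1) +
    ∑ i, Finsupp.single ((0 : Fin 1), i.succ.succ) (k i : ℕ)

theorem a3_sum_apply {e : Fin κ → ℕ} (k : ∀ i, Fin (e i)) (v : Fin 1 × Fin (κ + 2)) :
    (∑ i, Finsupp.single ((0 : Fin 1), i.succ.succ) (k i : ℕ) : Mon κ 1) v =
      ∑ i, (Finsupp.single ((0 : Fin 1), i.succ.succ) (k i : ℕ) : Mon κ 1) v :=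
  Finsupp.finsetSum_apply _ _ _

theorem a3_g_zero {e : Fin κ → ℕ} (k : ∀ i, Fin (e i)) (a : Fin 2 →₀ ℕ) :
    a3_g k a (0, 0) = a 0 := by
  have h1 : (0 : Fin 1 × Fin (κ + 2)) = ((0 : Fin 1), (0 : Fin (κ + 2))) := rfl
  rw [a3_g, Finsupp.add_apply, Finsupp.add_apply, a3_sum_apply, Finsupp.single_eq_same,
    Finsupp.single_eq_of_ne, Finset.sum_eq_zero, add_zero, add_zero]
  · intro i _
    rw [Finsupp.single_eq_of_ne]
    intro h
    exact Fin.succ_ne_zero _ (Prod.mk.inj h).2.symm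
  · intro h
    have := (Prod.mk.inj h).2
    exact absurd this (by simp)

theorem a3_g_one {e : Fin κ → ℕ} (k : ∀ i, Fin (e i)) (a : Fin 2 →₀ ℕ) :
    a3_g k a (0, 1) = a 1 := by
  rw [a3_g, Finsupp.add_apply, Finsupp.add_apply, a3_sum_apply, Finsupp.single_eq_same,
    Finsupp.single_eq_of_ne, Finset.sum_eq_zero, zero_add, add_zero]
  · intro i _
    rw [Finsupp.single_eq_of_ne]
    intro h
    have h2 : (1 : Fin (κ + 2)) = i.succ.succ := (Prod.mk.inj h).2
    have h3 := congrArg Fin.val h2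
    rw [Fin.val_succ, Fin.val_succ] at h3
    have h4 : ((1 : Fin (κ + 2)) : ℕ) = 1 := rfl
    omega
  · intro h
    have := (Prod.mk.inj h).2
    exact absurd this (by simp)

theorem a3_g_et {e : Fin κ → ℕ} (k : ∀ i, Fin (e i)) (a : Fin 2 →₀ ℕ) (l : Fin κ) :
    a3_g k a (a3_et l) = k l := by
  rw [a3_g, Finsupp.add_apply, Finsupp.add_apply, a3_sum_apply, Finsupp.single_eq_of_ne,
    Finsupp.single_eq_of_ne, Finset.sum_eq_single l, zero_add, zero_add]
  · exact Finsupp.single_eq_same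
  · intro i _ hi
    rw [Finsupp.single_eq_of_ne]
    intro h
    exact hi (a3_et_inj h).symm
  · intro h
    exact absurd (Finset.mem_univ _) h
  · intro h
    have h2 : l.succ.succ = (1 : Fin (κ + 2)) := (Prod.mk.inj h).2
    have h3 := congrArg Fin.val h2
    rw [Fin.val_succ, Fin.val_succ] at h3
    have h4 : ((1 : Fin (κ + 2)) : ℕ) = 1 := rfl
    omega
  · intro h
    exact Fin.succ_ne_zero _ (Prod.mk.inj h).2

theorem a3_g_inj {e : Fin κ → ℕ} (k : ∀ i, Fin (e i)) : Function.Injective (a3_g k) := by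
  intro a b h
  ext i
  refine Fin.cases ?_ (fun i => ?_) i
  · rw [← a3_g_zero k a, ← a3_g_zero k b, h]
  · rw [Subsingleton.elim i 0]
    have h1 : a3_g k a (0, 1) = a3_g k b (0, 1) := by rw [h]
    rw [a3_g_one, a3_g_one] at h1
    exact h1

theorem a3_var_cases (v : Fin 1 × Fin (κ + 2)) : v = (0, 0) ∨ v = (0, 1) ∨ ∃ l, v = a3_et l := by
  obtain ⟨g, v⟩ := v
  rw [Subsingleton.elim g 0]
  refine Fin.cases ?_ (fun v => ?_) v
  · exact Or.inl rfl
  · refine Fin.cases ?_ (fun v => ?_) v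
    · exact Or.inr (Or.inl rfl)
    · exact Or.inr (Or.inr ⟨v, rfl⟩)

theorem a3_g_surj (β : Blk K κ) (m : Mon κ 1) (hm : ∀ i, m (a3_et i) < β.e i) :
    ∃ (k : ∀ i, Fin (β.e i)) (a : Fin 2 →₀ ℕ), a3_g k a = m := by
  refine ⟨fun i => ⟨m (a3_et i), hm i⟩, Finsupp.equivFunOnFinite.symm ![m (0, 0), m (0, 1)], ?_⟩
  ext v
  rcases a3_var_cases v with h | h | ⟨l, h⟩
  · rw [h, a3_g_zero]
    rfl
  · rw [h, a3_g_one]
    rfl
  · rw [h, a3_g_et]

/-- the coefficients of the monomials `x^(a 0) y^(a 1) η^k` -/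
noncomputable def a3_E (D : Type u) [DivisionRing D] (e : Fin κ → ℕ) :
    PA D κ 1 →ₗ[D] ((∀ i, Fin (e i)) → AddMonoidAlgebra D (Fin 2 →₀ ℕ)) where
  toFun u k := AddMonoidAlgebra.comapDomain (a3_g k) (a3_g_inj k) u
  map_add' u v := by
    funext k
    exact AddMonoidAlgebra.comapDomain_add _ _ _ _
  map_smul' d u := by
    funext k
    apply AddMonoidAlgebra.ext
    ext a
    rfl

theorem a3_E_coeff {e : Fin κ → ℕ} (u : PA D κ 1) (k : ∀ i, Fin (e i)) (a : Fin 2 →₀ ℕ) :
    (a3_E D e u k).coeff a = u.coeff (a3_g k a) := rfl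

theorem a3_E_mul {e : Fin κ → ℕ} (b : Mon κ 1) (a0 : Fin 2 →₀ ℕ)
    (hb : ∀ (k : ∀ i, Fin (e i)) a, a3_g k (a0 + a) = b + a3_g k a)
    (hb' : ∀ (k : ∀ i, Fin (e i)) (a : Fin 2 →₀ ℕ) (m : Mon κ 1), b + m = a3_g k a →
      ∃ a', a = a0 + a') (u : PA D κ 1) (k : ∀ i, Fin (e i)) :
    a3_E D e (AddMonoidAlgebra.single b 1 * u) k =
      AddMonoidAlgebra.single a0 1 * a3_E D e u k := by
  apply AddMonoidAlgebra.ext
  ext a
  rw [a3_E_coeff]
  by_cases h : ∃ a', a = a0 + a'
  · obtain ⟨a', rfl⟩ := h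
    rw [hb, AddMonoidAlgebra.coeff_single_mul_eq_mul_coeff (a3_g k a') (by
        intro m' _
        exact ⟨fun h => add_left_cancel h, fun h => by rw [h]⟩),
      AddMonoidAlgebra.coeff_single_mul_eq_mul_coeff a' (by
        intro m' _
        exact ⟨fun h => add_left_cancel h, fun h => by rw [h]⟩), a3_E_coeff]
  · rw [AddMonoidAlgebra.coeff_single_mul_of_forall_add_ne,
      AddMonoidAlgebra.coeff_single_mul_of_forall_add_ne]
    · intro d hd
      exact h ⟨d, hd.symm⟩
    · intro d hd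
      exact h (hb' k a d hd)

theorem a3_g_ext {m m' : Mon κ 1} (h0 : m (0, 0) = m' (0, 0)) (h1 : m (0, 1) = m' (0, 1))
    (h2 : ∀ l, m (a3_et l) = m' (a3_et l)) : m = m' := by
  ext v
  rcases a3_var_cases v with h | h | ⟨l, h⟩
  · rw [h, h0]
  · rw [h, h1]
  · rw [h, h2]

theorem a3_mdeg_g {e : Fin κ → ℕ} (k : ∀ i, Fin (e i)) (a : Fin 2 →₀ ℕ) :
    mdeg (a3_g k a) = fun _ => a 0 + a 1 + ∑ i, (k i : ℕ) := by
  funext g
  rw [Subsingleton.elim g 0, mdeg, Fin.sum_univ_succ, Fin.sum_univ_succ, ← add_assoc]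
  have h1 := a3_g_one k a
  have h2 : ∀ l : Fin κ, a3_g k a (0, l.succ.succ) = k l := a3_g_et k a
  rw [a3_g_zero, Finset.sum_congr rfl fun l _ => h2 l]
  congr 1
  exact congrArg _ h1

/-- normal form -/
theorem exists_nf (D : Type u) [DivisionRing D] [Algebra K D] (β : Blk K κ) :
    ∃ ν : PA D κ 1 →ₗ[D] ((∀ i, Fin (β.e i)) → AddMonoidAlgebra D (Fin 2 →₀ ℕ)),
      (∀ u, ν u = 0 ↔ (fun _ => u) ∈ N0i D (fun _ : Fin 1 => β) (Fin 1)) ∧
      (∀ u k, ν (va D κ 1 (0, 0) * u) k =
        AddMonoidAlgebra.single (Finsupp.single 0 1) 1 * ν u k) ∧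
      (∀ u k, ν (va D κ 1 (0, 1) * u) k =
        AddMonoidAlgebra.single (Finsupp.single 1 1) 1 * ν u k) ∧
      (∀ k : (∀ i, Fin (β.e i)), ν (AddMonoidAlgebra.single
        (∑ i, Finsupp.single ((0 : Fin 1), i.succ.succ) (k i : ℕ)) 1) = Pi.single k 1) ∧
      (∀ (n : ℕ) (u : PA D κ 1), u ∈ pp D κ 1 (fun _ => n) → ∀ k m, (ν u k).coeff m ≠ 0 →
        m 0 + m 1 + ∑ i, (k i : ℕ) = n) := by
  classical
  have hne : ∀ (v : Fin 1 × Fin (κ + 2)), v = (0, 0) ∨ v = (0, 1) → ∀ i : Fin κ,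
      (Finsupp.single v 1 : Mon κ 1) (a3_et i) = 0 := by
    intro v hv i
    rw [Finsupp.single_eq_of_ne]
    intro h
    rcases hv with hv | hv
    · rw [hv] at h
      exact Fin.succ_ne_zero _ (Prod.mk.inj h).2
    · rw [hv] at h
      have h2 : i.succ.succ = (1 : Fin (κ + 2)) := (Prod.mk.inj h).2
      have h3 := congrArg Fin.val h2
      rw [Fin.val_succ, Fin.val_succ] at h3
      have h4 : ((1 : Fin (κ + 2)) : ℕ) = 1 := rfl
      omega
  have h01 : ((0 : Fin 1), (0 : Fin (κ + 2))) ≠ (0, 1) := by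
    intro h
    have := (Prod.mk.inj h).2
    exact absurd this (by simp)
  refine ⟨(a3_E D β.e).comp (a3_R D β κ), ?_, ?_, ?_, ?_, ?_⟩
  · intro u
    constructor
    · intro h
      have h1 : a3_R D β κ u = 0 := by
        apply AddMonoidAlgebra.ext
        ext m
        by_contra h0
        have h2 : a3_T β 0 (a3_R D β κ u) := by
          apply a3_R_T β le_rfl
          intro m _ l hl
          have := l.2
          omega
        obtain ⟨k, a, hka⟩ := a3_g_surj β m fun i => h2 m h0 i (Nat.zero_le _)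
        apply h0
        have h3 : ((a3_E D β.e).comp (a3_R D β κ) u k).coeff a = 0 := by
          rw [h]
          rfl
        rw [← hka]
        exact h3
      have h4 := a3_R_N β le_rfl u
      rw [h1, sub_zero] at h4
      exact h4
    · intro h
      have h1 : ∀ v ∈ N0i D (fun _ : Fin 1 => β) (Fin 1), ∀ w : PA D κ 1,
          a3_R D β κ (w * v 0) = 0 := by
        intro v hv
        refine Submodule.span_induction ?_ ?_ ?_ ?_ hv
        · rintro v ⟨g, i, b, rfl⟩ w
          rw [Pi.smul_apply, smul_eq_mul, Subsingleton.elim g 0, ← mul_assoc, ← bm_comm, mul_assoc]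
          exact a3_R_rel β le_rfl i i.2 _
        · intro w
          rw [Pi.zero_apply, mul_zero, map_zero]
        · intro u v _ _ hu hv w
          rw [Pi.add_apply, mul_add, map_add, hu, hv, add_zero]
        · intro c v _ hv w
          rw [Pi.smul_apply, smul_eq_mul, ← mul_assoc]
          exact hv _
      have h2 := h1 _ h 1
      rw [one_mul] at h2
      rw [LinearMap.comp_apply, h2, map_zero]
  · intro u k
    rw [LinearMap.comp_apply, LinearMap.comp_apply, va,
      a3_R_single_mul β le_rfl (hne _ (Or.inl rfl))]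
    apply a3_E_mul
    · intro k a
      apply a3_g_ext
      · rw [a3_g_zero, Finsupp.add_apply, Finsupp.add_apply, a3_g_zero, Finsupp.single_eq_same,
          Finsupp.single_eq_same]
      · rw [a3_g_one, Finsupp.add_apply, Finsupp.add_apply, a3_g_one,
          Finsupp.single_eq_of_ne (by simp), Finsupp.single_eq_of_ne h01.symm]
      · intro l
        rw [a3_g_et, Finsupp.add_apply, a3_g_et, hne _ (Or.inl rfl), zero_add]
    · intro k a m hm
      have h1 : 1 ≤ a 0 := by
        rw [← a3_g_zero k a, ← hm, Finsupp.add_apply, Finsupp.single_eq_same]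
        omega
      refine ⟨a - Finsupp.single 0 1, ?_⟩
      rw [add_tsub_cancel_of_le]
      rw [Finsupp.single_le_iff]
      exact h1
  · intro u k
    rw [LinearMap.comp_apply, LinearMap.comp_apply, va,
      a3_R_single_mul β le_rfl (hne _ (Or.inr rfl))]
    apply a3_E_mul
    · intro k a
      apply a3_g_ext
      · rw [a3_g_zero, Finsupp.add_apply, Finsupp.add_apply, a3_g_zero,
          Finsupp.single_eq_of_ne (by simp), Finsupp.single_eq_of_ne h01]
      · rw [a3_g_one, Finsupp.add_apply, Finsupp.add_apply, a3_g_one, Finsupp.single_eq_same,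
          Finsupp.single_eq_same]
      · intro l
        rw [a3_g_et, Finsupp.add_apply, a3_g_et, hne _ (Or.inr rfl), zero_add]
    · intro k a m hm
      have h1 : 1 ≤ a 1 := by
        rw [← a3_g_one k a, ← hm, Finsupp.add_apply, Finsupp.single_eq_same]
        omega
      refine ⟨a - Finsupp.single 1 1, ?_⟩
      rw [add_tsub_cancel_of_le]
      rw [Finsupp.single_le_iff]
      exact h1
  · intro k
    have h1 : (∑ i, Finsupp.single ((0 : Fin 1), i.succ.succ) (k i : ℕ) : Mon κ 1) =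
        a3_g k 0 := by
      rw [a3_g, Finsupp.zero_apply, Finsupp.zero_apply, Finsupp.single_zero, Finsupp.single_zero,
        zero_add, zero_add]
    rw [h1, LinearMap.comp_apply, a3_R_fix β le_rfl (by
      intro i
      rw [a3_g_et]
      exact (k i).2)]
    funext k'
    apply AddMonoidAlgebra.ext
    ext a
    rw [a3_E_coeff, AddMonoidAlgebra.coeff_single]
    by_cases hk : k' = k
    · rw [hk, Pi.single_eq_same, AddMonoidAlgebra.one_def, AddMonoidAlgebra.coeff_single]
      by_cases ha : a = 0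
      · rw [ha, Finsupp.single_eq_same, Finsupp.single_eq_same]
      · rw [Finsupp.single_eq_of_ne ha, Finsupp.single_eq_of_ne]
        intro h
        exact ha (a3_g_inj k h)
    · rw [Pi.single_eq_of_ne hk, Finsupp.single_eq_of_ne]
      · rfl
      · intro h
        apply hk
        funext i
        have h2 : a3_g k' a (a3_et i) = a3_g k 0 (a3_et i) := by rw [h]
        rw [a3_g_et, a3_g_et] at h2
        exact Fin.ext h2
  · intro n u hu k m hm
    have h1 := a3_R_mem β le_rfl hu (a3_g k m) hm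
    rw [a3_mdeg_g] at h1
    exact congrFun h1 0

end Vale.Agent.P200F.V

end
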