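import Vale.Agent.P200F.Ns
import Vale.Agent.P200F.C1

set_option linter.all false

section

namespace Vale.Agent.P200F.V

open Module

universe u

variable {K : Type u} [Field K] {D : Type u} [DivisionRing D] [Algebra K D] {κ : ℕ}

theorem mem_N0i_iff {R : ℕ} {ι : Type} [Finite ι] (β : Fin R → Blk K κ) (u : ι → PA D κ R) :
    u ∈ N0i D β ι ↔ ∀ j, (fun _ => u j) ∈ N0i D β (Fin 1) := by
  classical
  cases nonempty_fintype ι
  constructor
  · intro hu j
    let L : (ι → PA D κ R) →ₗ[PA D κ R] (Fin 1 → PA D κ R) :=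
      LinearMap.pi fun _ => LinearMap.proj j
    have h : N0i D β ι ≤ (N0i D β (Fin 1)).comap L := by
      refine Submodule.span_le.2 ?_
      rintro v ⟨g, i, w, rfl⟩
      change L _ ∈ N0i D β (Fin 1)
      rw [map_smul]
      exact Submodule.subset_span ⟨g, i, L w, rfl⟩
    exact h hu
  · intro h
    have hsum : u = ∑ j, (Pi.single j (u j) : ι → PA D κ R) := by
      exact (Finset.univ_sum_single u).symm
    rw [hsum]
    refine Submodule.sum_mem _ fun j _ => ?_
    let L : (Fin 1 → PA D κ R) →ₗ[PA D κ R] (ι → PA D κ R) :=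
      (LinearMap.single (PA D κ R) (fun _ : ι => PA D κ R) j).comp (LinearMap.proj 0)
    have hL : N0i D β (Fin 1) ≤ (N0i D β ι).comap L := by
      refine Submodule.span_le.2 ?_
      rintro v ⟨g, i, w, rfl⟩
      change L _ ∈ N0i D β ι
      rw [map_smul]
      exact Submodule.subset_span ⟨g, i, L w, rfl⟩
    exact hL (h j)

/-- the normal form data -/
structure A4 (D : Type u) [DivisionRing D] [Algebra K D] (β : Blk K κ)
    (ν : PA D κ 1 →ₗ[D] ((∀ i, Fin (β.e i)) → AddMonoidAlgebra D (Fin 2 →₀ ℕ))) : Prop where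
  ker : ∀ u, ν u = 0 ↔ (fun _ => u) ∈ N0i D (fun _ : Fin 1 => β) (Fin 1)
  mx : ∀ u k, ν (va D κ 1 (0, 0) * u) k =
    AddMonoidAlgebra.single (Finsupp.single 0 1) 1 * ν u k
  my : ∀ u k, ν (va D κ 1 (0, 1) * u) k =
    AddMonoidAlgebra.single (Finsupp.single 1 1) 1 * ν u k
  et : ∀ k : (∀ i, Fin (β.e i)), ν (AddMonoidAlgebra.single
    (∑ i, Finsupp.single ((0 : Fin 1), i.succ.succ) (k i : ℕ)) 1) = Pi.single k 1
  hg : ∀ (n : ℕ) (u : PA D κ 1), u ∈ pp D κ 1 (fun _ => n) → ∀ k m, (ν u k).coeff m ≠ 0 →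
    m 0 + m 1 + ∑ i, (k i : ℕ) = n

/-- the monomial `η^k` -/
noncomputable def a4eta (D : Type u) [DivisionRing D] {κ : ℕ} (k : Fin κ → ℕ) : PA D κ 1 :=
  AddMonoidAlgebra.single (∑ i, Finsupp.single ((0 : Fin 1), i.succ.succ) (k i)) 1

theorem a4_exists (D : Type u) [DivisionRing D] [Algebra K D] (β : Blk K κ) :
    ∃ ν, A4 D β ν := by
  obtain ⟨ν, h1, h2, h3, h4, h5⟩ := exists_nf D β
  exact ⟨ν, ⟨h1, h2, h3, h4, h5⟩⟩

section
variable {β : Blk K κ}
  {ν : PA D κ 1 →ₗ[D] ((∀ i, Fin (β.e i)) → AddMonoidAlgebra D (Fin 2 →₀ ℕ))}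

theorem a4_x (h : A4 D β ν) (a : ℕ) (u : PA D κ 1) (k) :
    ν (va D κ 1 (0, 0) ^ a * u) k = (AddMonoidAlgebra.single (Finsupp.single 0 1) 1) ^ a * ν u k := by
  induction a with
  | zero => simp
  | succ a ih => rw [pow_succ', mul_assoc, h.mx, ih, pow_succ', mul_assoc]

theorem a4_y (h : A4 D β ν) (a : ℕ) (u : PA D κ 1) (k) :
    ν (va D κ 1 (0, 1) ^ a * u) k = (AddMonoidAlgebra.single (Finsupp.single 1 1) 1) ^ a * ν u k := by
  induction a with
  | zero => simp
  | succ a ih => rw [pow_succ', mul_assoc, h.my, ih, pow_succ', mul_assoc]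

theorem a4_mon (h : A4 D β ν) (a b : ℕ) (k l : ∀ i, Fin (β.e i)) :
    ν (va D κ 1 (0, 0) ^ a * (va D κ 1 (0, 1) ^ b * a4eta D fun i => (k i : ℕ))) l =
      if l = k then AddMonoidAlgebra.single (Finsupp.single 0 a + Finsupp.single 1 b) 1 else 0 := by
  classical
  rw [a4_x h, a4_y h, a4eta, h.et k]
  by_cases hl : l = k
  · subst hl
    rw [if_pos rfl, Pi.single_eq_same, mul_one, AddMonoidAlgebra.single_pow,
      AddMonoidAlgebra.single_pow, AddMonoidAlgebra.single_mul_single]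
    simp
  · rw [if_neg hl, Pi.single_eq_of_ne hl, mul_zero, mul_zero]

theorem a4_fin2 (m : Fin 2 →₀ ℕ) : Finsupp.single 0 (m 0) + Finsupp.single 1 (m 1) = m := by
  ext i
  fin_cases i <;> simp

theorem a4_surj (h : A4 D β ν) (w : (∀ i, Fin (β.e i)) → AddMonoidAlgebra D (Fin 2 →₀ ℕ)) :
    ∃ p, ν p = w := by
  classical
  refine ⟨∑ k, ∑ m ∈ (w k).coeff.support, (w k).coeff m •
    (va D κ 1 (0, 0) ^ (m 0) * (va D κ 1 (0, 1) ^ (m 1) * a4eta D fun i => (k i : ℕ))), ?_⟩
  funext l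
  rw [map_sum, Finset.sum_apply]
  have h1 : ∀ k, (ν (∑ m ∈ (w k).coeff.support, (w k).coeff m •
      (va D κ 1 (0, 0) ^ (m 0) * (va D κ 1 (0, 1) ^ (m 1) * a4eta D fun i => (k i : ℕ))))) l =
      if l = k then w k else 0 := by
    intro k
    rw [map_sum, Finset.sum_apply]
    have h2 : ∀ m : Fin 2 →₀ ℕ, (ν ((w k).coeff m •
        (va D κ 1 (0, 0) ^ (m 0) * (va D κ 1 (0, 1) ^ (m 1) * a4eta D fun i => (k i : ℕ))))) l =
        if l = k then AddMonoidAlgebra.single m ((w k).coeff m) else 0 := by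
      intro m
      rw [map_smul, Pi.smul_apply, a4_mon h, a4_fin2]
      split_ifs
      · apply AddMonoidAlgebra.ext
        simp
      · simp
    simp only [h2]
    split_ifs
    · apply AddMonoidAlgebra.ext
      rw [AddMonoidAlgebra.coeff_sum]
      exact Finsupp.sum_single (w k).coeff
    · simp
  simp only [h1]
  simp

end

theorem free_xy (β : Blk K κ) {u : PA D κ 1}
    (hu : (fun _ => u) ∉ N0i D (fun _ : Fin 1 => β) (Fin 1)) (k : ℕ) (a : Fin (k + 1) → D)
    (h : (fun _ => ∑ i : Fin (k + 1), a i •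
      (va D κ 1 (0, 0) ^ (k - i : ℕ) * va D κ 1 (0, 1) ^ (i : ℕ) * u)) ∈
      N0i D (fun _ : Fin 1 => β) (Fin 1)) : a = 0 := by
  classical
  obtain ⟨ν, hν⟩ := a4_exists D β
  rw [← hν.ker] at hu h
  obtain ⟨l, hl⟩ : ∃ l, ν u l ≠ 0 := by
    by_contra hc
    push Not at hc
    exact hu (funext hc)
  have h1 := congrFun h l
  rw [map_sum, Finset.sum_apply] at h1
  set p : AddMonoidAlgebra D (Fin 2 →₀ ℕ) := ∑ i : Fin (k + 1),
    AddMonoidAlgebra.single (Finsupp.single 0 (k - i : ℕ) + Finsupp.single 1 (i : ℕ)) (a i) with hp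
  have h2 : p * ν u l = 0 := by
    rw [hp, Finset.sum_mul]
    rw [Pi.zero_apply] at h1
    rw [← h1]
    refine Finset.sum_congr rfl fun i _ => ?_
    rw [map_smul, Pi.smul_apply, mul_assoc, a4_x hν, a4_y hν, ← mul_assoc,
      AddMonoidAlgebra.single_pow, AddMonoidAlgebra.single_pow,
      AddMonoidAlgebra.single_mul_single, ← smul_mul_assoc]
    refine congrArg (fun z => z * ν u l) ?_
    apply AddMonoidAlgebra.ext
    simp
  have h3 : p = 0 := (mul_eq_zero.1 h2).resolve_right hl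
  funext i
  have h4 : p.coeff (Finsupp.single 0 (k - i : ℕ) + Finsupp.single 1 (i : ℕ)) = a i := by
    rw [hp, AddMonoidAlgebra.coeff_sum, Finsupp.finsetSum_apply, Finset.sum_eq_single i]
    · simp
    · intro j _ hj
      rw [AddMonoidAlgebra.coeff_single, Finsupp.single_apply, if_neg]
      intro hc
      apply hj
      have := DFunLike.congr_fun hc 1
      simp only [Finsupp.add_apply, Finsupp.single_apply] at this
      simp at this
      exact Fin.ext this
    · intro hi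
      exact absurd (Finset.mem_univ i) hi
  rw [h3] at h4
  simpa using h4.symm

theorem a4_div {F G : AddMonoidAlgebra D (Fin 2 →₀ ℕ)}
    (h : AddMonoidAlgebra.single (Finsupp.single 1 1) 1 * F =
      AddMonoidAlgebra.single (Finsupp.single 0 1) 1 * G) :
    ∃ H : AddMonoidAlgebra D (Fin 2 →₀ ℕ),
      F = AddMonoidAlgebra.single (Finsupp.single 0 1) 1 * H ∧
      G = AddMonoidAlgebra.single (Finsupp.single 1 1) 1 * H := by
  classical
  set X : AddMonoidAlgebra D (Fin 2 →₀ ℕ) := AddMonoidAlgebra.single (Finsupp.single 0 1) 1 with hX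
  set Y : AddMonoidAlgebra D (Fin 2 →₀ ℕ) := AddMonoidAlgebra.single (Finsupp.single 1 1) 1 with hY
  have hinj : Function.Injective fun m : Fin 2 →₀ ℕ => Finsupp.single 0 1 + m :=
    fun a b hab => add_left_cancel hab
  let H : AddMonoidAlgebra D (Fin 2 →₀ ℕ) :=
    AddMonoidAlgebra.ofCoeff (F.coeff.comapDomain (fun m => Finsupp.single 0 1 + m) hinj.injOn)
  have hH : ∀ m, H.coeff m = F.coeff (Finsupp.single 0 1 + m) := fun m => rfl
  have h0 : ∀ m : Fin 2 →₀ ℕ, m 0 = 0 → F.coeff m = 0 := by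
    intro m hm
    have h1 : (Y * F).coeff (Finsupp.single 1 1 + m) = F.coeff m := by
      rw [hY, AddMonoidAlgebra.coeff_single_mul_add, one_mul]
    rw [← h1, h, hX]
    refine AddMonoidAlgebra.coeff_single_mul_of_forall_add_ne _ _ fun d hd => ?_
    have := DFunLike.congr_fun hd 0
    simp [hm] at this
  have h1 : F = X * H := by
    apply AddMonoidAlgebra.ext
    ext m
    by_cases hm : m 0 = 0
    · rw [h0 m hm, hX]
      symm
      refine AddMonoidAlgebra.coeff_single_mul_of_forall_add_ne _ _ fun d hd => ?_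
      have := DFunLike.congr_fun hd 0
      simp [hm] at this
    · have hm' : m = Finsupp.single 0 1 + (Finsupp.single 0 (m 0 - 1) + Finsupp.single 1 (m 1)) := by
        ext i
        fin_cases i
        · simp
          omega
        · simp
      rw [hm', hX, AddMonoidAlgebra.coeff_single_mul_add, one_mul, hH]
  refine ⟨H, h1, ?_⟩
  have h2 : X * G = X * (Y * H) := by
    rw [← h, h1, ← mul_assoc, ← mul_assoc]
    refine congrArg (fun z => z * H) ?_
    rw [hX, hY, AddMonoidAlgebra.single_mul_single, AddMonoidAlgebra.single_mul_single, add_comm]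
  have hX0 : X ≠ 0 := by
    rw [hX, Ne, AddMonoidAlgebra.single_eq_zero]
    exact one_ne_zero
  exact mul_left_cancel₀ hX0 h2

theorem koszul_xy (β : Blk K κ) {f g : PA D κ 1}
    (h : (fun _ => va D κ 1 (0, 1) * f - va D κ 1 (0, 0) * g) ∈
      N0i D (fun _ : Fin 1 => β) (Fin 1)) :
    ∃ p : PA D κ 1, (fun _ => f - va D κ 1 (0, 0) * p) ∈ N0i D (fun _ : Fin 1 => β) (Fin 1) ∧
      (fun _ => g - va D κ 1 (0, 1) * p) ∈ N0i D (fun _ : Fin 1 => β) (Fin 1) := by
  obtain ⟨ν, hν⟩ := a4_exists D β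
  rw [← hν.ker, map_sub] at h
  have h1 : ∀ k, ∃ H : AddMonoidAlgebra D (Fin 2 →₀ ℕ),
      ν f k = AddMonoidAlgebra.single (Finsupp.single 0 1) 1 * H ∧
      ν g k = AddMonoidAlgebra.single (Finsupp.single 1 1) 1 * H := by
    intro k
    refine a4_div ?_
    have h2 := congrFun h k
    rw [Pi.sub_apply, Pi.zero_apply, hν.mx, hν.my] at h2
    exact sub_eq_zero.1 h2
  choose H hF hG using h1
  obtain ⟨p, hp⟩ := a4_surj hν H
  refine ⟨p, ?_, ?_⟩
  · rw [← hν.ker, map_sub, sub_eq_zero]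
    funext k
    rw [hν.mx, hp, hF]
  · rw [← hν.ker, map_sub, sub_eq_zero]
    funext k
    rw [hν.my, hp, hG]

theorem a4_box_sum (e : Fin κ → ℕ) :
    2 * ∑ k : ∀ i, Fin (e i), ∑ i, ((k i : ℕ) : ℤ) = dl e * ∑ i, ((e i : ℤ) - 1) := by
  have h1 : ∑ k : ∀ i, Fin (e i), ∑ i, ((k i : ℕ) : ℤ) =
      ∑ k : ∀ i, Fin (e i), ∑ i, ((e i : ℤ) - 1 - ((k i : ℕ) : ℤ)) := by
    refine Fintype.sum_equiv (Equiv.piCongrRight fun i => (Fin.revPerm : Fin (e i) ≃ Fin (e i)))
      _ _ fun k => ?_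
    refine Finset.sum_congr rfl fun i _ => ?_
    have h2 : ((Fin.rev (k i) : Fin (e i)) : ℕ) = e i - (k i + 1) := Fin.val_rev (k i)
    have h3 := (k i).2
    simp only [Equiv.piCongrRight_apply, Pi.map_apply, Fin.revPerm_apply]
    rw [h2]
    have : ((e i - ((k i : ℕ) + 1) : ℕ) : ℤ) = (e i : ℤ) - ((k i : ℕ) + 1) := by
      push_cast [Nat.cast_sub (show (k i : ℕ) + 1 ≤ e i from h3)]
      ring
    rw [this]
    ring
  have h2 : ∑ k : ∀ i, Fin (e i), ∑ i, ((k i : ℕ) : ℤ) +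
      ∑ k : ∀ i, Fin (e i), ∑ i, ((e i : ℤ) - 1 - ((k i : ℕ) : ℤ)) =
      dl e * ∑ i, ((e i : ℤ) - 1) := by
    rw [← Finset.sum_add_distrib]
    have h3 : ∀ k : ∀ i, Fin (e i), ∑ i, ((k i : ℕ) : ℤ) + ∑ i, ((e i : ℤ) - 1 - ((k i : ℕ) : ℤ)) =
        ∑ i, ((e i : ℤ) - 1) := by
      intro k
      rw [← Finset.sum_add_distrib]
      refine Finset.sum_congr rfl fun i _ => ?_
      ring
    rw [Finset.sum_congr rfl fun k _ => h3 k, Finset.sum_const, Finset.card_univ, Fintype.card_pi]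
    simp [dl]
  linarith

/-- the index of the normal monomials of degree `n` -/
abbrev a4I (ι : Type) {κ : ℕ} (e : Fin κ → ℕ) (n : ℕ) : Type :=
  ι × (Σ k : (∀ i, Fin (e i)), Fin (n - ∑ i, (k i : ℕ) + 1))

theorem a4_card (ι : Type) [Fintype ι] (β : Blk K κ) (n : ℕ) (hn : ∑ i, β.e i ≤ n) :
    (Fintype.card (a4I ι β.e n) : ℤ) = Nat.card ι * hO β.e n := by
  rw [Fintype.card_prod, Fintype.card_sigma, ← Nat.card_eq_fintype_card (α := ι)]
  push_cast
  refine congrArg (fun z => (Nat.card ι : ℤ) * z) ?_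
  have h1 : ∀ k : ∀ i, Fin (β.e i), ∑ i, (k i : ℕ) ≤ n := by
    intro k
    exact (Finset.sum_le_sum fun i _ => (k i).2.le).trans hn
  have h2 : ∀ k : ∀ i, Fin (β.e i), ((Fintype.card (Fin (n - ∑ i, (k i : ℕ) + 1)) : ℕ) : ℤ) =
      ((n : ℤ) + 1) - ∑ i, ((k i : ℕ) : ℤ) := by
    intro k
    rw [Fintype.card_fin]
    push_cast [Nat.cast_sub (h1 k)]
    ring
  rw [Finset.sum_congr rfl fun k _ => h2 k, Finset.sum_sub_distrib, Finset.sum_const,
    Finset.card_univ, Fintype.card_pi, hO]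
  have h3 := a4_box_sum β.e
  have h5 : (dl β.e * ∑ i, ((β.e i : ℤ) - 1)) / 2 = ∑ k : ∀ i, Fin (β.e i), ∑ i, ((k i : ℕ) : ℤ) := by
    rw [← h3]
    exact Int.mul_ediv_cancel_left _ (by norm_num)
  rw [h5]
  simp [dl]

theorem a4_mdeg_single (v : Fin (κ + 2)) (c : ℕ) (g : Fin 1) :
    mdeg (Finsupp.single ((0 : Fin 1), v) c) g = c := by
  have hg : g = 0 := Subsingleton.elim _ _
  subst hg
  rw [mdeg, Finset.sum_eq_single v]
  · simp
  · intro w _ hw
    rw [Finsupp.single_apply, if_neg]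
    intro h
    exact hw (Prod.mk.inj h).2.symm
  · intro h
    exact absurd (Finset.mem_univ v) h

theorem a4_mdeg_add {R : ℕ} (m m' : Mon κ R) (g : Fin R) :
    mdeg (m + m') g = mdeg m g + mdeg m' g := by
  simp [mdeg, Finset.sum_add_distrib]

theorem a4_mdeg_sum {R : ℕ} {I : Type*} (S : Finset I) (m : I → Mon κ R) (g : Fin R) :
    mdeg (∑ i ∈ S, m i) g = ∑ i ∈ S, mdeg (m i) g := by
  simp only [mdeg, Finsupp.finsetSum_apply]
  exact Finset.sum_comm

theorem a4_mon_mem (a b : ℕ) (k : Fin κ → ℕ) :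
    va D κ 1 (0, 0) ^ a * (va D κ 1 (0, 1) ^ b * a4eta D k) ∈
      pp D κ 1 (fun _ => a + b + ∑ i, k i) := by
  rw [va, va, a4eta, AddMonoidAlgebra.single_pow, AddMonoidAlgebra.single_pow,
    AddMonoidAlgebra.single_mul_single, AddMonoidAlgebra.single_mul_single]
  intro m hm
  rw [AddMonoidAlgebra.coeff_single, Finsupp.single_apply] at hm
  have hm' : a • Finsupp.single ((0 : Fin 1), (0 : Fin (κ + 2))) 1 +
      (b • Finsupp.single ((0 : Fin 1), (1 : Fin (κ + 2))) 1 +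
        ∑ i, Finsupp.single ((0 : Fin 1), i.succ.succ) (k i)) = m := by
    by_contra hc
    exact hm (if_neg hc)
  subst hm'
  funext g
  rw [a4_mdeg_add, a4_mdeg_add, a4_mdeg_sum, Finsupp.smul_single, Finsupp.smul_single,
    a4_mdeg_single, a4_mdeg_single, Finset.sum_congr rfl fun i _ => a4_mdeg_single _ _ g]
  simp only [smul_eq_mul, mul_one]
  ring

section
variable {β : Blk K κ}

/-- the coefficients of the normal form -/
noncomputable def a4Phi
    (ν : PA D κ 1 →ₗ[D] ((∀ i, Fin (β.e i)) → AddMonoidAlgebra D (Fin 2 →₀ ℕ))) (ι : Type)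
    (n : ℕ) : (pvi D κ 1 ι (fun _ => n)) →ₗ[D] (a4I ι β.e n → D) where
  toFun u w := (ν ((u : ι → PA D κ 1) w.1) w.2.1).coeff
    (Finsupp.single 0 (n - ∑ i, (w.2.1 i : ℕ) - (w.2.2 : ℕ)) + Finsupp.single 1 (w.2.2 : ℕ))
  map_add' u v := by
    funext w
    simp only [Submodule.coe_add, Pi.add_apply, map_add, AddMonoidAlgebra.coeff_add,
      Finsupp.add_apply]
  map_smul' d u := by
    funext w
    simp only [Submodule.coe_smul, Pi.smul_apply, map_smul, AddMonoidAlgebra.coeff_smul_apply,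
      RingHom.id_apply]

theorem a4_ker {ν : PA D κ 1 →ₗ[D] ((∀ i, Fin (β.e i)) → AddMonoidAlgebra D (Fin 2 →₀ ℕ))}
    (h : A4 D β ν) (ι : Type) [Finite ι] (n : ℕ) (u : pvi D κ 1 ι (fun _ => n)) :
    a4Phi ν ι n u = 0 ↔ (u : ι → PA D κ 1) ∈ N0i D (fun _ : Fin 1 => β) ι := by
  rw [mem_N0i_iff]
  constructor
  · intro hu j
    rw [← h.ker]
    funext k
    apply AddMonoidAlgebra.ext
    ext m
    by_contra hm
    have h1 := h.hg n _ (u.2 j) k m hm
    have h2 : m 1 < n - ∑ i, (k i : ℕ) + 1 := by omega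
    have h3 := congrFun hu (j, ⟨k, ⟨m 1, h2⟩⟩)
    apply hm
    have h4 : Finsupp.single 0 (n - ∑ i, (k i : ℕ) - m 1) + Finsupp.single 1 (m 1) = m := by
      rw [show n - ∑ i, (k i : ℕ) - m 1 = m 0 by omega, a4_fin2]
    have h5 : a4Phi ν ι n u (j, ⟨k, ⟨m 1, h2⟩⟩) = (ν ((u : ι → PA D κ 1) j) k).coeff
      (Finsupp.single 0 (n - ∑ i, (k i : ℕ) - m 1) + Finsupp.single 1 (m 1)) := rfl
    rw [h5, h4] at h3
    exact h3
  · intro hu
    funext w
    have h1 := (h.ker _).2 (hu w.1)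
    change (ν ((u : ι → PA D κ 1) w.1) w.2.1).coeff _ = 0
    rw [h1]
    rfl

theorem a4_range {ν : PA D κ 1 →ₗ[D] ((∀ i, Fin (β.e i)) → AddMonoidAlgebra D (Fin 2 →₀ ℕ))}
    (h : A4 D β ν) (ι : Type) (n : ℕ) (hn : ∑ i, β.e i ≤ n) :
    LinearMap.range (a4Phi ν ι n) = ⊤ := by
  classical
  rw [LinearMap.range_eq_top]
  intro c
  have h1 : ∀ k : ∀ i, Fin (β.e i), ∑ i, (k i : ℕ) ≤ n := by
    intro k
    exact (Finset.sum_le_sum fun i _ => (k i).2.le).trans hn
  let p : ι → PA D κ 1 := fun j => ∑ k : (∀ i, Fin (β.e i)),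
    ∑ l : Fin (n - ∑ i, (k i : ℕ) + 1), c (j, ⟨k, l⟩) •
      (va D κ 1 (0, 0) ^ (n - ∑ i, (k i : ℕ) - (l : ℕ)) *
        (va D κ 1 (0, 1) ^ (l : ℕ) * a4eta D fun i => (k i : ℕ)))
  have hp : p ∈ pvi D κ 1 ι (fun _ => n) := by
    intro j
    refine Submodule.sum_mem _ fun k _ => Submodule.sum_mem _ fun l _ => Submodule.smul_mem _ _ ?_
    have h2 := a4_mon_mem (D := D) (n - ∑ i, (k i : ℕ) - (l : ℕ)) (l : ℕ)
      (fun i => (k i : ℕ))
    have h3 := l.2
    have h4 := h1 k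
    have h5 : n - ∑ i, (k i : ℕ) - (l : ℕ) + (l : ℕ) + ∑ i, (k i : ℕ) = n := by omega
    rw [h5] at h2
    exact h2
  refine ⟨⟨p, hp⟩, ?_⟩
  funext w
  obtain ⟨j, k, l⟩ := w
  change (ν (p j) k).coeff
    (Finsupp.single 0 (n - ∑ i, (k i : ℕ) - (l : ℕ)) + Finsupp.single 1 (l : ℕ)) = c (j, ⟨k, l⟩)
  have h2 : ν (p j) k = ∑ k' : (∀ i, Fin (β.e i)), ∑ l' : Fin (n - ∑ i, (k' i : ℕ) + 1),
      if k = k' then AddMonoidAlgebra.single (Finsupp.single 0 (n - ∑ i, (k' i : ℕ) - (l' : ℕ)) +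
        Finsupp.single 1 (l' : ℕ)) (c (j, ⟨k', l'⟩)) else 0 := by
    simp only [p]
    rw [map_sum, Finset.sum_apply]
    refine Finset.sum_congr rfl fun k' _ => ?_
    rw [map_sum, Finset.sum_apply]
    refine Finset.sum_congr rfl fun l' _ => ?_
    rw [map_smul, Pi.smul_apply, a4_mon h]
    split_ifs
    · apply AddMonoidAlgebra.ext
      simp
    · simp
  rw [h2, Finset.sum_eq_single k]
  · simp only [if_true]
    rw [AddMonoidAlgebra.coeff_sum, Finsupp.finsetSum_apply, Finset.sum_eq_single l]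
    · rw [AddMonoidAlgebra.coeff_single, Finsupp.single_eq_same]
    · intro l' _ hl
      rw [AddMonoidAlgebra.coeff_single, Finsupp.single_apply, if_neg]
      intro hc
      apply hl
      have := DFunLike.congr_fun hc 1
      simp only [Finsupp.add_apply, Finsupp.single_apply] at this
      simp at this
      exact Fin.ext this
    · intro hl
      exact absurd (Finset.mem_univ l) hl
  · intro k' _ hk
    refine Finset.sum_eq_zero fun l' _ => if_neg fun hc => hk hc.symm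
  · intro hk
    exact absurd (Finset.mem_univ k) hk

end

theorem qdi_N0i (D : Type u) [DivisionRing D] [Algebra K D] (β : Blk K κ) (ι : Type)
    [Finite ι] : ∃ n0 : ℕ, ∀ n, n0 ≤ n →
      (qdi (N0i D (fun _ : Fin 1 => β) ι) (fun _ => n) : ℤ) = Nat.card ι * hO β.e n := by
  cases nonempty_fintype ι
  obtain ⟨ν, hν⟩ := a4_exists D β
  refine ⟨∑ i, β.e i, fun n hn => ?_⟩
  rw [← a4_card ι β n hn]
  refine congrArg (fun z : ℕ => (z : ℤ)) ?_
  have hfd : FiniteDimensional D (pvi D κ 1 ι fun _ => n) := finite_pvi _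
  have h1 := LinearMap.finrank_range_add_finrank_ker (a4Phi ν ι n)
  rw [a4_range hν ι n hn, finrank_top, Module.finrank_fintype_fun_eq_card] at h1
  have h2 : finrank D (LinearMap.ker (a4Phi ν ι n)) =
      finrank D (pvi D κ 1 ι (fun _ => n) ⊓
        (N0i D (fun _ : Fin 1 => β) ι).restrictScalars D : Submodule D _) := by
    have h3 : Submodule.map (pvi D κ 1 ι (fun _ => n)).subtype (LinearMap.ker (a4Phi ν ι n)) =
        pvi D κ 1 ι (fun _ => n) ⊓ (N0i D (fun _ : Fin 1 => β) ι).restrictScalars D := by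
      ext v
      simp only [Submodule.mem_map, LinearMap.mem_ker, Submodule.mem_inf,
        Submodule.restrictScalars_mem, Submodule.subtype_apply]
      constructor
      · rintro ⟨w, hw, rfl⟩
        exact ⟨w.2, (a4_ker hν ι n w).1 hw⟩
      · rintro ⟨h4, h5⟩
        exact ⟨⟨v, h4⟩, (a4_ker hν ι n ⟨v, h4⟩).2 h5, rfl⟩
    rw [← h3, Submodule.finrank_map_subtype_eq]
  rw [qdi, ← h2]
  omega

end Vale.Agent.P200F.V

end

section

namespace Vale.Agent.P200F.V

open Module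

universe u

variable {K : Type u} [Field K] {D : Type u} [DivisionRing D] [Algebra K D] {κ : ℕ}
  {ι ι' : Type} {β : Blk K κ}

theorem dl_pos (β : Blk K κ) : 0 < dl β.e := by
  unfold dl
  apply Finset.prod_pos
  intro i _
  exact_mod_cast β.e_pos i

theorem hO_succ (β : Blk K κ) (n : ℤ) : hO β.e (n + 1) = hO β.e n + dl β.e := by
  unfold hO
  ring

/-- `A`, `B` are determined by the values of `A h_O + B dl` in large degrees -/
theorem a5_ab_unique {A B A' B' : ℤ} {m0 : ℕ}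
    (h : ∀ m : ℕ, m0 ≤ m → A * hO β.e m + B * dl β.e = A' * hO β.e m + B' * dl β.e) :
    A = A' ∧ B = B' := by
  have hd := dl_pos β
  have h1 := h m0 le_rfl
  have h2 := h (m0 + 1) (Nat.le_succ _)
  push_cast at h2
  rw [hO_succ] at h2
  have h3 : (A - A') * dl β.e = 0 := by linear_combination h2 - h1
  have hA : A = A' := by
    rcases mul_eq_zero.1 h3 with h4 | h4
    · linarith
    · exact absurd h4 hd.ne'
  subst hA
  refine ⟨rfl, ?_⟩
  have h5 : (B - B') * dl β.e = 0 := by linear_combination h1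
  rcases mul_eq_zero.1 h5 with h4 | h4
  · linarith
  · exact absurd h4 hd.ne'

theorem isRho_unique {N : Submodule (PA D κ 1) (ι → PA D κ 1)} {r r' : ℤ}
    (h : IsRho β N r) (h' : IsRho β N r') : r = r' := by
  obtain ⟨A, B, rfl, m0, h0⟩ := h
  obtain ⟨A', B', rfl, m1, h1⟩ := h'
  have h2 : A = A' ∧ B = B' := by
    apply a5_ab_unique (β := β) (m0 := max m0 m1)
    intro m hm
    rw [← h0 m (le_trans (le_max_left _ _) hm), ← h1 m (le_trans (le_max_right _ _) hm)]
  rw [h2.1, h2.2]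

/-- additivity of `rho` from additivity of the dimensions -/
theorem a5_rho_add {ι1 ι2 ι3 ι4 : Type} {N1 : Submodule (PA D κ 1) (ι1 → PA D κ 1)}
    {N2 : Submodule (PA D κ 1) (ι2 → PA D κ 1)}
    {N3 : Submodule (PA D κ 1) (ι3 → PA D κ 1)}
    {N4 : Submodule (PA D κ 1) (ι4 → PA D κ 1)} {a b c d : ℤ}
    (h1 : IsRho β N1 a) (h2 : IsRho β N2 b) (h3 : IsRho β N3 c) (h4 : IsRho β N4 d)
    (h : ∀ m : ℕ, qdi N1 (fun _ : Fin 1 => m) + qdi N2 (fun _ : Fin 1 => m) =
      qdi N3 (fun _ : Fin 1 => m) + qdi N4 (fun _ : Fin 1 => m)) : a + b = c + d := by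
  obtain ⟨A1, B1, rfl, m1, h1⟩ := h1
  obtain ⟨A2, B2, rfl, m2, h2⟩ := h2
  obtain ⟨A3, B3, rfl, m3, h3⟩ := h3
  obtain ⟨A4, B4, rfl, m4, h4⟩ := h4
  have h5 : A1 + A2 = A3 + A4 ∧ B1 + B2 = B3 + B4 := by
    apply a5_ab_unique (β := β) (m0 := max (max m1 m2) (max m3 m4))
    intro m hm
    have e1 : (qdi N1 (fun _ : Fin 1 => m) : ℤ) = _ := h1 m (by omega)
    have e2 : (qdi N2 (fun _ : Fin 1 => m) : ℤ) = _ := h2 m (by omega)
    have e3 : (qdi N3 (fun _ : Fin 1 => m) : ℤ) = _ := h3 m (by omega)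
    have e4 : (qdi N4 (fun _ : Fin 1 => m) : ℤ) = _ := h4 m (by omega)
    have e6 : (qdi N1 (fun _ : Fin 1 => m) : ℤ) + qdi N2 (fun _ : Fin 1 => m) =
        qdi N3 (fun _ : Fin 1 => m) + qdi N4 (fun _ : Fin 1 => m) := by exact_mod_cast h m
    rw [e1, e2, e3, e4] at e6
    linear_combination e6
  obtain ⟨h6, h7⟩ := h5
  linear_combination h6 - h7

omit [Algebra K D] in
theorem a5_isRho_top (β : Blk K κ) (ι : Type) :
    IsRho β (⊤ : Submodule (PA D κ 1) (ι → PA D κ 1)) 0 := by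
  refine ⟨0, 0, by norm_num, 0, fun m _ => ?_⟩
  rw [qdi_top]
  simp

/-- `h_O` is affine -/
theorem a8_hO_add (β : Blk K κ) (n : ℤ) (k : ℕ) : hO β.e (n + k) = hO β.e n + k * dl β.e := by
  unfold hO
  ring

/-- `h_O` is large in large degrees -/
theorem a8_hO_large (β : Blk K κ) (c : ℤ) : ∃ m0 : ℕ, ∀ m : ℕ, m0 ≤ m → c ≤ hO β.e m := by
  have hd := dl_pos β
  refine ⟨(c - hO β.e 0).toNat, fun m hm => ?_⟩
  have h1 := a8_hO_add β 0 m
  rw [zero_add] at h1
  have h2 : c - hO β.e 0 ≤ m := by omega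
  nlinarith

/-- existence of `A`, `B`; `A` is nonnegative -/
theorem a8_exists_ab [Finite ι] (hI : IntP D (fun _ : Fin 1 => β))
    {N : Submodule (PA D κ 1) (ι → PA D κ 1)} (hN : IsGi (fun _ : Fin 1 => β) N) :
    ∃ A B : ℤ, 0 ≤ A ∧ (A = 0 → 0 ≤ B) ∧ ∃ m0 : ℕ, ∀ m, m0 ≤ m →
      (qdi N (fun _ => m) : ℤ) = A * hO β.e m + B * dl β.e := by
  obtain ⟨f, hf, n0, h⟩ := hI.gen hN
  rw [lam_succ] at hf
  obtain ⟨A, B, _, _, hAB⟩ := hf
  have h0 : ∀ m, n0 ≤ m →
      (qdi N (fun _ => m) : ℤ) = A default * hO β.e m + B default * dl β.e := by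
    intro m hm
    rw [h (fun _ => m) (fun _ => hm), hAB]
    congr 3 <;> exact Subsingleton.elim _ _
  have hd := dl_pos β
  refine ⟨A default, B default, ?_, ?_, n0, h0⟩
  · by_contra hA
    obtain ⟨m1, h1⟩ := a8_hO_large β (B default * dl β.e + 1)
    have h2 := h0 (max n0 m1) (le_max_left _ _)
    have h3 := h1 (max n0 m1) (le_max_right _ _)
    obtain ⟨m2, h4⟩ := a8_hO_large β (max 1 (B default * dl β.e + 1))
    have h5 := h0 (max n0 m2) (le_max_left _ _)
    have h6 := h4 (max n0 m2) (le_max_right _ _)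
    have h7 : (0 : ℤ) ≤ qdi N (fun _ => max n0 m2) := Int.natCast_nonneg _
    have h8 := le_trans (le_max_left _ _) h6
    have h9 := le_trans (le_max_right _ _) h6
    nlinarith
  · intro hA
    have h2 := h0 n0 le_rfl
    rw [hA, zero_mul, zero_add] at h2
    have h7 : (0 : ℤ) ≤ qdi N (fun _ => n0) := Int.natCast_nonneg _
    rw [h2] at h7
    by_contra hB
    linarith only [mul_pos (sub_pos.2 hd) (sub_pos.2 (not_le.1 hB)), hB, h7, hd]

/-- the inclusion of some coordinates -/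
noncomputable def a8_inc (D : Type u) [DivisionRing D] (κ : ℕ) {ι ι' : Type} (f : ι' → Option ι) :
    (ι → PA D κ 1) →ₗ[PA D κ 1] (ι' → PA D κ 1) where
  toFun u j := (f j).elim 0 u
  map_add' u v := by
    funext j
    rw [Pi.add_apply]
    cases f j with
    | none => exact (add_zero _).symm
    | some i => rfl
  map_smul' k u := by
    funext j
    rw [Pi.smul_apply, RingHom.id_apply]
    cases f j with
    | none => exact (smul_zero _).symm
    | some i => rfl

theorem a8_inc_apply (f : ι' → Option ι) (u : ι → PA D κ 1) (j : ι') :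
    a8_inc D κ f u j = (f j).elim 0 u := rfl

theorem a8_inc_isHomg (f : ι' → Option ι) : IsHomg 0 (a8_inc D κ f) := by
  intro n u
  funext j
  change cp D κ 1 (n + 0) ((f j).elim 0 u) = (f j).elim 0 (cvi D κ 1 ι n u)
  rw [add_zero]
  cases f j with
  | none => exact map_zero _
  | some i => rfl

/-- the dimensions of an object, its intersection with some coordinates and its projection to
the others -/
theorem a8_split {I I1 I2 : Type} [Finite I] [Finite I1] [Finite I2] (f : I → Option I1)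
    (g : I → Option I2)
    (htop : LinearMap.range (a8_inc D κ f) ⊔ LinearMap.range (a8_inc D κ g) = ⊤)
    {N : Submodule (PA D κ 1) (I → PA D κ 1)} (hN : IsGi (fun _ : Fin 1 => β) N) (m : ℕ) :
    qdi (N.comap (a8_inc D κ f)) (fun _ : Fin 1 => m) +
      qdi ((N ⊔ LinearMap.range (a8_inc D κ f)).comap (a8_inc D κ g)) (fun _ : Fin 1 => m) =
      qdi N (fun _ : Fin 1 => m) := by
  have hN2 : IsGi (fun _ : Fin 1 => β) (N ⊔ LinearMap.range (a8_inc D κ f)) :=
    hN.sup_range (a8_inc_isHomg f)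
  have h1 := qdi_comap (a8_inc_isHomg f) hN.hom (fun _ : Fin 1 => m)
  have h2 := qdi_comap (a8_inc_isHomg g) hN2.hom (fun _ : Fin 1 => m)
  rw [sup_assoc, htop, sup_top_eq, qdi_top, add_zero, add_zero] at h2
  rw [add_zero] at h1
  rw [h2, h1]

theorem a8_smul (a : D) (v : PA D κ 1) :
    a • v = (AddMonoidAlgebra.single 0 a : PA D κ 1) * v := by
  induction v using AddMonoidAlgebra.induction_linear with
  | zero => rw [smul_zero, mul_zero]
  | add v w hv hw => rw [smul_add, mul_add, hv, hw]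
  | single m d =>
    rw [AddMonoidAlgebra.smul_single, AddMonoidAlgebra.single_mul_single, zero_add, smul_eq_mul]

/-- the case of one coordinate -/
theorem a8_exists_AB_one (hI : IntP D (fun _ : Fin 1 => β))
    {N : Submodule (PA D κ 1) (Fin 1 → PA D κ 1)} (hN : IsGi (fun _ : Fin 1 => β) N) :
    ∃ A B : ℤ, 0 ≤ A ∧ A ≤ 1 ∧ 0 ≤ B ∧ ∃ m0 : ℕ, ∀ m, m0 ≤ m →
      (qdi N (fun _ => m) : ℤ) = A * hO β.e m + B * dl β.e := by
  obtain ⟨n0, h0⟩ := qdi_N0i D β (Fin 1)
  rw [Nat.card_eq_fintype_card, Fintype.card_fin] at h0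
  by_cases hNN : N ≤ N0i D (fun _ : Fin 1 => β) (Fin 1)
  · have h1 : N = N0i D (fun _ : Fin 1 => β) (Fin 1) := le_antisymm hNN (N0i_le hN)
    refine ⟨1, 0, zero_le_one, le_rfl, le_rfl, n0, fun m hm => ?_⟩
    rw [h1, h0 m hm]
    ring
  · obtain ⟨w, hw, hw0⟩ := Set.not_subset.1 hNN
    have h1 : ∃ n, cvi D κ 1 (Fin 1) n w ∉ N0i D (fun _ : Fin 1 => β) (Fin 1) := by
      by_contra h
      push Not at h
      exact hw0 (a1_mem_of_cvi h)
    obtain ⟨n, hn⟩ := h1
    set u : PA D κ 1 := cp D κ 1 n (w 0) with hu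
    have h2 : cvi D κ 1 (Fin 1) n w = fun _ => u := by
      funext j
      rw [Subsingleton.elim j 0]
      rfl
    have hu0 : (fun _ => u) ∉ N0i D (fun _ : Fin 1 => β) (Fin 1) := by
      rw [← h2]
      exact hn
    have huN : (fun _ => u) ∈ N := by
      rw [← h2]
      exact hN.hom w hw n
    have hun : u ∈ pp D κ 1 n := a1_cp_mem n (w 0)
    obtain ⟨A, B, hA, hAB, m0, h3⟩ := a8_exists_ab hI hN
    have hd := dl_pos β
    -- the dimension estimate
    have key : ∀ k : ℕ, qdi N (fun _ : Fin 1 => n 0 + k) + (k + 1) ≤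
        qdi (N0i D (fun _ : Fin 1 => β) (Fin 1)) (fun _ : Fin 1 => n 0 + k) := by
      intro k
      have hfin := finite_pvi (D := D) (κ := κ) (ι := Fin 1) (fun _ : Fin 1 => n 0 + k)
      let L : (Fin (k + 1) → D) →ₗ[D] (Fin 1 → PA D κ 1) :=
        { toFun := fun a _ => ∑ i : Fin (k + 1), a i •
            (va D κ 1 (0, 0) ^ (k - i : ℕ) * va D κ 1 (0, 1) ^ (i : ℕ) * u)
          map_add' := fun a b => by
            funext j
            simp only [Pi.add_apply, add_smul, Finset.sum_add_distrib]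
          map_smul' := fun c a => by
            funext j
            simp only [Pi.smul_apply, RingHom.id_apply, Finset.smul_sum, smul_eq_mul, mul_smul] }
      have hL0 : ∀ a, L a ∈ N0i D (fun _ : Fin 1 => β) (Fin 1) → a = 0 := fun a ha =>
        free_xy β hu0 k a ha
      have hinj : Function.Injective L := by
        intro a b hab
        have h4 : L (a - b) = 0 := by rw [map_sub, hab, sub_self]
        exact sub_eq_zero.1 (hL0 _ (h4 ▸ Submodule.zero_mem _))
      have hmon : ∀ i : Fin (k + 1),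
          va D κ 1 (0, 0) ^ (k - i : ℕ) * va D κ 1 (0, 1) ^ (i : ℕ) * u ∈
            pp D κ 1 (fun _ : Fin 1 => n 0 + k) := by
        intro i
        have h5 := a1_single_mem (D := D) (Finsupp.single ((0 : Fin 1), (0 : Fin (κ + 2)))
          (k - i : ℕ) + Finsupp.single ((0 : Fin 1), (1 : Fin (κ + 2))) (i : ℕ)) 1
        have h6 : mdeg (Finsupp.single ((0 : Fin 1), (0 : Fin (κ + 2)))
          (k - i : ℕ) + Finsupp.single ((0 : Fin 1), (1 : Fin (κ + 2))) (i : ℕ)) =
            fun _ : Fin 1 => k := by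
          funext g
          rw [a4_mdeg_add, a4_mdeg_single, a4_mdeg_single]
          have := i.isLt
          omega
        rw [h6] at h5
        have h7 := a1_mul_mem h5 hun
        have h8 : ((fun _ : Fin 1 => k) + n) = fun _ : Fin 1 => n 0 + k := by
          funext g
          rw [Pi.add_apply, Subsingleton.elim g 0, add_comm]
        rw [h8] at h7
        rw [va, va, AddMonoidAlgebra.single_pow, AddMonoidAlgebra.single_pow,
          AddMonoidAlgebra.single_mul_single, one_pow, one_pow, mul_one, Finsupp.smul_single,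
          Finsupp.smul_single, smul_eq_mul, smul_eq_mul, mul_one, mul_one]
        exact h7
      have hLp : ∀ a, L a ∈ pvi D κ 1 (Fin 1) (fun _ : Fin 1 => n 0 + k) := fun a j =>
        Submodule.sum_mem _ fun i _ => Submodule.smul_mem _ _ (hmon i)
      have hLN : ∀ a, L a ∈ N := by
        intro a
        have h9 : L a = ∑ i : Fin (k + 1), (AddMonoidAlgebra.single 0 (a i) *
            (va D κ 1 (0, 0) ^ (k - i : ℕ) * va D κ 1 (0, 1) ^ (i : ℕ))) •
              (fun _ => u : Fin 1 → PA D κ 1) := by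
          funext j
          rw [Finset.sum_apply]
          change (∑ i : Fin (k + 1), a i •
            (va D κ 1 (0, 0) ^ (k - i : ℕ) * va D κ 1 (0, 1) ^ (i : ℕ) * u)) =
              ∑ i : Fin (k + 1), (AddMonoidAlgebra.single 0 (a i) *
            (va D κ 1 (0, 0) ^ (k - i : ℕ) * va D κ 1 (0, 1) ^ (i : ℕ))) * u
          refine Finset.sum_congr rfl fun i _ => ?_
          rw [a8_smul, mul_assoc (AddMonoidAlgebra.single 0 (a i))]
        rw [h9]
        exact N.sum_mem fun i _ => N.smul_mem _ huN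
      have hr : finrank D (LinearMap.range L) = k + 1 := by
        rw [LinearMap.finrank_range_of_inj hinj, Module.finrank_fin_fun]
      have hinf : (pvi D κ 1 (Fin 1) (fun _ : Fin 1 => n 0 + k) ⊓
          (N0i D (fun _ : Fin 1 => β) (Fin 1)).restrictScalars D : Submodule D _) ⊓
            LinearMap.range L = ⊥ := by
        rw [eq_bot_iff]
        rintro v ⟨⟨_, hv⟩, ⟨a, rfl⟩⟩
        rw [hL0 a hv, map_zero]
        exact Submodule.zero_mem _
      have hfin0 : FiniteDimensional D (pvi D κ 1 (Fin 1) (fun _ : Fin 1 => n 0 + k) ⊓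
          (N0i D (fun _ : Fin 1 => β) (Fin 1)).restrictScalars D : Submodule D _) :=
        Submodule.finiteDimensional_of_le inf_le_left
      have hfin1 : FiniteDimensional D (pvi D κ 1 (Fin 1) (fun _ : Fin 1 => n 0 + k) ⊓
          N.restrictScalars D : Submodule D _) :=
        Submodule.finiteDimensional_of_le inf_le_left
      have hdim := Submodule.finrank_sup_add_finrank_inf_eq
        (pvi D κ 1 (Fin 1) (fun _ : Fin 1 => n 0 + k) ⊓
          (N0i D (fun _ : Fin 1 => β) (Fin 1)).restrictScalars D : Submodule D _)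
        (LinearMap.range L)
      rw [hinf, finrank_bot, hr] at hdim
      have hle : (pvi D κ 1 (Fin 1) (fun _ : Fin 1 => n 0 + k) ⊓
          (N0i D (fun _ : Fin 1 => β) (Fin 1)).restrictScalars D : Submodule D _) ⊔
            LinearMap.range L ≤ (pvi D κ 1 (Fin 1) (fun _ : Fin 1 => n 0 + k) ⊓
          N.restrictScalars D : Submodule D _) := by
        apply sup_le
        · exact inf_le_inf_left _ (N0i_le hN)
        · rintro v ⟨a, rfl⟩
          exact ⟨hLp a, hLN a⟩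
      have hle2 := Submodule.finrank_mono hle
      have hle3 : finrank D (pvi D κ 1 (Fin 1) (fun _ : Fin 1 => n 0 + k) ⊓
          N.restrictScalars D : Submodule D _) ≤
            finrank D (pvi D κ 1 (Fin 1) (fun _ : Fin 1 => n 0 + k)) :=
        Submodule.finrank_mono inf_le_left
      unfold qdi
      omega
    have hA0 : A = 0 := by
      by_contra hA0
      have hA1 : 1 ≤ A := by omega
      obtain ⟨m1, h4⟩ := a8_hO_large β 0
      set M : ℕ := n 0 + (max (max n0 m0) m1 + (-(B * dl β.e)).toNat) with hM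
      have h5 := key (max (max n0 m0) m1 + (-(B * dl β.e)).toNat)
      rw [← hM] at h5
      have h6 := h3 M (by omega)
      have h7 := h0 M (by omega)
      have h8 := h4 M (by omega)
      have h9 : (qdi N (fun _ : Fin 1 => M) : ℤ) +
          ((max (max n0 m0) m1 + (-(B * dl β.e)).toNat : ℕ) + 1) ≤
            qdi (N0i D (fun _ : Fin 1 => β) (Fin 1)) (fun _ : Fin 1 => M) := by
        exact_mod_cast h5
      rw [h6, h7] at h9
      have h10 : -(B * dl β.e) ≤ (max (max n0 m0) m1 + (-(B * dl β.e)).toNat : ℕ) := by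
        omega
      have h11 := mul_nonneg (sub_nonneg.2 hA1) h8
      rw [Nat.cast_one, one_mul] at h9
      linarith only [h11, h10, h9]
    exact ⟨A, B, hA, by omega, hAB hA0, m0, h3⟩

theorem exists_AB [Finite ι] (hI : IntP D (fun _ : Fin 1 => β))
    {N : Submodule (PA D κ 1) (ι → PA D κ 1)} (hN : IsGi (fun _ : Fin 1 => β) N) :
    ∃ A B : ℤ, 0 ≤ A ∧ A ≤ Nat.card ι ∧ 0 ≤ B ∧ ∃ m0 : ℕ, ∀ m, m0 ≤ m →
      (qdi N (fun _ => m) : ℤ) = A * hO β.e m + B * dl β.e := by
  induction ι using Finite.induction_empty_option with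
  | of_equiv e ih =>
    obtain ⟨A, B, h1, h2, h3, m0, h4⟩ := ih (isGi_funLeft e.symm hN)
    refine ⟨A, B, h1, ?_, h3, m0, fun m hm => ?_⟩
    · rwa [← Nat.card_congr e]
    · rw [← h4 m hm, qdi_funLeft]
  | h_empty =>
    refine ⟨0, 0, le_rfl, by simp, le_rfl, 0, fun m _ => ?_⟩
    have h : N = ⊤ := Subsingleton.elim _ _
    rw [h, qdi_top]
    simp
  | h_option ih =>
    rename_i I _
    have htop : LinearMap.range (a8_inc D κ (fun j : Option I => j.elim (some (0 : Fin 1))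
        fun _ => none)) ⊔ LinearMap.range (a8_inc D κ (fun j : Option I => j)) = ⊤ := by
      rw [eq_top_iff]
      intro u _
      rw [Submodule.mem_sup]
      refine ⟨_, ⟨fun _ => u none, rfl⟩, _, ⟨fun i => u (some i), rfl⟩, ?_⟩
      funext j
      rw [Pi.add_apply, a8_inc_apply, a8_inc_apply]
      cases j with
      | none => exact add_zero _
      | some i => exact zero_add _
    have hs := a8_split (β := β) _ _ htop hN
    obtain ⟨A1, B1, h1, h2, h3, m1, h4⟩ := a8_exists_AB_one hI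
      (hN.comap (a8_inc_isHomg (fun j : Option I => j.elim (some (0 : Fin 1)) fun _ => none)))
    obtain ⟨A2, B2, k1, k2, k3, m2, k4⟩ := ih
      ((hN.sup_range (a8_inc_isHomg (fun j : Option I => j.elim (some (0 : Fin 1))
        fun _ => none))).comap (a8_inc_isHomg (fun j : Option I => j)))
    refine ⟨A1 + A2, B1 + B2, add_nonneg h1 k1, ?_, add_nonneg h3 k3, max m1 m2,
      fun m hm => ?_⟩
    · rw [Finite.card_option]
      push_cast
      linarith only [k2, h2]
    · rw [← hs m]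
      push_cast
      rw [h4 m (le_trans (le_max_left _ _) hm), k4 m (le_trans (le_max_right _ _) hm)]
      ring

theorem exists_isRho [Finite ι] (hI : IntP D (fun _ : Fin 1 => β))
    {N : Submodule (PA D κ 1) (ι → PA D κ 1)} (hN : IsGi (fun _ : Fin 1 => β) N) :
    ∃ r, IsRho β N r ∧ r ≤ Nat.card ι := by
  obtain ⟨A, B, _, hA, hB, m0, h⟩ := exists_AB hI hN
  exact ⟨A - B, ⟨A, B, rfl, m0, h⟩, by linarith⟩

theorem isRho_mod [Finite ι] {N N' : Submodule (PA D κ 1) (ι → PA D κ 1)}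
    (hN : IsGi (fun _ : Fin 1 => β) N) (hN' : IsGi (fun _ : Fin 1 => β) N') {a b c d : ℤ}
    (h1 : IsRho β (N ⊓ N') a) (h2 : IsRho β (N ⊔ N') b) (h3 : IsRho β N c)
    (h4 : IsRho β N' d) : a + b = c + d :=
  a5_rho_add h1 h2 h3 h4 fun _ => qdi_mod hN.hom hN'.hom _

theorem isRho_comap [Finite ι] [Finite ι'] {φ : (ι → PA D κ 1) →ₗ[PA D κ 1] (ι' → PA D κ 1)}
    (hφ : IsHomg 0 φ) {N' : Submodule (PA D κ 1) (ι' → PA D κ 1)}
    (hN' : IsGi (fun _ : Fin 1 => β) N') {a b c : ℤ}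
    (h1 : IsRho β (N'.comap φ) a) (h2 : IsRho β (N' ⊔ LinearMap.range φ) b)
    (h3 : IsRho β N' c) : a + b = c := by
  have h := a5_rho_add h1 h2 h3 (a5_isRho_top (D := D) β (Fin 0)) fun m => by
    have h0 := qdi_comap hφ hN'.hom (fun _ => m)
    rw [add_zero] at h0
    rw [h0, qdi_top, add_zero]
  rw [add_zero] at h
  exact h

theorem exists_isRk [Finite ι] (hI : IntP D (fun _ : Fin 1 => β))
    {N : Submodule (PA D κ 1) (ι → PA D κ 1)} (hN : IsGi (fun _ : Fin 1 => β) N) :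
    ∃ k, IsRk β N k := by
  have hN' := hN
  let S : Set ℕ := {r | ∃ N', N ≤ N' ∧ IsGi (fun _ : Fin 1 => β) N' ∧ IsRho β N' (r : ℤ)}
  have h0 : (0 : ℕ) ∈ S := ⟨⊤, le_top, isGi_top _, by
    rw [Nat.cast_zero]
    exact a5_isRho_top β ι⟩
  have hb : ∀ (r : ℤ) (N' : Submodule (PA D κ 1) (ι → PA D κ 1)),
      IsGi (fun _ : Fin 1 => β) N' → IsRho β N' r →
      r ≤ Nat.card ι := by
    intro r N' hG hr
    obtain ⟨r', hr', hle⟩ := exists_isRho hI (ι := ι) hG
    rw [isRho_unique hr hr']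
    exact hle
  have hbdd : BddAbove S := ⟨Nat.card ι, fun r hr => by
    obtain ⟨N', _, hG, hr⟩ := hr
    have := hb r N' hG hr
    exact_mod_cast this⟩
  have hmem : sSup S ∈ S := Nat.sSup_mem ⟨0, h0⟩ hbdd
  refine ⟨sSup S, hmem, fun N' hle hG r hr => ?_⟩
  by_cases hr0 : r ≤ 0
  · exact hr0.trans (Int.natCast_nonneg _)
  · have h1 : ((r.toNat : ℕ) : ℤ) = r := Int.toNat_of_nonneg (by omega)
    have h2 : r.toNat ∈ S := ⟨N', hle, hG, by rw [h1]; exact hr⟩
    have h3 : r.toNat ≤ sSup S := le_csSup hbdd h2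
    rw [← h1]
    exact_mod_cast h3

theorem isRk_unique {N : Submodule (PA D κ 1) (ι → PA D κ 1)} {k k' : ℕ}
    (h : IsRk β N k) (h' : IsRk β N k') : k = k' := by
  obtain ⟨N1, a1, a2, a3⟩ := h.1
  obtain ⟨N2, b1, b2, b3⟩ := h'.1
  have h1 := h'.2 N1 a1 a2 _ a3
  have h2 := h.2 N2 b1 b2 _ b3
  omega

theorem isRk_comap_le [Finite ι] [Finite ι'] (hI : IntP D (fun _ : Fin 1 => β))
    {φ : (ι → PA D κ 1) →ₗ[PA D κ 1] (ι' → PA D κ 1)} (hφ : IsHomg 0 φ)
    {N : Submodule (PA D κ 1) (ι → PA D κ 1)} {N' : Submodule (PA D κ 1) (ι' → PA D κ 1)}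
    (hle : N ≤ N'.comap φ) {k k' k'' : ℕ} (h : IsRk β N k) (h' : IsRk β N' k')
    (h'' : IsRk β (N' ⊔ LinearMap.range φ) k'') : k' ≤ k + k'' := by
  obtain ⟨N2, b1, b2, b3⟩ := h'.1
  have hc : IsGi (fun _ : Fin 1 => β) (N2.comap φ) := IsGi.comap hφ b2
  have hs : IsGi (fun _ : Fin 1 => β) (N2 ⊔ LinearMap.range φ) := IsGi.sup_range hφ b2
  obtain ⟨a, ha, -⟩ := exists_isRho hI hc
  obtain ⟨b, hb, -⟩ := exists_isRho hI hs
  have h1 := isRho_comap hφ b2 ha hb b3
  have h2 := h.2 _ (hle.trans (Submodule.comap_mono b1)) hc a ha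
  have h3 := h''.2 _ (sup_le_sup_right b1 _) hs b hb
  omega

/-- the inclusion of the first summand -/
noncomputable def a5_inl (D : Type u) [DivisionRing D] (κ : ℕ) (ι ι' : Type) :
    (ι → PA D κ 1) →ₗ[PA D κ 1] (ι ⊕ ι' → PA D κ 1) where
  toFun u := Sum.elim u 0
  map_add' u v := by
    funext i
    cases i with
    | inl i => rfl
    | inr i => exact (add_zero _).symm
  map_smul' c u := by
    funext i
    cases i with
    | inl i => rfl
    | inr i => exact (smul_zero (A := PA D κ 1) c).symm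

/-- the inclusion of the second summand -/
noncomputable def a5_inr (D : Type u) [DivisionRing D] (κ : ℕ) (ι ι' : Type) :
    (ι' → PA D κ 1) →ₗ[PA D κ 1] (ι ⊕ ι' → PA D κ 1) where
  toFun u := Sum.elim 0 u
  map_add' u v := by
    funext i
    cases i with
    | inl i => exact (add_zero _).symm
    | inr i => rfl
  map_smul' c u := by
    funext i
    cases i with
    | inl i => exact (smul_zero (A := PA D κ 1) c).symm
    | inr i => rfl

theorem a5_inl_homg : IsHomg 0 (a5_inl D κ ι ι') := by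
  intro n u
  funext i
  rw [add_zero]
  cases i with
  | inl i => rfl
  | inr i => exact map_zero (cp D κ 1 n)

theorem a5_inr_homg : IsHomg 0 (a5_inr D κ ι ι') := by
  intro n u
  funext i
  rw [add_zero]
  cases i with
  | inl i => exact map_zero (cp D κ 1 n)
  | inr i => rfl

theorem a5_inl_mem {N : Submodule (PA D κ 1) (ι → PA D κ 1)}
    (N' : Submodule (PA D κ 1) (ι' → PA D κ 1)) {u : ι → PA D κ 1} (hu : u ∈ N) :
    a5_inl D κ ι ι' u ∈ dsum N N' := by
  have h1 : (fun i => a5_inl D κ ι ι' u (Sum.inl i)) = u := rfl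
  have h2 : (fun i => a5_inl D κ ι ι' u (Sum.inr i)) = 0 := rfl
  refine ⟨?_, ?_⟩
  · rw [h1]
    exact hu
  · rw [h2]
    exact N'.zero_mem

theorem a5_inr_mem (N : Submodule (PA D κ 1) (ι → PA D κ 1))
    {N' : Submodule (PA D κ 1) (ι' → PA D κ 1)} {u : ι' → PA D κ 1} (hu : u ∈ N') :
    a5_inr D κ ι ι' u ∈ dsum N N' := by
  have h1 : (fun i => a5_inr D κ ι ι' u (Sum.inl i)) = 0 := rfl
  have h2 : (fun i => a5_inr D κ ι ι' u (Sum.inr i)) = u := rfl
  refine ⟨?_, ?_⟩
  · rw [h1]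
    exact N.zero_mem
  · rw [h2]
    exact hu

theorem isRk_dsum [Finite ι] [Finite ι'] (hI : IntP D (fun _ : Fin 1 => β))
    {N : Submodule (PA D κ 1) (ι → PA D κ 1)} {N' : Submodule (PA D κ 1) (ι' → PA D κ 1)}
    (hN : IsGi (fun _ : Fin 1 => β) N) (hN' : IsGi (fun _ : Fin 1 => β) N')
    {k k' : ℕ} (h : IsRk β N k) (h' : IsRk β N' k') : IsRk β (dsum N N') (k + k') := by
  have hN1 := hN
  have hN2 := hN'
  constructor
  · obtain ⟨M, a1, a2, A, B, a3, m0, a4⟩ := h.1
    obtain ⟨M', b1, b2, A', B', b3, m0', b4⟩ := h'.1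
    refine ⟨dsum M M', fun u hu => ⟨a1 hu.1, b1 hu.2⟩, IsGi.dsum a2 b2, A + A', B + B', ?_,
      max m0 m0', fun m hm => ?_⟩
    · push_cast
      omega
    · rw [qdi_dsum]
      push_cast
      rw [a4 m ((le_max_left _ _).trans hm), b4 m ((le_max_right _ _).trans hm)]
      ring
  · intro M hle hM r hr
    have hs1 : IsGi (fun _ : Fin 1 => β) (M ⊔ LinearMap.range (a5_inl D κ ι ι')) :=
      IsGi.sup_range a5_inl_homg hM
    have hc1 : IsGi (fun _ : Fin 1 => β) (M.comap (a5_inl D κ ι ι')) :=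
      IsGi.comap a5_inl_homg hM
    have hc2 : IsGi (fun _ : Fin 1 => β)
        ((M ⊔ LinearMap.range (a5_inl D κ ι ι')).comap (a5_inr D κ ι ι')) :=
      IsGi.comap a5_inr_homg hs1
    obtain ⟨a, ha, -⟩ := exists_isRho hI hc1
    obtain ⟨b, hb, -⟩ := exists_isRho hI hs1
    obtain ⟨c, hc, -⟩ := exists_isRho hI hc2
    have htop : (M ⊔ LinearMap.range (a5_inl D κ ι ι')) ⊔ LinearMap.range (a5_inr D κ ι ι') =
        ⊤ := by
      rw [eq_top_iff]
      intro u _
      have hu : u = a5_inl D κ ι ι' (fun i => u (Sum.inl i)) +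
          a5_inr D κ ι ι' (fun i => u (Sum.inr i)) := by
        funext i
        cases i with
        | inl i => exact (add_zero _).symm
        | inr i => exact (zero_add _).symm
      rw [hu]
      refine Submodule.add_mem _ ?_ ?_
      · exact Submodule.mem_sup_left (Submodule.mem_sup_right ⟨_, rfl⟩)
      · exact Submodule.mem_sup_right ⟨_, rfl⟩
    have h0 : IsRho β ((M ⊔ LinearMap.range (a5_inl D κ ι ι')) ⊔
        LinearMap.range (a5_inr D κ ι ι')) 0 := by
      rw [htop]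
      exact a5_isRho_top β _
    have h1 := isRho_comap a5_inl_homg hM ha hb hr
    have h2 := isRho_comap a5_inr_homg hs1 hc h0 hb
    have hle1 : N ≤ M.comap (a5_inl D κ ι ι') := by
      intro u hu
      rw [Submodule.mem_comap]
      exact hle (a5_inl_mem N' hu)
    have hle2 : N' ≤ (M ⊔ LinearMap.range (a5_inl D κ ι ι')).comap (a5_inr D κ ι ι') := by
      intro u hu
      rw [Submodule.mem_comap]
      exact Submodule.mem_sup_left (hle (a5_inr_mem N hu))
    have h3 := h.2 _ hle1 hc1 a ha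
    have h4 := h'.2 _ hle2 hc2 c hc
    push_cast
    omega

theorem isRk_N0i (hI : IntP D (fun _ : Fin 1 => β)) (ι : Type) [Finite ι] :
    IsRk β (N0i D (fun _ : Fin 1 => β) ι) (Nat.card ι) := by
  refine ⟨⟨_, le_rfl, isGi_N0i _, ?_⟩, fun N' _ hG r hr => ?_⟩
  · obtain ⟨n0, h⟩ := qdi_N0i D β ι
    refine ⟨Nat.card ι, 0, by ring, n0, fun m hm => ?_⟩
    rw [h m hm]
    ring
  · obtain ⟨r', hr', hle⟩ := exists_isRho hI hG
    rw [isRho_unique hr hr']
    exact hle

theorem isRk_top (β : Blk K κ) (ι : Type) :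
    IsRk β (⊤ : Submodule (PA D κ 1) (ι → PA D κ 1)) 0 := by
  refine ⟨⟨⊤, le_rfl, isGi_top _, by rw [Nat.cast_zero]; exact a5_isRho_top β ι⟩,
    fun N' hle _ r hr => ?_⟩
  rw [top_le_iff.mp hle] at hr
  rw [isRho_unique hr (a5_isRho_top β ι)]
  rfl

end Vale.Agent.P200F.V

end

section

namespace Vale.Agent.P200F.V

open Module

universe u

variable {K : Type u} [Field K] {D : Type u} [DivisionRing D] [Algebra K D] {κ : ℕ}
  {ι ι' : Type} {β : Blk K κ}

theorem exists_isCl [Finite ι] (hI : IntP D (fun _ : Fin 1 => β))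
    {N : Submodule (PA D κ 1) (ι → PA D κ 1)} (hN : IsGi (fun _ : Fin 1 => β) N) :
    ∃ N', IsCl β N N' := by
  obtain ⟨k, hk⟩ := exists_isRk hI hN
  have hnr : IsNoetherianRing (PA D κ 1) := U.isNoetherianRing_pa
  have hnm : IsNoetherian (PA D κ 1) (ι → PA D κ 1) := isNoetherian_pi
  have hwf : WellFounded ((· > ·) :
      Submodule (PA D κ 1) (ι → PA D κ 1) → Submodule (PA D κ 1) (ι → PA D κ 1) → Prop) :=
    (isNoetherian_iff'.1 hnm).wf
  obtain ⟨N', ⟨h1, h2, h3⟩, hmax⟩ := hwf.has_min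
    {N' | N ≤ N' ∧ IsGi (fun _ : Fin 1 => β) N' ∧ IsRho β N' k} hk.1
  refine ⟨N', h1, h2, k, hk, h3, fun N'' g1 g2 g3 => ?_⟩
  obtain ⟨r, hr, -⟩ := exists_isRho hI (h2.sup g2)
  obtain ⟨a, ha, -⟩ := exists_isRho hI (h2.inf g2)
  have e1 := isRho_mod h2 g2 ha hr h3 g3
  have e2 : a ≤ k := hk.2 _ (le_inf h1 g1) (h2.inf g2) a ha
  have e3 : r ≤ k := hk.2 _ (h1.trans le_sup_left) (h2.sup g2) r hr
  have e4 : r = k := by omega
  have h5 : ¬ (N' ⊔ N'' > N') := hmax _ ⟨h1.trans le_sup_left, h2.sup g2, e4 ▸ hr⟩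
  have h6 : N' ⊔ N'' = N' := by
    by_contra hne
    exact h5 (lt_of_le_of_ne le_sup_left (Ne.symm hne))
  exact h6 ▸ le_sup_right

theorem isCl_comap [Finite ι] [Finite ι'] (hI : IntP D (fun _ : Fin 1 => β))
    {Φ : (ι → PA D κ 1) →ₗ[PA D κ 1] (ι' → PA D κ 1)}
    (hΦ : ∀ n u, Φ (cvi D κ 1 ι n u) = cvi D κ 1 ι' n (Φ u))
    {N1 C1 : Submodule (PA D κ 1) (ι → PA D κ 1)}
    {N2 C2 : Submodule (PA D κ 1) (ι' → PA D κ 1)}
    (hle : N1 ≤ N2.comap Φ) (h1 : IsCl β N1 C1) (h2 : IsCl β N2 C2) : C1 ≤ C2.comap Φ := by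
  obtain ⟨a1, a2, k1, a3, a4, -⟩ := h1
  obtain ⟨b1, b2, k2, b3, b4, b5⟩ := h2
  have hh : IsHomg 0 Φ := fun n u => by rw [add_zero, hΦ]
  have gP : IsGi (fun _ : Fin 1 => β) (C2.comap Φ) := IsGi.comap hh b2
  have gM : IsGi (fun _ : Fin 1 => β) (C2 ⊔ C1.map Φ) := IsGi.sup_map hh a2 b2
  obtain ⟨a, ha, -⟩ := exists_isRho hI (a2.inf gP)
  obtain ⟨b, hb, -⟩ := exists_isRho hI (a2.sup gP)
  obtain ⟨c, hc, -⟩ := exists_isRho hI gP
  obtain ⟨m, hm, -⟩ := exists_isRho hI gM
  obtain ⟨t, ht, -⟩ := exists_isRho hI (IsGi.sup_range hh b2)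
  have e1 := isRho_mod a2 gP ha hb a4 hc
  have e2 : a ≤ k1 :=
    a3.2 _ (le_inf a1 (hle.trans (Submodule.comap_mono b1))) (a2.inf gP) a ha
  have e3 := isRho_comap hh b2 hc ht b4
  have hco : (C2 ⊔ C1.map Φ).comap Φ = C1 ⊔ C2.comap Φ := by
    apply le_antisymm
    · intro u hu
      obtain ⟨c2, hc2, w, hw, hs⟩ := Submodule.mem_sup.1 (Submodule.mem_comap.1 hu)
      obtain ⟨c1, hc1, rfl⟩ := Submodule.mem_map.1 hw
      have h3 : u - c1 ∈ C2.comap Φ := by
        rw [Submodule.mem_comap, map_sub, ← hs, add_sub_cancel_right]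
        exact hc2
      have h4 := Submodule.add_mem_sup hc1 h3
      rwa [add_sub_cancel] at h4
    · refine sup_le ?_ (Submodule.comap_mono le_sup_left)
      intro u hu
      exact Submodule.mem_sup_right (Submodule.mem_map_of_mem hu)
  have hra : C2 ⊔ C1.map Φ ⊔ LinearMap.range Φ = C2 ⊔ LinearMap.range Φ := by
    rw [sup_assoc]
    congr 1
    exact sup_eq_right.2 LinearMap.map_le_range
  have e4 := isRho_comap hh gM (a := b) (b := t) (by rw [hco]; exact hb) (by rw [hra]; exact ht) hm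
  have e5 : m ≤ k2 := b3.2 _ (b1.trans le_sup_left) gM m hm
  have e6 : m = k2 := by omega
  have h7 : C2 ⊔ C1.map Φ ≤ C2 := b5 _ (b1.trans le_sup_left) gM (e6 ▸ hm)
  exact Submodule.map_le_iff_le_comap.1 (le_sup_right.trans h7)

end Vale.Agent.P200F.V

end

section

namespace Vale.Agent.P200F.V

open Module

universe u

section
variable {K : Type u} [Field K] {D : Type u} [DivisionRing D] [Algebra K D] {κ R : ℕ}

/-- constant vectors -/
noncomputable def cst (κ R : ℕ) {ι : Type*} (v : ι → D) : ι → PA D κ R :=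
  fun i => AddMonoidAlgebra.single 0 (v i)

/-- the relations only: the free object `O^s` -/
noncomputable def N0 (D : Type u) [DivisionRing D] [Algebra K D] (β : Fin R → Blk K κ) (s : ℕ) :
    Submodule (PA D κ R) (Fin s → PA D κ R) :=
  Submodule.span (PA D κ R) {u | ∃ g i j, u = Pi.single j (bm K D κ g ((β g).rel i))}

/-- the vector of the monomials of degree `n` in `x`, `y` -/
noncomputable def mv (D : Type u) [DivisionRing D] (κ n : ℕ) : Fin (n + 1) → PA D κ 1 :=
  fun j => va D κ 1 (0, 0) ^ (n - (j : ℕ)) * va D κ 1 (0, 1) ^ (j : ℕ)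

/-- the vector `(x, y, -η_i)` -/
noncomputable def ev3 (D : Type u) [DivisionRing D] (κ : ℕ) (i : Fin κ) : Fin 3 → PA D κ 1 :=
  ![va D κ 1 (0, 0), va D κ 1 (0, 1), - va D κ 1 (0, i.succ.succ)]

/-- the linear map of a matrix of constants -/
noncomputable def cmat (κ R : ℕ) {s t : ℕ} (w : Fin s → Fin t → D) :
    (Fin s → PA D κ R) →ₗ[PA D κ R] (Fin t → PA D κ R) :=
  Fintype.linearCombination (PA D κ R) fun i => cst κ R (w i)

/-- **The properties of the rank** (one block). -/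
structure RkAx (D : Type u) [DivisionRing D] [Algebra K D] (β : Blk K κ) : Prop where
  ex : ∀ (s : ℕ) (N : Submodule (PA D κ 1) (Fin s → PA D κ 1)), IsG (fun _ : Fin 1 => β) N →
    ∃ k, IsRk β N k
  coker : ∀ (s t : ℕ) (N : Submodule (PA D κ 1) (Fin s → PA D κ 1))
    (N' : Submodule (PA D κ 1) (Fin t → PA D κ 1)) (w : Fin s → Fin t → D),
    IsG (fun _ : Fin 1 => β) N → IsG (fun _ : Fin 1 => β) N' → N ≤ N'.comap (cmat κ 1 w) →
    ∀ k k' k'', IsRk β N k → IsRk β N' k' →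
      IsRk β (N' ⊔ Submodule.span (PA D κ 1) (Set.range fun i => cst κ 1 (w i))) k'' →
      k' ≤ k + k''
  prod : ∀ (s t : ℕ) (N : Submodule (PA D κ 1) (Fin s → PA D κ 1))
    (N' : Submodule (PA D κ 1) (Fin t → PA D κ 1)),
    IsG (fun _ : Fin 1 => β) N → IsG (fun _ : Fin 1 => β) N' →
    ∀ k k', IsRk β N k → IsRk β N' k' →
      IsRk β (N.comap (LinearMap.funLeft (PA D κ 1) (PA D κ 1) (Fin.castAdd t)) ⊓
        N'.comap (LinearMap.funLeft (PA D κ 1) (PA D κ 1) (Fin.natAdd s))) (k + k')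
  one : IsRk β (N0 D (fun _ : Fin 1 => β) 1) 1
  top : ∀ s : ℕ, IsRk β (⊤ : Submodule (PA D κ 1) (Fin s → PA D κ 1)) 0
  mono : ∀ n : ℕ, IsRk β (N0 D (fun _ : Fin 1 => β) (n + 1) ⊔
    Submodule.span (PA D κ 1) {mv D κ n}) 0
  eta : ∀ (i : Fin κ) (k : ℕ), IsRk β (N0 D (fun _ : Fin 1 => β) 3 ⊔
    Submodule.span (PA D κ 1) {ev3 D κ i}) k → 1 ≤ k

theorem IsRk.unique {β : Blk K κ} {s : ℕ} {N : Submodule (PA D κ 1) (Fin s → PA D κ 1)} {k k' : ℕ}
    (h : IsRk β N k) (h' : IsRk β N k') : k = k' := by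
  obtain ⟨N1, a1, a2, a3⟩ := h.1
  obtain ⟨N2, b1, b2, b3⟩ := h'.1
  have h1 := h'.2 N1 a1 a2 _ a3
  have h2 := h.2 N2 b1 b2 _ b3
  omega

end

end Vale.Agent.P200F.V

end
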