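import Vale.Agent.P200F.Ns
import Vale.Agent.P200F.C1

set_option linter.all false

section

namespace Vale.Agent.P200F.V

open Module

universe u

section mon
variable {κ R : ℕ}

/-- the monomial with block `0` part `m0` and part `m` in the other blocks -/
noncomputable def jm (m0 : Mon κ 1) (m : Mon κ R) : Mon κ (R + 1) :=
  Finsupp.equivFunOnFinite.symm fun v => Fin.cases (m0 (0, v.2)) (fun g => m (g, v.2)) v.1

theorem jm_zero (m0 : Mon κ 1) (m : Mon κ R) (ε : Fin (κ + 2)) : jm m0 m (0, ε) = m0 (0, ε) := rfl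

theorem jm_succ (m0 : Mon κ 1) (m : Mon κ R) (g : Fin R) (ε : Fin (κ + 2)) :
    jm m0 m (g.succ, ε) = m (g, ε) := rfl

/-- the block `0` part of a monomial -/
noncomputable def pm0 (m : Mon κ (R + 1)) : Mon κ 1 :=
  Finsupp.equivFunOnFinite.symm fun v => m (0, v.2)

/-- the part of a monomial in the other blocks -/
noncomputable def pm1 (m : Mon κ (R + 1)) : Mon κ R :=
  Finsupp.equivFunOnFinite.symm fun v => m (v.1.succ, v.2)

theorem jm_pm (m : Mon κ (R + 1)) : jm (pm0 m) (pm1 m) = m := by
  ext ⟨g, ε⟩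
  refine Fin.cases ?_ (fun g => ?_) g
  · rfl
  · rfl

theorem pm0_jm (m0 : Mon κ 1) (m : Mon κ R) : pm0 (jm m0 m) = m0 := by
  ext ⟨g, ε⟩
  have : g = 0 := Subsingleton.elim _ _
  subst this
  rfl

theorem pm1_jm (m0 : Mon κ 1) (m : Mon κ R) : pm1 (jm m0 m) = m := by
  ext ⟨g, ε⟩
  rfl

theorem jm_add (m0 m0' : Mon κ 1) (m m' : Mon κ R) :
    jm (m0 + m0') (m + m') = jm m0 m + jm m0' m' := by
  ext ⟨g, ε⟩
  refine Fin.cases ?_ (fun g => ?_) g
  · rfl
  · rfl

theorem jm_inj {m0 m0' : Mon κ 1} {m m' : Mon κ R} (h : jm m0 m = jm m0' m') :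
    m0 = m0' ∧ m = m' :=
  ⟨by rw [← pm0_jm m0 m, h, pm0_jm], by rw [← pm1_jm m0 m, h, pm1_jm]⟩

theorem mdeg_jm (m0 : Mon κ 1) (m : Mon κ R) :
    mdeg (jm m0 m) = Fin.cons (mdeg m0 0) (mdeg m) := by
  funext g
  refine Fin.cases ?_ (fun g => ?_) g
  · rfl
  · rfl

theorem mdeg_add (m m' : Mon κ R) : mdeg (m + m') = mdeg m + mdeg m' := by
  funext g
  simp only [mdeg, Finsupp.add_apply, Pi.add_apply, Finset.sum_add_distrib]

/-- the monomials of degree `n` -/
abbrev MonN (κ R : ℕ) (n : Fin R → ℕ) : Type := {m : Mon κ R // mdeg m = n}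

instance finite_monN (n : Fin R → ℕ) : Finite (MonN κ R n) := by
  have h : Set.Finite {m : Mon κ R | mdeg m = n} := by
    refine Set.Finite.subset (Set.finite_Iic
      (Finsupp.equivFunOnFinite.symm fun v : Fin R × Fin (κ + 2) => n v.1)) ?_
    intro m hm
    rw [Set.mem_Iic]
    rintro ⟨g, ε⟩
    rw [← (show mdeg m = n from hm)]
    simp only [Finsupp.equivFunOnFinite_symm_apply_apply, mdeg]
    exact Finset.single_le_sum (f := fun v => m (g, v)) (fun _ _ => Nat.zero_le _)
      (Finset.mem_univ ε)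
  exact h.to_subtype

end mon

section slices
variable (D : Type u) [DivisionRing D] {κ R : ℕ}

/-- the vector space of polynomials in block `0`, times a monomial in the other blocks -/
noncomputable def isl (γ : Mon κ R) : PA D κ 1 →ₗ[D] PA D κ (R + 1) where
  toFun u := AddMonoidAlgebra.ofCoeff (u.coeff.mapDomain fun m0 => jm m0 γ)
  map_add' u v := by
    apply AddMonoidAlgebra.ext
    exact Finsupp.mapDomain_add
  map_smul' k u := by
    apply AddMonoidAlgebra.ext
    exact Finsupp.mapDomain_smul _ _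

/-- the coefficient of `tm γ` -/
noncomputable def sl (γ : Mon κ R) : PA D κ (R + 1) →ₗ[D] PA D κ 1 where
  toFun u := AddMonoidAlgebra.ofCoeff (u.coeff.comapDomain (fun m0 => jm m0 γ)
    (fun _ _ _ _ h => (jm_inj h).1))
  map_add' u v := by
    apply AddMonoidAlgebra.ext
    ext m
    rfl
  map_smul' k u := by
    apply AddMonoidAlgebra.ext
    ext m
    rfl

/-- block `0` as an additive homomorphism -/
noncomputable def jmHom (κ R : ℕ) : Mon κ 1 →+ Mon κ (R + 1) where
  toFun m0 := jm m0 0
  map_zero' := by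
    ext ⟨g, ε⟩
    refine Fin.cases ?_ (fun g => ?_) g
    · rfl
    · rfl
  map_add' a b := by rw [← jm_add, add_zero]

variable (κ R)

/-- block `0` -/
noncomputable def i0 : PA D κ 1 →+* PA D κ (R + 1) :=
  AddMonoidAlgebra.mapDomainRingHom D (jmHom κ R)

variable {κ R}

/-- a monomial in the other blocks -/
noncomputable def tm (γ : Mon κ R) : PA D κ (R + 1) := AddMonoidAlgebra.single (jm 0 γ) 1

theorem sl_coeff (γ : Mon κ R) (u : PA D κ (R + 1)) (m : Mon κ 1) :
    (sl D γ u).coeff m = u.coeff (jm m γ) := rfl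

theorem isl_coeff (γ : Mon κ R) (u : PA D κ 1) (m : Mon κ 1) :
    (isl D γ u).coeff (jm m γ) = u.coeff m :=
  Finsupp.mapDomain_apply (fun _ _ h => (jm_inj h).1) _ _

theorem isl_coeff_ne (γ γ' : Mon κ R) (h : γ' ≠ γ) (u : PA D κ 1) (m : Mon κ 1) :
    (isl D γ u).coeff (jm m γ') = 0 := by
  refine Finsupp.mapDomain_of_notMem_range _ _ ?_
  rintro ⟨m', hm'⟩
  exact h (jm_inj hm').2.symm

theorem sl_isl (γ : Mon κ R) (u : PA D κ 1) : sl D γ (isl D γ u) = u := by
  apply AddMonoidAlgebra.ext
  ext m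
  rw [sl_coeff, isl_coeff]

theorem sl_isl_ne (γ γ' : Mon κ R) (h : γ' ≠ γ) (u : PA D κ 1) : sl D γ' (isl D γ u) = 0 := by
  apply AddMonoidAlgebra.ext
  ext m
  rw [sl_coeff, isl_coeff_ne D γ γ' h]
  rfl

/-- a polynomial is determined by its slices -/
theorem ext_sl {u v : PA D κ (R + 1)} (h : ∀ γ, sl D γ u = sl D γ v) : u = v := by
  apply AddMonoidAlgebra.ext
  ext m
  rw [← jm_pm m, ← sl_coeff, ← sl_coeff, h]

theorem i0_single (m : Mon κ 1) (d : D) :
    i0 D κ R (AddMonoidAlgebra.single m d) = AddMonoidAlgebra.single (jm m 0) d :=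
  AddMonoidAlgebra.mapDomain_single

theorem isl_single (γ : Mon κ R) (m : Mon κ 1) (d : D) :
    isl D γ (AddMonoidAlgebra.single m d) = AddMonoidAlgebra.single (jm m γ) d := by
  apply AddMonoidAlgebra.ext
  exact Finsupp.mapDomain_single

theorem i0_mul_tm (γ : Mon κ R) (u : PA D κ 1) : i0 D κ R u * tm D γ = isl D γ u := by
  induction u using AddMonoidAlgebra.induction_linear with
  | zero => rw [map_zero, map_zero, zero_mul]
  | add f g hf hg => rw [map_add, map_add, add_mul, hf, hg]
  | single m d =>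
    rw [i0_single, isl_single, tm, AddMonoidAlgebra.single_mul_single, ← jm_add, add_zero, zero_add,
      mul_one]

/-- `i0` and `tm` commute -/
theorem tm_mul_i0 (γ : Mon κ R) (u : PA D κ 1) : tm D γ * i0 D κ R u = isl D γ u := by
  induction u using AddMonoidAlgebra.induction_linear with
  | zero => rw [map_zero, map_zero, mul_zero]
  | add f g hf hg => rw [map_add, map_add, mul_add, hf, hg]
  | single m d =>
    rw [i0_single, isl_single, tm, AddMonoidAlgebra.single_mul_single, ← jm_add, add_zero, zero_add,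
      one_mul]

theorem tm_mul_tm (γ γ' : Mon κ R) : tm D γ * tm D γ' = tm D (γ + γ') := by
  rw [tm, tm, tm, AddMonoidAlgebra.single_mul_single, ← jm_add, add_zero, one_mul]

/-- the slices of `i0 a * u` -/
theorem sl_i0_mul (γ : Mon κ R) (a : PA D κ 1) (u : PA D κ (R + 1)) :
    sl D γ (i0 D κ R a * u) = a * sl D γ u := by
  induction u using AddMonoidAlgebra.induction_linear with
  | zero => rw [mul_zero, map_zero, mul_zero]
  | add f g hf hg => rw [mul_add, map_add, map_add, mul_add, hf, hg]
  | single m d =>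
    have h1 : (AddMonoidAlgebra.single m d : PA D κ (R + 1)) =
        i0 D κ R (AddMonoidAlgebra.single (pm0 m) d) * tm D (pm1 m) := by
      rw [i0_mul_tm, isl_single, jm_pm]
    rw [h1, ← mul_assoc, ← map_mul, i0_mul_tm, i0_mul_tm]
    by_cases h : γ = pm1 m
    · rw [h, sl_isl, sl_isl]
    · rw [sl_isl_ne _ _ _ h, sl_isl_ne _ _ _ h, mul_zero]

/-- the slices of `tm γ * u` -/
theorem sl_tm_mul (γ γ' : Mon κ R) (u : PA D κ (R + 1)) :
    sl D (γ' + γ) (tm D γ * u) = sl D γ' u := by
  induction u using AddMonoidAlgebra.induction_linear with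
  | zero => rw [mul_zero, map_zero, map_zero]
  | add f g hf hg => rw [mul_add, map_add, map_add, hf, hg]
  | single m d =>
    have h1 : (AddMonoidAlgebra.single m d : PA D κ (R + 1)) =
        tm D (pm1 m) * i0 D κ R (AddMonoidAlgebra.single (pm0 m) d) := by
      rw [tm_mul_i0, isl_single, jm_pm]
    rw [h1, ← mul_assoc, tm_mul_tm, tm_mul_i0, tm_mul_i0]
    by_cases h : γ' = pm1 m
    · rw [h, add_comm γ (pm1 m), sl_isl, sl_isl]
    · rw [sl_isl_ne _ _ _ h, sl_isl_ne]
      intro h'
      exact h (add_left_cancel (a := γ) (by rw [add_comm γ γ', h']))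

/-- the slices of `tm γ * u` which vanish -/
theorem sl_tm_mul_ne (γ γ' : Mon κ R) (h : ¬ γ ≤ γ') (u : PA D κ (R + 1)) :
    sl D γ' (tm D γ * u) = 0 := by
  induction u using AddMonoidAlgebra.induction_linear with
  | zero => rw [mul_zero, map_zero]
  | add f g hf hg => rw [mul_add, map_add, hf, hg, add_zero]
  | single m d =>
    have h1 : (AddMonoidAlgebra.single m d : PA D κ (R + 1)) =
        tm D (pm1 m) * i0 D κ R (AddMonoidAlgebra.single (pm0 m) d) := by
      rw [tm_mul_i0, isl_single, jm_pm]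
    rw [h1, ← mul_assoc, tm_mul_tm, tm_mul_i0, sl_isl_ne]
    intro h'
    exact h (h' ▸ le_self_add)

end slices

end Vale.Agent.P200F.V

end

section

namespace Vale.Agent.P200F.V

open Module

universe u

section slices
variable (D : Type u) [DivisionRing D] {κ R : ℕ} {α π : Type}

noncomputable instance fintype_monN (n : Fin R → ℕ) : Fintype (MonN κ R n) := Fintype.ofFinite _

/-- the part of degree `n` in the other blocks -/
noncomputable def slp (n : Fin R → ℕ) :
    (α × π → PA D κ (R + 1)) →ₗ[D] ((α × MonN κ R n) × π → PA D κ 1) where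
  toFun v J := sl D J.1.2.1 (v (J.1.1, J.2))
  map_add' u v := by
    funext J
    exact map_add _ _ _
  map_smul' k u := by
    funext J
    exact map_smul (sl D J.1.2.1) _ _

/-- the vector with given part of degree `n` in the other blocks -/
noncomputable def unsl (n : Fin R → ℕ) :
    ((α × MonN κ R n) × π → PA D κ 1) →ₗ[D] (α × π → PA D κ (R + 1)) where
  toFun u I := ∑ γ : MonN κ R n, isl D γ.1 (u ((I.1, γ), I.2))
  map_add' u v := by
    funext I
    simp only [Pi.add_apply, map_add, Finset.sum_add_distrib]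
  map_smul' k u := by
    funext I
    simp only [Pi.smul_apply, RingHom.id_apply, Finset.smul_sum, ← map_smul (isl D _)]

open Classical in
/-- multiplication by the monomial `γ` of the other blocks, from degree `n` to degree `n'` -/
noncomputable def sh (γ : Mon κ R) (n n' : Fin R → ℕ) :
    ((α × MonN κ R n) × π → PA D κ 1) →ₗ[PA D κ 1] ((α × MonN κ R n') × π → PA D κ 1) where
  toFun u J := if h : γ ≤ J.1.2.1 ∧ mdeg (J.1.2.1 - γ) = n then
    u ((J.1.1, ⟨J.1.2.1 - γ, h.2⟩), J.2) else 0
  map_add' u v := by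
    funext J
    simp only [Pi.add_apply]
    split_ifs
    · rfl
    · rw [add_zero]
  map_smul' k u := by
    funext J
    simp only [Pi.smul_apply, RingHom.id_apply]
    split_ifs
    · rfl
    · rw [smul_zero]

variable {D}

theorem slp_unsl (n : Fin R → ℕ) (u : (α × MonN κ R n) × π → PA D κ 1) :
    slp D n (unsl D n u) = u := by
  funext J
  obtain ⟨⟨i, γ⟩, q⟩ := J
  change sl D γ.1 (∑ γ' : MonN κ R n, isl D γ'.1 (u ((i, γ'), q))) = _
  rw [map_sum, Finset.sum_eq_single γ]
  · rw [sl_isl]
  · intro γ' _ h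
    exact sl_isl_ne _ _ _ (fun h' => h (Subtype.ext h'.symm)) _
  · intro h
    exact absurd (Finset.mem_univ _) h

theorem slp_i0_smul (n : Fin R → ℕ) (a : PA D κ 1) (v : α × π → PA D κ (R + 1)) :
    slp D n (i0 D κ R a • v) = a • slp D n v := by
  funext J
  exact sl_i0_mul _ _ _ _

theorem slp_tm_smul (γ : Mon κ R) (n n' : Fin R → ℕ) (h : n' = n + mdeg γ)
    (v : α × π → PA D κ (R + 1)) : slp D n' (tm D γ • v) = sh D γ n n' (slp D n v) := by
  funext J
  obtain ⟨⟨i, γ'⟩, q⟩ := J
  change sl D γ'.1 (tm D γ * v (i, q)) = if h : γ ≤ γ'.1 ∧ mdeg (γ'.1 - γ) = n then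
    sl D (γ'.1 - γ) (v (i, q)) else 0
  by_cases hγ : γ ≤ γ'.1
  · have h1 : γ'.1 - γ + γ = γ'.1 := tsub_add_cancel_of_le hγ
    have h2 : mdeg (γ'.1 - γ) = n := by
      have h3 := mdeg_add (γ'.1 - γ) γ
      rw [h1, γ'.2] at h3
      exact (add_right_cancel (h.symm.trans h3)).symm
    rw [dif_pos ⟨hγ, h2⟩]
    conv_lhs => rw [← h1]
    exact sl_tm_mul _ _ _ _
  · rw [dif_neg (fun h' => hγ h'.1), sl_tm_mul_ne _ _ _ hγ]

theorem slp_tm_smul_ne (γ : Mon κ R) (n' : Fin R → ℕ) (h : ¬ mdeg γ ≤ n')
    (v : α × π → PA D κ (R + 1)) : slp D n' (tm D γ • v) = 0 := by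
  funext J
  obtain ⟨⟨i, γ'⟩, q⟩ := J
  refine sl_tm_mul_ne _ _ _ (fun h' => h ?_) _
  have h1 := mdeg_add (γ'.1 - γ) γ
  rw [tsub_add_cancel_of_le h', γ'.2] at h1
  rw [h1]
  exact le_add_self

/-- every polynomial is a sum of products `tm γ * i0 a` -/
theorem ind_tm_i0 {P : PA D κ (R + 1) → Prop} (h0 : P 0) (hadd : ∀ u v, P u → P v → P (u + v))
    (hm : ∀ (γ : Mon κ R) (a : PA D κ 1), P (tm D γ * i0 D κ R a)) (u : PA D κ (R + 1)) : P u := by
  induction u using AddMonoidAlgebra.induction_linear with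
  | zero => exact h0
  | add f g hf hg => exact hadd _ _ hf hg
  | single m d =>
    have h1 : (AddMonoidAlgebra.single m d : PA D κ (R + 1)) =
        tm D (pm1 m) * i0 D κ R (AddMonoidAlgebra.single (pm0 m) d) := by
      rw [tm_mul_i0, isl_single, jm_pm]
    rw [h1]
    exact hm _ _

/-- the submodule of the vectors with all parts in `C` -/
noncomputable def glue (C : ∀ n : Fin R → ℕ, Submodule (PA D κ 1) ((α × MonN κ R n) × π → PA D κ 1))
    (hC : ∀ γ n n', n' = n + mdeg γ → ∀ u ∈ C n, sh D γ n n' u ∈ C n') :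
    Submodule (PA D κ (R + 1)) (α × π → PA D κ (R + 1)) where
  carrier := {v | ∀ n, slp D n v ∈ C n}
  add_mem' ha hb n := by
    rw [map_add]
    exact (C n).add_mem (ha n) (hb n)
  zero_mem' n := by
    rw [map_zero]
    exact (C n).zero_mem
  smul_mem' c v hv := by
    refine ind_tm_i0 (P := fun c => ∀ n, slp D n (c • v) ∈ C n) ?_ ?_ ?_ c
    · intro n
      rw [zero_smul, map_zero]
      exact (C n).zero_mem
    · intro a b ha hb n
      rw [add_smul, map_add]
      exact (C n).add_mem (ha n) (hb n)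
    · intro γ a n
      rw [mul_smul]
      by_cases h : mdeg γ ≤ n
      · have h1 : n = (n - mdeg γ) + mdeg γ := (tsub_add_cancel_of_le h).symm
        rw [slp_tm_smul γ (n - mdeg γ) n h1]
        refine hC _ _ _ h1 _ ?_
        rw [slp_i0_smul]
        exact (C _).smul_mem _ (hv _)
      · rw [slp_tm_smul_ne _ _ h]
        exact (C n).zero_mem

theorem mem_glue (C : ∀ n : Fin R → ℕ, Submodule (PA D κ 1) ((α × MonN κ R n) × π → PA D κ 1))
    (hC : ∀ γ n n', n' = n + mdeg γ → ∀ u ∈ C n, sh D γ n n' u ∈ C n')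
    (v : α × π → PA D κ (R + 1)) : v ∈ glue C hC ↔ ∀ n, slp D n v ∈ C n := Iff.rfl

end slices

section rows
variable {κ R : ℕ} {α : Type}

/-- the coefficients in degree `n` of a vector of polynomials -/
noncomputable def cof (D : Type u) [DivisionRing D] (n : Fin R → ℕ) :
    (α → PA D κ R) →ₗ[D] (α × MonN κ R n → D) where
  toFun P I := (P I.1).coeff I.2.1
  map_add' P Q := by
    funext I
    rfl
  map_smul' k P := by
    funext I
    exact AddMonoidAlgebra.coeff_smul_apply _ _ _

/-- the monomials of degree at most `n` -/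
abbrev MonL (κ R : ℕ) (n : Fin R → ℕ) : Type := {m : Mon κ R // mdeg m ≤ n}

instance finite_monL (n : Fin R → ℕ) : Finite (MonL κ R n) := by
  have h : Set.Finite {m : Mon κ R | mdeg m ≤ n} := by
    refine Set.Finite.subset (Set.finite_Iic
      (Finsupp.equivFunOnFinite.symm fun v : Fin R × Fin (κ + 2) => n v.1)) ?_
    intro m hm
    rw [Set.mem_Iic]
    rintro ⟨g, ε⟩
    refine le_trans ?_ ((show mdeg m ≤ n from hm) g)
    exact Finset.single_le_sum (f := fun v => m (g, v)) (fun _ _ => Nat.zero_le _)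
      (Finset.mem_univ ε)
  exact h.to_subtype

/-- the coefficients (in the elements `u k`) of the row `γ • P l` in degree `n`, `P l = ∑ k, κc l k u_k` -/
noncomputable def zz {K : Type u} [Field K] {L t : ℕ} (κc : Fin L → Fin t → α → PA K κ R)
    (n : Fin R → ℕ) (j : Fin L × MonL κ R n) (I : α × MonN κ R n) (k : Fin t) : K :=
  (AddMonoidAlgebra.single j.2.1 (1 : K) * κc j.1 k I.1).coeff I.2.1

open Classical in
/-- the coefficients of the row `γ * rel`, at the position `i` -/
noncomputable def aa {K : Type u} [Field K] (β : Fin R → Blk K κ)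
    (n : Fin R → ℕ) (j : (Fin R × Fin κ) × (α × MonL κ R n)) (I : α × MonN κ R n) : K :=
  if j.2.1 = I.1 then
    (AddMonoidAlgebra.single j.2.2.1 (1 : K) * bm K K κ j.1.1 ((β j.1.1).rel j.1.2)).coeff I.2.1
  else 0

/-- the objects of degree `n` over `D` -/
noncomputable def RSn {K : Type u} [Field K] {D : Type u} [DivisionRing D] [Algebra K D]
    (β : Fin R → Blk K κ) {L t p : ℕ} (N : Submodule (PA D κ 1) (Fin p → PA D κ 1))
    (f : Fin t → Fin p → D) (κc : Fin L → Fin t → α → PA K κ R) (n : Fin R → ℕ) :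
    Submodule (PA D κ 1) ((α × MonN κ R n) × Fin p → PA D κ 1) :=
  RS K N f (zz κc n) (aa β n)

end rows

end Vale.Agent.P200F.V

end

section

namespace Vale.Agent.P200F.V

open Module

universe u

variable {K : Type u} [Field K] {D : Type u} [DivisionRing D] [Algebra K D] {κ R : ℕ} {α π : Type}

private theorem tra_bm_C (g : Fin R) (k : K) :
    bm K D κ (R := R) g (MvPolynomial.C k) = AddMonoidAlgebra.single 0 (algebraMap K D k) := by
  have : bm K D κ (R := R) g (MvPolynomial.C k) = algebraMap K (PA D κ R) k := by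
    rw [← MvPolynomial.algebraMap_eq]
    exact AlgHom.commutes _ _
  rw [this]
  rfl

private theorem tra_bm_X (g : Fin R) (v : Fin (κ + 2)) :
    bm K D κ (R := R) g (MvPolynomial.X v) = va D κ R (g, v) := by
  rw [bm, AlgHom.comp_apply]
  have h2 : (AddMonoidAlgebra.mapDomainAlgHom K K
      (Finsupp.mapDomain.addMonoidHom fun v : Fin (κ + 2) => (g, v)))
        (MvPolynomial.X v : MvPolynomial (Fin (κ + 2)) K) =
      (AddMonoidAlgebra.single (Finsupp.single (g, v) 1) (1 : K) :
        AddMonoidAlgebra K (Mon κ R)) := by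
    change AddMonoidAlgebra.mapDomain _ (AddMonoidAlgebra.single (Finsupp.single v 1) (1 : K)) = _
    rw [AddMonoidAlgebra.mapDomain_single]
    congr 1
    exact Finsupp.mapDomain_single
  rw [h2, AddMonoidAlgebra.mapAlgHom_single, map_one]
  rfl

private theorem tra_jm_single (v : Fin (κ + 2)) :
    jm (Finsupp.single ((0 : Fin 1), v) 1) (0 : Mon κ R) = Finsupp.single ((0 : Fin (R + 1)), v) 1 := by
  classical
  ext ⟨g, ε⟩
  refine Fin.cases ?_ (fun g => ?_) g
  · rw [jm_zero, Finsupp.single_apply, Finsupp.single_apply]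
    simp only [Prod.mk.injEq, true_and]
  · rw [jm_succ, Finsupp.single_apply, if_neg]
    · rfl
    · intro h
      exact absurd (congrArg Prod.fst h) (Fin.succ_ne_zero g).symm

/-- the multiples of the relations of the block `0` -/
private theorem tra_bm_zero (p : MvPolynomial (Fin (κ + 2)) K) :
    bm K D κ (0 : Fin (R + 1)) p = i0 D κ R (bm K D κ (0 : Fin 1) p) := by
  induction p using MvPolynomial.induction_on with
  | C k =>
    rw [tra_bm_C, tra_bm_C, i0_single]
    congr 1
    exact (map_zero (jmHom κ R)).symm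
  | add p q hp hq => rw [map_add, map_add, map_add, hp, hq]
  | mul_X p v hp =>
    rw [map_mul, map_mul, map_mul, hp, tra_bm_X, tra_bm_X, va, va, i0_single, tra_jm_single]

/-- the parts of the components -/
private theorem tra_slp_cvi (n : Fin R → ℕ) (n' : Fin (R + 1) → ℕ) (h : n = Fin.tail n')
    (u : α × π → PA D κ (R + 1)) :
    slp D n (cvi D κ (R + 1) (α × π) n' u) =
      cvi D κ 1 ((α × MonN κ R n) × π) (fun _ => n' 0) (slp D n u) := by
  classical
  funext J
  obtain ⟨⟨i, γ⟩, q⟩ := J
  apply AddMonoidAlgebra.ext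
  ext m
  change (Finsupp.filter (fun m => mdeg m = n') (u (i, q)).coeff) (jm m γ.1) =
    (Finsupp.filter (fun m => mdeg m = fun _ => n' 0) (sl D γ.1 (u (i, q))).coeff) m
  have h1 : (mdeg (jm m γ.1) = n') ↔ (mdeg m = fun _ => n' 0) := by
    rw [mdeg_jm, γ.2, h]
    constructor
    · intro h2
      funext g
      have hg : g = 0 := Subsingleton.elim _ _
      subst hg
      exact congrFun h2 0
    · intro h2
      rw [h2]
      exact Fin.cons_self_tail n'
  by_cases h2 : mdeg m = fun _ => n' 0
  · rw [Finsupp.filter_apply, Finsupp.filter_apply, if_pos h2, if_pos (h1.2 h2)]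
    rfl
  · rw [Finsupp.filter_apply, Finsupp.filter_apply, if_neg h2, if_neg (fun h3 => h2 (h1.1 h3))]

private theorem tra_slp_cvi_ne (n : Fin R → ℕ) (n' : Fin (R + 1) → ℕ) (h : n ≠ Fin.tail n')
    (u : α × π → PA D κ (R + 1)) :
    slp D n (cvi D κ (R + 1) (α × π) n' u) = 0 := by
  classical
  funext J
  obtain ⟨⟨i, γ⟩, q⟩ := J
  apply AddMonoidAlgebra.ext
  ext m
  change (Finsupp.filter (fun m => mdeg m = n') (u (i, q)).coeff) (jm m γ.1) = 0
  rw [Finsupp.filter_apply, if_neg]
  intro h2
  apply h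
  rw [← h2, mdeg_jm, Fin.tail_cons, γ.2]

/-- Proof: `slp n (cvi n' v)` is `cvi (n' 0) (slp n v)` if `n = tail n'` and `0` otherwise; the relations of
the block `0` are `i0 (bm 0 rel)` and `slp n (i0 a • v) = a • slp n v`. -/
theorem isGi_glue {β0 : Blk K κ} {β : Fin R → Blk K κ}
    (C : ∀ n : Fin R → ℕ, Submodule (PA D κ 1) ((α × MonN κ R n) × π → PA D κ 1))
    (hC : ∀ γ n n', n' = n + mdeg γ → ∀ u ∈ C n, sh D γ n n' u ∈ C n')
    (hG : ∀ n, IsGi (fun _ : Fin 1 => β0) (C n))
    (hrel : ∀ g i n (w : α × π → PA D κ (R + 1)),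
      slp D n (bm K D κ (Fin.succ g) ((β g).rel i) • w) ∈ C n) :
    IsGi (Fin.cons β0 β : Fin (R + 1) → Blk K κ) (glue C hC) := by
  constructor
  · intro u hu n'
    rw [mem_glue] at hu ⊢
    intro n
    by_cases h : n = Fin.tail n'
    · rw [tra_slp_cvi n n' h]
      exact (hG n).hom _ (hu n) _
    · rw [tra_slp_cvi_ne n n' h]
      exact (C n).zero_mem
  · intro g
    refine Fin.cases ?_ (fun g => ?_) g
    · intro i w
      rw [mem_glue]
      intro n
      change slp D n (bm K D κ (0 : Fin (R + 1)) (β0.rel i) • w) ∈ C n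
      rw [tra_bm_zero, slp_i0_smul]
      exact (hG n).rel 0 i _
    · intro i w
      rw [mem_glue]
      intro n
      exact hrel g i n w

end Vale.Agent.P200F.V

end

section

namespace Vale.Agent.P200F.V

open Module

universe u

variable {D : Type u} [DivisionRing D] {κ R : ℕ} {α π : Type}

theorem trb_sl_mem {n : Fin R → ℕ} {m : ℕ} {w : PA D κ (R + 1)}
    (hw : w ∈ pp D κ (R + 1) (Fin.cons m n)) (γ : Mon κ R) :
    sl D γ w ∈ pp D κ 1 (fun _ : Fin 1 => m) := by
  intro m0 hm0
  rw [sl_coeff] at hm0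
  have h1 := hw _ hm0
  rw [mdeg_jm] at h1
  funext g
  have hg : g = 0 := Subsingleton.elim _ _
  subst hg
  have h2 := congrFun h1 0
  rwa [Fin.cons_zero, Fin.cons_zero] at h2

theorem trb_sl_ne {n : Fin R → ℕ} {m : ℕ} {w : PA D κ (R + 1)}
    (hw : w ∈ pp D κ (R + 1) (Fin.cons m n)) {γ : Mon κ R} (hγ : mdeg γ ≠ n) :
    sl D γ w = 0 := by
  apply AddMonoidAlgebra.ext
  ext m0
  rw [sl_coeff]
  by_contra hm0
  have h1 := hw _ hm0
  rw [mdeg_jm] at h1
  apply hγ
  funext g
  have h2 := congrFun h1 g.succ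
  rwa [Fin.cons_succ, Fin.cons_succ] at h2

theorem trb_isl_mem {n : Fin R → ℕ} {m : ℕ} {w : PA D κ 1}
    (hw : w ∈ pp D κ 1 (fun _ : Fin 1 => m)) {γ : Mon κ R} (hγ : mdeg γ = n) :
    isl D γ w ∈ pp D κ (R + 1) (Fin.cons m n) := by
  intro M hM
  rw [← jm_pm M] at hM ⊢
  by_cases h : pm1 M = γ
  · rw [h, isl_coeff] at hM
    have h1 := congrFun (hw _ hM) 0
    rw [mdeg_jm, h, hγ, h1]
  · exact absurd (isl_coeff_ne D γ (pm1 M) h w (pm0 M)) hM

theorem trb_slp_mem {n : Fin R → ℕ} {m : ℕ} {v : α × π → PA D κ (R + 1)}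
    (hv : v ∈ pvi D κ (R + 1) (α × π) (Fin.cons m n)) (n' : Fin R → ℕ) :
    slp D n' v ∈ pvi D κ 1 ((α × MonN κ R n') × π) (fun _ : Fin 1 => m) :=
  fun J => trb_sl_mem (hv (J.1.1, J.2)) J.1.2.1

theorem trb_slp_ne {n : Fin R → ℕ} {m : ℕ} {v : α × π → PA D κ (R + 1)}
    (hv : v ∈ pvi D κ (R + 1) (α × π) (Fin.cons m n)) {n' : Fin R → ℕ} (h : n' ≠ n) :
    slp D n' v = 0 := by
  funext J
  refine trb_sl_ne (hv (J.1.1, J.2)) ?_
  rw [J.1.2.2]
  exact h

theorem trb_unsl_mem {n : Fin R → ℕ} {m : ℕ} {u : (α × MonN κ R n) × π → PA D κ 1}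
    (hu : u ∈ pvi D κ 1 ((α × MonN κ R n) × π) (fun _ : Fin 1 => m)) :
    unsl D n u ∈ pvi D κ (R + 1) (α × π) (Fin.cons m n) := by
  intro I
  exact Submodule.sum_mem _ fun γ _ => trb_isl_mem (hu ((I.1, γ), I.2)) γ.2

theorem trb_unsl_slp {n : Fin R → ℕ} {m : ℕ} {v : α × π → PA D κ (R + 1)}
    (hv : v ∈ pvi D κ (R + 1) (α × π) (Fin.cons m n)) : unsl D n (slp D n v) = v := by
  funext I
  refine ext_sl D fun γ' => ?_
  change sl D γ' (∑ γ : MonN κ R n, isl D γ.1 (sl D γ.1 (v (I.1, I.2)))) = sl D γ' (v I)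
  rw [map_sum]
  by_cases h : mdeg γ' = n
  · rw [Finset.sum_eq_single (⟨γ', h⟩ : MonN κ R n)]
    · rw [sl_isl]
    · intro γ _ hγ
      exact sl_isl_ne _ _ _ (fun h' => hγ (Subtype.ext h'.symm)) _
    · intro h'
      exact absurd (Finset.mem_univ _) h'
  · rw [trb_sl_ne (hv I) h]
    refine Finset.sum_eq_zero fun γ _ => sl_isl_ne _ _ _ (fun h' => h ?_) _
    rw [h', γ.2]

/-- Proof: `slp n` and `unsl n` are inverse linear bijections between `pvi (Fin.cons m n)` and
`pvi (fun _ => m)`; for `v ∈ pvi (Fin.cons m n)` the parts `slp n' v`, `n' ≠ n`, vanish, so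
`v ∈ glue C hC ↔ slp n v ∈ C n`. -/
theorem qdi_glue
    (C : ∀ n : Fin R → ℕ, Submodule (PA D κ 1) ((α × MonN κ R n) × π → PA D κ 1))
    (hC : ∀ γ n n', n' = n + mdeg γ → ∀ u ∈ C n, sh D γ n n' u ∈ C n')
    (n : Fin R → ℕ) (m : ℕ) :
    qdi (glue C hC) (Fin.cons m n) = qdi (C n) (fun _ : Fin 1 => m) := by
  have hgl : ∀ v : α × π → PA D κ (R + 1), v ∈ pvi D κ (R + 1) (α × π) (Fin.cons m n) →
      (v ∈ glue C hC ↔ slp D n v ∈ C n) := by
    intro v hv
    rw [mem_glue]
    constructor
    · intro h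
      exact h n
    · intro h n'
      by_cases hn : n' = n
      · subst hn
        exact h
      · rw [trb_slp_ne hv hn]
        exact (C n').zero_mem
  let E : pvi D κ (R + 1) (α × π) (Fin.cons m n) ≃ₗ[D]
      pvi D κ 1 ((α × MonN κ R n) × π) (fun _ : Fin 1 => m) :=
    { toFun := fun v => ⟨slp D n v.1, trb_slp_mem v.2 n⟩
      map_add' := fun v w => Subtype.ext (map_add (slp D n) v.1 w.1)
      map_smul' := fun k v => Subtype.ext (map_smul (slp D n) k v.1)
      invFun := fun u => ⟨unsl D n u.1, trb_unsl_mem u.2⟩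
      left_inv := fun v => Subtype.ext (trb_unsl_slp v.2)
      right_inv := fun u => Subtype.ext (slp_unsl n u.1) }
  let F : (pvi D κ (R + 1) (α × π) (Fin.cons m n) ⊓
        (glue C hC).restrictScalars D : Submodule D _) ≃ₗ[D]
      (pvi D κ 1 ((α × MonN κ R n) × π) (fun _ : Fin 1 => m) ⊓
        (C n).restrictScalars D : Submodule D _) :=
    { toFun := fun v => ⟨slp D n v.1, trb_slp_mem v.2.1 n, (hgl v.1 v.2.1).1 v.2.2⟩
      map_add' := fun v w => Subtype.ext (map_add (slp D n) v.1 w.1)
      map_smul' := fun k v => Subtype.ext (map_smul (slp D n) k v.1)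
      invFun := fun u => ⟨unsl D n u.1, trb_unsl_mem u.2.1,
        (hgl _ (trb_unsl_mem u.2.1)).2 (by rw [slp_unsl]; exact u.2.2)⟩
      left_inv := fun v => Subtype.ext (trb_unsl_slp v.2.1)
      right_inv := fun u => Subtype.ext (slp_unsl n u.1) }
  rw [qdi, qdi, E.finrank_eq, F.finrank_eq]

end Vale.Agent.P200F.V

end

section

namespace Vale.Agent.P200F.V

open Module

universe u

variable {K : Type u} [Field K] {D : Type u} [DivisionRing D] [Algebra K D] {κ : ℕ}

theorem trc_cp_single {R : ℕ} (n : Fin R → ℕ) (m : Mon κ R) (d : D) :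
    cp D κ R n (AddMonoidAlgebra.single m d) =
      if mdeg m = n then AddMonoidAlgebra.single m d else 0 := by
  split_ifs with h
  · apply AddMonoidAlgebra.ext
    exact Finsupp.filter_single_of_pos _ h
  · apply AddMonoidAlgebra.ext
    exact Finsupp.filter_single_of_neg _ h

/-- the components of `u * d` -/
theorem trc_cp_mul_cpo {R : ℕ} (n : Fin R → ℕ) (u : PA D κ R) (d : D) :
    cp D κ R n (u * cpo D κ R d) = cp D κ R n u * cpo D κ R d := by
  induction u using AddMonoidAlgebra.induction_linear with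
  | zero => rw [zero_mul, map_zero, zero_mul]
  | add f g hf hg => rw [add_mul, map_add, map_add, add_mul, hf, hg]
  | single m c =>
    rw [cpo, AddMonoidAlgebra.single_mul_single, add_zero, trc_cp_single, trc_cp_single]
    split_ifs
    · rw [AddMonoidAlgebra.single_mul_single, add_zero]
    · rw [zero_mul]

/-- the components of `d * u` -/
theorem trc_cp_cpo_mul {R : ℕ} (n : Fin R → ℕ) (u : PA D κ R) (d : D) :
    cp D κ R n (cpo D κ R d * u) = cpo D κ R d * cp D κ R n u := by
  induction u using AddMonoidAlgebra.induction_linear with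
  | zero => rw [mul_zero, map_zero, mul_zero]
  | add f g hf hg => rw [mul_add, map_add, map_add, mul_add, hf, hg]
  | single m c =>
    rw [cpo, AddMonoidAlgebra.single_mul_single, zero_add, trc_cp_single, trc_cp_single]
    split_ifs
    · rw [AddMonoidAlgebra.single_mul_single, zero_add]
    · rw [mul_zero]

/-- the constants of `K` are central -/
theorem trc_cpo_comm {R : ℕ} (k : K) (u : PA D κ R) :
    u * cpo D κ R (algebraMap K D k) = cpo D κ R (algebraMap K D k) * u := by
  induction u using AddMonoidAlgebra.induction_linear with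
  | zero => rw [zero_mul, mul_zero]
  | add f g hf hg => rw [add_mul, mul_add, hf, hg]
  | single m c =>
    rw [cpo, AddMonoidAlgebra.single_mul_single, AddMonoidAlgebra.single_mul_single, add_zero,
      zero_add, Algebra.commutes]

/-- Proof: `hom`: the three parts of `RS` are homogeneous (`cvi n (c • row) = cp n c • row` for a row of
constants; in the third part `c • (cpo a * b) = cpo a * (c * b)` since `a ∈ K`); `rel`: `rel • w ∈ cpw I N`. -/
theorem isGi_RS {I J J' π : Type} {t : ℕ} {β0 : Blk K κ}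
    {N : Submodule (PA D κ 1) (π → PA D κ 1)} (hN : IsGi (fun _ : Fin 1 => β0) N)
    (f : Fin t → π → D) (z : J → I → Fin t → K) (a : J' → I → K) :
    IsGi (fun _ : Fin 1 => β0) (RS K N f z a) := by
  have h1 : cpw I N ≤ RS K N f z a := le_sup_left
  have h2 : Submodule.span (PA D κ 1) (Set.range fun j (w : I × π) =>
      cpo D κ 1 (∑ k, algebraMap K D (z j w.1 k) * f k w.2)) ≤ RS K N f z a :=
    le_sup_left.trans le_sup_right
  have h3 : Submodule.span (PA D κ 1) {v | ∃ (j : J') (b : π → PA D κ 1),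
      v = fun w : I × π => cpo D κ 1 (algebraMap K D (a j w.1)) * b w.2} ≤ RS K N f z a :=
    le_sup_right.trans le_sup_right
  constructor
  · intro u hu n
    obtain ⟨u1, hu1, u2, hu2, rfl⟩ := Submodule.mem_sup.1 hu
    obtain ⟨u3, hu3, u4, hu4, rfl⟩ := Submodule.mem_sup.1 hu2
    rw [map_add, map_add]
    refine Submodule.add_mem _ (h1 ?_) (Submodule.add_mem _ ?_ ?_)
    · intro i
      exact hN.hom _ (hu1 i) n
    · have key : ∀ c : PA D κ 1, cvi D κ 1 (I × π) n (c • u3) ∈ RS K N f z a := by
        refine Submodule.span_induction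
          (p := fun x _ => ∀ c : PA D κ 1, cvi D κ 1 (I × π) n (c • x) ∈ RS K N f z a)
          ?_ ?_ ?_ ?_ hu3
        · rintro x ⟨j, rfl⟩ c
          have h4 : cvi D κ 1 (I × π) n (c • fun w : I × π =>
              cpo D κ 1 (∑ k, algebraMap K D (z j w.1 k) * f k w.2)) =
              cp D κ 1 n c • fun w : I × π =>
                cpo D κ 1 (∑ k, algebraMap K D (z j w.1 k) * f k w.2) := by
            funext w
            exact trc_cp_mul_cpo n c _
          rw [h4]
          exact Submodule.smul_mem _ _ (h2 (Submodule.subset_span ⟨j, rfl⟩))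
        · intro c
          rw [smul_zero, map_zero]
          exact Submodule.zero_mem _
        · intro x y _ _ hx hy c
          rw [smul_add, map_add]
          exact Submodule.add_mem _ (hx c) (hy c)
        · intro c' x _ hx c
          rw [smul_smul]
          exact hx _
      have h5 := key 1
      rwa [one_smul] at h5
    · have key : ∀ c : PA D κ 1, cvi D κ 1 (I × π) n (c • u4) ∈ RS K N f z a := by
        refine Submodule.span_induction
          (p := fun x _ => ∀ c : PA D κ 1, cvi D κ 1 (I × π) n (c • x) ∈ RS K N f z a)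
          ?_ ?_ ?_ ?_ hu4
        · rintro x ⟨j, b, rfl⟩ c
          refine h3 (Submodule.subset_span ⟨j, fun q => cp D κ 1 n (c * b q), ?_⟩)
          funext w
          change cp D κ 1 n (c * (cpo D κ 1 (algebraMap K D (a j w.1)) * b w.2)) = _
          rw [← mul_assoc, trc_cpo_comm, mul_assoc, trc_cp_cpo_mul]
        · intro c
          rw [smul_zero, map_zero]
          exact Submodule.zero_mem _
        · intro x y _ _ hx hy c
          rw [smul_add, map_add]
          exact Submodule.add_mem _ (hx c) (hy c)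
        · intro c' x _ hx c
          rw [smul_smul]
          exact hx _
      have h5 := key 1
      rwa [one_smul] at h5
  · intro g i w
    refine h1 fun i' => ?_
    exact hN.rel g i fun q => w (i', q)

end Vale.Agent.P200F.V

end

section

namespace Vale.Agent.P200F.V

open Module

universe u

variable {K : Type u} [Field K] {D : Type u} [DivisionRing D] [Algebra K D] {κ R : ℕ} {α π : Type}

theorem sh_cvi (γ : Mon κ R) (n n' : Fin R → ℕ) (m : Fin 1 → ℕ)
    (u : (α × MonN κ R n) × π → PA D κ 1) :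
    sh D γ n n' (cvi D κ 1 ((α × MonN κ R n) × π) m u) =
      cvi D κ 1 ((α × MonN κ R n') × π) m (sh D γ n n' u) := by
  classical
  funext J
  change (if h : γ ≤ J.1.2.1 ∧ mdeg (J.1.2.1 - γ) = n then
      cp D κ 1 m (u ((J.1.1, ⟨J.1.2.1 - γ, h.2⟩), J.2)) else 0) =
    cp D κ 1 m (if h : γ ≤ J.1.2.1 ∧ mdeg (J.1.2.1 - γ) = n then
      u ((J.1.1, ⟨J.1.2.1 - γ, h.2⟩), J.2) else 0)
  by_cases h : γ ≤ J.1.2.1 ∧ mdeg (J.1.2.1 - γ) = n
  · rw [dif_pos h, dif_pos h]
  · rw [dif_neg h, dif_neg h, map_zero]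

/-- the coefficients of a product with a monomial -/
theorem trD_coeff_add (γ m : Mon κ R) (P : PA D κ R) :
    (AddMonoidAlgebra.single γ (1 : D) * P).coeff (γ + m) = P.coeff m := by
  induction P using AddMonoidAlgebra.induction_linear with
  | zero => rw [mul_zero]; rfl
  | add f g hf hg =>
    rw [mul_add, AddMonoidAlgebra.coeff_add, AddMonoidAlgebra.coeff_add, Finsupp.add_apply,
      Finsupp.add_apply, hf, hg]
  | single m' d =>
    rw [AddMonoidAlgebra.single_mul_single, one_mul, AddMonoidAlgebra.coeff_single,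
      AddMonoidAlgebra.coeff_single]
    by_cases h : m' = m
    · rw [h, Finsupp.single_eq_same, Finsupp.single_eq_same]
    · rw [Finsupp.single_eq_of_ne (fun h' => h h'.symm),
        Finsupp.single_eq_of_ne (fun h' => h (add_left_cancel h').symm)]

/-- the coefficients of a product with a monomial which vanish -/
theorem trD_coeff_ne (γ m : Mon κ R) (h : ¬ γ ≤ m) (P : PA D κ R) :
    (AddMonoidAlgebra.single γ (1 : D) * P).coeff m = 0 := by
  induction P using AddMonoidAlgebra.induction_linear with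
  | zero => rw [mul_zero, AddMonoidAlgebra.coeff_zero]; rfl
  | add f g hf hg =>
    rw [mul_add, AddMonoidAlgebra.coeff_add, Finsupp.add_apply, hf, hg, add_zero]
  | single m' d =>
    rw [AddMonoidAlgebra.single_mul_single, one_mul, AddMonoidAlgebra.coeff_single,
      Finsupp.single_eq_of_ne]
    intro h'
    exact h (h' ▸ le_self_add)

/-- the row `γ1` becomes the row `γ1 + γ` -/
theorem trD_shift (γ γ1 m : Mon κ R) (h : γ ≤ m) (P : PA D κ R) :
    (AddMonoidAlgebra.single γ1 (1 : D) * P).coeff (m - γ) =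
      (AddMonoidAlgebra.single (γ1 + γ) (1 : D) * P).coeff m := by
  have h1 : AddMonoidAlgebra.single (γ1 + γ) (1 : D) * P =
      AddMonoidAlgebra.single γ (1 : D) * (AddMonoidAlgebra.single γ1 (1 : D) * P) := by
    rw [← mul_assoc, AddMonoidAlgebra.single_mul_single, one_mul, add_comm γ γ1]
  rw [h1]
  conv_rhs => rw [← add_tsub_cancel_of_le h]
  rw [trD_coeff_add]

theorem trD_shift_ne (γ γ1 m : Mon κ R) (h : ¬ γ ≤ m) (P : PA D κ R) :
    (AddMonoidAlgebra.single (γ1 + γ) (1 : D) * P).coeff m = 0 := by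
  refine trD_coeff_ne _ _ (fun h' => h (le_trans ?_ h')) _
  exact le_add_self

theorem trD_mdeg_sub {γ : Mon κ R} {n n' : Fin R → ℕ} (h : n' = n + mdeg γ) (m : MonN κ R n')
    (hm : γ ≤ m.1) : mdeg (m.1 - γ) = n := by
  have h3 := mdeg_add (m.1 - γ) γ
  rw [tsub_add_cancel_of_le hm, m.2] at h3
  exact (add_right_cancel (h.symm.trans h3)).symm

/-- Proof: copies of `N` go to copies of `N`; the row `(l, γ1)` goes to the row `(l, γ1 + γ)`:
`(single γ 1 * P).coeff γ2 = if γ ≤ γ2 then P.coeff (γ2 - γ) else 0`; the same for the rows of the relations. -/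
theorem sh_RSn (β : Fin R → Blk K κ) {L t p : ℕ} (N : Submodule (PA D κ 1) (Fin p → PA D κ 1))
    (f : Fin t → Fin p → D) (κc : Fin L → Fin t → α → PA K κ R) (γ : Mon κ R) (n n' : Fin R → ℕ)
    (h : n' = n + mdeg γ) (u : (α × MonN κ R n) × Fin p → PA D κ 1)
    (hu : u ∈ RSn β N f κc n) : sh D γ n n' u ∈ RSn β N f κc n' := by
  classical
  have hL : ∀ γ1 : Mon κ R, mdeg γ1 ≤ n → mdeg (γ1 + γ) ≤ n' := by
    intro γ1 h1
    rw [mdeg_add, h]
    exact add_le_add_left h1 _
  have key : RSn β N f κc n ≤ (RSn β N f κc n').comap (sh D γ n n') := by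
    unfold RSn RS
    refine sup_le ?_ (sup_le ?_ ?_)
    · intro w hw
      rw [Submodule.mem_comap]
      refine Submodule.mem_sup_left ?_
      intro i
      by_cases h1 : γ ≤ i.2.1 ∧ mdeg (i.2.1 - γ) = n
      · have h2 : (fun q => sh D γ n n' w (i, q)) = fun q => w ((i.1, ⟨i.2.1 - γ, h1.2⟩), q) := by
          funext q
          exact dif_pos h1
        rw [h2]
        exact hw _
      · have h2 : (fun q => sh D γ n n' w (i, q)) = 0 := by
          funext q
          exact dif_neg h1
        rw [h2]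
        exact N.zero_mem
    · rw [Submodule.span_le]
      rintro _ ⟨⟨l, γ1⟩, rfl⟩
      rw [SetLike.mem_coe, Submodule.mem_comap]
      refine Submodule.mem_sup_right (Submodule.mem_sup_left (Submodule.subset_span ?_))
      refine ⟨(l, ⟨γ1.1 + γ, hL _ γ1.2⟩), ?_⟩
      funext J
      by_cases h1 : γ ≤ J.1.2.1
      · have h2 : γ ≤ J.1.2.1 ∧ mdeg (J.1.2.1 - γ) = n := ⟨h1, trD_mdeg_sub h _ h1⟩
        refine Eq.trans ?_ (dif_pos h2).symm
        simp only [zz]
        refine congrArg _ (Finset.sum_congr rfl fun k _ => ?_)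
        rw [trD_shift (D := K) γ γ1.1 _ h1]
      · refine Eq.trans ?_ (dif_neg (fun h2 => h1 h2.1)).symm
        simp only [zz]
        have h3 : ∑ k, algebraMap K D ((AddMonoidAlgebra.single (γ1.1 + γ) (1 : K) *
            κc l k J.1.1).coeff J.1.2.1) * f k J.2 = 0 := by
          refine Finset.sum_eq_zero fun k _ => ?_
          rw [trD_shift_ne (D := K) γ γ1.1 _ h1, map_zero, zero_mul]
        rw [h3]
        exact AddMonoidAlgebra.single_zero _
    · rw [Submodule.span_le]
      rintro _ ⟨⟨gi, ⟨ps, γ1⟩⟩, b, rfl⟩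
      rw [SetLike.mem_coe, Submodule.mem_comap]
      refine Submodule.mem_sup_right (Submodule.mem_sup_right (Submodule.subset_span ?_))
      refine ⟨(gi, (ps, ⟨γ1.1 + γ, hL _ γ1.2⟩)), b, ?_⟩
      funext J
      by_cases h1 : γ ≤ J.1.2.1
      · have h2 : γ ≤ J.1.2.1 ∧ mdeg (J.1.2.1 - γ) = n := ⟨h1, trD_mdeg_sub h _ h1⟩
        refine (dif_pos h2).trans ?_
        simp only [aa]
        rw [trD_shift (D := K) γ γ1.1 _ h1]
      · refine (dif_neg (fun h2 => h1 h2.1)).trans ?_
        simp only [aa]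
        rw [trD_shift_ne (D := K) γ γ1.1 _ h1, ite_self, map_zero]
        have h3 : cpo D κ 1 (0 : D) = 0 := AddMonoidAlgebra.single_zero _
        rw [h3, zero_mul]
  exact key hu

end Vale.Agent.P200F.V

end

section

namespace Vale.Agent.P200F.V

open Module

universe u

variable {K : Type u} [Field K] {D : Type u} [DivisionRing D] [Algebra K D] {κ R : ℕ} {α : Type}

theorem jm_mapDomain (g : Fin R) (s : Fin (κ + 2) →₀ ℕ) :
    jm 0 (Finsupp.mapDomain (fun v => (g, v)) s : Mon κ R) =
      (Finsupp.mapDomain (fun v => (Fin.succ g, v)) s : Mon κ (R + 1)) := by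
  induction s using Finsupp.induction_linear with
  | zero =>
    rw [Finsupp.mapDomain_zero, Finsupp.mapDomain_zero]
    exact (jmHom κ R).map_zero
  | add s t hs ht =>
    rw [Finsupp.mapDomain_add, Finsupp.mapDomain_add, ← hs, ← ht, ← jm_add, add_zero]
  | single v k =>
    rw [Finsupp.mapDomain_single, Finsupp.mapDomain_single]
    ext ⟨g', ε⟩
    refine Fin.cases ?_ (fun g' => ?_) g'
    · rw [jm_zero, Finsupp.single_apply, if_neg]
      · rfl
      · intro h
        exact Fin.succ_ne_zero g (Prod.mk.inj h).1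
    · rw [jm_succ, Finsupp.single_apply, Finsupp.single_apply]
      simp only [Prod.mk.injEq, Fin.succ_inj]

theorem bm_monomial (g : Fin R) (s : Fin (κ + 2) →₀ ℕ) (k : K) :
    bm K D κ g (MvPolynomial.monomial s k) =
      AddMonoidAlgebra.single (Finsupp.mapDomain (fun v => (g, v)) s) (algebraMap K D k) := by
  rw [bm, AlgHom.comp_apply]
  have h2 : (AddMonoidAlgebra.mapDomainAlgHom K K
      (Finsupp.mapDomain.addMonoidHom fun v : Fin (κ + 2) => (g, v)))
        (MvPolynomial.monomial s k : MvPolynomial (Fin (κ + 2)) K) =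
      (AddMonoidAlgebra.single (Finsupp.mapDomain (fun v => (g, v)) s) k :
        AddMonoidAlgebra K (Mon κ R)) := by
    change AddMonoidAlgebra.mapDomain _ (AddMonoidAlgebra.single s k) = _
    rw [AddMonoidAlgebra.mapDomain_single]
    rfl
  rw [h2, AddMonoidAlgebra.mapAlgHom_single]
  rfl

theorem cpo_mul (d : D) (u : PA D κ R) : cpo D κ R d * u = d • u := by
  induction u using AddMonoidAlgebra.induction_linear with
  | zero => rw [mul_zero, smul_zero]
  | add f g hf hg => rw [mul_add, smul_add, hf, hg]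
  | single m e =>
    rw [cpo, AddMonoidAlgebra.single_mul_single, zero_add, AddMonoidAlgebra.smul_single]
    rfl

theorem single_jm (m : Mon κ R) (d : D) (u : PA D κ (R + 1)) :
    (AddMonoidAlgebra.single (jm 0 m) d : PA D κ (R + 1)) * u = d • (tm D m * u) := by
  rw [← smul_mul_assoc, tm, AddMonoidAlgebra.smul_single, smul_eq_mul, mul_one]

/-- the slices of a multiple of the image of a polynomial in a block different from `0` -/
theorem sl_bm_mul (n : Fin R → ℕ) [Fintype (MonL κ R n)] (γ : MonN κ R n) (g : Fin R)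
    (p : MvPolynomial (Fin (κ + 2)) K) (u : PA D κ (R + 1)) :
    sl D γ.1 (bm K D κ (Fin.succ g) p * u) = ∑ γ1 : MonL κ R n,
      cpo D κ 1 (algebraMap K D
        ((AddMonoidAlgebra.single γ1.1 (1 : K) * bm K K κ g p).coeff γ.1)) * sl D γ1.1 u := by
  classical
  induction p using MvPolynomial.induction_on' with
  | add p q hp hq =>
    rw [map_add, add_mul, map_add, hp, hq, ← Finset.sum_add_distrib]
    refine Finset.sum_congr rfl fun γ1 _ => ?_
    rw [map_add, mul_add, AddMonoidAlgebra.coeff_add, Finsupp.add_apply, map_add, cpo_mul, cpo_mul,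
      cpo_mul, add_smul]
  | monomial s k =>
    rw [bm_monomial, bm_monomial, ← jm_mapDomain]
    set m : Mon κ R := Finsupp.mapDomain (fun v => (g, v)) s with hm
    rw [single_jm, map_smul]
    have hco : ∀ γ1 : MonL κ R n, (AddMonoidAlgebra.single γ1.1 (1 : K) *
        AddMonoidAlgebra.single m (algebraMap K K k)).coeff γ.1 = if γ1.1 + m = γ.1 then k else 0 := by
      intro γ1
      rw [AddMonoidAlgebra.single_mul_single, one_mul]
      exact Finsupp.single_apply
    simp only [hco, cpo_mul]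
    by_cases hγ : m ≤ γ.1
    · have h1 : γ.1 - m + m = γ.1 := tsub_add_cancel_of_le hγ
      have h2 : mdeg (γ.1 - m) ≤ n := by
        have h3 := mdeg_add (γ.1 - m) m
        rw [h1, γ.2] at h3
        exact le_of_le_of_eq le_self_add h3.symm
      rw [Finset.sum_eq_single (⟨γ.1 - m, h2⟩ : MonL κ R n)]
      · rw [if_pos h1]
        congr 1
        conv_lhs => rw [← h1]
        exact sl_tm_mul _ _ _ _
      · intro γ1 _ hne
        rw [if_neg, map_zero, zero_smul]
        intro h
        apply hne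
        apply Subtype.ext
        exact eq_tsub_of_add_eq h
      · intro h
        exact absurd (Finset.mem_univ _) h
    · rw [sl_tm_mul_ne _ _ _ hγ, smul_zero]
      symm
      refine Finset.sum_eq_zero fun γ1 _ => ?_
      rw [if_neg, map_zero, zero_smul]
      intro h
      exact hγ (h ▸ le_add_self)

/-- Proof: with `ρ = bm K K κ g rel`,
`slp n (bm .. • w) ((i, γ2), q) = ∑_(γ1 ≤ γ2) ρ.coeff (γ2 - γ1) • sl γ1 (w (i, q))`, so that
`slp n (bm .. • w)` is the sum over `(i, γ1) : α × MonL κ R n` of the rows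
`fun W => cpo (aa β n ((g, i'), (i, γ1)) W.1) * b W.2`, `b q = sl γ1 (w (i, q))`. -/
theorem slp_rel_mem [Finite α] (β : Fin R → Blk K κ) {L t p : ℕ}
    (N : Submodule (PA D κ 1) (Fin p → PA D κ 1))
    (f : Fin t → Fin p → D) (κc : Fin L → Fin t → α → PA K κ R) (g : Fin R) (i : Fin κ)
    (n : Fin R → ℕ) (w : α × Fin p → PA D κ (R + 1)) :
    slp D n (bm K D κ (Fin.succ g) ((β g).rel i) • w) ∈ RSn β N f κc n := by
  classical
  let _ := Fintype.ofFinite α
  let _ := Fintype.ofFinite (MonL κ R n)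
  have key : slp D n (bm K D κ (Fin.succ g) ((β g).rel i) • w) =
      ∑ j : α × MonL κ R n, fun W : (α × MonN κ R n) × Fin p =>
        cpo D κ 1 (algebraMap K D (aa β n ((g, i), j) W.1)) * sl D j.2.1 (w (j.1, W.2)) := by
    funext J
    obtain ⟨⟨i', γ⟩, q⟩ := J
    change sl D γ.1 (bm K D κ (Fin.succ g) ((β g).rel i) * w (i', q)) = _
    rw [sl_bm_mul, Finset.sum_apply, Fintype.sum_prod_type, Finset.sum_eq_single i']
    · refine Finset.sum_congr rfl fun γ1 _ => ?_
      simp only [aa, if_true]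
    · intro i'' _ hne
      refine Finset.sum_eq_zero fun γ1 _ => ?_
      simp only [aa, if_neg hne]
      rw [map_zero, cpo_mul, zero_smul]
    · intro h
      exact absurd (Finset.mem_univ _) h
  rw [key]
  refine Submodule.sum_mem _ fun j _ => ?_
  refine Submodule.mem_sup_right (Submodule.mem_sup_right (Submodule.subset_span ?_))
  exact ⟨((g, i), j), fun q => sl D j.2.1 (w (j.1, q)), rfl⟩

end Vale.Agent.P200F.V

end

section

namespace Vale.Agent.P200F.V

open Module

universe u

variable {K : Type u} [Field K] {E : Type u} [DivisionRing E] [Algebra K E] {κ R : ℕ} {α : Type}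

/-- the vector of polynomials `∑ k, κc k * u k` -/
noncomputable def gn (E : Type u) [DivisionRing E] [Algebra K E] {t : ℕ} (u : Fin t → E)
    (κc : Fin t → α → PA K κ R) (i : α) : PA E κ R :=
  ∑ k, AddMonoidAlgebra.mapRingHom (Mon κ R) (algebraMap K E) (κc k i) * cpo E κ R (u k)

theorem trf_sum (a : PA E κ R) (S : Finset (Mon κ R)) (hS : ∀ m, a.coeff m ≠ 0 → m ∈ S) :
    ∑ m ∈ S, AddMonoidAlgebra.single m (a.coeff m) = a := by
  classical
  apply AddMonoidAlgebra.ext
  ext m
  rw [AddMonoidAlgebra.coeff_sum, Finsupp.finsetSum_apply]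
  by_cases h : m ∈ S
  · rw [Finset.sum_eq_single m]
    · exact Finsupp.single_eq_same
    · intro m' _ h'
      exact Finsupp.single_eq_of_ne h'.symm
    · intro h'
      exact absurd h h'
  · rw [Finset.sum_eq_zero]
    · by_contra h'
      exact h (hS m (Ne.symm h'))
    · intro m' hm'
      refine Finsupp.single_eq_of_ne ?_
      rintro rfl
      exact h hm'

/-- Proof: `PA E κ R` is noetherian (`U/Noeth`); the `u k` are all coefficients of the generators, the
`κc l k i` are monomials or zero. -/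
theorem exists_gn [Finite α] {β : Fin R → Blk K κ} {N : Submodule (PA E κ R) (α → PA E κ R)}
    (hN : IsGi β N) :
    ∃ (L t : ℕ) (u : Fin t → E) (κc : Fin L → Fin t → α → PA K κ R),
      N = Submodule.span (PA E κ R) (Set.range fun l => gn E u (κc l)) := by
  classical
  have := Fintype.ofFinite α
  have h0 : IsNoetherianRing (PA E κ R) := U.isNoetherianRing_pa
  have h1 : IsNoetherian (PA E κ R) (α → PA E κ R) := inferInstance
  obtain ⟨L, v, hv⟩ := Submodule.fg_iff_exists_fin_generating_family.1 (h1.noetherian N)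
  let S : Finset (Mon κ R) :=
    Finset.univ.biUnion fun l : Fin L => Finset.univ.biUnion fun i : α => (v l i).coeff.support
  have hS : ∀ l i m, (v l i).coeff m ≠ 0 → m ∈ S := by
    intro l i m hm
    simp only [S, Finset.mem_biUnion]
    exact ⟨l, Finset.mem_univ _, i, Finset.mem_univ _, Finsupp.mem_support_iff.2 hm⟩
  obtain ⟨t, ⟨e⟩⟩ := Finite.exists_equiv_fin (Fin L × α × S)
  refine ⟨L, t, fun k => (v (e.symm k).1 (e.symm k).2.1).coeff (e.symm k).2.2.1,
    fun l k i => if (e.symm k).1 = l ∧ (e.symm k).2.1 = i then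
      AddMonoidAlgebra.single (e.symm k).2.2.1 1 else 0, ?_⟩
  rw [← hv]
  congr 2
  funext l
  funext i
  rw [gn]
  rw [← Equiv.sum_comp e]
  simp only [Equiv.symm_apply_apply]
  rw [Fintype.sum_prod_type, Finset.sum_eq_single l]
  · rw [Fintype.sum_prod_type, Finset.sum_eq_single i]
    · rw [← trf_sum (v l i) S (hS l i), ← Finset.sum_coe_sort]
      refine Finset.sum_congr rfl fun m _ => ?_
      rw [if_pos ⟨rfl, rfl⟩]
      have h2 : AddMonoidAlgebra.mapRingHom (Mon κ R) (algebraMap K E)
          (AddMonoidAlgebra.single m.1 (1 : K)) = AddMonoidAlgebra.single m.1 (1 : E) := by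
        rw [AddMonoidAlgebra.mapRingHom_single, map_one]
      rw [h2, cpo, AddMonoidAlgebra.single_mul_single, add_zero, one_mul]
    · intro i' _ h'
      refine Finset.sum_eq_zero fun m _ => ?_
      rw [if_neg (fun h2 => h' h2.2), map_zero, zero_mul]
    · intro h'
      exact absurd (Finset.mem_univ _) h'
  · intro l' _ h'
    refine Finset.sum_eq_zero fun p _ => ?_
    rw [if_neg (fun h2 => h' h2.1), map_zero, zero_mul]
  · intro h'
    exact absurd (Finset.mem_univ _) h'

section qdi

theorem trf_cp_coeff (n : Fin R → ℕ) (u : PA E κ R) (m : Mon κ R) :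
    (cp E κ R n u).coeff m = open scoped Classical in if mdeg m = n then u.coeff m else 0 := by
  classical
  change (u.coeff.filter fun m => mdeg m = n) m = _
  rw [Finsupp.filter_apply]

theorem trf_cvi_mem (n : Fin R → ℕ) (u : α → PA E κ R) : cvi E κ R α n u ∈ pvi E κ R α n := by
  classical
  intro i m hm
  change (cp E κ R n (u i)).coeff m ≠ 0 at hm
  rw [trf_cp_coeff] at hm
  by_contra h
  rw [if_neg h] at hm
  exact hm rfl

theorem trf_co_cvi (n : Fin R → ℕ) (x : α → PA E κ R) :
    cof E n (cvi E κ R α n x) = cof E n x := by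
  classical
  funext w
  change (cp E κ R n (x w.1)).coeff w.2.1 = (x w.1).coeff w.2.1
  rw [trf_cp_coeff, if_pos w.2.2]

theorem trf_co_inj {n : Fin R → ℕ} {u : α → PA E κ R} (hu : u ∈ pvi E κ R α n)
    (h : cof E n u = 0) : u = 0 := by
  funext i
  apply AddMonoidAlgebra.ext
  ext m
  by_contra h'
  have h1 : mdeg m = n := hu i m h'
  exact h' (congrFun h (i, ⟨m, h1⟩))

theorem trf_co_surj (n : Fin R → ℕ) (c : α × MonN κ R n → E) :
    ∃ u ∈ pvi E κ R α n, cof E n u = c := by
  classical
  refine ⟨fun i => AddMonoidAlgebra.ofCoeff (Finsupp.mapDomain (fun m : MonN κ R n => m.1)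
    (Finsupp.equivFunOnFinite.symm fun m => c (i, m))), ?_, ?_⟩
  · intro i m hm
    by_contra h
    refine hm ?_
    refine Finsupp.mapDomain_of_notMem_range _ _ ?_
    rintro ⟨m', hm'⟩
    exact h (hm' ▸ m'.2)
  · funext p
    change (Finsupp.mapDomain (fun m : MonN κ R n => m.1)
      (Finsupp.equivFunOnFinite.symm fun m => c (p.1, m))) p.2.1 = c p
    rw [Finsupp.mapDomain_apply (f := fun m : MonN κ R n => m.1) (fun a b h => Subtype.ext h)]
    rfl

/-- the dimension of the quotient in degree `n`, in coordinates -/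
theorem trf_qdi [Finite α] (N : Submodule (PA E κ R) (α → PA E κ R)) (n : Fin R → ℕ) :
    qdi N n = finrank E ((α × MonN κ R n → E) ⧸
      (pvi E κ R α n ⊓ N.restrictScalars E : Submodule E _).map (cof E n)) := by
  have hinj : Function.Injective
      ((cof E n).domRestrict (pvi E κ R α n)) := by
    rw [injective_iff_map_eq_zero]
    intro u hu
    exact Subtype.ext (trf_co_inj u.2 hu)
  have h1 : finrank E (pvi E κ R α n) = finrank E (α × MonN κ R n → E) := by
    refine LinearEquiv.finrank_eq (LinearEquiv.ofBijective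
      ((cof E n).domRestrict (pvi E κ R α n)) ⟨hinj, fun c => ?_⟩)
    obtain ⟨u, hu, huc⟩ := trf_co_surj n c
    exact ⟨⟨u, hu⟩, huc⟩
  have h2 : finrank E (pvi E κ R α n ⊓ N.restrictScalars E : Submodule E _) =
      finrank E ((pvi E κ R α n ⊓ N.restrictScalars E : Submodule E _).map (cof E n)) := by
    refine LinearEquiv.finrank_eq (LinearEquiv.ofBijective
      (((cof E n).domRestrict
        (pvi E κ R α n ⊓ N.restrictScalars E : Submodule E _)).codRestrict
        ((pvi E κ R α n ⊓ N.restrictScalars E : Submodule E _).map (cof E n)) fun u =>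
        Submodule.mem_map_of_mem (f := cof E n) u.2) ⟨?_, ?_⟩)
    · rw [injective_iff_map_eq_zero]
      intro u hu
      exact Subtype.ext (trf_co_inj u.2.1 (congrArg Subtype.val hu))
    · rintro ⟨_, u, hu, rfl⟩
      exact ⟨⟨u, hu⟩, rfl⟩
  have h3 := Submodule.finrank_quotient_add_finrank
    ((pvi E κ R α n ⊓ N.restrictScalars E : Submodule E _).map (cof E n))
  rw [qdi, h1, h2]
  omega

theorem trf_bm_coeff (g : Fin R) (P : MvPolynomial (Fin (κ + 2)) K) :
    bm K E κ g P = AddMonoidAlgebra.mapRingHom (Mon κ R) (algebraMap K E) (bm K K κ g P) := by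
  apply AddMonoidAlgebra.ext
  ext m
  rw [bm, bm, AlgHom.comp_apply, AlgHom.comp_apply, AddMonoidAlgebra.coeff_mapAlgHom]
  rfl

/-- the coefficients of a product with a constant on the right -/
theorem trf_mul_cpo (a : PA E κ R) (d : E) (m : Mon κ R) :
    (a * cpo E κ R d).coeff m = a.coeff m * d := by
  rw [cpo, AddMonoidAlgebra.coeff_mul_single_zero]

/-- the row of `single γ 1 • gn` -/
theorem trf_row {t : ℕ} (u : Fin t → E) {L : ℕ} (κc : Fin L → Fin t → α → PA K κ R)
    (n : Fin R → ℕ) (j : Fin L × MonL κ R n) :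
    (fun I : α × MonN κ R n => ∑ k, algebraMap K E (zz κc n j I k) * u k) =
      cof E n ((AddMonoidAlgebra.single j.2.1 (1 : E) : PA E κ R) • gn E u (κc j.1)) := by
  funext I
  change _ = ((AddMonoidAlgebra.single j.2.1 (1 : E) : PA E κ R) *
    ∑ k, AddMonoidAlgebra.mapRingHom (Mon κ R) (algebraMap K E) (κc j.1 k I.1) *
      cpo E κ R (u k)).coeff I.2.1
  rw [Finset.mul_sum, AddMonoidAlgebra.coeff_sum, Finsupp.finsetSum_apply]
  refine Finset.sum_congr rfl fun k _ => ?_
  rw [← mul_assoc, trf_mul_cpo]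
  congr 1
  have h1 : (AddMonoidAlgebra.single j.2.1 (1 : E) : PA E κ R) =
      AddMonoidAlgebra.mapRingHom (Mon κ R) (algebraMap K E)
        (AddMonoidAlgebra.single j.2.1 (1 : K)) := by
    rw [AddMonoidAlgebra.mapRingHom_single, map_one]
  rw [h1, ← map_mul]
  rfl

theorem trf_map_coeff (a : PA K κ R) (m : Mon κ R) :
    (AddMonoidAlgebra.mapRingHom (Mon κ R) (algebraMap K E) a).coeff m =
      algebraMap K E (a.coeff m) := by
  rw [AddMonoidAlgebra.coeff_mapRingHom]

/-- the row of `single γ 1 • bm .. • single i 1` -/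
theorem trf_row2 [DecidableEq α] (β : Fin R → Blk K κ) (n : Fin R → ℕ)
    (j : (Fin R × Fin κ) × (α × MonL κ R n)) :
    (fun I : α × MonN κ R n => algebraMap K E (aa β n j I)) =
      cof E n ((AddMonoidAlgebra.single j.2.2.1 (1 : E) : PA E κ R) •
        (bm K E κ j.1.1 ((β j.1.1).rel j.1.2) • (Pi.single j.2.1 1 : α → PA E κ R))) := by
  funext I
  change _ = ((AddMonoidAlgebra.single j.2.2.1 (1 : E) : PA E κ R) *
    (bm K E κ j.1.1 ((β j.1.1).rel j.1.2) * (Pi.single j.2.1 1 : α → PA E κ R) I.1)).coeff I.2.1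
  by_cases h : j.2.1 = I.1
  · rw [aa, if_pos h, ← h, Pi.single_eq_same, mul_one, ← trf_map_coeff, map_mul,
      ← trf_bm_coeff, AddMonoidAlgebra.mapRingHom_single, map_one]
  · rw [aa, if_neg h, Pi.single_eq_of_ne (Ne.symm h), mul_zero, mul_zero, map_zero]
    rfl

/-- Proof: the image of `N` under `cof n` is the span of the rows: `cof n (c • gn l)` is a combination of
the `cof n (single γ 1 • gn l)`, `mdeg γ ≤ n`; conversely `cof n v = cof n (cvi n v)` and `cvi n v ∈ N`.
`cof n` is a bijection from `pvi n` to `α × MonN κ R n → E`. -/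
theorem qdi_eq_finrank [Finite α] {β : Fin R → Blk K κ} {N : Submodule (PA E κ R) (α → PA E κ R)}
    (hN : IsGi β N) {L t : ℕ} (u : Fin t → E) (κc : Fin L → Fin t → α → PA K κ R)
    (hκ : N = Submodule.span (PA E κ R) (Set.range fun l => gn E u (κc l))) (n : Fin R → ℕ) :
    qdi N n = finrank E ((α × MonN κ R n → E) ⧸
      (Submodule.span E (Set.range fun (j : Fin L × MonL κ R n) (I : α × MonN κ R n) =>
          ∑ k, algebraMap K E (zz κc n j I k) * u k) ⊔
        Submodule.span E (Set.range fun (j : (Fin R × Fin κ) × (α × MonL κ R n))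
          (I : α × MonN κ R n) => algebraMap K E (aa β n j I)))) := by
  classical
  have hmem : ∀ x ∈ N, cof E n x ∈
      (pvi E κ R α n ⊓ N.restrictScalars E : Submodule E _).map (cof E n) := by
    intro x hx
    rw [← trf_co_cvi]
    exact Submodule.mem_map_of_mem ⟨trf_cvi_mem n x, hN.hom x hx n⟩
  have heq : (pvi E κ R α n ⊓ N.restrictScalars E : Submodule E _).map (cof E n) =
      Submodule.span E (Set.range fun (j : Fin L × MonL κ R n) (I : α × MonN κ R n) =>
          ∑ k, algebraMap K E (zz κc n j I k) * u k) ⊔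
        Submodule.span E (Set.range fun (j : (Fin R × Fin κ) × (α × MonL κ R n))
          (I : α × MonN κ R n) => algebraMap K E (aa β n j I)) := by
    apply le_antisymm
    · refine le_trans ?_ le_sup_left
      rintro _ ⟨x, ⟨_, hx⟩, rfl⟩
      have hx' : x ∈ N := hx
      rw [hκ, Submodule.mem_span_range_iff_exists_fun] at hx'
      obtain ⟨c, hc⟩ := hx'
      have h1 : ∀ (b : PA E κ R) (l : Fin L), cof E n (b • gn E u (κc l)) ∈
          Submodule.span E (Set.range fun (j : Fin L × MonL κ R n) (I : α × MonN κ R n) =>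
            ∑ k, algebraMap K E (zz κc n j I k) * u k) := by
        intro b l
        induction b using AddMonoidAlgebra.induction_linear with
        | zero =>
          rw [zero_smul, map_zero]
          exact Submodule.zero_mem _
        | add f g hf hg =>
          rw [add_smul, map_add]
          exact Submodule.add_mem _ hf hg
        | single γ d =>
          have h2 : (AddMonoidAlgebra.single γ d : PA E κ R) • gn E u (κc l) =
              d • ((AddMonoidAlgebra.single γ (1 : E) : PA E κ R) • gn E u (κc l)) := by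
            funext i
            change AddMonoidAlgebra.single γ d * gn E u (κc l) i =
              d • (AddMonoidAlgebra.single γ (1 : E) * gn E u (κc l) i)
            rw [← smul_mul_assoc, AddMonoidAlgebra.smul_single, smul_eq_mul, mul_one]
          rw [h2, map_smul]
          refine Submodule.smul_mem _ _ ?_
          by_cases h : mdeg γ ≤ n
          · refine Submodule.subset_span ⟨(l, ⟨γ, h⟩), ?_⟩
            exact trf_row u κc n (l, ⟨γ, h⟩)
          · have h3 : cof E n ((AddMonoidAlgebra.single γ (1 : E) : PA E κ R) • gn E u (κc l)) =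
                0 := by
              funext I
              change (AddMonoidAlgebra.single γ (1 : E) * gn E u (κc l) I.1).coeff I.2.1 = 0
              rw [AddMonoidAlgebra.coeff_single_mul_of_forall_add_ne]
              intro m' hm'
              refine h ?_
              rw [← I.2.2, ← hm', mdeg_add]
              exact le_self_add
            rw [h3]
            exact Submodule.zero_mem _
      rw [← hc, map_sum]
      exact Submodule.sum_mem _ fun l _ => h1 (c l) l
    · refine sup_le ?_ ?_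
      · rw [Submodule.span_le]
        rintro _ ⟨j, rfl⟩
        have h1 := trf_row (E := E) u κc n j
        rw [SetLike.mem_coe]
        beta_reduce
        rw [h1]
        refine hmem _ (N.smul_mem _ ?_)
        rw [hκ]
        exact Submodule.subset_span ⟨j.1, rfl⟩
      · rw [Submodule.span_le]
        rintro _ ⟨j, rfl⟩
        have h1 := trf_row2 (E := E) β n j
        rw [SetLike.mem_coe]
        beta_reduce
        rw [h1]
        exact hmem _ (N.smul_mem _ (hN.rel _ _ _))
  rw [trf_qdi, heq]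

end qdi

end Vale.Agent.P200F.V

end

section

namespace Vale.Agent.P200F.V

open Module

universe u

theorem lam_sub {κ : ℕ} (R : ℕ) (e : Fin R → Fin κ → ℕ) (f g : (Fin R → ℤ) → ℤ) (hf : Lam R e f)
    (hg : Lam R e g) : Lam R e (f - g) := by
  induction R with
  | zero => exact (lam_zero e _).2 trivial
  | succ R ih =>
    rw [lam_succ] at hf hg ⊢
    obtain ⟨A, B, hA, hB, h⟩ := hf
    obtain ⟨A', B', hA', hB', h'⟩ := hg
    refine ⟨A - A', B - B', ih _ _ _ hA hA', ih _ _ _ hB hB', fun n => ?_⟩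
    rw [Pi.sub_apply, Pi.sub_apply, Pi.sub_apply, h, h']
    ring

end Vale.Agent.P200F.V

end
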