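import Vale.Agent.P200F.Ns
import Vale.Agent.P200F.A1

set_option linter.all false

section

set_option linter.all false

namespace Vale.Agent.P200F.V

open Module MvPolynomial

universe u v

section gr
variable {k : Type u} [Field k] {σ ι J J' : Type} [AddCommGroup ι]

/-- the degree of a monomial -/
def dg (wt : σ → ι) (e : σ →₀ ℕ) : ι := e.sum fun v m => m • wt v

/-- the vectors of degree `ν` -/
def gp (k : Type u) [Field k] (wt : σ → ι) (sh : J → ι) (ν : ι) :
    Submodule k (J → MvPolynomial σ k) where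
  carrier := {f | ∀ j e, coeff e (f j) ≠ 0 → dg wt e + sh j = ν}
  add_mem' := by
    intro a b ha hb j e he
    by_contra h
    rw [Pi.add_apply, coeff_add, of_not_not (fun h' => h (ha j e h')),
      of_not_not (fun h' => h (hb j e h')), add_zero] at he
    exact he rfl
  zero_mem' := by
    intro j e he
    rw [Pi.zero_apply, coeff_zero] at he
    exact absurd rfl he
  smul_mem' := by
    intro c a ha j e he
    by_contra h
    rw [Pi.smul_apply, coeff_smul, of_not_not (fun h' => h (ha j e h')), smul_zero] at he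
    exact he rfl

open scoped Classical in
/-- the component of degree `ν` -/
noncomputable def cmp (wt : σ → ι) (sh : J → ι) (ν : ι) (f : J → MvPolynomial σ k) :
    J → MvPolynomial σ k :=
  fun j => ∑ e ∈ (f j).support with dg wt e + sh j = ν, monomial e (coeff e (f j))

/-- homogeneous submodules -/
def HomS (wt : σ → ι) (sh : J → ι)
    (A : Submodule (MvPolynomial σ k) (J → MvPolynomial σ k)) : Prop :=
  ∀ f ∈ A, ∀ ν, cmp wt sh ν f ∈ A

/-- the part of degree `ν` -/
noncomputable def gpart (wt : σ → ι) (sh : J → ι)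
    (A : Submodule (MvPolynomial σ k) (J → MvPolynomial σ k)) (ν : ι) :
    Submodule k (J → MvPolynomial σ k) :=
  A.restrictScalars k ⊓ gp k wt sh ν

/-- the dimension in degree `ν` -/
noncomputable def hd (wt : σ → ι) (sh : J → ι)
    (A : Submodule (MvPolynomial σ k) (J → MvPolynomial σ k)) (ν : ι) : ℕ :=
  finrank k (gpart wt sh A ν)

/-- a linear map of degree `δ` -/
def IsDeg (wt : σ → ι) (sh : J → ι) (sh' : J' → ι) (δ : ι)
    (φ : (J → MvPolynomial σ k) →ₗ[MvPolynomial σ k] (J' → MvPolynomial σ k)) : Prop :=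
  ∀ ν, ∀ f ∈ gp k wt sh ν, φ f ∈ gp k wt sh' (ν + δ)

/-- the elements of `A` which `φ` maps into `C` -/
noncomputable def kerIn (φ : (J → MvPolynomial σ k) →ₗ[MvPolynomial σ k] (J' → MvPolynomial σ k))
    (A : Submodule (MvPolynomial σ k) (J → MvPolynomial σ k))
    (C : Submodule (MvPolynomial σ k) (J' → MvPolynomial σ k)) :
    Submodule (MvPolynomial σ k) (J → MvPolynomial σ k) := A ⊓ C.comap φ

end gr

section gr
variable {k : Type u} [Field k] {σ ι J J' : Type} [Fintype σ] [Fintype J] [Fintype J']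
  [AddCommGroup ι] {wt : σ → ι} {sh : J → ι} {sh' : J' → ι}

theorem dg_add (wt : σ → ι) (e e' : σ →₀ ℕ) : dg wt (e + e') = dg wt e + dg wt e' := by
  unfold dg
  exact Finsupp.sum_add_index' (fun _ => zero_smul _ _) (fun _ _ _ => add_smul _ _ _)

theorem dg_single (wt : σ → ι) (v : σ) : dg wt (Finsupp.single v 1) = wt v := by
  have h : (0 : ℕ) • wt v = 0 := zero_smul ℕ (wt v)
  have h2 := Finsupp.sum_single_index (a := v) (b := 1) (h := fun (v : σ) (m : ℕ) => m • wt v) h
  unfold dg
  rw [h2, one_smul]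

open scoped Classical in
theorem coeff_cmp (ν : ι) (f : J → MvPolynomial σ k) (j : J) (e : σ →₀ ℕ) :
    coeff e (cmp wt sh ν f j) = if dg wt e + sh j = ν then coeff e (f j) else 0 := by
  unfold cmp
  rw [coeff_sum]
  simp only [coeff_monomial]
  rw [Finset.sum_ite_eq']
  simp only [Finset.mem_filter, MvPolynomial.mem_support_iff]
  by_cases h1 : dg wt e + sh j = ν
  · rw [if_pos h1]
    by_cases h2 : coeff e (f j) = 0
    · rw [h2]
      simp
    · rw [if_pos ⟨h2, h1⟩]
  · rw [if_neg h1, if_neg (fun h => h1 h.2)]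

theorem cmp_mem_gp (ν : ι) (f : J → MvPolynomial σ k) : cmp wt sh ν f ∈ gp k wt sh ν := by
  intro j e he
  rw [coeff_cmp] at he
  by_contra h
  rw [if_neg h] at he
  exact he rfl

theorem cmp_eq_self {ν : ι} {f : J → MvPolynomial σ k} (hf : f ∈ gp k wt sh ν) :
    cmp wt sh ν f = f := by
  funext j
  ext e
  rw [coeff_cmp]
  by_cases h : coeff e (f j) = 0
  · rw [h]
    simp
  · rw [if_pos (hf j e h)]

theorem cmp_eq_zero_of_ne {ν μ : ι} {f : J → MvPolynomial σ k} (hf : f ∈ gp k wt sh μ) (h : μ ≠ ν) :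
    cmp wt sh ν f = 0 := by
  funext j
  ext e
  rw [coeff_cmp, Pi.zero_apply, coeff_zero]
  by_cases h1 : coeff e (f j) = 0
  · rw [h1]
    simp
  · rw [if_neg]
    intro h2
    exact h ((hf j e h1).symm.trans h2)

theorem cmp_add (ν : ι) (f g : J → MvPolynomial σ k) :
    cmp wt sh ν (f + g) = cmp wt sh ν f + cmp wt sh ν g := by
  funext j
  ext e
  rw [Pi.add_apply, coeff_add, coeff_cmp, coeff_cmp, coeff_cmp, Pi.add_apply, coeff_add]
  split_ifs
  · rfl
  · rw [add_zero]

theorem cmp_zero (ν : ι) : cmp wt sh ν (0 : J → MvPolynomial σ k) = 0 := by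
  funext j
  ext e
  rw [coeff_cmp]
  simp

theorem cmp_sum {α : Type*} (S : Finset α) (ν : ι) (g : α → J → MvPolynomial σ k) :
    cmp wt sh ν (∑ a ∈ S, g a) = ∑ a ∈ S, cmp wt sh ν (g a) := by
  classical
  induction S using Finset.induction_on with
  | empty => rw [Finset.sum_empty, Finset.sum_empty, cmp_zero]
  | insert a S ha ih => rw [Finset.sum_insert ha, Finset.sum_insert ha, cmp_add, ih]

/-- a vector is the sum of its components -/
theorem exists_sum_cmp (f : J → MvPolynomial σ k) :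
    ∃ S : Finset ι, f = ∑ ν ∈ S, cmp wt sh ν f ∧ ∀ ν ∉ S, cmp wt sh ν f = 0 := by
  classical
  let S : Finset ι := Finset.univ.biUnion fun j => (f j).support.image fun e => dg wt e + sh j
  have hS : ∀ j e, coeff e (f j) ≠ 0 → dg wt e + sh j ∈ S := by
    intro j e he
    exact Finset.mem_biUnion.2 ⟨j, Finset.mem_univ j, Finset.mem_image.2 ⟨e, MvPolynomial.mem_support_iff.2 he, rfl⟩⟩
  refine ⟨S, ?_, ?_⟩
  · funext j
    ext e
    rw [Finset.sum_apply, coeff_sum]
    simp only [coeff_cmp]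
    rw [Finset.sum_ite_eq]
    by_cases h : coeff e (f j) = 0
    · rw [h]
      simp
    · rw [if_pos (hS j e h)]
  · intro ν hν
    funext j
    ext e
    rw [coeff_cmp, Pi.zero_apply, coeff_zero]
    by_cases h : coeff e (f j) = 0
    · rw [h]
      simp
    · rw [if_neg]
      intro h2
      exact hν (h2 ▸ hS j e h)

theorem IsDeg.cmp_map {δ : ι}
    {φ : (J → MvPolynomial σ k) →ₗ[MvPolynomial σ k] (J' → MvPolynomial σ k)}
    (hφ : IsDeg wt sh sh' δ φ) (ν : ι) (f : J → MvPolynomial σ k) :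
    cmp wt sh' (ν + δ) (φ f) = φ (cmp wt sh ν f) := by
  classical
  obtain ⟨S, hS1, hS2⟩ := exists_sum_cmp (wt := wt) (sh := sh) f
  have h1 : φ f = ∑ μ ∈ S, φ (cmp wt sh μ f) := by
    conv_lhs => rw [hS1]
    rw [map_sum]
  have h2 : ∀ μ ∈ S, cmp wt sh' (ν + δ) (φ (cmp wt sh μ f)) =
      if μ = ν then φ (cmp wt sh μ f) else 0 := by
    intro μ _
    have h3 : φ (cmp wt sh μ f) ∈ gp k wt sh' (μ + δ) := hφ μ _ (cmp_mem_gp μ f)
    split_ifs with h
    · rw [← h]
      exact cmp_eq_self h3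
    · exact cmp_eq_zero_of_ne h3 (fun h4 => h (add_right_cancel h4))
  rw [h1, cmp_sum, Finset.sum_congr rfl h2, Finset.sum_ite_eq']
  split_ifs with h
  · rfl
  · rw [hS2 ν h, map_zero]

theorem homS_bot : HomS (k := k) wt sh ⊥ := by
  intro f hf ν
  rw [(Submodule.mem_bot _).1 hf, cmp_zero]
  exact Submodule.zero_mem _

theorem homS_top : HomS (k := k) wt sh ⊤ := fun _ _ _ => Submodule.mem_top

theorem HomS.inf {A B : Submodule (MvPolynomial σ k) (J → MvPolynomial σ k)}
    (hA : HomS wt sh A) (hB : HomS wt sh B) : HomS wt sh (A ⊓ B) :=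
  fun f hf ν => ⟨hA f hf.1 ν, hB f hf.2 ν⟩

theorem HomS.sup {A B : Submodule (MvPolynomial σ k) (J → MvPolynomial σ k)}
    (hA : HomS wt sh A) (hB : HomS wt sh B) : HomS wt sh (A ⊔ B) := by
  intro f hf ν
  obtain ⟨a, ha, b, hb, rfl⟩ := Submodule.mem_sup.1 hf
  rw [cmp_add]
  exact Submodule.add_mem_sup (hA a ha ν) (hB b hb ν)

theorem HomS.map {δ : ι}
    {φ : (J → MvPolynomial σ k) →ₗ[MvPolynomial σ k] (J' → MvPolynomial σ k)}
    (hφ : IsDeg wt sh sh' δ φ) {A : Submodule (MvPolynomial σ k) (J → MvPolynomial σ k)}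
    (hA : HomS wt sh A) : HomS wt sh' (A.map φ) := by
  rintro f ⟨a, ha, rfl⟩ ν
  have := hφ.cmp_map (ν - δ) a
  rw [sub_add_cancel] at this
  rw [this]
  exact Submodule.mem_map_of_mem (hA a ha _)

theorem HomS.kerIn {δ : ι}
    {φ : (J → MvPolynomial σ k) →ₗ[MvPolynomial σ k] (J' → MvPolynomial σ k)}
    (hφ : IsDeg wt sh sh' δ φ) {A : Submodule (MvPolynomial σ k) (J → MvPolynomial σ k)}
    (hA : HomS wt sh A) {C : Submodule (MvPolynomial σ k) (J' → MvPolynomial σ k)}
    (hC : HomS wt sh' C) : HomS wt sh (kerIn φ A C) := by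
  intro f hf ν
  refine ⟨hA f hf.1 ν, ?_⟩
  show φ (cmp wt sh ν f) ∈ C
  rw [← hφ.cmp_map]
  exact hC _ hf.2 _

/-- homogeneous submodules are generated by finitely many homogeneous elements -/
theorem HomS.exists_gen {A : Submodule (MvPolynomial σ k) (J → MvPolynomial σ k)}
    (hA : HomS wt sh A) : ∃ (S : Finset (J → MvPolynomial σ k)),
      Submodule.span (MvPolynomial σ k) (S : Set (J → MvPolynomial σ k)) = A ∧
      ∀ f ∈ S, ∃ ν, f ∈ gp k wt sh ν := by
  classical
  obtain ⟨S0, hS0⟩ := IsNoetherian.noetherian A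
  choose T hT1 hT2 using fun f : J → MvPolynomial σ k => exists_sum_cmp (wt := wt) (sh := sh) f
  refine ⟨S0.biUnion fun f => (T f).image fun ν => cmp wt sh ν f, ?_, ?_⟩
  · refine le_antisymm (Submodule.span_le.2 ?_) ?_
    · intro g hg
      rw [Finset.mem_coe, Finset.mem_biUnion] at hg
      obtain ⟨f, hf, hg⟩ := hg
      obtain ⟨ν, _, rfl⟩ := Finset.mem_image.1 hg
      exact hA f (hS0 ▸ Submodule.subset_span hf) ν
    · rw [← hS0]
      refine Submodule.span_le.2 ?_
      intro f hf
      rw [hT1 f]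
      refine Submodule.sum_mem _ fun ν hν => Submodule.subset_span ?_
      rw [Finset.mem_coe, Finset.mem_biUnion]
      exact ⟨f, hf, Finset.mem_image.2 ⟨ν, hν, rfl⟩⟩
  · intro g hg
    obtain ⟨f, _, hg⟩ := Finset.mem_biUnion.1 hg
    obtain ⟨ν, _, rfl⟩ := Finset.mem_image.1 hg
    exact ⟨ν, cmp_mem_gp ν f⟩

end gr

/-- all variables are positive for a linear form on the group of degrees -/
def Pos {σ ι : Type} [AddCommGroup ι] (wt : σ → ι) : Prop := ∃ φ : ι →+ ℤ, ∀ v, 0 < φ (wt v)

end Vale.Agent.P200F.V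

end

section

namespace Vale.Agent.P200F.V

open Module MvPolynomial

universe u

section dim
variable {k : Type u} [Field k] {σ ι J J' : Type} [Fintype σ] [Fintype J] [Fintype J']
  [AddCommGroup ι] {wt : σ → ι} {sh : J → ι} {sh' : J' → ι}

theorem grd_dg_eq (φ : ι →+ ℤ) (e : σ →₀ ℕ) :
    φ (dg wt e) = ∑ w, (e w : ℤ) * φ (wt w) := by
  rw [dg, Finsupp.sum_fintype e (fun v m => m • wt v) (fun _ => zero_nsmul _), map_sum]
  refine Finset.sum_congr rfl fun w _ => ?_
  rw [map_nsmul, nsmul_eq_mul]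

theorem grd_dg_nonneg {φ : ι →+ ℤ} (hφ : ∀ v, 0 < φ (wt v)) (e : σ →₀ ℕ) (v : σ) :
    (e v : ℤ) ≤ φ (dg wt e) := by
  classical
  rw [grd_dg_eq]
  have h2 : (e v : ℤ) * φ (wt v) ≤ ∑ w, (e w : ℤ) * φ (wt w) :=
    Finset.single_le_sum (f := fun w => (e w : ℤ) * φ (wt w))
      (fun w _ => mul_nonneg (Int.natCast_nonneg _) (hφ w).le) (Finset.mem_univ v)
  have h3 : (e v : ℤ) * 1 ≤ (e v : ℤ) * φ (wt v) :=
    mul_le_mul_of_nonneg_left (hφ v) (Int.natCast_nonneg _)
  linarith only [h3, h2]

theorem finite_gp (hwt : Pos wt) (ν : ι) : FiniteDimensional k (gp k wt sh ν) := by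
  classical
  obtain ⟨φ, hφ⟩ := hwt
  -- a bound for the exponents
  obtain ⟨n, hn⟩ : ∃ n : ℕ, ∀ j, φ ν - φ (sh j) ≤ n := by
    refine ⟨(∑ j, |φ ν - φ (sh j)|).toNat, fun j => ?_⟩
    have h1 : |φ ν - φ (sh j)| ≤ ∑ j, |φ ν - φ (sh j)| :=
      Finset.single_le_sum (f := fun j => |φ ν - φ (sh j)|) (fun _ _ => abs_nonneg _)
        (Finset.mem_univ j)
    have h2 := le_abs_self (φ ν - φ (sh j))
    have h3 := Int.self_le_toNat (∑ j, |φ ν - φ (sh j)|)
    linarith
  let T : Set (σ →₀ ℕ) := Set.Iic (Finsupp.equivFunOnFinite.symm fun _ => n)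
  have hT : T.Finite := Set.finite_Iic _
  have : Finite T := hT
  let Q : gp k wt sh ν →ₗ[k] (J × T → k) :=
    { toFun := fun f a => coeff (a.2 : σ →₀ ℕ) ((f : J → MvPolynomial σ k) a.1)
      map_add' := fun f g => by
        funext a
        exact coeff_add _ _ _
      map_smul' := fun c f => by
        funext a
        exact coeff_smul _ _ _ }
  refine Module.Finite.of_injective Q ?_
  intro f g hfg
  apply Subtype.ext
  funext j
  ext e
  by_cases he : e ∈ T
  · exact congrFun hfg (j, ⟨e, he⟩)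
  · have h0 : ∀ f : gp k wt sh ν, coeff e ((f : J → MvPolynomial σ k) j) = 0 := by
      intro f
      by_contra hne
      apply he
      have h1 := f.2 j e hne
      intro v
      have h2 := grd_dg_nonneg hφ e v
      have h3 : φ (dg wt e) = φ ν - φ (sh j) := by
        rw [← h1, map_add, add_sub_cancel_right]
      have h4 := hn j
      have h5 : (e v : ℤ) ≤ n := by linarith only [h4, h3, h2]
      exact_mod_cast h5
    rw [h0, h0]

theorem finite_gpart (hwt : Pos wt)
    (A : Submodule (MvPolynomial σ k) (J → MvPolynomial σ k)) (ν : ι) :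
    FiniteDimensional k (gpart wt sh A ν) := by
  have := finite_gp (k := k) (sh := sh) hwt ν
  exact Submodule.finiteDimensional_of_le (inf_le_right : gpart wt sh A ν ≤ gp k wt sh ν)

theorem hd_mono (hwt : Pos wt)
    {A B : Submodule (MvPolynomial σ k) (J → MvPolynomial σ k)} (h : A ≤ B)
    (ν : ι) : hd wt sh A ν ≤ hd wt sh B ν := by
  have := finite_gpart (sh := sh) hwt B ν
  exact Submodule.finrank_mono (inf_le_inf_right _ fun f hf => h hf)

/-- dimensions and linear maps: `A / ker = image` -/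
theorem hd_kerIn (hwt : Pos wt) {δ : ι}
    {φ : (J → MvPolynomial σ k) →ₗ[MvPolynomial σ k] (J' → MvPolynomial σ k)}
    (hφ : IsDeg wt sh sh' δ φ) {A : Submodule (MvPolynomial σ k) (J → MvPolynomial σ k)}
    (hA : HomS wt sh A) {C : Submodule (MvPolynomial σ k) (J' → MvPolynomial σ k)}
    (hC : HomS wt sh' C) (ν : ι) :
    hd wt sh A ν + hd wt sh' C (ν + δ) =
      hd wt sh (kerIn φ A C) ν + hd wt sh' (C ⊔ A.map φ) (ν + δ) := by
  have hfA := finite_gpart (sh := sh) hwt A ν
  have hfK := finite_gpart (sh := sh) hwt (kerIn φ A C) ν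
  have hfC := finite_gpart (sh := sh') hwt C (ν + δ)
  let φk : (J → MvPolynomial σ k) →ₗ[k] (J' → MvPolynomial σ k) := φ.restrictScalars k
  -- the kernels and images
  have hdim : ∀ V : Submodule k (J → MvPolynomial σ k), FiniteDimensional k V →
      finrank k (V.map φk) + finrank k (V ⊓ LinearMap.ker φk : Submodule k _) = finrank k V := by
    intro V hV
    have h1 := LinearMap.finrank_range_add_finrank_ker (φk.domRestrict V)
    rw [LinearMap.range_domRestrict, LinearMap.ker_domRestrict] at h1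
    have h2 : finrank k ((LinearMap.ker φk).comap V.subtype) =
        finrank k (V ⊓ LinearMap.ker φk : Submodule k _) := by
      rw [← Submodule.map_comap_subtype]
      exact (LinearEquiv.finrank_eq
        (Submodule.equivMapOfInjective V.subtype V.injective_subtype _))
    rw [h2] at h1
    exact h1
  have hK1 : (gpart wt sh (kerIn φ A C) ν).map φk =
      (gpart wt sh A ν).map φk ⊓ gpart wt sh' C (ν + δ) := by
    ext u
    constructor
    · rintro ⟨f, ⟨⟨hf1, hf2⟩, hf3⟩, rfl⟩
      exact ⟨⟨f, ⟨hf1, hf3⟩, rfl⟩, ⟨hf2, hφ ν f hf3⟩⟩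
    · rintro ⟨⟨f, ⟨hf1, hf3⟩, rfl⟩, ⟨hf2, _⟩⟩
      exact ⟨f, ⟨⟨hf1, hf2⟩, hf3⟩, rfl⟩
  have hK2 : gpart wt sh (kerIn φ A C) ν ⊓ LinearMap.ker φk =
      gpart wt sh A ν ⊓ LinearMap.ker φk := by
    ext f
    constructor
    · rintro ⟨⟨⟨hf1, _⟩, hf3⟩, hf4⟩
      exact ⟨⟨hf1, hf3⟩, hf4⟩
    · rintro ⟨⟨hf1, hf3⟩, hf4⟩
      have h0 : φ f = 0 := hf4
      refine ⟨⟨⟨hf1, ?_⟩, hf3⟩, hf4⟩
      change φ f ∈ C
      rw [h0]
      exact C.zero_mem
  have hU : gpart wt sh' (C ⊔ A.map φ) (ν + δ) =
      (gpart wt sh A ν).map φk ⊔ gpart wt sh' C (ν + δ) := by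
    apply le_antisymm
    · rintro u ⟨hu1, hu2⟩
      obtain ⟨c, hc, b, ⟨a, ha, rfl⟩, hcb⟩ := Submodule.mem_sup.mp (show u ∈ C ⊔ A.map φ from hu1)
      have h1 : u = φ (cmp wt sh ν a) + cmp wt sh' (ν + δ) c := by
        rw [← cmp_eq_self hu2, ← hcb, cmp_add, hφ.cmp_map, add_comm]
      rw [h1]
      exact Submodule.add_mem_sup ⟨_, ⟨hA a ha ν, cmp_mem_gp ν a⟩, rfl⟩
        ⟨hC c hc _, cmp_mem_gp _ c⟩
    · refine sup_le ?_ ?_
      · rintro _ ⟨f, ⟨hf1, hf2⟩, rfl⟩
        exact ⟨Submodule.mem_sup_right (Submodule.mem_map_of_mem hf1), hφ ν f hf2⟩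
      · rintro f ⟨hf1, hf2⟩
        exact ⟨Submodule.mem_sup_left hf1, hf2⟩
  have h1 := hdim _ hfA
  have h2 := hdim _ hfK
  rw [hK1, hK2] at h2
  have hfm : FiniteDimensional k ((gpart wt sh A ν).map φk) := inferInstance
  have h3 := Submodule.finrank_sup_add_finrank_inf_eq ((gpart wt sh A ν).map φk)
    (gpart wt sh' C (ν + δ))
  rw [← hU] at h3
  rw [hd, hd, hd, hd]
  omega

end dim

end Vale.Agent.P200F.V

end

section

namespace Vale.Agent.P200F.V

section act
variable {G : Type} [AddCommGroup G]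

/-- the shift -/
def sft (δ : G) : Module.End ℤ (G → ℤ) where
  toFun f ν := f (ν - δ)
  map_add' _ _ := rfl
  map_smul' _ _ := rfl

/-- the action of the group ring -/
noncomputable def act (G : Type) [AddCommGroup G] : AddMonoidAlgebra ℤ G →ₐ[ℤ]
    Module.End ℤ (G → ℤ) :=
  AddMonoidAlgebra.lift ℤ (Module.End ℤ (G → ℤ)) G
    { toFun := fun δ => sft δ.toAdd
      map_one' := by
        apply LinearMap.ext
        intro f
        funext ν
        change f (ν - 0) = f ν
        rw [sub_zero]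
      map_mul' := by
        intro a b
        apply LinearMap.ext
        intro f
        funext ν
        change f (ν - (a.toAdd + b.toAdd)) = f (ν - a.toAdd - b.toAdd)
        rw [sub_sub] }

/-- the element `δ` of the group ring -/
noncomputable def el (δ : G) : AddMonoidAlgebra ℤ G := AddMonoidAlgebra.single δ 1

theorem act_el (δ : G) (f : G → ℤ) (ν : G) : act G (el δ) f ν = f (ν - δ) := by
  rw [act, el, AddMonoidAlgebra.lift_single, one_smul]
  rfl

theorem el_zero : el (0 : G) = 1 := rfl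

theorem el_add (δ ε : G) : el (δ + ε) = el δ * el ε := by
  rw [el, el, el, AddMonoidAlgebra.single_mul_single, one_mul]

theorem el_nsmul (n : ℕ) (δ : G) : el (n • δ) = el δ ^ n := by
  induction n with
  | zero => rw [zero_smul, pow_zero, el_zero]
  | succ n ih => rw [succ_nsmul, el_add, ih, pow_succ]

/-- `1 + δ + ⋯ + δ^(e-1)` -/
noncomputable def ph (e : ℕ) (δ : G) : AddMonoidAlgebra ℤ G := ∑ i ∈ Finset.range e, el δ ^ i

theorem ph_mul (e : ℕ) (δ : G) : (1 - el δ) * ph e δ = 1 - el (e • δ) := by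
  rw [ph, el_nsmul]
  exact mul_neg_geom_sum (el δ) e

end act

/-- equality in large degrees -/
def EvEq {ι : Type} (f g : (ι → ℤ) → ℤ) : Prop :=
  ∃ n0 : ℤ, ∀ n : ι → ℤ, (∀ i, n0 ≤ n i) → f n = g n

/-- equality in large degrees, uniformly in the last degree -/
def EvEq2 {ι : Type} (f g : (ι → ℤ) × ℤ → ℤ) : Prop :=
  ∃ n0 : ℤ, ∀ (n : ι → ℤ) (t : ℤ), (∀ i, n0 ≤ n i) → f (n, t) = g (n, t)

theorem EvEq.symm {ι : Type} {f g : (ι → ℤ) → ℤ} (h : EvEq f g) : EvEq g f := by
  obtain ⟨n0, h⟩ := h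
  exact ⟨n0, fun n hn => (h n hn).symm⟩

theorem EvEq.trans {ι : Type} {f g l : (ι → ℤ) → ℤ} (h : EvEq f g) (h' : EvEq g l) :
    EvEq f l := by
  obtain ⟨n0, h⟩ := h
  obtain ⟨n1, h'⟩ := h'
  exact ⟨max n0 n1, fun n hn => (h n fun i => (le_max_left _ _).trans (hn i)).trans
    (h' n fun i => (le_max_right _ _).trans (hn i))⟩

theorem EvEq2.symm {ι : Type} {f g : (ι → ℤ) × ℤ → ℤ} (h : EvEq2 f g) : EvEq2 g f := by
  obtain ⟨n0, h⟩ := h
  exact ⟨n0, fun n t hn => (h n t hn).symm⟩

theorem EvEq2.trans {ι : Type} {f g l : (ι → ℤ) × ℤ → ℤ} (h : EvEq2 f g) (h' : EvEq2 g l) :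
    EvEq2 f l := by
  obtain ⟨n0, h⟩ := h
  obtain ⟨n1, h'⟩ := h'
  exact ⟨max n0 n1, fun n t hn => (h n t fun i => (le_max_left _ _).trans (hn i)).trans
    (h' n t fun i => (le_max_right _ _).trans (hn i))⟩

end Vale.Agent.P200F.V

end

section

namespace Vale.Agent.P200F.V

open Module MvPolynomial

universe u

/-- the group generated by the Hilbert functions of the finitely generated graded modules which
are killed by `J0` -/
noncomputable def Hil (k : Type u) [Field k] {σ ι : Type} [AddCommGroup ι] (wt : σ → ι)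
    (J0 : Set (MvPolynomial σ k)) : AddSubgroup (ι → ℤ) :=
  AddSubgroup.closure {f | ∃ (s : ℕ) (sh : Fin s → ι)
    (N : Submodule (MvPolynomial σ k) (Fin s → MvPolynomial σ k)), HomS wt sh N ∧
    (∀ p ∈ J0, ∀ j, (Pi.single j p : Fin s → MvPolynomial σ k) ∈ N) ∧
    ∀ ν, f ν = (hd wt sh (⊤ : Submodule (MvPolynomial σ k) (Fin s → MvPolynomial σ k)) ν : ℤ) -
      hd wt sh N ν}

section hil
variable {k : Type u} [Field k] {σ ι J : Type} [Fintype σ] [Fintype J] [AddCommGroup ι]
  {wt : σ → ι} {sh : J → ι} {J0 J1 : Set (MvPolynomial σ k)}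

omit [Fintype σ] in
theorem Hil.mono (h : J0 ⊆ J1) : Hil k wt J1 ≤ Hil k wt J0 := by
  apply AddSubgroup.closure_mono
  rintro f ⟨s, sh, N, hN, h1, hf⟩
  exact ⟨s, sh, N, hN, fun p hp j => h1 p (h hp) j, hf⟩

omit [Fintype σ] [Fintype J] in
theorem hil_dg_add (e e' : σ →₀ ℕ) : dg wt (e + e') = dg wt e + dg wt e' :=
  Finsupp.sum_add_index' (fun _ => zero_nsmul _) fun _ _ _ => add_nsmul _ _ _

omit [Fintype σ] [Fintype J] in
theorem hil_smul_mem_gp {ν d : ι} {p : MvPolynomial σ k} (hp : ∀ e, coeff e p ≠ 0 → dg wt e + d = ν)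
    {g : J → MvPolynomial σ k} (hg : g ∈ gp k wt sh d) : p • g ∈ gp k wt sh ν := by
  classical
  intro j e he
  rw [Pi.smul_apply, smul_eq_mul, coeff_mul] at he
  obtain ⟨ab, hab, hne⟩ := Finset.exists_ne_zero_of_sum_ne_zero he
  have h1 := hp ab.1 (left_ne_zero_of_mul hne)
  have h2 := hg j ab.2 (right_ne_zero_of_mul hne)
  rw [← Finset.HasAntidiagonal.mem_antidiagonal.mp hab, hil_dg_add, add_assoc, h2, h1]

/-- every subquotient `A / B` killed by `J0` has its Hilbert function in `Hil` -/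
theorem hil_sub (hwt : Pos wt) {A B : Submodule (MvPolynomial σ k) (J → MvPolynomial σ k)}
    (hA : HomS wt sh A) (hB : HomS wt sh B) (hBA : B ≤ A) (h0 : ∀ p ∈ J0, ∀ f ∈ A, p • f ∈ B) :
    (fun ν => (hd wt sh A ν : ℤ) - hd wt sh B ν) ∈ Hil k wt J0 := by
  obtain ⟨S, hS, hdeg⟩ := hA.exists_gen
  have hmem : ∀ i : Fin S.card, ((S.equivFin.symm i : S) : J → MvPolynomial σ k) ∈ A := by
    intro i
    rw [← hS]
    exact Submodule.subset_span (S.equivFin.symm i).2
  have hdeg' : ∀ i : Fin S.card, ∃ ν, ((S.equivFin.symm i : S) : J → MvPolynomial σ k) ∈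
      gp k wt sh ν := fun i => hdeg _ (S.equivFin.symm i).2
  choose sh' hsh' using hdeg'
  set g : Fin S.card → J → MvPolynomial σ k := fun i => ((S.equivFin.symm i : S) :
    J → MvPolynomial σ k) with hg
  set φ : (Fin S.card → MvPolynomial σ k) →ₗ[MvPolynomial σ k] (J → MvPolynomial σ k) :=
    Fintype.linearCombination (MvPolynomial σ k) g with hφ
  have hφd : IsDeg wt sh' sh 0 φ := by
    intro ν f hf
    rw [add_zero, hφ, Fintype.linearCombination_apply]
    exact Submodule.sum_mem _ fun i _ => hil_smul_mem_gp (fun e he => hf i e he) (hsh' i)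
  have hrange : (⊤ : Submodule (MvPolynomial σ k) (Fin S.card → MvPolynomial σ k)).map φ = A := by
    rw [Submodule.map_top, hφ, Fintype.range_linearCombination, ← hS]
    congr 1
    ext x
    constructor
    · rintro ⟨i, rfl⟩
      exact (S.equivFin.symm i).2
    · intro hx
      exact ⟨S.equivFin ⟨x, hx⟩, by rw [hg]; simp⟩
  apply AddSubgroup.subset_closure
  refine ⟨S.card, sh', kerIn φ ⊤ B, HomS.kerIn hφd homS_top hB, ?_, ?_⟩
  · intro p hp j
    refine ⟨Submodule.mem_top, ?_⟩
    rw [SetLike.mem_coe, Submodule.mem_comap, hφ, Fintype.linearCombination_apply_single]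
    exact h0 p hp _ (hmem j)
  · intro ν
    have h3 := hd_kerIn hwt hφd (A := ⊤) homS_top hB ν
    rw [hrange, sup_eq_right.mpr hBA, add_zero] at h3
    have h4 : ((hd wt sh' (⊤ : Submodule (MvPolynomial σ k) (Fin S.card → MvPolynomial σ k)) ν :
      ℕ) : ℤ) + (hd wt sh B ν : ℕ) = (hd wt sh' (kerIn φ ⊤ B) ν : ℕ) + (hd wt sh A ν : ℕ) := by
      exact_mod_cast h3
    linarith

omit [Fintype σ] [Fintype J] in
theorem hil_gp_shift (δ ν : ι) : gp k wt (fun j => sh j + δ) ν = gp k wt sh (ν - δ) := by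
  ext f
  constructor
  · intro hf j e he
    rw [eq_sub_iff_add_eq, add_assoc]
    exact hf j e he
  · intro hf j e he
    have h := hf j e he
    rw [eq_sub_iff_add_eq, add_assoc] at h
    exact h

omit [Fintype σ] [Fintype J] in
theorem hil_cmp_shift (δ ν : ι) (f : J → MvPolynomial σ k) :
    cmp wt (fun j => sh j + δ) ν f = cmp wt sh (ν - δ) f := by
  classical
  funext j
  rw [cmp, cmp]
  refine Finset.sum_congr ?_ fun _ _ => rfl
  ext e
  rw [Finset.mem_filter, Finset.mem_filter, eq_sub_iff_add_eq, add_assoc]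

omit [Fintype σ] [Fintype J] in
theorem hil_hd_shift (A : Submodule (MvPolynomial σ k) (J → MvPolynomial σ k)) (δ ν : ι) :
    hd wt (fun j => sh j + δ) A ν = hd wt sh A (ν - δ) := by
  rw [hd, hd, gpart, gpart, hil_gp_shift]

omit [Fintype σ] in
theorem Hil.shift (δ : ι) {f : ι → ℤ} (hf : f ∈ Hil k wt J0) : act ι (el δ) f ∈ Hil k wt J0 := by
  rw [Hil] at hf
  induction hf using AddSubgroup.closure_induction with
  | mem f hf =>
    obtain ⟨s, sh, N, hN, h1, hf⟩ := hf
    apply AddSubgroup.subset_closure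
    refine ⟨s, fun j => sh j + δ, N, ?_, h1, ?_⟩
    · intro g hg ν
      rw [hil_cmp_shift]
      exact hN g hg _
    · intro ν
      rw [act_el, hf, hil_hd_shift, hil_hd_shift]
  | zero =>
    rw [map_zero]
    exact zero_mem _
  | add f g _ _ h1 h2 =>
    rw [map_add]
    exact add_mem h1 h2
  | neg f _ h1 =>
    rw [map_neg]
    exact neg_mem h1

end hil

end Vale.Agent.P200F.V

end

section

namespace Vale.Agent.P200F.V

open Module MvPolynomial

universe u

section hil
variable {k : Type u} [Field k] {σ ι J : Type} [Fintype σ] [Fintype J] [AddCommGroup ι]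
  {wt : σ → ι} {sh : J → ι} {J0 J1 : Set (MvPolynomial σ k)}

omit [Fintype σ] [AddCommGroup ι] in
/-- `p F ⊆ N` as soon as `p e_j ∈ N` for all basis vectors -/
theorem d4_smul_mem {N : Submodule (MvPolynomial σ k) (J → MvPolynomial σ k)}
    {p : MvPolynomial σ k} (h : ∀ [DecidableEq J] (j : J), (Pi.single j p : J → MvPolynomial σ k) ∈ N)
    (g : J → MvPolynomial σ k) : p • g ∈ N := by
  classical
  have h1 : p • g = ∑ j, g j • (Pi.single j p : J → MvPolynomial σ k) := by
    funext i
    rw [Finset.sum_apply, Pi.smul_apply, smul_eq_mul, Finset.sum_eq_single i]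
    · rw [Pi.smul_apply, Pi.single_eq_same, smul_eq_mul, mul_comm]
    · intro j _ hj
      rw [Pi.smul_apply, Pi.single_eq_of_ne (Ne.symm hj), smul_zero]
    · intro hi
      exact absurd (Finset.mem_univ i) hi
  rw [h1]
  exact Submodule.sum_mem _ fun j _ => N.smul_mem _ (h j)

omit [Fintype σ] [Fintype J] in
theorem d4_pow_mem_gp {v : MvPolynomial σ k} {δ : ι}
    (hv : ∀ e, coeff e v ≠ 0 → dg wt e = δ) (i : ℕ) {ν : ι} {f : J → MvPolynomial σ k}
    (hf : f ∈ gp k wt sh ν) : v ^ i • f ∈ gp k wt sh (ν + i • δ) := by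
  induction i with
  | zero =>
    rw [pow_zero, one_smul, zero_smul, add_zero]
    exact hf
  | succ i ih =>
    rw [pow_succ', mul_smul]
    refine hil_smul_mem_gp (d := ν + i • δ) (fun e he => ?_) ih
    rw [hv e he, succ_nsmul]
    abel

omit [Fintype σ] [Fintype J] in
theorem d4_isDeg {v : MvPolynomial σ k} {δ : ι}
    (hv : ∀ e, coeff e v ≠ 0 → dg wt e = δ) (i : ℕ) :
    IsDeg wt sh sh (i • δ) (LinearMap.lsmul (MvPolynomial σ k) (J → MvPolynomial σ k) (v ^ i)) := by
  intro ν f hf
  rw [LinearMap.lsmul_apply]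
  exact d4_pow_mem_gp hv i hf

/-- kernel and cokernel of a homogeneous element `v` of degree `δ` -/
theorem Hil.dev (hwt : Pos wt) {v : MvPolynomial σ k} {δ : ι}
    (hv : ∀ e, coeff e v ≠ 0 → dg wt e = δ) {f : ι → ℤ} (hf : f ∈ Hil k wt J0) :
    V.act ι (1 - el δ) f ∈ Hil k wt (insert v J0) := by
  rw [Hil] at hf
  induction hf using AddSubgroup.closure_induction with
  | mem f hf =>
    obtain ⟨s, sh, N, hN, h1, hf⟩ := hf
    have hφ : IsDeg wt sh sh δ
        (LinearMap.lsmul (MvPolynomial σ k) (Fin s → MvPolynomial σ k) v) := by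
      have h := d4_isDeg (sh := sh) hv 1
      rw [pow_one, one_smul] at h
      exact h
    set φ := LinearMap.lsmul (MvPolynomial σ k) (Fin s → MvPolynomial σ k) v with hφd
    have hJ : ∀ p ∈ J0, ∀ g : Fin s → MvPolynomial σ k, p • g ∈ N := by
      intro p hp g
      refine d4_smul_mem ?_ g
      intro hD j
      have h0 := h1 p hp j
      have hE : hD = instDecidableEqFin s := Subsingleton.elim _ _
      subst hE
      exact h0
    have hh : (fun ν => (hd wt sh (⊤ : Submodule (MvPolynomial σ k) (Fin s → MvPolynomial σ k)) ν :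
        ℤ) - hd wt sh (N ⊔ (⊤ : Submodule (MvPolynomial σ k) (Fin s → MvPolynomial σ k)).map φ) ν) ∈
        Hil k wt (insert v J0) := by
      refine hil_sub hwt homS_top (hN.sup (HomS.map hφ homS_top)) le_top ?_
      intro p hp g _
      rcases Set.mem_insert_iff.1 hp with rfl | hp
      · exact Submodule.mem_sup_right ⟨g, Submodule.mem_top, rfl⟩
      · exact Submodule.mem_sup_left (hJ p hp g)
    have hg : (fun ν => (hd wt sh (kerIn φ ⊤ N) ν : ℤ) - hd wt sh N ν) ∈
        Hil k wt (insert v J0) := by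
      refine hil_sub hwt (HomS.kerIn hφ homS_top hN) hN ?_ ?_
      · intro x hx
        exact ⟨Submodule.mem_top, N.smul_mem v hx⟩
      · intro p hp g hg
        rcases Set.mem_insert_iff.1 hp with rfl | hp
        · exact hg.2
        · exact hJ p hp g
    have hfun : V.act ι (1 - el δ) f =
        (fun ν => (hd wt sh (⊤ : Submodule (MvPolynomial σ k) (Fin s → MvPolynomial σ k)) ν :
        ℤ) - hd wt sh (N ⊔ (⊤ : Submodule (MvPolynomial σ k) (Fin s → MvPolynomial σ k)).map φ) ν) -
        V.act ι (el δ) (fun ν => (hd wt sh (kerIn φ ⊤ N) ν : ℤ) - hd wt sh N ν) := by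
      funext ν
      have h3 := hd_kerIn hwt hφ (A := ⊤) homS_top hN (ν - δ)
      rw [sub_add_cancel] at h3
      rw [map_sub, map_one, LinearMap.sub_apply, Module.End.one_apply, Pi.sub_apply, Pi.sub_apply,
        act_el, act_el, hf, hf]
      have h4 : ((hd wt sh (⊤ : Submodule (MvPolynomial σ k) (Fin s → MvPolynomial σ k)) (ν - δ) :
          ℕ) : ℤ) + (hd wt sh N ν : ℕ) = (hd wt sh (kerIn φ ⊤ N) (ν - δ) : ℕ) +
          (hd wt sh (N ⊔ (⊤ : Submodule (MvPolynomial σ k) (Fin s → MvPolynomial σ k)).map φ) ν :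
          ℕ) := by
        exact_mod_cast h3
      linarith
    rw [hfun]
    exact sub_mem hh (Hil.shift δ hg)
  | zero =>
    rw [map_zero]
    exact zero_mem _
  | add f g _ _ h1 h2 =>
    rw [map_add]
    exact add_mem h1 h2
  | neg f _ h1 =>
    rw [map_neg]
    exact neg_mem h1

omit [Fintype σ] in
theorem d4_set {κ : Type} [DecidableEq κ] (J0 : Set (MvPolynomial σ k)) (c : κ) (S : Finset κ)
    (v : κ → MvPolynomial σ k) :
    J0 ∪ v '' ((insert c S : Finset κ) : Set κ) = insert (v c) (J0 ∪ v '' S) := by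
  rw [Finset.coe_insert, Set.image_insert_eq, Set.union_insert]

/-- kernels and cokernels for a finite family -/
theorem Hil.dev_fam (hwt : Pos wt) {κ : Type} [DecidableEq κ] (S : Finset κ)
    (v : κ → MvPolynomial σ k) (δ : κ → ι)
    (hv : ∀ c ∈ S, ∀ e, coeff e (v c) ≠ 0 → dg wt e = δ c) {f : ι → ℤ}
    (hf : f ∈ Hil k wt J0) :
    V.act ι (∏ c ∈ S, (1 - el (δ c))) f ∈ Hil k wt (J0 ∪ v '' S) := by
  induction S using Finset.induction_on with
  | empty =>
    rw [Finset.prod_empty, map_one, Module.End.one_apply]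
    simpa using hf
  | insert c S hc ih =>
    rw [Finset.prod_insert hc, map_mul, Module.End.mul_apply, d4_set]
    exact Hil.dev hwt (hv c (Finset.mem_insert_self c S))
      (ih fun d hd => hv d (Finset.mem_insert_of_mem hd))

/-- a homogeneous element which is nilpotent modulo `J0` -/
theorem Hil.nil (hwt : Pos wt) {v : MvPolynomial σ k} {δ : ι}
    (hv : ∀ e, coeff e v ≠ 0 → dg wt e = δ) {n : ℕ}
    (hn : v ^ n ∈ (Ideal.span J0 : Ideal (MvPolynomial σ k))) :
    Hil k wt J0 ≤ Hil k wt (insert v J0) := by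
  rw [Hil, AddSubgroup.closure_le]
  rintro f ⟨s, sh, N, hN, h1, hf⟩
  have hJ : ∀ p ∈ (Ideal.span J0 : Ideal (MvPolynomial σ k)),
      ∀ g : Fin s → MvPolynomial σ k, p • g ∈ N := by
    intro p hp g
    refine Submodule.span_induction (p := fun p _ => p • g ∈ N) ?_ ?_ ?_ ?_ hp
    · intro q hq
      refine d4_smul_mem ?_ g
      intro hD j
      have h0 := h1 q hq j
      have hE : hD = instDecidableEqFin s := Subsingleton.elim _ _
      subst hE
      exact h0
    · rw [zero_smul]
      exact N.zero_mem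
    · intro a b _ _ ha hb
      rw [add_smul]
      exact N.add_mem ha hb
    · intro a b _ hb
      rw [smul_eq_mul, mul_smul]
      exact N.smul_mem a hb
  set A : ℕ → Submodule (MvPolynomial σ k) (Fin s → MvPolynomial σ k) := fun i =>
    N ⊔ (⊤ : Submodule (MvPolynomial σ k) (Fin s → MvPolynomial σ k)).map
      (LinearMap.lsmul (MvPolynomial σ k) (Fin s → MvPolynomial σ k) (v ^ i)) with hA
  have hAh : ∀ i, HomS wt sh (A i) := fun i => hN.sup (HomS.map (d4_isDeg hv i) homS_top)
  have hA0 : A 0 = ⊤ := by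
    rw [eq_top_iff]
    intro x _
    exact Submodule.mem_sup_right ⟨x, Submodule.mem_top, by
      rw [LinearMap.lsmul_apply, pow_zero, one_smul]⟩
  have hAn : A n = N := by
    refine le_antisymm (sup_le le_rfl ?_) le_sup_left
    rintro _ ⟨x, _, rfl⟩
    rw [LinearMap.lsmul_apply]
    exact hJ _ hn x
  have hle : ∀ i, A (i + 1) ≤ A i := by
    intro i
    refine sup_le le_sup_left ?_
    rintro _ ⟨x, _, rfl⟩
    refine Submodule.mem_sup_right ⟨v • x, Submodule.mem_top, ?_⟩
    rw [LinearMap.lsmul_apply, LinearMap.lsmul_apply, ← mul_smul, pow_succ]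
  have hvA : ∀ i, ∀ x ∈ A i, v • x ∈ A (i + 1) := by
    intro i x hx
    obtain ⟨a, ha, b, ⟨c, _, rfl⟩, rfl⟩ := Submodule.mem_sup.1 hx
    rw [smul_add]
    refine add_mem (Submodule.mem_sup_left (N.smul_mem v ha))
      (Submodule.mem_sup_right ⟨c, Submodule.mem_top, ?_⟩)
    rw [LinearMap.lsmul_apply, LinearMap.lsmul_apply, ← mul_smul, pow_succ']
  have hstep : ∀ i, (fun ν => (hd wt sh (A i) ν : ℤ) - hd wt sh (A (i + 1)) ν) ∈
      Hil k wt (insert v J0) := by
    intro i
    refine hil_sub hwt (hAh i) (hAh (i + 1)) (hle i) ?_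
    intro p hp g hg
    rcases Set.mem_insert_iff.1 hp with rfl | hp
    · exact hvA i g hg
    · exact Submodule.mem_sup_left (hJ p (Ideal.subset_span hp) g)
  have hsum : f = ∑ i ∈ Finset.range n,
      (fun ν => (hd wt sh (A i) ν : ℤ) - hd wt sh (A (i + 1)) ν) := by
    funext ν
    rw [Finset.sum_apply, hf, Finset.sum_range_sub' (fun i => (hd wt sh (A i) ν : ℤ)) n, hA0, hAn]
  rw [hsum]
  exact sum_mem fun i _ => hstep i

/-- finitely many homogeneous elements which are nilpotent modulo `J0` -/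
theorem Hil.nil_fam (hwt : Pos wt) {κ : Type} [DecidableEq κ] (S : Finset κ)
    (v : κ → MvPolynomial σ k) (δ : κ → ι)
    (hv : ∀ c ∈ S, ∀ e, coeff e (v c) ≠ 0 → dg wt e = δ c) (n : ℕ)
    (hn : ∀ c ∈ S, v c ^ n ∈ (Ideal.span J0 : Ideal (MvPolynomial σ k))) :
    Hil k wt J0 ≤ Hil k wt (J0 ∪ v '' S) := by
  induction S using Finset.induction_on with
  | empty =>
    rw [Finset.coe_empty, Set.image_empty, Set.union_empty]
  | insert c S hc ih =>
    rw [d4_set]
    refine (ih (fun d hd => hv d (Finset.mem_insert_of_mem hd))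
      (fun d hd => hn d (Finset.mem_insert_of_mem hd))).trans ?_
    refine Hil.nil hwt (hv c (Finset.mem_insert_self c S)) (n := n) ?_
    exact Ideal.span_mono Set.subset_union_left (hn c (Finset.mem_insert_self c S))

end hil

end Vale.Agent.P200F.V

end

section

namespace Vale.Agent.P200F.V

open Module MvPolynomial

universe u

section van
variable {k : Type u} [Field k] {σ ι J : Type} [Fintype σ] [Fintype J] [Fintype ι]

/-- the number of variables of the block `b` in a monomial -/
noncomputable def bdeg (blk : σ → Option ι) (e : σ →₀ ℕ) (b : ι) : ℕ :=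
  open scoped Classical in ∑ v ∈ Finset.univ.filter (fun v => blk v = some b), e v

omit [Fintype J] [Fintype ι] in
/-- the block degree is the component of the degree -/
theorem dg_fst_eq_bdeg {wt : σ → (ι → ℤ) × ℤ} (blk : σ → Option ι)
    (hblk : ∀ v i, (wt v).1 i = open scoped Classical in if blk v = some i then 1 else 0)
    (e : σ →₀ ℕ) (i : ι) : (dg wt e).1 i = (bdeg blk e i : ℤ) := by
  classical
  unfold dg bdeg
  rw [Finsupp.sum_fintype _ _ (fun v => by simp)]
  rw [Prod.fst_sum, Finset.sum_apply, Finset.sum_filter, Nat.cast_sum]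
  refine Finset.sum_congr rfl fun v _ => ?_
  rw [Prod.smul_fst, Pi.smul_apply, hblk v i]
  by_cases h : blk v = some i
  · simp [h]
  · simp [h]

omit [Fintype σ] [Fintype J] [Fintype ι] in
/-- the component of a vector of another degree is zero -/
theorem van_cmp_eq_zero_of_ne {ι' : Type} [AddCommGroup ι'] {wt : σ → ι'} {sh : J → ι'} {ν ν' : ι'}
    (hne : ν' ≠ ν) {f : J → MvPolynomial σ k} (hf : f ∈ gp k wt sh ν') :
    cmp wt sh ν f = 0 := by
  classical
  funext j
  unfold cmp
  rw [Finset.filter_eq_empty_iff.2, Finset.sum_empty]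
  · rfl
  · intro e he h
    exact hne ((hf j e (mem_support_iff.1 he)).symm.trans h)

omit [Fintype σ] [Fintype J] [Fintype ι] in
/-- multiplication by a monomial -/
theorem monomial_smul_mem_gp {ι' : Type} [AddCommGroup ι'] {wt : σ → ι'} {sh : J → ι'} {ν : ι'}
    (e : σ →₀ ℕ) (c : k) {f : J → MvPolynomial σ k} (hf : f ∈ gp k wt sh ν) :
    (monomial e c : MvPolynomial σ k) • f ∈ gp k wt sh (dg wt e + ν) := by
  classical
  intro j e' he'
  rw [Pi.smul_apply, smul_eq_mul, coeff_monomial_mul'] at he'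
  by_cases hle : e ≤ e'
  · rw [if_pos hle] at he'
    have h := hf j (e' - e) (fun h0 => he' (by rw [h0, mul_zero]))
    have h2 : dg wt e' = dg wt e + dg wt (e' - e) := by
      conv_lhs => rw [← add_tsub_cancel_of_le hle]
      unfold dg
      exact Finsupp.sum_add_index' (fun v => zero_smul _ _) (fun v m m' => add_smul _ _ _)
    rw [h2, add_assoc, h]
  · rw [if_neg hle] at he'
    exact absurd rfl he'

/-- if all monomials with large degrees in all blocks kill `A / B`, then `A / B` is zero in large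
degrees.  The variables with `blk v = none` have degree zero in the first component (and are
positive in the second one). -/
theorem hd_eq_of_killed {wt : σ → (ι → ℤ) × ℤ} {sh : J → (ι → ℤ) × ℤ} (hwt : Pos wt)
    (blk : σ → Option ι)
    (hblk : ∀ v i, (wt v).1 i = open scoped Classical in if blk v = some i then 1 else 0)
    {A B : Submodule (MvPolynomial σ k) (J → MvPolynomial σ k)}
    (hA : HomS wt sh A) (hB : HomS wt sh B) (hBA : B ≤ A) (d : ℕ)
    (hd' : ∀ e : σ →₀ ℕ, (∀ b, d ≤ bdeg blk e b) → ∀ f ∈ A, monomial e (1 : k) • f ∈ B) :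
    ∃ n0 : ℤ, ∀ (n : ι → ℤ) (t : ℤ), (∀ i, n0 ≤ n i) → hd wt sh A (n, t) = hd wt sh B (n, t) := by
  classical
  obtain ⟨S, hS, hgen⟩ := hA.exists_gen
  choose! ν hν using hgen
  refine ⟨d + ∑ f ∈ S, ∑ i, |(ν f).1 i|, fun n t hn => ?_⟩
  have hsum : ∀ f ∈ S, ∀ i, (ν f).1 i ≤ ∑ f ∈ S, ∑ i, |(ν f).1 i| := by
    intro f hf i
    calc (ν f).1 i ≤ |(ν f).1 i| := le_abs_self _
      _ ≤ ∑ i, |(ν f).1 i| :=
          Finset.single_le_sum (f := fun i => |(ν f).1 i|) (fun i _ => abs_nonneg _)
            (Finset.mem_univ i)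
      _ ≤ _ := Finset.single_le_sum (f := fun f => ∑ i, |(ν f).1 i|)
            (fun f _ => Finset.sum_nonneg fun i _ => abs_nonneg _) hf
  have key : ∀ g ∈ S, ∀ p : MvPolynomial σ k, cmp wt sh (n, t) (p • g) ∈ B := by
    intro g hg p
    have hgA : g ∈ A := hS ▸ Submodule.subset_span hg
    induction p using MvPolynomial.induction_on' with
    | monomial e c =>
      have hmem := monomial_smul_mem_gp (k := k) e c (hν g hg)
      by_cases heq : dg wt e + ν g = (n, t)
      · rw [heq] at hmem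
        rw [cmp_eq_self hmem]
        have hb : ∀ b, d ≤ bdeg blk e b := by
          intro b
          have h1 := dg_fst_eq_bdeg blk hblk e b
          have h2 : (dg wt e).1 b + (ν g).1 b = n b := by
            have := congrArg (fun q : (ι → ℤ) × ℤ => q.1 b) heq
            simpa using this
          have h3 := hn b
          have h4 := hsum g hg b
          have h5 : (d : ℤ) ≤ bdeg blk e b := by linarith only [h4, h3, h2, h1]
          exact_mod_cast h5
        have h6 := hd' e hb g hgA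
        have h7 : (monomial e c : MvPolynomial σ k) • g =
            (C c : MvPolynomial σ k) • ((monomial e (1 : k) : MvPolynomial σ k) • g) := by
          rw [← smul_assoc, smul_eq_mul, C_mul_monomial, mul_one]
        rw [h7]
        exact B.smul_mem _ h6
      · rw [van_cmp_eq_zero_of_ne heq hmem]
        exact B.zero_mem
    | add p q hp hq =>
      rw [add_smul, cmp_add]
      exact B.add_mem hp hq
  have hle : ∀ f ∈ A, cmp wt sh (n, t) f ∈ B := by
    intro f hf
    rw [← hS] at hf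
    obtain ⟨c, -, hc⟩ := Submodule.mem_span_finset.1 hf
    rw [← hc]
    have hmap : cmp wt sh (n, t) (∑ g ∈ S, c g • g) = ∑ g ∈ S, cmp wt sh (n, t) (c g • g) :=
      map_sum (AddMonoidHom.mk' (cmp (k := k) wt sh (n, t)) (cmp_add (n, t))) _ S
    rw [hmap]
    exact B.sum_mem fun g hg => key g hg (c g)
  have heq : gpart wt sh A (n, t) = gpart wt sh B (n, t) := by
    apply le_antisymm
    · intro f hf
      obtain ⟨h1, h2⟩ := Submodule.mem_inf.1 hf
      refine Submodule.mem_inf.2 ⟨?_, h2⟩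
      have h3 := hle f h1
      rw [cmp_eq_self h2] at h3
      exact h3
    · exact inf_le_inf_right _ hBA
  unfold hd
  rw [heq]

end van

end Vale.Agent.P200F.V

end

section

namespace Vale.Agent.P200F.V

open Module MvPolynomial

universe u

/-- the degrees of the variables: `z` has degree one in the block `blk z` -/
def wb {Z ι : Type} [DecidableEq ι] (blk : Z → ι) (z : Z) : ι → ℤ := Pi.single (blk z) 1

/-- the new relation of the variable `c` -/
noncomputable def lrel {k : Type u} [Field k] {Z J : Type} [Fintype J] (e : ℕ)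
    (h : Z → J → MvPolynomial Z k) (c : Z) : MvPolynomial Z (KF k J) :=
  X c ^ e - ∑ j, MvPolynomial.C (Tv k j) * MvPolynomial.map (algebraMap k (KF k J)) (h c j)

/-- **Level lemma.** -/
def LevelLemma : Prop :=
  ∀ (k : Type u) [Field k] (Z ι J : Type) [Fintype Z] [DecidableEq Z] [Fintype ι] [DecidableEq ι]
    [Fintype J] (blk : Z → ι) (C : Finset Z) (e : ℕ), 0 < e →
    ∀ (G0 : Set (MvPolynomial Z k)),
      (∀ p ∈ G0, (∃ δ : ι → ℤ, ∀ m, coeff m p ≠ 0 → dg (wb blk) m = δ) ∧
        ∀ m, coeff m p ≠ 0 → ∀ c ∈ C, m c = 0) →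
      ∀ (h : Z → J → MvPolynomial Z k),
        (∀ c ∈ C, ∀ j m, coeff m (h c j) ≠ 0 →
          dg (wb blk) m = Pi.single (blk c) (e : ℤ) ∧ ∀ c' ∈ C, m c' = 0) →
        (∀ (Ω : Type u) [Field Ω] [IsAlgClosed Ω] [Algebra k Ω] (p : Z → Ω),
          (∀ g ∈ G0, aeval p g = 0) → (∀ c ∈ C, p c = 0) → (∀ b, ∃ z, blk z = b ∧ p z ≠ 0) →
          ∀ l : Z → Ω, (∀ j, ∑ c ∈ C, l c * aeval p (h c j) = 0) → ∀ c ∈ C, l c = 0) →
        ∀ f ∈ Hil (KF k J) (wb blk)
          ((MvPolynomial.map (algebraMap k (KF k J)) '' G0) ∪ (lrel e h '' (C : Set Z))),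
          ∃ g ∈ Hil k (wb blk) (G0 ∪ (X '' (C : Set Z))),
            EvEq f (act (ι → ℤ) (∏ c ∈ C, ph e (Pi.single (blk c) 1)) g)

end Vale.Agent.P200F.V

end

section

namespace Vale.Agent.P200F.V

open Module MvPolynomial

universe u

section drop
variable {k : Type u} [Field k] {Z Z' ι J : Type} [AddCommGroup ι] {wt : Z → ι}

theorem coeff_cmp_drop (wt : Z → ι) (sh : J → ι) (ν : ι) (f : J → MvPolynomial Z k) (j : J)
    (e : Z →₀ ℕ) (h : dg wt e + sh j = ν) : coeff e (cmp wt sh ν f j) = coeff e (f j) := by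
  classical
  unfold cmp
  rw [coeff_sum]
  simp only [coeff_monomial]
  rw [Finset.sum_ite_eq']
  split_ifs with h1
  · rfl
  · rw [Finset.mem_filter, not_and] at h1
    by_contra hne
    exact h1 (MvPolynomial.mem_support_iff.2 fun h2 => hne h2.symm) h

theorem coeff_cmp_drop' (wt : Z → ι) (sh : J → ι) (ν : ι) (f : J → MvPolynomial Z k) (j : J)
    (e : Z →₀ ℕ) (h : dg wt e + sh j ≠ ν) : coeff e (cmp wt sh ν f j) = 0 := by
  classical
  unfold cmp
  rw [coeff_sum]
  simp only [coeff_monomial]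
  rw [Finset.sum_ite_eq']
  split_ifs with h1
  · rw [Finset.mem_filter] at h1
    exact absurd h1.2 h
  · rfl

theorem dg_mapDomain_drop (i : Z' → Z) (e : Z' →₀ ℕ) :
    dg wt (e.mapDomain i) = dg (fun z => wt (i z)) e := by
  unfold dg
  rw [Finsupp.sum_mapDomain_index]
  · intro b; exact zero_smul _ _
  · intro b m n; exact add_smul _ _ _

/-- renaming of the variables in all components -/
noncomputable def rnm (k : Type u) [Field k] (J : Type) (i : Z' → Z) :
    (J → MvPolynomial Z' k) →ₗ[k] (J → MvPolynomial Z k) :=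
  LinearMap.pi fun j => (rename i).toLinearMap ∘ₗ LinearMap.proj j

theorem rnm_apply (i : Z' → Z) (g : J → MvPolynomial Z' k) (j : J) :
    rnm k J i g j = rename i (g j) := rfl

theorem rnm_inj (i : Z' → Z) (hi : Function.Injective i) :
    Function.Injective (rnm k J i) := by
  intro a b h
  funext j
  exact rename_injective i hi (congrFun h j)

theorem cmp_rnm (i : Z' → Z) (hi : Function.Injective i) (sh : J → ι) (ν : ι)
    (g : J → MvPolynomial Z' k) :
    cmp wt sh ν (rnm k J i g) = rnm k J i (cmp (fun z => wt (i z)) sh ν g) := by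
  funext j
  ext d
  by_cases hd : ∃ u : Z' →₀ ℕ, u.mapDomain i = d
  · obtain ⟨u, rfl⟩ := hd
    rw [rnm_apply, coeff_rename_mapDomain i hi]
    by_cases h : dg (fun z => wt (i z)) u + sh j = ν
    · rw [coeff_cmp_drop wt sh ν _ j _ (by rw [dg_mapDomain_drop]; exact h),
        coeff_cmp_drop _ sh ν _ j _ h, rnm_apply, coeff_rename_mapDomain i hi]
    · rw [coeff_cmp_drop' wt sh ν _ j _ (by rw [dg_mapDomain_drop]; exact h),
        coeff_cmp_drop' _ sh ν _ j _ h]
  · have h0 : ∀ p : MvPolynomial Z' k, coeff d (rename i p) = 0 := fun p =>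
      coeff_rename_eq_zero i p d fun u hu => absurd ⟨u, hu⟩ hd
    rw [rnm_apply, h0]
    by_cases h : dg wt d + sh j = ν
    · rw [coeff_cmp_drop wt sh ν _ j _ h, rnm_apply, h0]
    · rw [coeff_cmp_drop' wt sh ν _ j _ h]

theorem rnm_mem_gp (i : Z' → Z) (hi : Function.Injective i) (sh : J → ι) (ν : ι)
    (g : J → MvPolynomial Z' k) :
    rnm k J i g ∈ gp k wt sh ν ↔ g ∈ gp k (fun z => wt (i z)) sh ν := by
  constructor
  · intro h j e he
    have h1 := h j (e.mapDomain i) (by rw [rnm_apply, coeff_rename_mapDomain i hi]; exact he)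
    rwa [dg_mapDomain_drop] at h1
  · intro h j e he
    rw [rnm_apply] at he
    obtain ⟨u, rfl, hu⟩ := coeff_rename_ne_zero i (g j) e he
    rw [dg_mapDomain_drop]
    exact h j u hu

theorem sub_killCompl_mem (i : Z' → Z) (hi : Function.Injective i) (p : MvPolynomial Z k) :
    p - rename i (killCompl hi p) ∈ Ideal.span (X '' (Set.range i)ᶜ : Set (MvPolynomial Z k)) := by
  rw [mem_ideal_span_X_image]
  intro m hm
  by_contra hno
  push Not at hno
  have hsub : (↑m.support : Set Z) ⊆ Set.range i := by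
    intro z hz
    by_contra hz'
    exact (Finsupp.mem_support_iff.1 hz) (hno z hz')
  have h1 := Finsupp.mapDomain_comapDomain i hi m hsub
  rw [MvPolynomial.mem_support_iff] at hm
  apply hm
  rw [coeff_sub, ← h1, coeff_rename_mapDomain i hi, coeff_killCompl, sub_self]

theorem single_mem_of_ideal [DecidableEq J] {N : Submodule (MvPolynomial Z k) (J → MvPolynomial Z k)}
    {I : Set (MvPolynomial Z k)}
    (h : ∀ p ∈ I, ∀ j, (Pi.single j p : J → MvPolynomial Z k) ∈ N) {r : MvPolynomial Z k}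
    (hr : r ∈ Ideal.span I) (j : J) : (Pi.single j r : J → MvPolynomial Z k) ∈ N := by
  have h1 : Ideal.span I ≤ N.comap (LinearMap.single (MvPolynomial Z k)
      (fun _ : J => MvPolynomial Z k) j) := by
    unfold Ideal.span
    rw [Submodule.span_le]
    intro p hp
    exact h p hp j
  exact h1 hr

/-- the submodule over the smaller polynomial ring -/
def dropS (i : Z' → Z) (N : Submodule (MvPolynomial Z k) (J → MvPolynomial Z k)) :
    Submodule (MvPolynomial Z' k) (J → MvPolynomial Z' k) where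
  carrier := {g | rnm k J i g ∈ N}
  add_mem' := by
    intro a b ha hb
    change rnm k J i (a + b) ∈ N
    rw [map_add]
    exact N.add_mem ha hb
  zero_mem' := by
    change rnm k J i 0 ∈ N
    rw [map_zero]
    exact N.zero_mem
  smul_mem' := by
    intro c a ha
    have h1 : rnm k J i (c • a) = rename i c • rnm k J i a := by
      funext j
      rw [rnm_apply, Pi.smul_apply, Pi.smul_apply, smul_eq_mul, smul_eq_mul, map_mul, rnm_apply]
    change rnm k J i (c • a) ∈ N
    rw [h1]
    exact N.smul_mem _ ha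

theorem mem_dropS (i : Z' → Z) (N : Submodule (MvPolynomial Z k) (J → MvPolynomial Z k))
    (g : J → MvPolynomial Z' k) : g ∈ dropS i N ↔ rnm k J i g ∈ N := Iff.rfl

end drop

/-- modules killed by the variables outside of the image of `i` are modules over the smaller
polynomial ring -/
theorem Hil.drop {k : Type u} [Field k] {Z Z' ι : Type} [Fintype Z] [Fintype Z'] [AddCommGroup ι]
    {wt : Z → ι} (hwt : Pos wt) (i : Z' → Z) (hi : Function.Injective i)
    {J0 : Set (MvPolynomial Z k)} {J0' : Set (MvPolynomial Z' k)}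
    (h1 : ∀ z, z ∉ Set.range i → (X z : MvPolynomial Z k) ∈ J0)
    (h2 : ∀ p ∈ J0', rename i p ∈ J0) : Hil k wt J0 ≤ Hil k (fun z => wt (i z)) J0' := by
  have hwt' : Pos (fun z => wt (i z)) := by
    obtain ⟨φ, hφ⟩ := hwt
    exact ⟨φ, fun v => hφ (i v)⟩
  unfold Hil
  refine AddSubgroup.closure_mono ?_
  rintro f ⟨s, sh, N, hN, hJ, hf⟩
  refine ⟨s, sh, dropS i N, ?_, ?_, ?_⟩
  · intro g hg ν
    rw [mem_dropS, ← cmp_rnm i hi]
    exact hN _ hg ν
  · intro p hp j
    rw [mem_dropS]
    have h3 : rnm k (Fin s) i (Pi.single j p) = Pi.single j (rename i p) := by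
      funext j'
      rw [rnm_apply]
      by_cases hj : j' = j
      · subst hj
        rw [Pi.single_eq_same, Pi.single_eq_same]
      · rw [Pi.single_eq_of_ne hj, Pi.single_eq_of_ne hj, map_zero]
    rw [h3]
    exact hJ _ (h2 p hp) j
  · intro ν
    rw [hf ν]
    set L := rnm k (Fin s) i with hL
    have hLi : Function.Injective L := rnm_inj i hi
    set V := gp k wt sh ν with hV
    set V' := gp k (fun z => wt (i z)) sh ν with hV'
    set W := gpart wt sh N ν with hW
    set W' := gpart (fun z => wt (i z)) sh (dropS i N) ν with hW'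
    have top1 : gpart wt sh (⊤ : Submodule (MvPolynomial Z k) (Fin s → MvPolynomial Z k)) ν = V := by
      unfold gpart
      rw [Submodule.restrictScalars_top, top_inf_eq]
    have top2 : gpart (fun z => wt (i z)) sh
        (⊤ : Submodule (MvPolynomial Z' k) (Fin s → MvPolynomial Z' k)) ν = V' := by
      unfold gpart
      rw [Submodule.restrictScalars_top, top_inf_eq]
    have fV : FiniteDimensional k V := finite_gp hwt ν
    have fV' : FiniteDimensional k V' := finite_gp hwt' ν
    have fW : FiniteDimensional k W := finite_gpart hwt N ν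
    have hWV : W ≤ V := inf_le_right
    have hmem : ∀ g, g ∈ V' ↔ L g ∈ V := fun g => (rnm_mem_gp i hi sh ν g).symm
    have e1 : V'.map L ⊔ W = V := by
      apply le_antisymm
      · rw [sup_le_iff]
        refine ⟨?_, hWV⟩
        rintro _ ⟨g, hg, rfl⟩
        exact (hmem g).1 hg
      · intro v hv
        set g : Fin s → MvPolynomial Z' k := fun j => killCompl hi (v j) with hg
        have hgV : g ∈ V' := by
          intro j e he
          rw [hg] at he
          simp only [coeff_killCompl] at he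
          have := hv j _ he
          rwa [dg_mapDomain_drop] at this
        have hN' : v - L g ∈ N := by
          have h4 : v - L g = ∑ j, Pi.single j (v j - rename i (killCompl hi (v j))) := by
            exact (Finset.univ_sum_single (v - L g)).symm
          rw [h4]
          refine N.sum_mem fun j _ => ?_
          refine single_mem_of_ideal (I := X '' (Set.range i)ᶜ) ?_ (sub_killCompl_mem i hi (v j)) j
          rintro _ ⟨z, hz, rfl⟩ j'
          exact hJ _ (h1 z hz) j'
        have h5 : v - L g ∈ W := ⟨hN', V.sub_mem hv ((hmem g).1 hgV)⟩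
        have h6 : v = L g + (v - L g) := by abel
        rw [h6]
        exact Submodule.add_mem_sup ⟨g, hgV, rfl⟩ h5
    have e2 : V'.map L ⊓ W = W'.map L := by
      ext v
      constructor
      · rintro ⟨⟨g, hg, rfl⟩, hgW⟩
        exact ⟨g, ⟨hgW.1, hg⟩, rfl⟩
      · rintro ⟨g, hg, rfl⟩
        exact ⟨⟨g, hg.2, rfl⟩, ⟨hg.1, (hmem g).1 hg.2⟩⟩
    have d1 : finrank k (V'.map L) = finrank k V' :=
      (Submodule.equivMapOfInjective L hLi V').finrank_eq.symm
    have d2 : finrank k (W'.map L) = finrank k W' :=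
      (Submodule.equivMapOfInjective L hLi W').finrank_eq.symm
    have d3 := Submodule.finrank_sup_add_finrank_inf_eq (V'.map L) W
    rw [e1, e2, d1, d2] at d3
    unfold hd
    rw [top1, top2]
    change (finrank k V : ℤ) - finrank k W = finrank k V' - finrank k W'
    have d4 : (finrank k V : ℤ) + finrank k W' = finrank k V' + finrank k W := by
      exact_mod_cast d3
    linarith

end Vale.Agent.P200F.V

end

section

namespace Vale.Agent.P200F.V

open Module MvPolynomial

universe u

/-- the degrees over the ring of parameters: the variables of `C` have `T`-degree one, the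
parameters have `T`-degree `e` -/
def wT {Z ι : Type} [DecidableEq Z] [DecidableEq ι] (J : Type) (blk : Z → ι) (C : Finset Z)
    (e : ℕ) : Z ⊕ J → (ι → ℤ) × ℤ :=
  Sum.elim (fun z => (wb blk z, if z ∈ C then 1 else 0)) fun _ => (0, (e : ℤ))

/-- the blocks of the variables -/
def tblk {Z ι : Type} (J : Type) (blk : Z → ι) : Z ⊕ J → Option ι :=
  Sum.elim (fun z => some (blk z)) fun _ => none

/-- the maximal minors of the rows `0, …, j` -/
def mins {P : Type*} [CommRing P] {r N : ℕ} (h : Fin r → Fin N → P) (j : Fin r) : Set P :=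
  {x | ∃ g : Fin (j + 1) → Fin N,
    x = (Matrix.of fun (a b : Fin (j + 1)) => h (Fin.castLE j.2 a) (g b)).det}

/-- the hypothesis (IND) of the level lemma -/
def LvInd {k : Type u} [Field k] {Z ι J : Type} (blk : Z → ι) (C : Finset Z)
    (G0 : Set (MvPolynomial Z k)) (h : Z → J → MvPolynomial Z k) : Prop :=
  ∀ (Ω : Type u) [Field Ω] [IsAlgClosed Ω] [Algebra k Ω] (p : Z → Ω),
    (∀ g ∈ G0, aeval p g = 0) → (∀ c ∈ C, p c = 0) → (∀ b, ∃ z, blk z = b ∧ p z ≠ 0) →
    ∀ l : Z → Ω, (∀ j, ∑ c ∈ C, l c * aeval p (h c j) = 0) → ∀ c ∈ C, l c = 0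

/-- the relations over the ring of parameters -/
noncomputable def trelT {k : Type u} [Field k] {Z J : Type} [Fintype J] (e : ℕ)
    (h : Z → J → MvPolynomial Z k) (c : Z) : MvPolynomial (Z ⊕ J) k :=
  X (Sum.inl c) ^ e - ∑ j, X (Sum.inr j) * rename Sum.inl (h c j)

end Vale.Agent.P200F.V

end
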