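import Vale.Agent.P200F.Ns
import Vale.Agent.P200F.D1

set_option linter.all false

section

namespace Vale.Agent.P200F.V

open Module

/-- the lattice is stable under sums -/
theorem lam_add {κ R : ℕ} {e : Fin R → Fin κ → ℕ} {F G : (Fin R → ℤ) → ℤ} (hF : Lam R e F)
    (hG : Lam R e G) : Lam R e (F + G) := by
  induction R with
  | zero => exact (lam_zero e _).2 trivial
  | succ R ih =>
    obtain ⟨A, B, hA, hB, h⟩ := (lam_succ R e F).1 hF
    obtain ⟨A', B', hA', hB', h'⟩ := (lam_succ R e G).1 hG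
    refine (lam_succ R e _).2 ⟨A + A', B + B', ih hA hA', ih hB hB', fun n => ?_⟩
    rw [Pi.add_apply, h, h', Pi.add_apply, Pi.add_apply]
    ring

/-- the lattice is stable under integer multiples -/
theorem lam_mul {κ R : ℕ} {e : Fin R → Fin κ → ℕ} {F : (Fin R → ℤ) → ℤ} (c : ℤ)
    (hF : Lam R e F) : Lam R e fun n => c * F n := by
  induction R with
  | zero => exact (lam_zero e _).2 trivial
  | succ R ih =>
    obtain ⟨A, B, hA, hB, h⟩ := (lam_succ R e F).1 hF
    refine (lam_succ R e _).2 ⟨fun n => c * A n, fun n => c * B n, ih hA, ih hB, fun n => ?_⟩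
    show c * F n = _
    rw [h]
    ring

/-- the lattice is stable under negation -/
theorem lam_neg {κ R : ℕ} {e : Fin R → Fin κ → ℕ} {F : (Fin R → ℤ) → ℤ} (hF : Lam R e F) :
    Lam R e (-F) := by
  have h := lam_mul (-1) hF
  have h1 : (-F) = fun n => (-1) * F n := by
    funext n
    rw [Pi.neg_apply, neg_one_mul]
  rw [h1]
  exact h

/-- the lattice contains zero -/
theorem lam_zero_fun {κ R : ℕ} (e : Fin R → Fin κ → ℕ) : Lam R e (0 : (Fin R → ℤ) → ℤ) := by
  induction R with
  | zero => exact (lam_zero e _).2 trivial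
  | succ R ih =>
    refine (lam_succ R e _).2 ⟨0, 0, ih _, ih _, fun n => ?_⟩
    rw [Pi.zero_apply, Pi.zero_apply, zero_mul, zero_mul, zero_add]

theorem hO_sub {κ : ℕ} (e : Fin κ → ℕ) (n d : ℤ) : hO e (n - d) = hO e n - dl e * d := by
  unfold hO
  ring

/-- the lattice is stable under shifts -/
theorem lam_sft {κ R : ℕ} {e : Fin R → Fin κ → ℕ} {F : (Fin R → ℤ) → ℤ} (δ : Fin R → ℤ)
    (hF : Lam R e F) : Lam R e fun n => F (n - δ) := by
  induction R with
  | zero => exact (lam_zero e _).2 trivial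
  | succ R ih =>
    obtain ⟨A, B, hA, hB, h⟩ := (lam_succ R e F).1 hF
    have hA' := ih (Fin.tail δ) hA
    have hB' := ih (Fin.tail δ) hB
    refine (lam_succ R e _).2 ⟨fun n => A (n - Fin.tail δ),
      (fun n => B (n - Fin.tail δ)) + fun n => (-(δ 0)) * A (n - Fin.tail δ), hA',
      lam_add hB' (lam_mul (-(δ 0)) hA'), fun n => ?_⟩
    show F (n - δ) = _
    have ht : Fin.tail (n - δ) = Fin.tail n - Fin.tail δ := rfl
    rw [h, ht, Pi.sub_apply, hO_sub, Pi.add_apply]
    ring

end Vale.Agent.P200F.V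

end

section

namespace Vale.Agent.P200F.V

open Module MvPolynomial

universe u

/-- the degrees of the variables of the blocks -/
def wB (κ R : ℕ) (p : Fin R × Fin (κ + 2)) : Fin R → ℤ := Pi.single p.1 1

theorem pos_wB (κ R : ℕ) : Pos (wB κ R) := by
  refine ⟨∑ g : Fin R, Pi.evalAddMonoidHom (fun _ : Fin R => ℤ) g, ?_⟩
  rintro ⟨g, v⟩
  rw [AddMonoidHom.finsetSum_apply]
  simp [wB, Pi.single_apply]

theorem dg_wB {κ R : ℕ} (e : (Fin R × Fin (κ + 2)) →₀ ℕ) (g : Fin R) :
    dg (wB κ R) e g = (mdeg e g : ℤ) := by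
  rw [dg, Finsupp.sum_fintype _ _ (fun i => by simp), Finset.sum_apply, mdeg,
    Fintype.sum_prod_type, Finset.sum_eq_single g]
  · push_cast
    refine Finset.sum_congr rfl fun v _ => ?_
    simp [wB]
  · intro h _ hh
    refine Finset.sum_eq_zero fun v _ => ?_
    simp [wB, hh.symm]
  · intro h
    exact absurd (Finset.mem_univ g) h

open scoped Classical in
theorem coeff_cmp' {k : Type u} [Field k] {σ ι J : Type} [AddCommGroup ι] (wt : σ → ι)
    (sh : J → ι) (ν : ι) (f : J → MvPolynomial σ k) (j : J) (e : σ →₀ ℕ) :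
    coeff e (cmp wt sh ν f j) = if dg wt e + sh j = ν then coeff e (f j) else 0 := by
  rw [cmp, coeff_sum]
  by_cases he : dg wt e + sh j = ν
  · rw [if_pos he]
    by_cases hs : e ∈ (f j).support
    · rw [Finset.sum_eq_single e]
      · rw [coeff_monomial, if_pos rfl]
      · intro b _ hb
        rw [coeff_monomial, if_neg hb]
      · intro h
        exact absurd (Finset.mem_filter.2 ⟨hs, he⟩) h
    · rw [notMem_support_iff.1 hs]
      refine Finset.sum_eq_zero fun x hx => ?_
      rw [coeff_monomial, if_neg]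
      intro h
      rw [h] at hx
      exact hs (Finset.mem_filter.1 hx).1
  · rw [if_neg he]
    refine Finset.sum_eq_zero fun x hx => ?_
    rw [coeff_monomial, if_neg]
    intro h
    rw [h] at hx
    exact he (Finset.mem_filter.1 hx).2

section
variable {K : Type u} [Field K] {κ R s : ℕ}

theorem pv_eq_gp (n : Fin R → ℕ) :
    (pv K κ R s n : Submodule K (Fin s → MvPolynomial (Fin R × Fin (κ + 2)) K)) =
      gp K (wB κ R) (fun _ : Fin s => (0 : Fin R → ℤ)) (fun g => (n g : ℤ)) := by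
  ext u
  constructor
  · intro h j e he
    have h1 : mdeg e = n := h j e he
    rw [add_zero]
    funext g
    rw [dg_wB, h1]
  · intro h j e he
    have h1 := h j e he
    rw [add_zero] at h1
    funext g
    have h2 := congrFun h1 g
    rw [dg_wB] at h2
    exact_mod_cast h2

theorem hd_wB (N : Submodule (PA K κ R) (Fin s → PA K κ R)) (n : Fin R → ℕ) :
    hd (wB κ R) (fun _ : Fin s => (0 : Fin R → ℤ))
      (N : Submodule (MvPolynomial (Fin R × Fin (κ + 2)) K)
        (Fin s → MvPolynomial (Fin R × Fin (κ + 2)) K)) (fun g => (n g : ℤ)) =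
      finrank K (pv K κ R s n ⊓ N.restrictScalars K : Submodule K (Fin s → PA K κ R)) := by
  rw [hd, gpart, ← pv_eq_gp, inf_comm]

theorem hd_wB_top (n : Fin R → ℕ) :
    hd (wB κ R) (fun _ : Fin s => (0 : Fin R → ℤ))
      (⊤ : Submodule (MvPolynomial (Fin R × Fin (κ + 2)) K)
        (Fin s → MvPolynomial (Fin R × Fin (κ + 2)) K)) (fun g => (n g : ℤ)) =
      finrank K (pv K κ R s n) := by
  rw [hd, gpart, ← pv_eq_gp, Submodule.restrictScalars_top, top_inf_eq]

theorem qd_eq (N : Submodule (PA K κ R) (Fin s → PA K κ R)) (n : Fin R → ℕ) :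
    (qd N n : ℤ) = (hd (wB κ R) (fun _ : Fin s => (0 : Fin R → ℤ))
      (⊤ : Submodule (MvPolynomial (Fin R × Fin (κ + 2)) K)
        (Fin s → MvPolynomial (Fin R × Fin (κ + 2)) K)) (fun g => (n g : ℤ)) : ℤ) -
      hd (wB κ R) (fun _ : Fin s => (0 : Fin R → ℤ))
      (N : Submodule (MvPolynomial (Fin R × Fin (κ + 2)) K)
        (Fin s → MvPolynomial (Fin R × Fin (κ + 2)) K)) (fun g => (n g : ℤ)) := by
  have h := hd_mono (pos_wB κ R) (le_top (a := (N : Submodule
    (MvPolynomial (Fin R × Fin (κ + 2)) K) (Fin s → MvPolynomial (Fin R × Fin (κ + 2)) K))))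
    (sh := fun _ : Fin s => (0 : Fin R → ℤ)) (fun g => (n g : ℤ))
  rw [hd_wB_top, hd_wB] at h
  rw [hd_wB_top, hd_wB, qd, Nat.cast_sub h]

theorem cmp_wB (u : Fin s → PA K κ R) (n : Fin R → ℕ) :
    cmp (wB κ R) (fun _ : Fin s => (0 : Fin R → ℤ)) (fun g => (n g : ℤ))
      (u : Fin s → MvPolynomial (Fin R × Fin (κ + 2)) K) = cv K κ R s n u := by
  funext j
  ext e
  rw [coeff_cmp']
  have h1 : dg (wB κ R) e + 0 = (fun g => (n g : ℤ)) ↔ mdeg e = n := by
    rw [add_zero]
    constructor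
    · intro h
      funext g
      have := congrFun h g
      rw [dg_wB] at this
      exact_mod_cast this
    · intro h
      funext g
      rw [dg_wB, h]
  have h2 : coeff e ((cv K κ R s n u j : PA K κ R) : MvPolynomial (Fin R × Fin (κ + 2)) K) =
      if mdeg e = n then coeff e (u j : MvPolynomial (Fin R × Fin (κ + 2)) K) else 0 := by
    change ((u j).coeff.filter fun m => mdeg m = n) e = _
    rw [Finsupp.filter_apply]
    rfl
  rw [h2]
  by_cases he : mdeg e = n
  · rw [if_pos he, if_pos (h1.2 he)]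
  · rw [if_neg he, if_neg fun h => he (h1.1 h)]

/-- in degrees with a negative coordinate there is nothing -/
theorem cmp_wB_neg (u : Fin s → MvPolynomial (Fin R × Fin (κ + 2)) K) {ν : Fin R → ℤ}
    (hν : ∀ n : Fin R → ℕ, ν ≠ fun g => (n g : ℤ)) :
    cmp (wB κ R) (fun _ : Fin s => (0 : Fin R → ℤ)) ν u = 0 := by
  funext j
  ext e
  rw [coeff_cmp', if_neg]
  · rfl
  · intro h
    refine hν (mdeg e) ?_
    rw [add_zero] at h
    rw [← h]
    funext g
    rw [dg_wB]

theorem homS_iff (N : Submodule (PA K κ R) (Fin s → PA K κ R)) :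
    HomS (wB κ R) (fun _ : Fin s => (0 : Fin R → ℤ))
      (N : Submodule (MvPolynomial (Fin R × Fin (κ + 2)) K)
        (Fin s → MvPolynomial (Fin R × Fin (κ + 2)) K)) ↔
      ∀ u ∈ N, ∀ n, cv K κ R s n u ∈ N := by
  constructor
  · intro h u hu n
    have := h u hu fun g => (n g : ℤ)
    rwa [cmp_wB] at this
  · intro h u hu ν
    by_cases hν : ∃ n : Fin R → ℕ, ν = fun g => (n g : ℤ)
    · obtain ⟨n, rfl⟩ := hν
      rw [cmp_wB]
      exact h u hu n
    · rw [cmp_wB_neg]
      · exact N.zero_mem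
      · intro n hn
        exact hν ⟨n, hn⟩

theorem bm_eq (g : Fin R) (p : MvPolynomial (Fin (κ + 2)) K) :
    (bm K K κ g p : MvPolynomial (Fin R × Fin (κ + 2)) K) = rename (fun v => (g, v)) p := by
  have h : (bm K K κ g : MvPolynomial (Fin (κ + 2)) K →ₐ[K]
      MvPolynomial (Fin R × Fin (κ + 2)) K) = rename (fun v => (g, v)) := by
    apply MvPolynomial.algHom_ext
    intro v
    rw [rename_X]
    change AddMonoidAlgebra.mapAlgHom (R := K) (Mon κ R) (Algebra.ofId K K)
      (AddMonoidAlgebra.mapDomainAlgHom K K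
      (Finsupp.mapDomain.addMonoidHom fun v : Fin (κ + 2) => (g, v))
        (AddMonoidAlgebra.single (Finsupp.single v 1) 1)) =
      AddMonoidAlgebra.single (Finsupp.single (g, v) 1) 1
    rw [AddMonoidAlgebra.mapDomainAlgHom_apply, AddMonoidAlgebra.mapDomain_single,
      AddMonoidAlgebra.mapAlgHom_single]
    rw [map_one]
    congr 1
    exact Finsupp.mapDomain_single
  exact DFunLike.congr_fun h p

end

end Vale.Agent.P200F.V

end

section

namespace Vale.Agent.P200F.V

open Module MvPolynomial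

universe u

/-- the degrees of the variables of the blocks -/
def wbl (κ R : ℕ) (z : Fin R × Fin (κ + 2)) : Fin R → ℤ := Pi.single z.1 1

section br
variable {K : Type u} [Field K] {κ R : ℕ}

/-- the relations of the blocks -/
def relS (β : Fin R → Blk K κ) : Set (MvPolynomial (Fin R × Fin (κ + 2)) K) :=
  {p | ∃ g i, p = rename (Prod.mk g) ((β g).rel i)}

/-- a submodule over `PA K κ R` as a submodule over `MvPolynomial` -/
def toMv {s : ℕ} (N : Submodule (PA K κ R) (Fin s → PA K κ R)) :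
    Submodule (MvPolynomial (Fin R × Fin (κ + 2)) K)
      (Fin s → MvPolynomial (Fin R × Fin (κ + 2)) K) where
  carrier := {u | (show Fin s → PA K κ R from u) ∈ N}
  add_mem' ha hb := N.add_mem ha hb
  zero_mem' := N.zero_mem
  smul_mem' c _ ha := N.smul_mem (show PA K κ R from c) ha

/-- a submodule over `MvPolynomial` as a submodule over `PA K κ R` -/
def ofMv {s : ℕ} (N : Submodule (MvPolynomial (Fin R × Fin (κ + 2)) K)
      (Fin s → MvPolynomial (Fin R × Fin (κ + 2)) K)) :
    Submodule (PA K κ R) (Fin s → PA K κ R) where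
  carrier := {u | (show Fin s → MvPolynomial (Fin R × Fin (κ + 2)) K from u) ∈ N}
  add_mem' ha hb := N.add_mem ha hb
  zero_mem' := N.zero_mem
  smul_mem' c _ ha := N.smul_mem (show MvPolynomial (Fin R × Fin (κ + 2)) K from c) ha

theorem toMv_ofMv {s : ℕ} (N : Submodule (MvPolynomial (Fin R × Fin (κ + 2)) K)
      (Fin s → MvPolynomial (Fin R × Fin (κ + 2)) K)) : toMv (ofMv N) = N := rfl

theorem homS_toMv {β : Fin R → Blk K κ} {s : ℕ}
    {N : Submodule (PA K κ R) (Fin s → PA K κ R)} (h : IsG β N) :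
    HomS (wbl κ R) (fun _ => (0 : Fin R → ℤ)) (toMv N) :=
  (homS_iff N).2 h.hom

theorem rel_toMv {β : Fin R → Blk K κ} {s : ℕ}
    {N : Submodule (PA K κ R) (Fin s → PA K κ R)} (h : IsG β N) :
    ∀ p ∈ relS β, ∀ j, (Pi.single j p : Fin s → MvPolynomial (Fin R × Fin (κ + 2)) K) ∈
      toMv N := by
  rintro p ⟨g, i, rfl⟩ j
  have h1 := h.rel g i j
  have h2 : (bm K K κ g ((β g).rel i) : MvPolynomial (Fin R × Fin (κ + 2)) K) =
      rename (Prod.mk g) ((β g).rel i) := bm_eq g _
  rw [← h2]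
  exact h1

theorem isG_ofMv {β : Fin R → Blk K κ} {s : ℕ}
    {N : Submodule (MvPolynomial (Fin R × Fin (κ + 2)) K)
      (Fin s → MvPolynomial (Fin R × Fin (κ + 2)) K)}
    (hN : HomS (wbl κ R) (fun _ => (0 : Fin R → ℤ)) N)
    (h : ∀ p ∈ relS β, ∀ j, (Pi.single j p : Fin s → MvPolynomial (Fin R × Fin (κ + 2)) K) ∈ N) :
    IsG β (ofMv N) := by
  refine ⟨(homS_iff (ofMv N)).1 hN, fun g i j => ?_⟩
  have h1 := h _ ⟨g, i, rfl⟩ j
  have h2 : (bm K K κ g ((β g).rel i) : MvPolynomial (Fin R × Fin (κ + 2)) K) =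
      rename (Prod.mk g) ((β g).rel i) := bm_eq g _
  rw [← h2] at h1
  exact h1

theorem qd_toMv {s : ℕ} (N : Submodule (PA K κ R) (Fin s → PA K κ R)) (n : Fin R → ℕ) :
    (qd N n : ℤ) = (hd (wbl κ R) (fun _ : Fin s => (0 : Fin R → ℤ))
      (⊤ : Submodule (MvPolynomial (Fin R × Fin (κ + 2)) K)
        (Fin s → MvPolynomial (Fin R × Fin (κ + 2)) K)) (fun g => (n g : ℤ)) : ℤ) -
      hd (wbl κ R) (fun _ : Fin s => (0 : Fin R → ℤ)) (toMv N) (fun g => (n g : ℤ)) :=
  qd_eq N n

end br

end Vale.Agent.P200F.V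

end

section

namespace Vale.Agent.P200F.V

open Module MvPolynomial

universe u

section aux
variable {k : Type u} [Field k] {σ ι J : Type} [AddCommGroup ι] {wt : σ → ι} {sh : J → ι}

theorem dg_add_br (e e' : σ →₀ ℕ) : dg wt (e + e') = dg wt e + dg wt e' := by
  classical
  unfold dg
  rw [Finsupp.sum_add_index']
  · intro b; exact zero_smul _ _
  · intro b m n; exact add_smul _ _ _

theorem smul_mem_gp_br {p : MvPolynomial σ k} {ν δ : ι} (hp : ∀ e, coeff e p ≠ 0 → dg wt e = ν)
    {v : J → MvPolynomial σ k} (hv : v ∈ gp k wt sh δ) : p • v ∈ gp k wt sh (ν + δ) := by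
  classical
  intro j e he
  rw [Pi.smul_apply, smul_eq_mul, coeff_mul] at he
  obtain ⟨x, hx, hne⟩ := Finset.exists_ne_zero_of_sum_ne_zero he
  replace hx : x.1 + x.2 = e := Finset.HasAntidiagonal.mem_antidiagonal.1 hx
  have h1 := hp x.1 (left_ne_zero_of_mul hne)
  have h2 := hv j x.2 (right_ne_zero_of_mul hne)
  rw [← hx, dg_add_br, h1, add_assoc, h2]

theorem isDeg_lin_br [Fintype J] {s : ℕ} {a : ι} (b : Fin s → J → MvPolynomial σ k)
    (hb : ∀ i, b i ∈ gp k wt sh a) :
    IsDeg wt (fun _ => 0) sh a (Fintype.linearCombination (MvPolynomial σ k) b) := by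
  intro ν f hf
  rw [Fintype.linearCombination_apply]
  refine Submodule.sum_mem _ fun i _ => ?_
  refine smul_mem_gp_br (fun e he => ?_) (hb i)
  have := hf i e he
  rwa [add_zero] at this

end aux

section wbl
variable {K : Type u} [Field K] {κ R : ℕ}

theorem dg_wbl (e : (Fin R × Fin (κ + 2)) →₀ ℕ) (g : Fin R) :
    dg (wbl κ R) e g = ∑ v, (e (g, v) : ℤ) := by
  unfold dg
  rw [Finsupp.sum_fintype e (fun v m => m • wbl κ R v) (fun i => zero_smul ℕ _),
    Finset.sum_apply, Fintype.sum_prod_type, Finset.sum_eq_single g]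
  · refine Finset.sum_congr rfl fun v _ => ?_
    rw [Pi.smul_apply]
    unfold wbl
    rw [Pi.single_eq_same, nsmul_eq_mul, mul_one]
  · intro g' _ hg'
    refine Finset.sum_eq_zero fun v _ => ?_
    rw [Pi.smul_apply]
    unfold wbl
    rw [Pi.single_eq_of_ne (Ne.symm hg'), smul_zero]
  · intro h
    exact absurd (Finset.mem_univ g) h

theorem pos_wbl : Pos (wbl κ R) := by
  refine ⟨∑ g, Pi.evalAddMonoidHom (fun _ : Fin R => ℤ) g, fun z => ?_⟩
  rw [AddMonoidHom.finsetSum_apply]
  have h1 : ∑ g, (Pi.evalAddMonoidHom (fun _ : Fin R => ℤ) g) (wbl κ R z) = 1 := by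
    rw [Finset.sum_eq_single z.1]
    · change wbl κ R z z.1 = 1
      unfold wbl
      rw [Pi.single_eq_same]
    · intro g _ hg
      change wbl κ R z g = 0
      unfold wbl
      rw [Pi.single_eq_of_ne hg]
    · intro h
      exact absurd (Finset.mem_univ _) h
  rw [h1]
  exact zero_lt_one

/-- splitting of a monomial -/
theorem exists_split_br (e : (Fin R × Fin (κ + 2)) →₀ ℕ) (c : Fin R → ℕ)
    (h : ∀ g, (c g : ℤ) ≤ dg (wbl κ R) e g) :
    ∃ e1 e2, e = e1 + e2 ∧ ∀ g, dg (wbl κ R) e1 g = c g := by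
  classical
  have h1 : ∀ g, ∃ u : Fin (κ + 2) →₀ ℕ, u ≤ Finsupp.equivFunOnFinite.symm (fun v => e (g, v)) ∧
      u.degree = c g := by
    intro g
    refine Finsupp.exists_le_degree_eq _ (c g) ?_
    have h2 := h g
    rw [dg_wbl] at h2
    rw [Finsupp.degree_eq_sum]
    have h3 : ((c g : ℕ) : ℤ) ≤ ((∑ v, e (g, v) : ℕ) : ℤ) := by
      rw [Nat.cast_sum]; exact h2
    exact_mod_cast h3
  choose w hw hw' using h1
  set e1 : (Fin R × Fin (κ + 2)) →₀ ℕ := Finsupp.equivFunOnFinite.symm fun z => w z.1 z.2 with he1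
  have hle : e1 ≤ e := by
    intro z
    exact hw z.1 z.2
  refine ⟨e1, e - e1, (add_tsub_cancel_of_le hle).symm, fun g => ?_⟩
  rw [dg_wbl, ← hw' g, Finsupp.degree_eq_sum, Nat.cast_sum]
  rfl

end wbl

/-- **Integrality for all graded modules**, from the closure properties of the lattice. -/
theorem hil_of_intP_aux {K : Type u} [Field K] {κ R : ℕ} (β : Fin R → Blk K κ) (h : IntP K β)
    (lam0 : Lam R (fun g => (β g).e) (0 : (Fin R → ℤ) → ℤ))
    (lamA : ∀ F G : (Fin R → ℤ) → ℤ, Lam R (fun g => (β g).e) F → Lam R (fun g => (β g).e) G →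
      Lam R (fun g => (β g).e) (F + G))
    (lamN : ∀ F : (Fin R → ℤ) → ℤ, Lam R (fun g => (β g).e) F → Lam R (fun g => (β g).e) (-F))
    (lamS : ∀ (δ : Fin R → ℤ) (F : (Fin R → ℤ) → ℤ), Lam R (fun g => (β g).e) F →
      Lam R (fun g => (β g).e) fun n => F (n - δ)) :
    ∀ f ∈ Hil K (wbl κ R) (relS β), ∃ F, Lam R (fun g => (β g).e) F ∧ EvEq f F := by
  classical
  intro f hf
  unfold Hil at hf
  induction hf using AddSubgroup.closure_induction with
  | zero => exact ⟨0, lam0, 0, fun n _ => rfl⟩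
  | add f g _ _ hf hg =>
    obtain ⟨F, hF, n0, h0⟩ := hf
    obtain ⟨G, hG, n1, h1⟩ := hg
    refine ⟨F + G, lamA _ _ hF hG, max n0 n1, fun n hn => ?_⟩
    rw [Pi.add_apply, Pi.add_apply, h0 n fun i => (le_max_left _ _).trans (hn i),
      h1 n fun i => (le_max_right _ _).trans (hn i)]
  | neg f _ hf =>
    obtain ⟨F, hF, n0, h0⟩ := hf
    refine ⟨-F, lamN _ hF, n0, fun n hn => ?_⟩
    rw [Pi.neg_apply, Pi.neg_apply, h0 n hn]
  | mem f hf =>
    obtain ⟨s, sh, N, hN, hJ, hf⟩ := hf
    -- a degree which is larger than all shifts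
    set a : Fin R → ℤ := fun g => ∑ j, |sh j g| with ha
    have ha' : ∀ j g, sh j g ≤ a g := by
      intro j g
      refine (le_abs_self _).trans ?_
      exact Finset.single_le_sum (f := fun j => |sh j g|) (fun j _ => abs_nonneg _)
        (Finset.mem_univ j)
    have hfin : FiniteDimensional K (gp K (wbl κ R) sh a) := finite_gp pos_wbl a
    set s' := finrank K (gp K (wbl κ R) sh a) with hs'
    set b := Module.finBasis K (gp K (wbl κ R) sh a) with hb
    set v : Fin s' → Fin s → MvPolynomial (Fin R × Fin (κ + 2)) K := fun i => (b i).1 with hv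
    set φ := Fintype.linearCombination (MvPolynomial (Fin R × Fin (κ + 2)) K) v with hφ
    have hdeg : IsDeg (wbl κ R) (fun _ => 0) sh a φ := isDeg_lin_br v fun i => (b i).2
    set N' := kerIn φ ⊤ N with hN'
    have homN' : HomS (wbl κ R) (fun _ => (0 : Fin R → ℤ)) N' := HomS.kerIn hdeg homS_top hN
    have smulN : ∀ p ∈ relS β, ∀ w : Fin s → MvPolynomial (Fin R × Fin (κ + 2)) K,
        p • w ∈ N := by
      intro p hp w
      have h1 : p • w = ∑ j, w j • (Pi.single j p :
          Fin s → MvPolynomial (Fin R × Fin (κ + 2)) K) := by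
        rw [← Finset.univ_sum_single (p • w)]
        refine Finset.sum_congr rfl fun j _ => ?_
        rw [← Pi.single_smul, Pi.smul_apply, smul_eq_mul, smul_eq_mul, mul_comm]
      rw [h1]
      exact N.sum_mem fun j _ => N.smul_mem _ (hJ p hp j)
    have relN' : ∀ p ∈ relS β, ∀ j,
        (Pi.single j p : Fin s' → MvPolynomial (Fin R × Fin (κ + 2)) K) ∈ N' := by
      intro p hp j
      refine ⟨trivial, ?_⟩
      change φ (Pi.single j p) ∈ N
      rw [hφ, Fintype.linearCombination_apply_single]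
      exact smulN p hp _
    obtain ⟨f0, hf0, n0, hn0⟩ := h s' (ofMv N') (isG_ofMv homN' relN')
    -- the generators generate everything in large degrees
    have hgen : ∀ ν : Fin R → ℤ, (∀ g, 0 ≤ ν g) →
        hd (wbl κ R) sh (N ⊔ (⊤ : Submodule (MvPolynomial (Fin R × Fin (κ + 2)) K) _).map φ) (ν + a)
          = hd (wbl κ R) sh (⊤ : Submodule (MvPolynomial (Fin R × Fin (κ + 2)) K) _) (ν + a) := by
      intro ν hν
      have key : gpart (wbl κ R) sh
          (N ⊔ (⊤ : Submodule (MvPolynomial (Fin R × Fin (κ + 2)) K) _).map φ) (ν + a) =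
          gpart (wbl κ R) sh (⊤ : Submodule (MvPolynomial (Fin R × Fin (κ + 2)) K) _) (ν + a) := ?_
      · unfold hd
        rw [key]
      unfold gpart
      apply le_antisymm
      · exact inf_le_inf_right _ (fun x _ => trivial)
      · rintro x ⟨-, hx⟩
        refine ⟨?_, hx⟩
        change x ∈ N ⊔ (⊤ : Submodule (MvPolynomial (Fin R × Fin (κ + 2)) K) _).map φ
        refine Submodule.mem_sup_right ?_
        rw [← Finset.univ_sum_single x]
        refine Submodule.sum_mem _ fun j _ => ?_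
        rw [(x j).as_sum]
        have h1 : (Pi.single j (∑ e ∈ (x j).support, monomial e (coeff e (x j))) :
            Fin s → MvPolynomial (Fin R × Fin (κ + 2)) K) =
            ∑ e ∈ (x j).support, Pi.single j (monomial e (coeff e (x j))) := by
          exact map_sum (AddMonoidHom.single (fun _ : Fin s =>
            MvPolynomial (Fin R × Fin (κ + 2)) K) j) _ _
        rw [h1]
        refine Submodule.sum_mem _ fun e he => ?_
        have hdg := hx j e (MvPolynomial.mem_support_iff.1 he)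
        have hdg' : ∀ g, dg (wbl κ R) e g = ν g + a g - sh j g := by
          intro g
          have := congrFun hdg g
          rw [Pi.add_apply, Pi.add_apply] at this
          linarith
        obtain ⟨e1, e2, he12, he1⟩ := exists_split_br e (fun g => (a g - sh j g).toNat) (by
          intro g
          rw [hdg' g, Int.toNat_of_nonneg (by linarith only [ha' j g])]
          linarith only [hν g])
        have hgp : (Pi.single j (monomial e1 1) :
            Fin s → MvPolynomial (Fin R × Fin (κ + 2)) K) ∈ gp K (wbl κ R) sh a := by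
          intro j' m hm
          by_cases hj : j' = j
          · subst hj
            rw [Pi.single_eq_same, coeff_monomial] at hm
            split_ifs at hm with hem
            · rw [← hem]
              funext g
              rw [Pi.add_apply, he1 g, Int.toNat_of_nonneg (by linarith only [ha' j' g])]
              ring
            · exact absurd rfl hm
          · rw [Pi.single_eq_of_ne hj, coeff_zero] at hm
            exact absurd rfl hm
        have hrange : (Pi.single j (monomial e1 1) :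
            Fin s → MvPolynomial (Fin R × Fin (κ + 2)) K) ∈
            (⊤ : Submodule (MvPolynomial (Fin R × Fin (κ + 2)) K) _).map φ := by
          refine ⟨fun i => C (b.repr ⟨_, hgp⟩ i), trivial, ?_⟩
          rw [hφ, Fintype.linearCombination_apply]
          have h2 := congrArg Subtype.val (b.sum_repr ⟨_, hgp⟩)
          rw [Submodule.coe_sum] at h2
          refine Eq.trans (Finset.sum_congr rfl fun i _ => ?_) h2
          rw [Submodule.coe_smul]
          funext j'
          rw [Pi.smul_apply, Pi.smul_apply, smul_eq_mul, MvPolynomial.smul_eq_C_mul]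
        have h3 : (Pi.single j (monomial e (coeff e (x j))) :
            Fin s → MvPolynomial (Fin R × Fin (κ + 2)) K) =
            monomial e2 (coeff e (x j)) • Pi.single j (monomial e1 1) := by
          rw [← Pi.single_smul, smul_eq_mul, monomial_mul, mul_one, ← he12.trans (add_comm _ _)]
        rw [h3]
        exact Submodule.smul_mem _ _ hrange
    refine ⟨fun n => f0 (n - a), lamS a _ hf0, n0 + ∑ g, |a g|, fun ν hν => ?_⟩
    have hν' : ∀ g, (n0 : ℤ) ≤ ν g - a g := by
      intro g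
      have h1 : a g ≤ ∑ g, |a g| := (le_abs_self _).trans
        (Finset.single_le_sum (f := fun g => |a g|) (fun j _ => abs_nonneg _) (Finset.mem_univ g))
      linarith [hν g]
    have hnn : ∀ g, (0 : ℤ) ≤ ν g - a g := fun g => (Int.natCast_nonneg n0).trans (hν' g)
    set n : Fin R → ℕ := fun g => (ν g - a g).toNat with hn
    have hnν : (fun g => (n g : ℤ)) = ν - a := by
      funext g
      rw [hn]
      exact Int.toNat_of_nonneg (hnn g)
    have h4 := hn0 n fun g => by
      have := hν' g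
      have h5 : ((n g : ℕ) : ℤ) = ν g - a g := congrFun hnν g
      omega
    rw [qd_toMv, toMv_ofMv, hnν] at h4
    have h6 := hd_kerIn pos_wbl hdeg homS_top hN (ν - a)
    rw [hgen (ν - a) hnn, sub_add_cancel] at h6
    rw [hf ν]
    change _ = f0 (ν - a)
    rw [← h4]
    have h7 : (hd (wbl κ R) (fun _ : Fin s' => (0 : Fin R → ℤ))
        (⊤ : Submodule (MvPolynomial (Fin R × Fin (κ + 2)) K) _) (ν - a) : ℤ) +
        hd (wbl κ R) sh N ν = hd (wbl κ R) (fun _ : Fin s' => (0 : Fin R → ℤ)) N' (ν - a) +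
        hd (wbl κ R) sh (⊤ : Submodule (MvPolynomial (Fin R × Fin (κ + 2)) K) _) ν := by
      exact_mod_cast h6
    linarith

end Vale.Agent.P200F.V

end

section

namespace Vale.Agent.P200F.V

open Module MvPolynomial

universe u

/-- **Integrality for all graded modules.**  (A module generated in several degrees agrees in large
degrees with a shift of a module generated in degree zero.) -/
theorem hil_of_intP {K : Type u} [Field K] {κ R : ℕ} (β : Fin R → Blk K κ) (h : IntP K β) :
    ∀ f ∈ Hil K (wbl κ R) (relS β), ∃ F, Lam R (fun g => (β g).e) F ∧ EvEq f F :=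
  hil_of_intP_aux β h (lam_zero_fun _) (fun _ _ => lam_add) (fun _ => lam_neg)
    fun δ _ => lam_sft δ

end Vale.Agent.P200F.V

end

section

namespace Vale.Agent.P200F.V

open Module MvPolynomial

universe u

theorem dl_snoc {κ : ℕ} (e : Fin κ → ℕ) (m : ℕ) :
    dl (Fin.snoc (α := fun _ => ℕ) e m : Fin (κ + 1) → ℕ) = dl e * m := by
  rw [dl, Fin.prod_univ_castSucc, Fin.snoc_last, dl]
  congr 1
  refine Finset.prod_congr rfl fun i _ => ?_
  rw [Fin.snoc_castSucc]

theorem even_dl_mul {κ : ℕ} (e : Fin κ → ℕ) : Even (dl e * ∑ i, ((e i : ℤ) - 1)) := by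
  by_cases h : ∃ i, Even (e i : ℤ)
  · obtain ⟨i, hi⟩ := h
    refine Even.mul_right ?_ _
    rw [dl, ← Finset.mul_prod_erase Finset.univ (fun i => (e i : ℤ)) (Finset.mem_univ i)]
    exact Even.mul_right hi _
  · refine Even.mul_left ?_ _
    refine Finset.even_sum _ fun i _ => ?_
    have h1 : ¬ Even (e i : ℤ) := fun h2 => h ⟨i, h2⟩
    rw [Int.not_even_iff_odd] at h1
    exact h1.sub_odd odd_one

/-- `∑_(i < m) h_O (n - i)` -/
theorem hO_snoc {κ : ℕ} (e : Fin κ → ℕ) (m : ℕ) (n : ℤ) :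
    hO (Fin.snoc (α := fun _ => ℕ) e m : Fin (κ + 1) → ℕ) n =
      ∑ i ∈ Finset.range m, hO e (n - i) := by
  obtain ⟨c, hc⟩ := even_dl_mul e
  have h1 : ∀ x : ℤ, hO e x = dl e * (x + 1) - c := by
    intro x
    rw [hO, hc, ← two_mul, Int.mul_ediv_cancel_left _ two_ne_zero]
  have h2 : ∑ i, (((Fin.snoc (α := fun _ => ℕ) e m : Fin (κ + 1) → ℕ) i : ℤ) - 1) =
      (∑ i, ((e i : ℤ) - 1)) + ((m : ℤ) - 1) := by
    rw [Fin.sum_univ_castSucc, Fin.snoc_last]
    congr 1
    refine Finset.sum_congr rfl fun i _ => ?_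
    rw [Fin.snoc_castSucc]
  have h3 : ∀ k : ℕ, 2 * ∑ i ∈ Finset.range k, hO e (n - i) =
      2 * (dl e * k * (n + 1)) - (dl e * k * ((k : ℤ) - 1)) - 2 * (k * c) := by
    intro k
    induction k with
    | zero => simp
    | succ k ih =>
      rw [Finset.sum_range_succ, mul_add, ih, h1]
      push_cast
      ring
  have h4 : ∃ d : ℤ, (m : ℤ) * ((m : ℤ) - 1) = 2 * d := by
    obtain ⟨d, hd⟩ := Int.even_mul_pred_self (m : ℤ)
    exact ⟨d, by rw [hd, two_mul]⟩
  obtain ⟨d, hd⟩ := h4
  have h5 := h3 m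
  rw [hO, dl_snoc, h2]
  have h6 : dl e * m * ((∑ i, ((e i : ℤ) - 1)) + ((m : ℤ) - 1)) = 2 * (m * c + dl e * d) := by
    linear_combination (m : ℤ) * hc + dl e * hd
  rw [h6, Int.mul_ediv_cancel_left _ two_ne_zero]
  have h7 : 2 * ∑ i ∈ Finset.range m, hO e (n - i) =
      2 * (dl e * m * (n + 1) - (m * c + dl e * d)) := by
    rw [h5]
    linear_combination (- dl e) * hd
  linarith

theorem act_ph {G : Type} [AddCommGroup G] (k : ℕ) (δ : G) (f : G → ℤ) (ν : G) :
    act G (ph k δ) f ν = ∑ i ∈ Finset.range k, f (ν - i • δ) := by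
  rw [ph, map_sum, LinearMap.sum_apply, Finset.sum_apply]
  refine Finset.sum_congr rfl fun i _ => ?_
  rw [← el_nsmul, act_el]

theorem act_tail {R : ℕ} (m : Fin R → ℕ) (A : (Fin R → ℤ) → ℤ) (h : ℤ → ℤ) (s : Finset (Fin R)) :
    act (Fin (R + 1) → ℤ) (∏ g ∈ s, ph (m g) (Pi.single g.succ (1 : ℤ)))
        (fun n => A (Fin.tail n) * h (n 0)) =
      fun n => act (Fin R → ℤ) (∏ g ∈ s, ph (m g) (Pi.single g (1 : ℤ))) A (Fin.tail n) *
        h (n 0) := by
  classical
  induction s using Finset.induction_on with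
  | empty => simp
  | insert g s hg ih =>
    rw [Finset.prod_insert hg, Finset.prod_insert hg, map_mul, map_mul, Module.End.mul_apply,
      Module.End.mul_apply, ih]
    funext n
    rw [act_ph, act_ph, Finset.sum_mul]
    refine Finset.sum_congr rfl fun i _ => ?_
    have h1 : Fin.tail (n - i • (Pi.single g.succ (1 : ℤ) : Fin (R + 1) → ℤ)) =
        Fin.tail n - i • (Pi.single g (1 : ℤ) : Fin R → ℤ) := by
      funext j
      simp only [Fin.tail, Pi.sub_apply, Pi.smul_apply]
      congr 2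
      by_cases hj : j = g
      · subst hj
        rw [Pi.single_eq_same, Pi.single_eq_same]
      · rw [Pi.single_eq_of_ne hj, Pi.single_eq_of_ne fun h => hj (Fin.succ_injective _ h)]
    have h2 : (n - i • (Pi.single g.succ (1 : ℤ) : Fin (R + 1) → ℤ)) 0 = n 0 := by
      rw [Pi.sub_apply, Pi.smul_apply, Pi.single_eq_of_ne (Fin.succ_ne_zero g).symm, smul_zero,
        sub_zero]
    rw [h1, h2]

/-- the operators `Φ_m` in the blocks of `C` -/
theorem lam_ph {κ R : ℕ} {e : Fin R → Fin κ → ℕ} {F : (Fin R → ℤ) → ℤ} (hF : Lam R e F)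
    (m : Fin R → ℕ) :
    Lam R (fun g => (Fin.snoc (α := fun _ => ℕ) (e g) (m g) : Fin (κ + 1) → ℕ))
      (act (Fin R → ℤ) (∏ g, ph (m g) (Pi.single g (1 : ℤ))) F) := by
  induction R with
  | zero =>
    rw [lam_zero]
    trivial
  | succ R ih =>
    rw [lam_succ] at hF
    obtain ⟨A, B, hA, hB, hF⟩ := hF
    rw [lam_succ]
    refine ⟨_, _, ih hA (Fin.tail m), ih hB (Fin.tail m), ?_⟩
    intro n
    have h1 : F = (fun n => A (Fin.tail n) * hO (e 0) (n 0)) +
        fun n => B (Fin.tail n) * (fun _ : ℤ => dl (e 0)) (n 0) := by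
      funext n
      exact hF n
    have hp : ∏ i : Fin R, ph (m i.succ) (Pi.single i.succ (1 : ℤ) : Fin (R + 1) → ℤ) =
        ∏ i : Fin R, ph (Fin.tail m i) (Pi.single i.succ (1 : ℤ) : Fin (R + 1) → ℤ) := rfl
    rw [Fin.prod_univ_succ, hp, map_mul, Module.End.mul_apply, h1, map_add,
      act_tail (Fin.tail m) A (hO (e 0)) Finset.univ,
      act_tail (Fin.tail m) B (fun _ => dl (e 0)) Finset.univ, act_ph]
    have h2 : ∀ i : ℕ, Fin.tail (n - i • (Pi.single 0 (1 : ℤ) : Fin (R + 1) → ℤ)) =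
        Fin.tail n := by
      intro i
      funext j
      simp only [Fin.tail, Pi.sub_apply, Pi.smul_apply]
      rw [Pi.single_eq_of_ne (Fin.succ_ne_zero j), smul_zero, sub_zero]
    have h3 : ∀ i : ℕ, (n - i • (Pi.single 0 (1 : ℤ) : Fin (R + 1) → ℤ)) 0 = n 0 - i := by
      intro i
      rw [Pi.sub_apply, Pi.smul_apply, Pi.single_eq_same, nsmul_eq_mul, mul_one]
    simp only [Pi.add_apply, h2, h3]
    rw [Finset.sum_add_distrib, ← Finset.mul_sum, Finset.sum_const, Finset.card_range, nsmul_eq_mul]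
    rw [hO_snoc, dl_snoc]
    ring

end Vale.Agent.P200F.V

end

section

namespace Vale.Agent.P200F.V

open Module MvPolynomial

universe u

private theorem bre_aeval_congr {K : Type u} [Field K] {n : ℕ} {Ω : Type u} [Field Ω] [Algebra K Ω]
    (p : MvPolynomial (Fin n) K) (g h : Fin n → Ω) (H : ∀ j ∈ p.vars, g j = h j) :
    aeval g p = aeval h p :=
  eval₂Hom_congr' rfl (fun j hj _ => H j hj) rfl

private theorem bre_rel {K : Type u} [Field K] {κ : ℕ} (β : Blk K κ) {Ω : Type u} [Field Ω]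
    [Algebra K Ω] (pt : Fin (κ + 2) → Ω) (i : Fin κ) :
    aeval pt (β.rel i) = 0 ↔ pt i.succ.succ ^ β.e i = aeval pt (β.Phi i) := by
  rw [Blk.rel, map_sub, map_pow, aeval_X, sub_eq_zero]

/-- a point of a block with `x = y = 0` is zero -/
theorem blk_point_zero {K : Type u} [Field K] {κ : ℕ} (β : Blk K κ) {Ω : Type u} [Field Ω]
    [Algebra K Ω] (pt : Fin (κ + 2) → Ω) (h : ∀ i, aeval pt (β.rel i) = 0) (h0 : pt 0 = 0)
    (h1 : pt 1 = 0) : pt = 0 := by
  have key : ∀ n : ℕ, ∀ j : Fin (κ + 2), (j : ℕ) < n → pt j = 0 := by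
    intro n
    induction n with
    | zero => intro j hj; exact absurd hj (Nat.not_lt_zero _)
    | succ n ih =>
      intro j hj
      induction j using Fin.cases with
      | zero => exact h0
      | succ j =>
        induction j using Fin.cases with
        | zero => exact h1
        | succ i =>
          have hi := (bre_rel β pt i).1 (h i)
          have h2 : aeval pt (β.Phi i) = aeval (0 : Fin (κ + 2) → Ω) (β.Phi i) := by
            refine bre_aeval_congr _ _ _ fun j hj' => ?_
            refine ih j ?_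
            have := β.tri i j hj'
            rw [Fin.val_succ, Fin.val_succ] at hj
            omega
          have h3 : aeval (0 : Fin (κ + 2) → Ω) (β.Phi i) = 0 := by
            have h4 : constantCoeff (β.Phi i) = 0 := by
              rw [constantCoeff_eq]
              by_contra h5
              have h6 := (β.hom i) h5
              rw [map_zero] at h6
              exact (β.e_pos i).ne h6
            rw [aeval_zero, h4, map_zero]
          rw [h2, h3] at hi
          exact eq_zero_of_pow_eq_zero hi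
  funext j
  exact key (κ + 2) j j.2

/-- every block has a point over an algebraically closed field -/
theorem blk_exists_point {K : Type u} [Field K] {κ : ℕ} (β : Blk K κ) {Ω : Type u} [Field Ω]
    [IsAlgClosed Ω] [Algebra K Ω] (a b : Ω) : ∃ pt : Fin (κ + 2) → Ω,
      (∀ i, aeval pt (β.rel i) = 0) ∧ pt 0 = a ∧ pt 1 = b := by
  classical
  have key : ∀ m : ℕ, ∃ pt : Fin (κ + 2) → Ω,
      (∀ i : Fin κ, (i : ℕ) < m → aeval pt (β.rel i) = 0) ∧ pt 0 = a ∧ pt 1 = b := by
    intro m
    induction m with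
    | zero =>
      refine ⟨Fin.cons a fun _ => b, fun i hi => absurd hi (Nat.not_lt_zero _), rfl, rfl⟩
    | succ m ih =>
      obtain ⟨pt, h1, h2, h3⟩ := ih
      by_cases hm : m < κ
      · obtain ⟨z, hz⟩ := IsAlgClosed.exists_pow_nat_eq (aeval pt (β.Phi ⟨m, hm⟩)) (β.e_pos ⟨m, hm⟩)
        have hvar : ∀ i : Fin κ, (i : ℕ) ≤ m →
            aeval (Function.update pt (⟨m, hm⟩ : Fin κ).succ.succ z) (β.Phi i) = aeval pt (β.Phi i) := by
          intro i hi
          refine bre_aeval_congr _ _ _ fun j hj => ?_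
          have := β.tri i j hj
          rw [Function.update_of_ne]
          intro hc
          have hc' := congrArg Fin.val hc
          rw [Fin.val_succ, Fin.val_succ] at hc'
          simp only at hc'
          omega
        refine ⟨Function.update pt (⟨m, hm⟩ : Fin κ).succ.succ z, fun i hi => ?_, ?_, ?_⟩
        · rw [bre_rel, hvar i (by omega)]
          by_cases hi' : (i : ℕ) = m
          · have : i = ⟨m, hm⟩ := Fin.ext hi'
            subst this
            rw [Function.update_self, hz]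
          · rw [Function.update_of_ne]
            · exact (bre_rel β pt i).1 (h1 i (by omega))
            · intro hc
              have hc' := congrArg Fin.val hc
              simp only [Fin.val_succ] at hc'
              omega
        · rw [Function.update_of_ne, h2]
          intro hc
          have hc' := congrArg Fin.val hc
          simp at hc'
        · rw [Function.update_of_ne, h3]
          intro hc
          have hc' := congrArg Fin.val hc
          simp at hc'
      · exact ⟨pt, fun i _ => h1 i (by have := i.2; omega), h2, h3⟩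
  obtain ⟨pt, h1, h2, h3⟩ := key κ
  exact ⟨pt, fun i => h1 i i.2, h2, h3⟩

/-- the hypothesis of the level lemma for a subset of the blocks -/
theorem ind_sub {K : Type u} [Field K] {κ R : ℕ} (β : Fin R → Blk K κ) {ι : Type} [Fintype ι]
    (C : Fin R → Prop) (a : Fin R → ι → MvPolynomial (Fin (κ + 2)) K)
    (hI : ∀ (Ω : Type u) [Field Ω] [IsAlgClosed Ω] [Algebra K Ω] (pt : Fin R → Fin (κ + 2) → Ω),
        (∀ g i, aeval (pt g) ((β g).rel i) = 0) → (∀ g, pt g 0 ≠ 0 ∨ pt g 1 ≠ 0) →
        ∀ c : Fin R → Ω, (∀ g, ¬ C g → c g = 0) →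
          (∀ j, ∑ g, c g * aeval (pt g) (a g j) = 0) → ∀ g, c g = 0)
    {R' : ℕ} (σ : Fin R' → Fin R) (hσ : Function.Injective σ) :
    ∀ (Ω : Type u) [Field Ω] [IsAlgClosed Ω] [Algebra K Ω] (pt : Fin R' → Fin (κ + 2) → Ω),
        (∀ g i, aeval (pt g) ((β (σ g)).rel i) = 0) → (∀ g, pt g 0 ≠ 0 ∨ pt g 1 ≠ 0) →
        ∀ c : Fin R' → Ω, (∀ g, ¬ C (σ g) → c g = 0) →
          (∀ j, ∑ g, c g * aeval (pt g) (a (σ g) j) = 0) → ∀ g, c g = 0 := by
  classical
  intro Ω _ _ _ pt h1 h2 c h3 h4 g0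
  choose q hq1 hq2 _ using fun g : Fin R => blk_exists_point (β g) (1 : Ω) (1 : Ω)
  set pt' : Fin R → Fin (κ + 2) → Ω := fun g => Function.extend σ pt q g with hpt'
  set c' : Fin R → Ω := Function.extend σ c (0 : Fin R → Ω) with hc'
  have e1 : ∀ g, pt' (σ g) = pt g := fun g => hσ.extend_apply pt q g
  have e2 : ∀ g, c' (σ g) = c g := fun g => hσ.extend_apply c (0 : Fin R → Ω) g
  have e3 : ∀ g, (¬ ∃ g', σ g' = g) → pt' g = q g := fun g hg => Function.extend_apply' pt q g hg
  have e4 : ∀ g, (¬ ∃ g', σ g' = g) → c' g = 0 := fun g hg => Function.extend_apply' c (0 : Fin R → Ω) g hg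
  have h5 := hI Ω pt' ?_ ?_ c' ?_ ?_ (σ g0)
  · rw [← e2, h5]
  · intro g i
    by_cases hg : ∃ g', σ g' = g
    · obtain ⟨g', rfl⟩ := hg
      rw [e1]
      exact h1 g' i
    · rw [e3 g hg]
      exact hq1 g i
  · intro g
    by_cases hg : ∃ g', σ g' = g
    · obtain ⟨g', rfl⟩ := hg
      rw [e1]
      exact h2 g'
    · rw [e3 g hg, hq2 g]
      exact Or.inl one_ne_zero
  · intro g hg0
    by_cases hg : ∃ g', σ g' = g
    · obtain ⟨g', rfl⟩ := hg
      rw [e2]
      exact h3 g' hg0
    · exact e4 g hg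
  · intro j
    rw [← h4 j]
    symm
    refine Fintype.sum_of_injective σ hσ _ _ (fun g hg => ?_) (fun g => ?_)
    · rw [e4 g fun ⟨g', hg'⟩ => hg ⟨g', hg'⟩, zero_mul]
    · rw [e1, e2]

end Vale.Agent.P200F.V

end

section

namespace Vale.Agent.P200F.V

open Module MvPolynomial

universe u

theorem EvEq.act {ι : Type} [Fintype ι] (p : AddMonoidAlgebra ℤ (ι → ℤ)) {f g : (ι → ℤ) → ℤ}
    (h : EvEq f g) : EvEq (V.act (ι → ℤ) p f) (V.act (ι → ℤ) p g) := by
  obtain ⟨n0, h⟩ := h
  induction p using AddMonoidAlgebra.induction_linear with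
  | zero =>
    refine ⟨0, fun n _ => ?_⟩
    rw [map_zero]
    rfl
  | add p q hp hq =>
    obtain ⟨n1, hp⟩ := hp
    obtain ⟨n2, hq⟩ := hq
    refine ⟨max n1 n2, fun n hn => ?_⟩
    rw [map_add, LinearMap.add_apply, LinearMap.add_apply, Pi.add_apply, Pi.add_apply,
      hp n fun i => (le_max_left _ _).trans (hn i), hq n fun i => (le_max_right _ _).trans (hn i)]
  | single δ c =>
    refine ⟨n0 + ∑ i, |δ i|, fun n hn => ?_⟩
    have h1 : (AddMonoidAlgebra.single δ c : AddMonoidAlgebra ℤ (ι → ℤ)) = c • el δ := by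
      rw [el, AddMonoidAlgebra.smul_single, smul_eq_mul, mul_one]
    have h2 : ∀ i, n0 ≤ (n - δ) i := by
      intro i
      have h3 : |δ i| ≤ ∑ i, |δ i| :=
        Finset.single_le_sum (f := fun i => |δ i|) (fun i _ => abs_nonneg _) (Finset.mem_univ i)
      have h4 := le_abs_self (δ i)
      have h5 := hn i
      rw [Pi.sub_apply]
      omega
    rw [h1, map_smul, LinearMap.smul_apply, LinearMap.smul_apply, Pi.smul_apply, Pi.smul_apply,
      act_el, act_el, h _ h2]

theorem ph_one {G : Type} [AddCommGroup G] (δ : G) : ph 1 δ = 1 := by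
  rw [ph, Finset.sum_range_one, pow_zero]

section core
variable {K : Type u} [Field K] {κ R : ℕ} {ι : Type} [Fintype ι]

/-- the last variable -/
def lastv (κ : ℕ) : Fin (κ + 1 + 2) := (Fin.last κ).succ.succ

/-- the inclusion of the variables -/
def incv (κ : ℕ) (g : Fin R) (v : Fin (κ + 2)) : Fin R × Fin (κ + 1 + 2) :=
  (g, (Fin.castSucc v : Fin (κ + 2 + 1)))

theorem castSucc_ne_lastv (κ : ℕ) (v : Fin (κ + 2)) :
    (Fin.castSucc v : Fin (κ + 2 + 1)) ≠ lastv κ := by
  intro h
  have h1 := congrArg Fin.val h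
  have h2 := v.2
  simp only [Fin.val_castSucc, lastv, Fin.val_succ, Fin.val_last] at h1
  omega

theorem eq_lastv_or (κ : ℕ) (v : Fin (κ + 1 + 2)) :
    v = lastv κ ∨ ∃ w : Fin (κ + 2), (Fin.castSucc w : Fin (κ + 2 + 1)) = v := by
  by_cases h : (v : ℕ) < κ + 2
  · exact Or.inr ⟨⟨v, h⟩, rfl⟩
  · left
    apply Fin.ext
    have h2 := v.2
    simp only [lastv, Fin.val_succ, Fin.val_last]
    omega

/-- the degrees of a form in the variables of one block -/
theorem incv_hom {p : MvPolynomial (Fin (κ + 2)) K} {d : ℕ} (hp : p.IsHomogeneous d) (g : Fin R)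
    (m : Fin R × Fin (κ + 1 + 2) →₀ ℕ) (hm : coeff m (rename (incv κ g) p) ≠ 0) :
    dg (wb (Prod.fst : Fin R × Fin (κ + 1 + 2) → Fin R)) m = Pi.single g (d : ℤ) ∧
      ∀ g' : Fin R, m (g', lastv κ) = 0 := by
  obtain ⟨u, rfl, hu⟩ := coeff_rename_ne_zero _ _ _ hm
  refine ⟨?_, fun g' => ?_⟩
  · have h1 : dg (wb (Prod.fst : Fin R × Fin (κ + 1 + 2) → Fin R)) (u.mapDomain (incv κ g)) =
        u.sum fun _ m => m • (Pi.single g (1 : ℤ) : Fin R → ℤ) := by
      rw [dg, Finsupp.sum_mapDomain_index]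
      · rfl
      · intro b
        rw [zero_smul]
      · intro b m1 m2
        rw [add_smul]
    rw [h1]
    have h2 : u.degree = d :=
      (congrArg (fun f : (Fin (κ + 2) →₀ ℕ) →+ ℕ => f u)
        (Finsupp.degree_eq_weight_one (σ := Fin (κ + 2)) (R := ℕ))).trans (hp hu)
    have h3 : u.degree = ∑ x ∈ u.support, u x := rfl
    rw [← h2, h3, Finsupp.sum]
    funext i
    rw [Finset.sum_apply]
    simp only [Pi.smul_apply]
    by_cases hi : i = g
    · subst hi
      simp
    · rw [Pi.single_eq_of_ne hi, Pi.single_eq_of_ne hi]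
      simp
  · apply Finsupp.mapDomain_of_notMem_range
    rintro ⟨v, hv⟩
    exact castSucc_ne_lastv κ v (congrArg Prod.snd hv)

/-- the new variables -/
def newC (C : Fin R → Prop) [DecidablePred C] (κ : ℕ) : Finset (Fin R × Fin (κ + 1 + 2)) :=
  Finset.univ.filter fun z => C z.1 ∧ z.2 = lastv κ

theorem mem_newC {C : Fin R → Prop} [DecidablePred C] {z : Fin R × Fin (κ + 1 + 2)} :
    z ∈ newC C κ ↔ C z.1 ∧ z.2 = lastv κ := by
  rw [newC, Finset.mem_filter]
  exact ⟨fun h => h.2, fun h => ⟨Finset.mem_univ _, h⟩⟩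

/-- the old relations, and the variables of the trivial elements -/
def oldG (β : Fin R → Blk K κ) (C : Fin R → Prop) :
    Set (MvPolynomial (Fin R × Fin (κ + 1 + 2)) K) :=
  {p | ∃ g i, p = rename (incv κ g) ((β g).rel i)} ∪ {p | ∃ g, ¬ C g ∧ p = X (g, lastv κ)}

/-- the coefficients of the new relations -/
noncomputable def newH (a : Fin R → ι → MvPolynomial (Fin (κ + 2)) K)
    (z : Fin R × Fin (κ + 1 + 2)) (j : ι) : MvPolynomial (Fin R × Fin (κ + 1 + 2)) K :=
  rename (incv κ z.1) (a z.1 j)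

theorem rel_hom (β : Blk K κ) (i : Fin κ) : (β.rel i).IsHomogeneous (β.e i) := by
  rw [Blk.rel]
  refine IsHomogeneous.sub ?_ (β.hom i)
  have h := (isHomogeneous_X K (i.succ.succ : Fin (κ + 2))).pow (β.e i)
  rwa [one_mul] at h

theorem prod_newC {M : Type*} [CommMonoid M] (C : Fin R → Prop) [DecidablePred C]
    (f : Fin R → M) : ∏ c ∈ newC C κ, f c.1 = ∏ g, if C g then f g else 1 := by
  rw [← Finset.prod_filter]
  refine Finset.prod_bij (fun c _ => c.1) ?_ ?_ ?_ ?_
  · intro c hc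
    rw [Finset.mem_filter]
    exact ⟨Finset.mem_univ _, (mem_newC.1 hc).1⟩
  · intro c hc c' hc' h
    exact Prod.ext h ((mem_newC.1 hc).2.trans (mem_newC.1 hc').2.symm)
  · intro g hg
    exact ⟨(g, lastv κ), mem_newC.2 ⟨(Finset.mem_filter.1 hg).2, rfl⟩, rfl⟩
  · intro c _
    rfl

theorem sum_newC {M : Type*} [AddCommMonoid M] (C : Fin R → Prop) [DecidablePred C]
    (f : Fin R × Fin (κ + 1 + 2) → M) :
    ∑ c ∈ newC C κ, f c = ∑ g, if C g then f (g, lastv κ) else 0 := by
  rw [← Finset.sum_filter]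
  refine Finset.sum_bij (fun c _ => c.1) ?_ ?_ ?_ ?_
  · intro c hc
    rw [Finset.mem_filter]
    exact ⟨Finset.mem_univ _, (mem_newC.1 hc).1⟩
  · intro c hc c' hc' h
    exact Prod.ext h ((mem_newC.1 hc).2.trans (mem_newC.1 hc').2.symm)
  · intro g hg
    exact ⟨(g, lastv κ), mem_newC.2 ⟨(Finset.mem_filter.1 hg).2, rfl⟩, rfl⟩
  · intro c hc
    rw [← (mem_newC.1 hc).2]

/-- the new relations are relations of the new blocks -/
theorem rels_subset (β : Fin R → Blk K κ) (C : Fin R → Prop) [DecidablePred C] (e : ℕ)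
    (he : 0 < e) (a : Fin R → ι → MvPolynomial (Fin (κ + 2)) K)
    (ha : ∀ g j, (a g j).IsHomogeneous e) :
    (MvPolynomial.map (algebraMap K (KF K ι)) '' oldG β C) ∪
        (lrel e (newH a) '' (newC C κ : Set (Fin R × Fin (κ + 1 + 2)))) ⊆
      relS (newBlk β C e he a ha) := by
  have hlast : ∀ g, (newBlk β C e he a ha g).rel (Fin.last κ) =
      X (lastv κ) ^ (if C g then e else 1) - rename (Fin.castSucc : Fin (κ + 2) → Fin (κ + 2 + 1))
        (newPhi C a g) := by
    intro g
    rw [Blk.rel, newBlk, Blk.snoc]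
    dsimp only
    rw [Fin.snoc_last, Fin.snoc_last]
    rfl
  have hold : ∀ g (i : Fin κ), (newBlk β C e he a ha g).rel (Fin.castSucc i) =
      rename (Fin.castSucc : Fin (κ + 2) → Fin (κ + 2 + 1))
        (MvPolynomial.map (algebraMap K (KF K ι)) ((β g).rel i)) := by
    intro g i
    rw [Blk.rel, newBlk, Blk.snoc]
    dsimp only
    rw [Fin.snoc_castSucc, Fin.snoc_castSucc, Blk.rel, map_sub, map_sub, map_pow, map_pow, map_X,
      rename_X]
    rfl
  have hcomp : ∀ (g : Fin R) (p : MvPolynomial (Fin (κ + 2)) (KF K ι)),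
      rename (Prod.mk g) (rename (Fin.castSucc : Fin (κ + 2) → Fin (κ + 2 + 1)) p) =
        rename (incv κ g) p := by
    intro g p
    rw [rename_rename]
    rfl
  rintro _ (⟨p, (⟨g, i, rfl⟩ | ⟨g, hg, rfl⟩), rfl⟩ | ⟨z, hz, rfl⟩)
  · refine ⟨g, Fin.castSucc i, ?_⟩
    rw [hold, hcomp, map_rename]
  · refine ⟨g, Fin.last κ, ?_⟩
    rw [hlast, if_neg hg, newPhi, if_neg hg, map_zero, sub_zero, pow_one, rename_X, map_X]
  · obtain ⟨h1, h2⟩ := mem_newC.1 hz
    obtain ⟨g, v⟩ := z
    dsimp only at h1 h2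
    subst h2
    refine ⟨g, Fin.last κ, ?_⟩
    rw [hlast, if_pos h1, newPhi, if_pos h1, map_sub, hcomp, map_pow, rename_X, lrel, map_sum]
    congr 1
    refine Finset.sum_congr rfl fun j _ => ?_
    rw [map_mul, rename_C, newH, map_rename]

theorem pos_wb {Z ι : Type} [Fintype ι] [DecidableEq ι] (blk : Z → ι) : Pos (wb blk) := by
  refine ⟨{ toFun := fun f => ∑ i, f i, map_zero' := ?_, map_add' := ?_ }, fun v => ?_⟩
  · exact Finset.sum_const_zero
  · intro f g
    exact Finset.sum_add_distrib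
  · change 0 < ∑ i, (Pi.single (blk v) (1 : ℤ) : ι → ℤ) i
    rw [Finset.sum_pi_single']
    simp

theorem core_drop (β : Fin R → Blk K κ) (C : Fin R → Prop) [DecidablePred C] :
    Hil K (wb (Prod.fst : Fin R × Fin (κ + 1 + 2) → Fin R))
      (oldG β C ∪ (X '' (newC C κ : Set (Fin R × Fin (κ + 1 + 2))))) ≤
      Hil K (wbl κ R) (relS β) := by
  have h1 : Function.Injective fun z : Fin R × Fin (κ + 2) => incv κ z.1 z.2 := by
    intro z w h
    have h' : incv κ z.1 z.2 = incv κ w.1 w.2 := h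
    have h1 : (incv κ z.1 z.2).1 = (incv κ w.1 w.2).1 := by rw [h']
    have h2 : (incv κ z.1 z.2).2 = (incv κ w.1 w.2).2 := by rw [h']
    exact Prod.ext h1 (Fin.castSucc_injective _ h2)
  have h2 : ∀ z, z ∉ Set.range (fun z : Fin R × Fin (κ + 2) => incv κ z.1 z.2) →
      (X z : MvPolynomial (Fin R × Fin (κ + 1 + 2)) K) ∈
        oldG β C ∪ (X '' (newC C κ : Set (Fin R × Fin (κ + 1 + 2)))) := by
    intro z hz
    have hz2 : z.2 = lastv κ := by
      rcases eq_lastv_or κ z.2 with h | ⟨w, h⟩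
      · exact h
      · exact absurd ⟨(z.1, w), Prod.ext rfl h⟩ hz
    by_cases hC : C z.1
    · exact Or.inr ⟨z, mem_newC.2 ⟨hC, hz2⟩, rfl⟩
    · refine Or.inl (Or.inr ⟨z.1, hC, ?_⟩)
      rw [← hz2]
  have h3 : ∀ p ∈ relS β, rename (fun z : Fin R × Fin (κ + 2) => incv κ z.1 z.2) p ∈
      oldG β C ∪ (X '' (newC C κ : Set (Fin R × Fin (κ + 1 + 2)))) := by
    rintro p ⟨g, i, rfl⟩
    refine Or.inl (Or.inl ⟨g, i, ?_⟩)
    rw [rename_rename]
    rfl
  have h4 := Hil.drop (k := K) (wt := wb (Prod.fst : Fin R × Fin (κ + 1 + 2) → Fin R)) (pos_wb _)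
    (fun z : Fin R × Fin (κ + 2) => incv κ z.1 z.2) h1 h2 h3
  exact h4

theorem core_hom0 (β : Fin R → Blk K κ) (C : Fin R → Prop) [DecidablePred C] :
    ∀ p ∈ oldG β C, (∃ δ : Fin R → ℤ, ∀ m, coeff m p ≠ 0 →
        dg (wb (Prod.fst : Fin R × Fin (κ + 1 + 2) → Fin R)) m = δ) ∧
        ∀ m, coeff m p ≠ 0 → ∀ c ∈ newC C κ, m c = 0 := by
  rintro p (⟨g, i, rfl⟩ | ⟨g, hg, rfl⟩)
  · refine ⟨⟨_, fun m hm => (incv_hom (rel_hom (β g) i) g m hm).1⟩, fun m hm c hc => ?_⟩
    obtain ⟨h1, h2⟩ := mem_newC.1 hc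
    have h3 := (incv_hom (rel_hom (β g) i) g m hm).2 c.1
    rw [← h2] at h3
    exact h3
  · have hm1 : ∀ m, coeff m (X (g, lastv κ) : MvPolynomial (Fin R × Fin (κ + 1 + 2)) K) ≠ 0 →
        m = Finsupp.single (g, lastv κ) 1 := by
      intro m hm
      rw [coeff_X] at hm
      by_contra h
      exact hm (if_neg fun h' => h h'.symm)
    refine ⟨⟨_, fun m hm => by rw [hm1 m hm]⟩, fun m hm c hc => ?_⟩
    rw [hm1 m hm, Finsupp.single_apply]
    refine if_neg fun h => hg ?_
    rw [← h] at hc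
    exact (mem_newC.1 hc).1

omit [Fintype ι] in
theorem core_homh (C : Fin R → Prop) [DecidablePred C] (e : ℕ)
    (a : Fin R → ι → MvPolynomial (Fin (κ + 2)) K) (ha : ∀ g j, (a g j).IsHomogeneous e) :
    ∀ c ∈ newC C κ, ∀ j m, coeff m (newH a c j) ≠ 0 →
      dg (wb (Prod.fst : Fin R × Fin (κ + 1 + 2) → Fin R)) m = Pi.single (Prod.fst c) (e : ℤ) ∧
        ∀ c' ∈ newC C κ, m c' = 0 := by
  intro c hc j m hm
  refine ⟨(incv_hom (ha c.1 j) c.1 m hm).1, fun c' hc' => ?_⟩
  obtain ⟨h1, h2⟩ := mem_newC.1 hc'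
  have h3 := (incv_hom (ha c.1 j) c.1 m hm).2 c'.1
  rw [← h2] at h3
  exact h3

omit [Fintype ι] in
theorem core_ind (β : Fin R → Blk K κ) (C : Fin R → Prop) [DecidablePred C]
    (a : Fin R → ι → MvPolynomial (Fin (κ + 2)) K)
    (hind : ∀ (Ω : Type u) [Field Ω] [IsAlgClosed Ω] [Algebra K Ω]
        (pt : Fin R → Fin (κ + 2) → Ω),
        (∀ g i, aeval (pt g) ((β g).rel i) = 0) → (∀ g, pt g 0 ≠ 0 ∨ pt g 1 ≠ 0) →
        ∀ c : Fin R → Ω, (∀ g, ¬ C g → c g = 0) →
          (∀ j, ∑ g, c g * aeval (pt g) (a g j) = 0) → ∀ g, c g = 0) :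
    ∀ (Ω : Type u) [Field Ω] [IsAlgClosed Ω] [Algebra K Ω]
      (p : Fin R × Fin (κ + 1 + 2) → Ω),
      (∀ g ∈ oldG β C, aeval p g = 0) → (∀ c ∈ newC C κ, p c = 0) →
      (∀ b, ∃ z, Prod.fst z = b ∧ p z ≠ 0) →
      ∀ l : Fin R × Fin (κ + 1 + 2) → Ω,
        (∀ j, ∑ c ∈ newC C κ, l c * aeval p (newH a c j) = 0) → ∀ c ∈ newC C κ, l c = 0 := by
  intro Ω _ _ _ p hp hpC hpb l hl
  have haev : ∀ (g : Fin R) (q : MvPolynomial (Fin (κ + 2)) K),
      aeval p (rename (incv κ g) q) = aeval (fun v => p (incv κ g v)) q := by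
    intro g q
    rw [aeval_rename]
    rfl
  have h1 : ∀ g i, aeval (fun v => p (incv κ g v)) ((β g).rel i) = 0 := by
    intro g i
    rw [← haev]
    exact hp _ (Or.inl ⟨g, i, rfl⟩)
  have h2 : ∀ g, p (g, lastv κ) = 0 := by
    intro g
    by_cases hC : C g
    · exact hpC _ (mem_newC.2 ⟨hC, rfl⟩)
    · have := hp (X (g, lastv κ)) (Or.inr ⟨g, hC, rfl⟩)
      rwa [aeval_X] at this
  have h3 : ∀ g, p (incv κ g 0) ≠ 0 ∨ p (incv κ g 1) ≠ 0 := by
    intro g
    by_contra hcon
    rw [not_or, not_not, not_not] at hcon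
    have h4 := blk_point_zero (β g) (fun v => p (incv κ g v)) (h1 g) hcon.1 hcon.2
    obtain ⟨z, hz, hz2⟩ := hpb g
    apply hz2
    obtain ⟨g', v⟩ := z
    dsimp only at hz
    subst hz
    rcases eq_lastv_or κ v with h | ⟨w, h⟩
    · rw [h]
      exact h2 _
    · rw [← h]
      exact congrFun h4 w
  have h5 := hind Ω (fun g v => p (incv κ g v)) h1 h3
    (fun g => if C g then l (g, lastv κ) else 0) (fun g hg => if_neg hg) (fun j => by
      have h6 := hl j
      rw [sum_newC C fun c => l c * aeval p (newH a c j)] at h6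
      refine (Finset.sum_congr rfl fun g _ => ?_).trans h6
      split_ifs
      · rw [newH, haev]
      · rw [zero_mul])
  intro c hc
  obtain ⟨h6, h7⟩ := mem_newC.1 hc
  have h8 := h5 c.1
  rw [if_pos h6, ← h7] at h8
  exact h8

theorem core_lam (β : Fin R → Blk K κ) (C : Fin R → Prop)
    [DecidablePred C] (e : ℕ) {F : (Fin R → ℤ) → ℤ} (hF : Lam R (fun g => (β g).e) F)
    {f g : (Fin R → ℤ) → ℤ} (hfg : EvEq f (act (Fin R → ℤ)
      (∏ c ∈ newC C κ, ph e (Pi.single c.1 (1 : ℤ) : Fin R → ℤ)) g)) (hgF : EvEq g F) :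
    ∃ F', Lam R (fun g => (Fin.snoc (α := fun _ => ℕ) (β g).e (if C g then e else 1) :
      Fin (κ + 1) → ℕ)) F' ∧ EvEq f F' := by
  refine ⟨_, lam_ph hF fun g => if C g then e else 1, ?_⟩
  have hprod : (∏ c ∈ newC C κ, ph e (Pi.single c.1 (1 : ℤ) : Fin R → ℤ)) =
      ∏ g : Fin R, ph (if C g then e else 1) (Pi.single g (1 : ℤ) : Fin R → ℤ) := by
    rw [prod_newC C fun g => ph e (Pi.single g (1 : ℤ) : Fin R → ℤ)]
    refine Finset.prod_congr rfl fun g _ => ?_
    split_ifs
    · rfl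
    · rw [ph_one]
  rw [← hprod]
  exact hfg.trans (EvEq.act _ hgF)

/-- the level lemma for one collection of blocks -/
theorem core (hL : LevelLemma.{u}) (β : Fin R → Blk K κ) (hI : IntP K β) (C : Fin R → Prop)
    [DecidablePred C] (e : ℕ) (he : 0 < e) (a : Fin R → ι → MvPolynomial (Fin (κ + 2)) K)
    (ha : ∀ g j, (a g j).IsHomogeneous e)
    (hind : ∀ (Ω : Type u) [Field Ω] [IsAlgClosed Ω] [Algebra K Ω]
        (pt : Fin R → Fin (κ + 2) → Ω),
        (∀ g i, aeval (pt g) ((β g).rel i) = 0) → (∀ g, pt g 0 ≠ 0 ∨ pt g 1 ≠ 0) →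
        ∀ c : Fin R → Ω, (∀ g, ¬ C g → c g = 0) →
          (∀ j, ∑ g, c g * aeval (pt g) (a g j) = 0) → ∀ g, c g = 0) :
    IntP (KF K ι) (newBlk β C e he a ha) := by
  intro s N hN
  have hf1 : (fun ν => (hd (wbl (κ + 1) R) (fun _ : Fin s => (0 : Fin R → ℤ))
      (⊤ : Submodule (MvPolynomial (Fin R × Fin (κ + 1 + 2)) (KF K ι))
        (Fin s → MvPolynomial (Fin R × Fin (κ + 1 + 2)) (KF K ι))) ν : ℤ) -
      hd (wbl (κ + 1) R) (fun _ : Fin s => (0 : Fin R → ℤ)) (toMv N) ν) ∈
      Hil (KF K ι) (wb (Prod.fst : Fin R × Fin (κ + 1 + 2) → Fin R))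
      (relS (newBlk β C e he a ha)) := by
    apply AddSubgroup.subset_closure
    exact ⟨s, fun _ => 0, toMv N, homS_toMv hN, rel_toMv hN, fun ν => rfl⟩
  have hf2 := Hil.mono (rels_subset β C e he a ha) hf1
  obtain ⟨g, hg, hfg⟩ := hL K (Fin R × Fin (κ + 1 + 2)) (Fin R) ι Prod.fst (newC C κ) e he
    (oldG β C) (core_hom0 β C) (newH a) (core_homh C e a ha) (core_ind β C a hind) _ hf2
  obtain ⟨F, hF, hgF⟩ := hil_of_intP β hI g (core_drop β C hg)
  obtain ⟨F', hF', n0, hn0⟩ := core_lam β C e hF hfg hgF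
  refine ⟨F', hF', n0.toNat, fun n hn => ?_⟩
  rw [qd_toMv]
  refine hn0 (fun g => (n g : ℤ)) fun i => ?_
  have := hn i
  omega

end core

/-- **Bridge.** -/
theorem dstep_of_levelLemma (hL : LevelLemma.{u}) (K : Type u) [Field K] (κ : ℕ) : DStep K κ := by
  intro R β hI ι _ C _ e he a ha hind R' σ hσ
  exact core hL (fun g => β (σ g)) (hI R' σ hσ) (fun g => C (σ g)) e he (fun g => a (σ g))
    (fun g j => ha (σ g) j) (ind_sub β C a hind σ hσ)

end Vale.Agent.P200F.V

end

section

namespace Vale.Agent.P200F.V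

theorem cons_add_single_succ {R : ℕ} (a : ℕ) (m : Fin R → ℕ) (g : Fin R) (k : ℕ) :
    (Fin.cons a m : Fin (R + 1) → ℕ) + Pi.single g.succ k = Fin.cons a (m + Pi.single g k) := by
  funext i
  refine Fin.cases ?_ (fun i => ?_) i
  · simp [Pi.add_apply, (Fin.succ_ne_zero g).symm]
  · simp [Pi.add_apply, Pi.single_apply]

theorem cons_add_single_zero {R : ℕ} (a : ℕ) (m : Fin R → ℕ) (k : ℕ) :
    (Fin.cons a m : Fin (R + 1) → ℕ) + Pi.single 0 k = Fin.cons (a + k) m := by
  funext i
  refine Fin.cases ?_ (fun i => ?_) i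
  · simp [Pi.add_apply]
  · simp [Pi.add_apply]

/-- a function whose second differences vanish eventually in every direction is eventually
multi-affine with integer coefficients -/
theorem lam_of_diff : ∀ (R : ℕ) (e : Fin R → Fin 0 → ℕ) (H : (Fin R → ℕ) → ℤ) (n0 : ℕ),
    (∀ g n, (∀ g', n0 ≤ n g') →
      H (n + Pi.single g 2) - 2 * H (n + Pi.single g 1) + H n = 0) →
    ∃ f, Lam R e f ∧ ∀ n : Fin R → ℕ, (∀ g, n0 ≤ n g) → H n = f fun g => (n g : ℤ) := by
  intro R
  induction R with
  | zero =>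
    intro e H n0 _
    refine ⟨fun _ => H fun g => g.elim0, ?_, ?_⟩
    · rw [lam_zero]; trivial
    · intro n _
      congr 1
      funext g
      exact g.elim0
  | succ R ih =>
    intro e H n0 h
    have hle : ∀ (a : ℕ) (m : Fin R → ℕ), n0 ≤ a → (∀ g, n0 ≤ m g) →
        ∀ g', n0 ≤ (Fin.cons a m : Fin (R + 1) → ℕ) g' := by
      intro a m ha hm g'
      refine Fin.cases ?_ (fun i => ?_) g'
      · simpa using ha
      · simpa using hm i
    obtain ⟨fA, hA, hA'⟩ := ih (Fin.tail e)
      (fun m => H (Fin.cons (n0 + 1) m) - H (Fin.cons n0 m)) n0 (by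
        intro g m hm
        have h1 := h g.succ (Fin.cons (n0 + 1) m) (hle _ _ (Nat.le_succ _) hm)
        have h2 := h g.succ (Fin.cons n0 m) (hle _ _ le_rfl hm)
        rw [cons_add_single_succ, cons_add_single_succ] at h1 h2
        linarith)
    obtain ⟨fB, hB, hB'⟩ := ih (Fin.tail e)
      (fun m => H (Fin.cons n0 m) -
        (H (Fin.cons (n0 + 1) m) - H (Fin.cons n0 m)) * (n0 + 1)) n0 (by
        intro g m hm
        have h1 := h g.succ (Fin.cons (n0 + 1) m) (hle _ _ (Nat.le_succ _) hm)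
        have h2 := h g.succ (Fin.cons n0 m) (hle _ _ le_rfl hm)
        rw [cons_add_single_succ, cons_add_single_succ] at h1 h2
        linear_combination h2 - (n0 + 1 : ℤ) * (h1 - h2))
    have key : ∀ (k : ℕ) (m : Fin R → ℕ), (∀ g, n0 ≤ m g) →
        H (Fin.cons (n0 + k) m) = H (Fin.cons n0 m) +
          k * (H (Fin.cons (n0 + 1) m) - H (Fin.cons n0 m)) ∧
        H (Fin.cons (n0 + (k + 1)) m) = H (Fin.cons n0 m) +
          (k + 1) * (H (Fin.cons (n0 + 1) m) - H (Fin.cons n0 m)) := by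
      intro k m hm
      induction k with
      | zero => constructor <;> simp
      | succ k ihk =>
        obtain ⟨h1, h2⟩ := ihk
        refine ⟨by rw [h2]; push_cast; ring, ?_⟩
        have h3 := h 0 (Fin.cons (n0 + k) m) (hle _ _ (Nat.le_add_right _ _) hm)
        rw [cons_add_single_zero, cons_add_single_zero,
          show n0 + k + 2 = n0 + (k + 1 + 1) by omega,
          show n0 + k + 1 = n0 + (k + 1) by omega] at h3
        rw [h1, h2] at h3
        push_cast
        linear_combination h3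
    refine ⟨fun n => fA (Fin.tail n) * hO (e 0) (n 0) + fB (Fin.tail n) * dl (e 0), ?_, ?_⟩
    · rw [lam_succ]
      exact ⟨fA, fB, hA, hB, fun _ => rfl⟩
    · intro n hn
      have hd : dl (e 0) = 1 := by simp [dl]
      have hh : ∀ x : ℤ, hO (e 0) x = x + 1 := by intro x; simp [hO, hd]
      have hn' : n = Fin.cons (n 0) (Fin.tail n) := (Fin.cons_self_tail n).symm
      have ht : ∀ g, n0 ≤ Fin.tail n g := fun g => hn g.succ
      obtain ⟨k, hk⟩ := Nat.exists_eq_add_of_le (hn 0)
      have h1 := (key k (Fin.tail n) ht).1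
      rw [← hk, ← hn'] at h1
      have h2 := hA' (Fin.tail n) ht
      have h3 := hB' (Fin.tail n) ht
      have h4 : (Fin.tail fun g => (n g : ℤ)) = fun g => ((Fin.tail n g : ℕ) : ℤ) := rfl
      simp only [hh, hd, h4]
      rw [← h2, ← h3, h1, hk]
      push_cast
      ring

end Vale.Agent.P200F.V

end

section

namespace Vale.Agent.P200F.V

open Module MvPolynomial

universe u

section one
variable {k : Type u} [Field k] {σ ι J : Type} [Fintype σ] [Fintype J] [Fintype ι]

theorem of_mem_filter {α : Type*} (p : α → Prop) (inst : DecidablePred p) (s : Finset α) (a : α)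
    (h : a ∈ @Finset.filter α p inst s) : p a :=
  (Finset.mem_filter.1 h).2

omit [Fintype ι] in
theorem dg_pair (wt : σ → ι → ℤ) (e : σ →₀ ℕ) :
    dg (fun v => ((wt v, 0) : (ι → ℤ) × ℤ)) e = (dg wt e, 0) := by
  rw [dg, dg, Finsupp.sum_fintype _ _ (fun i => by simp),
    Finsupp.sum_fintype _ _ (fun i => by simp)]
  refine Prod.ext ?_ ?_
  · rw [Prod.fst_sum]
    rfl
  · rw [Prod.snd_sum]
    exact Finset.sum_eq_zero fun v _ => by simp

/-- `hd_eq_of_killed` without the last degree -/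
theorem hd_eq_of_killed_one {wt : σ → ι → ℤ} {sh : J → ι → ℤ} (hwt : Pos wt)
    (blk : σ → Option ι)
    (hblk : ∀ v i, wt v i = open scoped Classical in if blk v = some i then 1 else 0)
    {A B : Submodule (MvPolynomial σ k) (J → MvPolynomial σ k)}
    (hA : HomS wt sh A) (hB : HomS wt sh B) (hBA : B ≤ A) (d : ℕ)
    (hd' : ∀ e : σ →₀ ℕ, (∀ b, d ≤ bdeg blk e b) → ∀ f ∈ A, monomial e (1 : k) • f ∈ B) :
    ∃ n0 : ℤ, ∀ n : ι → ℤ, (∀ i, n0 ≤ n i) → hd wt sh A n = hd wt sh B n := by
  have hgp : ∀ (ν : ι → ℤ), gp k (fun v => ((wt v, 0) : (ι → ℤ) × ℤ))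
      (fun j => ((sh j, 0) : (ι → ℤ) × ℤ)) (ν, 0) = gp k wt sh ν := by
    intro ν
    ext f
    constructor
    · intro h j e he
      have h1 := h j e he
      rw [dg_pair] at h1
      exact congrArg Prod.fst h1
    · intro h j e he
      have h1 := h j e he
      rw [dg_pair]
      exact Prod.ext h1 (add_zero 0)
  have hh : ∀ (A : Submodule (MvPolynomial σ k) (J → MvPolynomial σ k)) (ν : ι → ℤ),
      hd (fun v => ((wt v, 0) : (ι → ℤ) × ℤ)) (fun j => ((sh j, 0) : (ι → ℤ) × ℤ)) A (ν, 0) =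
        hd wt sh A ν := by
    intro A ν
    rw [hd, hd, gpart, gpart, hgp]
  have hH : ∀ {A : Submodule (MvPolynomial σ k) (J → MvPolynomial σ k)}, HomS wt sh A →
      HomS (fun v => ((wt v, 0) : (ι → ℤ) × ℤ)) (fun j => ((sh j, 0) : (ι → ℤ) × ℤ)) A := by
    intro A hA f hf ν
    obtain ⟨ν, t⟩ := ν
    by_cases ht : t = 0
    · subst ht
      have h1 : cmp (fun v => ((wt v, 0) : (ι → ℤ) × ℤ)) (fun j => ((sh j, 0) : (ι → ℤ) × ℤ))
          (ν, 0) f = cmp wt sh ν f := by
        funext j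
        ext e
        rw [coeff_cmp', coeff_cmp', dg_pair]
        congr 1
        rw [Prod.mk_add_mk, Prod.mk.injEq, add_zero]
        simp
      rw [h1]
      exact hA f hf ν
    · have h1 : cmp (fun v => ((wt v, 0) : (ι → ℤ) × ℤ)) (fun j => ((sh j, 0) : (ι → ℤ) × ℤ))
          (ν, t) f = 0 := by
        funext j
        ext e
        rw [coeff_cmp', dg_pair, if_neg]
        · rfl
        · intro h
          exact ht ((congrArg Prod.snd h).symm.trans (add_zero 0))
      rw [h1]
      exact A.zero_mem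
  obtain ⟨φ, hφ⟩ := hwt
  obtain ⟨n0, h⟩ := hd_eq_of_killed (wt := fun v => ((wt v, 0) : (ι → ℤ) × ℤ))
    (sh := fun j => ((sh j, 0) : (ι → ℤ) × ℤ))
    ⟨φ.comp (AddMonoidHom.fst _ _), fun v => hφ v⟩ blk hblk (hH hA) (hH hB) hBA d hd'
  refine ⟨n0, fun n hn => ?_⟩
  have := h n 0 hn
  rwa [hh, hh] at this

end one

section
variable {K : Type u} [Field K] {R : ℕ}

/-- modules killed by both variables of a block are zero in large degrees -/
theorem hil_killed {J0 : Set (MvPolynomial (Fin R × Fin (0 + 2)) K)} (g : Fin R)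
    (h0 : X (g, 0) ∈ J0) (h1 : X (g, 1) ∈ J0) {f : (Fin R → ℤ) → ℤ}
    (hf : f ∈ Hil K (wB 0 R) J0) : EvEq f 0 := by
  refine AddSubgroup.closure_induction (p := fun f _ => EvEq f 0) ?_ ?_ ?_ ?_ hf
  · rintro f ⟨s, sh, N, hN, hJ, hfN⟩
    obtain ⟨n0, h⟩ := hd_eq_of_killed_one (pos_wB 0 R) (fun v => some v.1) (by
        intro v i
        rw [wB, Pi.single_apply]
        by_cases h : i = v.1
        · rw [if_pos h, if_pos (by rw [h])]
        · rw [if_neg h, if_neg (fun h' => h (Option.some.inj h').symm)])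
      (A := ⊤) homS_top hN le_top 1 (by
        intro e he w _
        have he' := he g
        have h2 : ∃ v : Fin R × Fin (0 + 2), v.1 = g ∧ 1 ≤ e v := by
          by_contra hc
          push Not at hc
          have : bdeg (fun v : Fin R × Fin (0 + 2) => some v.1) e g = 0 := by
            rw [bdeg]
            refine Finset.sum_eq_zero fun v hv => ?_
            exact Nat.lt_one_iff.1 (hc v (Option.some.inj
              (of_mem_filter (fun v : Fin R × Fin (0 + 2) => some v.1 = some g) _ _ _ hv)))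
          omega
        obtain ⟨v, hv, hev⟩ := h2
        have hv' : X v ∈ J0 := by
          obtain ⟨g', i⟩ := v
          have hg' : g' = g := hv
          subst hg'
          fin_cases i
          · exact h0
          · exact h1
        have h3 : monomial e (1 : K) = monomial (e - Finsupp.single v 1) (1 : K) * X v := by
          rw [X, monomial_mul, one_mul, tsub_add_cancel_of_le]
          exact Finsupp.single_le_iff.2 hev
        have h4 : monomial e (1 : K) • w =
            ∑ j, (monomial (e - Finsupp.single v 1) (1 : K) * w j) •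
              (Pi.single j (X v) : Fin s → MvPolynomial (Fin R × Fin (0 + 2)) K) := by
          funext j
          rw [Finset.sum_apply, Finset.sum_eq_single j]
          · rw [Pi.smul_apply, Pi.smul_apply, Pi.single_eq_same, h3, smul_eq_mul, smul_eq_mul]
            ring
          · intro j' _ hj'
            rw [Pi.smul_apply, Pi.single_eq_of_ne hj'.symm, smul_zero]
          · intro h
            exact absurd (Finset.mem_univ j) h
        rw [h4]
        exact Submodule.sum_mem _ fun j _ => Submodule.smul_mem _ _ (hJ _ hv' j))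
    refine ⟨n0, fun n hn => ?_⟩
    rw [hfN, h n hn]
    simp
  · exact ⟨0, fun n _ => rfl⟩
  · rintro a b _ _ ⟨n0, ha⟩ ⟨n1, hb⟩
    refine ⟨max n0 n1, fun n hn => ?_⟩
    rw [Pi.add_apply, ha n fun i => (le_max_left _ _).trans (hn i),
      hb n fun i => (le_max_right _ _).trans (hn i)]
    rfl
  · rintro a _ ⟨n0, ha⟩
    refine ⟨n0, fun n hn => ?_⟩
    rw [Pi.neg_apply, ha n hn]
    rfl

theorem hom_X {κ : ℕ} (v : Fin R × Fin (κ + 2)) :
    ∀ e, coeff e (X v : MvPolynomial (Fin R × Fin (κ + 2)) K) ≠ 0 → dg (wB κ R) e =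
      Pi.single v.1 1 := by
  classical
  intro e he
  rw [coeff_X] at he
  have h : Finsupp.single v 1 = e := by
    by_contra h
    rw [if_neg h] at he
    exact he rfl
  rw [← h, dg, Finsupp.sum_single_index (by simp), one_smul, wB]

/-- second differences -/
theorem hil_diff {f : (Fin R → ℤ) → ℤ} (hf : f ∈ Hil K (wB 0 R) ∅) (g : Fin R) :
    ∃ n0 : ℕ, ∀ n : Fin R → ℕ, (∀ i, n0 ≤ n i) →
      f (fun i => ((n + Pi.single g 2 : Fin R → ℕ) i : ℤ)) -
        2 * f (fun i => ((n + Pi.single g 1 : Fin R → ℕ) i : ℤ)) + f (fun i => (n i : ℤ)) = 0 := by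
  have h1 := Hil.dev (pos_wB 0 R) (hom_X (K := K) ((g, 0) : Fin R × Fin (0 + 2))) hf
  have h2 := Hil.dev (pos_wB 0 R) (hom_X (K := K) ((g, 1) : Fin R × Fin (0 + 2))) h1
  obtain ⟨n0, h⟩ := hil_killed g (by simp) (by simp) h2
  refine ⟨n0.toNat, fun n hn => ?_⟩
  have h3 := h (fun i => ((n + Pi.single g 2 : Fin R → ℕ) i : ℤ)) (by
    intro i
    have := hn i
    rw [Pi.add_apply]
    push_cast
    omega)
  rw [Pi.zero_apply, map_sub, map_one, LinearMap.sub_apply, Module.End.one_apply, Pi.sub_apply,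
    act_el, LinearMap.sub_apply, Module.End.one_apply, Pi.sub_apply, Pi.sub_apply,
    act_el, act_el] at h3
  have e1 : (fun i => ((n + Pi.single g 2 : Fin R → ℕ) i : ℤ)) - Pi.single g 1 =
      fun i => ((n + Pi.single g 1 : Fin R → ℕ) i : ℤ) := by
    funext i
    by_cases hi : i = g
    · subst hi
      simp
      ring
    · simp [Pi.single_eq_of_ne hi]
  have e2 : (fun i => ((n + Pi.single g 1 : Fin R → ℕ) i : ℤ)) - Pi.single g 1 =
      fun i => (n i : ℤ) := by
    funext i
    by_cases hi : i = g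
    · subst hi
      simp
    · simp [Pi.single_eq_of_ne hi]
  rw [e1, e2] at h3
  linarith

/-- integrality for blocks without elements -/
theorem intP_zero (β : Fin R → Blk K 0) : IntP K β := by
  intro s N hN
  have hf : (fun ν => (hd (wB 0 R) (fun _ : Fin s => (0 : Fin R → ℤ))
      (⊤ : Submodule (MvPolynomial (Fin R × Fin (0 + 2)) K)
        (Fin s → MvPolynomial (Fin R × Fin (0 + 2)) K)) ν : ℤ) -
      hd (wB 0 R) (fun _ : Fin s => (0 : Fin R → ℤ))
      (N : Submodule (MvPolynomial (Fin R × Fin (0 + 2)) K)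
        (Fin s → MvPolynomial (Fin R × Fin (0 + 2)) K)) ν) ∈ Hil K (wB 0 R) ∅ := by
    refine AddSubgroup.subset_closure ⟨s, fun _ => 0, N, (homS_iff N).2 hN.hom, ?_, fun ν => rfl⟩
    intro p hp
    exact absurd hp (Set.notMem_empty p)
  choose n1 hn1 using fun g : Fin R => hil_diff hf g
  obtain ⟨f, hL, hf'⟩ := lam_of_diff R (fun g => (β g).e) (fun n => (qd N n : ℤ))
    (∑ g, n1 g) (by
      intro g n hn
      have := hn1 g n fun i => (Finset.single_le_sum (fun _ _ => Nat.zero_le _)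
        (Finset.mem_univ g)).trans (hn i)
      simp only [qd_eq]
      exact this)
  exact ⟨f, hL, _, hf'⟩

theorem intZero (K : Type u) [Field K] (R : ℕ) (β : Fin R → Blk K 0) : IntAll K β :=
  fun _ _ _ => intP_zero _

end

end Vale.Agent.P200F.V

end
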