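import Vale.Agent.P200F.Ns

set_option linter.all false

namespace AFast1c6758x4a
@[reducible] noncomputable def a0.{u1} {x1 : Type u1} {x2 : Type} [x3 : Ring x1] : Add (AddMonoidAlgebra x1 x2) := inferInstance
@[reducible] noncomputable def a1.{u1} {x1 : Type u1} {x2 : Type} [x3 : Ring x1] : Zero (AddMonoidAlgebra x1 x2) := inferInstance
@[reducible] def a2.{u1, u2} {x1 : Type u1} [x2 : CategoryTheory.Category.{u2, u1} x1] {x3 : x1} [x4 : CategoryTheory.Preadditive x1] : AddCommMonoid (x3 ⟶ x3) := inferInstance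
@[reducible] def a3.{u1, u2} {x1 : Type u1} [x2 : CategoryTheory.Category.{u2, u1} x1] {x3 : x1} {x4 : x1} [x5 : CategoryTheory.Preadditive x1] : AddCommMonoid (x3 ⟶ x4) := inferInstance
@[reducible] noncomputable def a4.{u1, u2} {x1 : Type} {x2 : Type u1} [x3 : CategoryTheory.Category.{u2, u1} x2] {x4 : x2} {x5 : x2} [x6 : CategoryTheory.Preadditive x2] : AddZero (x1 →₀ (x4 ⟶ x5)) := inferInstance
@[reducible] def a5.{u1, u2} {x1 : Type u1} [x2 : CategoryTheory.Category.{u2, u1} x1] {x3 : x1} {x4 : x1} [x5 : CategoryTheory.Preadditive x1] : AddZeroClass (x3 ⟶ x4) := inferInstance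
@[reducible] def a6.{u1, u2} {x1 : Type u1} [x2 : CategoryTheory.Category.{u2, u1} x1] {x3 : x1} {x4 : x1} [x5 : CategoryTheory.Preadditive x1] : AddMonoid (x3 ⟶ x4) := inferInstance
@[reducible] def a7.{u1} {x1 : ℕ} {x2 : Type u1} [x3 : Ring x2] : AddCommMonoid (Fin x1 → x2) := inferInstance
@[reducible] noncomputable def a8.{u1, u2} {x1 : Type} {x2 : Type u1} [x3 : CategoryTheory.Category.{u2, u1} x2] {x4 : x2} {x5 : x2} [x6 : CategoryTheory.Preadditive x2] : AddZeroClass (x1 →₀ (x4 ⟶ x5)) := inferInstance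
@[reducible] def a9.{u1, u2} {x1 : Type u1} [x2 : CategoryTheory.Category.{u2, u1} x1] {x3 : x1} {x4 : x1} [x5 : CategoryTheory.Preadditive x1] : SubNegMonoid (x3 ⟶ x4) := inferInstance
@[reducible] noncomputable def a10.{u1} {x1 : Type u1} {x2 : Type} [x3 : Ring x1] [x4 : AddCommMonoid x2] : Mul (AddMonoidAlgebra x1 x2) := inferInstance
@[reducible] def a11.{u1} {x1 : ℕ} {x2 : ℕ} {x3 : Type u1} [x4 : Ring x3] : AddCommMonoid (Fin (x1 + x2) → x3) := inferInstance
@[reducible] def a12.{u1, u2} {x1 : Type u1} [x2 : CategoryTheory.Category.{u2, u1} x1] {x3 : x1} {x4 : x1} [x5 : CategoryTheory.Preadditive x1] : AddGroup (x3 ⟶ x4) := inferInstance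
@[reducible] def a13.{u1, u2} {x1 : Type u1} [x2 : CategoryTheory.Category.{u2, u1} x1] {x3 : x1} {x4 : x1} [x5 : CategoryTheory.Preadditive x1] : AddZero (x3 ⟶ x4) := inferInstance
@[reducible] noncomputable def a14.{u1} {x1 : Type u1} {x2 : Type} [x3 : Ring x1] [x4 : AddCommMonoid x2] : Semiring (AddMonoidAlgebra x1 x2) := inferInstance
@[reducible] def a15.{u1, u2} {x1 : Type u1} [x2 : CategoryTheory.Category.{u2, u1} x1] {x3 : x1} {x4 : x1} [x5 : CategoryTheory.Preadditive x1] : SMulZeroClass (CategoryTheory.End x3)ᵐᵒᵖ (x3 ⟶ x4) := inferInstance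
theorem a16.{u1} {x1 : Type u1} {x2 : Type u1} [x3 : Ring x1] [x4 : Ring x2] : MonoidWithZeroHomClass (x1 →+* x2) x1 x2 := inferInstance
theorem a17.{u1} {x1 : Type u1} {x2 : Type u1} [x3 : Ring x1] [x4 : Ring x2] : OneHomClass (x1 →+* x2) x1 x2 := inferInstance
@[reducible] def a18.{u1, u2} {x1 : Type u1} [x2 : CategoryTheory.Category.{u2, u1} x1] {x3 : x1} {x4 : x1} [x5 : CategoryTheory.Preadditive x1] : DistribSMul (CategoryTheory.End x3)ᵐᵒᵖ (x3 ⟶ x4) := inferInstance
theorem a19.{u1} {x1 : Type u1} {x2 : Type u1} [x3 : Ring x1] [x4 : Ring x2] : MonoidHomClass (x1 →+* x2) x1 x2 := inferInstance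
@[reducible] def a20.{u1} {x1 : Type u1} [x2 : Ring x1] : AddCommMonoid (Fin 1 → x1) := inferInstance
@[reducible] noncomputable def a21.{u1} {x1 : Type u1} {x2 : Type} [x3 : Ring x1] [x4 : AddCommMonoid x2] : Distrib (AddMonoidAlgebra x1 x2) := inferInstance
@[reducible] def a22.{u1} {x1 : Type u1} {x2 : ℕ} [x3 : Ring x1] : Max (Submodule x1 (Fin x2 → x1)) := inferInstance
theorem a23.{u1} {x1 : Type u1} {x2 : Type u1} [x3 : Ring x1] [x4 : Ring x2] : MulHomClass (x1 →+* x2) x1 x2 := inferInstance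
@[reducible] def a24.{u1} {x1 : Type u1} {x2 : ℕ} [x3 : Ring x1] : SemilatticeSup (Submodule x1 (Fin x2 → x1)) := inferInstance
@[reducible] noncomputable def a25.{u1} {x1 : Type u1} {x2 : Type} [x3 : Ring x1] [x4 : AddCommMonoid x2] : MulZeroClass (AddMonoidAlgebra x1 x2) := inferInstance
@[reducible] def a26.{u1, u2} {x1 : Type u1} [x2 : CategoryTheory.Category.{u2, u1} x1] {x3 : x1} {x4 : x1} [x5 : CategoryTheory.Preadditive x1] : DistribMulAction (CategoryTheory.End x3)ᵐᵒᵖ (x3 ⟶ x4) := inferInstance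
theorem a27.{u1} {x1 : Type u1} {x2 : Type u1} [x3 : Ring x1] [x4 : Ring x2] : ZeroHomClass (x1 →+* x2) x1 x2 := inferInstance
end AFast1c6758x4a
attribute [local instance] AFast1c6758x4a.a0 AFast1c6758x4a.a1 AFast1c6758x4a.a2 AFast1c6758x4a.a3
  AFast1c6758x4a.a4 AFast1c6758x4a.a5 AFast1c6758x4a.a6 AFast1c6758x4a.a7 AFast1c6758x4a.a8
  AFast1c6758x4a.a9 AFast1c6758x4a.a10 AFast1c6758x4a.a11 AFast1c6758x4a.a12 AFast1c6758x4a.a13
  AFast1c6758x4a.a14 AFast1c6758x4a.a15 AFast1c6758x4a.a16 AFast1c6758x4a.a17 AFast1c6758x4a.a18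
  AFast1c6758x4a.a19 AFast1c6758x4a.a20 AFast1c6758x4a.a21 AFast1c6758x4a.a22 AFast1c6758x4a.a23
  AFast1c6758x4a.a24 AFast1c6758x4a.a25 AFast1c6758x4a.a26 AFast1c6758x4a.a27
namespace AFast1c6758x4b
theorem a0.{u1, u2} {x1 : Type u1} [x2 : CategoryTheory.Category.{u2, u1} x1] [x3 : CategoryTheory.Preadditive x1] {x4 : x1} {x5 : x1} {x6 : x1} {x7 : x4 ⟶ x6} {x8 : x6 ⟶ x5} [x9 : CategoryTheory.Limits.HasCokernels x1] : CategoryTheory.Limits.HasCokernel (CategoryTheory.CategoryStruct.comp x7 x8) := inferInstance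
theorem a1.{u1, u2} {x1 : Type u1} [x2 : CategoryTheory.Category.{u2, u1} x1] [x3 : CategoryTheory.Preadditive x1] {x4 : x1} [x5 : CategoryTheory.Limits.HasCokernels x1] : CategoryTheory.Limits.HasCokernel (CategoryTheory.CategoryStruct.id x4) := inferInstance
theorem a2.{u1} {x1 : Type u1} {x2 : Type u1} [x3 : Ring x1] [x4 : Ring x2] : AddMonoidHomClass (x1 →+* x2) x1 x2 := inferInstance
theorem a3.{u1} {x1 : Type u1} {x2 : Type u1} [x3 : Ring x1] [x4 : Ring x2] : AddHomClass (x1 →+* x2) x1 x2 := inferInstance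
@[reducible] def a4.{u1, u2} {x1 : Type u1} [x2 : CategoryTheory.Category.{u2, u1} x1] {x3 : x1} {x4 : x1} : SMul (CategoryTheory.End x3)ᵐᵒᵖ (x3 ⟶ x4) := inferInstance
theorem a5.{u1, u2} {x1 : Type u1} [x2 : CategoryTheory.Category.{u2, u1} x1] [x3 : CategoryTheory.Preadditive x1] {x4 : x1} {x5 : x1} {x6 : x5 ⟶ x4} [x7 : CategoryTheory.Limits.HasCokernels x1] : CategoryTheory.Limits.HasCokernel (CategoryTheory.Limits.cokernel.π x6) := inferInstance
theorem a6.{u1, u2} {x1 : Type} {x2 : Type u1} [x3 : CategoryTheory.Category.{u2, u1} x2] {x4 : x2} {x5 : x2} [x6 : CategoryTheory.Preadditive x2] {x7 : x2} : AddHomClass ((x1 →₀ (x4 ⟶ x5)) →+ x1 →₀ (x4 ⟶ x7)) (x1 →₀ (x4 ⟶ x5)) (x1 →₀ (x4 ⟶ x7)) := inferInstance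
end AFast1c6758x4b
attribute [local instance] AFast1c6758x4b.a0 AFast1c6758x4b.a1 AFast1c6758x4b.a2 AFast1c6758x4b.a3
  AFast1c6758x4b.a4 AFast1c6758x4b.a5 AFast1c6758x4b.a6
section

open CategoryTheory CategoryTheory.Limits

universe u

namespace Vale.Agent.P200F.E

/-- data for the category of presentations -/
structure Sys (D P : Type u) [Ring D] [Ring P] where
  C : D →+* P
  good : ∀ m : ℕ, Submodule P (Fin m → P) → Prop
  good_sup : ∀ (m k : ℕ) (N : Submodule P (Fin m → P)) (v : Fin k → Fin m → D), good m N →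
    good m (N ⊔ Submodule.span P (Set.range fun i => fun j => C (v i j)))
  good_prod : ∀ (m m' : ℕ) (N : Submodule P (Fin m → P)) (N' : Submodule P (Fin m' → P)),
    good m N → good m' N' →
    good (m + m') (N.comap (LinearMap.funLeft P P (Fin.castAdd m')) ⊓
      N'.comap (LinearMap.funLeft P P (Fin.natAdd m)))

variable {D P : Type u} [Ring D] [Ring P] (𝒮 : Sys D P)

/-- a presentation -/
structure Ob where
  m : ℕ
  N : Submodule P (Fin m → P)
  h : 𝒮.good m N

variable {𝒮}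

namespace Ob

/-- the module of a presentation -/
abbrev M (X : Ob 𝒮) : Type u := (Fin X.m → P) ⧸ X.N

/-- the class of a constant vector -/
def cst (X : Ob 𝒮) (v : Fin X.m → D) : X.M := X.N.mkQ fun j => 𝒮.C (v j)

lemma cst_add (X : Ob 𝒮) (v w : Fin X.m → D) : X.cst (v + w) = X.cst v + X.cst w := by
  unfold cst
  rw [← map_add]
  congr 1
  funext j
  simp

lemma cst_neg (X : Ob 𝒮) (v : Fin X.m → D) : X.cst (-v) = - X.cst v := by
  unfold cst
  rw [← map_neg]
  congr 1
  funext j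
  simp

lemma cst_zero (X : Ob 𝒮) : X.cst 0 = 0 := by
  unfold cst
  rw [← map_zero X.N.mkQ]
  congr 1
  funext j
  simp

lemma cst_smul (X : Ob 𝒮) (d : D) (v : Fin X.m → D) : X.cst (d • v) = 𝒮.C d • X.cst v := by
  unfold cst
  rw [← map_smul]
  congr 1
  funext j
  simp

lemma cst_sum (X : Ob 𝒮) {ι : Type*} (s : Finset ι) (v : ι → Fin X.m → D) :
    X.cst (∑ i ∈ s, v i) = ∑ i ∈ s, X.cst (v i) := by
  classical
  induction s using Finset.induction_on with
  | empty => simp [cst_zero]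
  | insert a s ha ih => rw [Finset.sum_insert ha, Finset.sum_insert ha, cst_add, ih]

/-- every element is a combination of the classes of the basis vectors -/
lemma mkQ_eq_sum (X : Ob 𝒮) (p : Fin X.m → P) :
    X.N.mkQ p = ∑ i, p i • X.cst (Pi.single i 1) := by
  have h : p = ∑ i, p i • (fun j => 𝒮.C ((Pi.single i (1 : D) : Fin X.m → D) j)) := by
    funext j
    rw [Finset.sum_apply, Finset.sum_eq_single j]
    · simp
    · intro b _ hb
      simp [Pi.single_apply, hb.symm]
    · simp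
  conv_lhs => rw [h]
  rw [map_sum]
  refine Finset.sum_congr rfl fun i _ => ?_
  rw [map_smul]
  rfl

/-- the linear maps carrying constants to constants -/
def homSub (X Y : Ob 𝒮) : AddSubgroup (X.M →ₗ[P] Y.M) where
  carrier := {f | ∀ v, ∃ w, f (X.cst v) = Y.cst w}
  add_mem' := by
    intro f g hf hg v
    obtain ⟨a, ha⟩ := hf v
    obtain ⟨b, hb⟩ := hg v
    exact ⟨a + b, by rw [LinearMap.add_apply, ha, hb, cst_add]⟩
  zero_mem' := fun v => ⟨0, by rw [cst_zero]; rfl⟩
  neg_mem' := by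
    intro f hf v
    obtain ⟨a, ha⟩ := hf v
    exact ⟨-a, by rw [LinearMap.neg_apply, ha, cst_neg]⟩

instance : Category.{u} (Ob 𝒮) where
  Hom X Y := homSub X Y
  id X := ⟨LinearMap.id, fun v => ⟨v, rfl⟩⟩
  comp f g := ⟨g.1.comp f.1, fun v => by
    obtain ⟨a, ha⟩ := f.2 v
    obtain ⟨b, hb⟩ := g.2 a
    exact ⟨b, by rw [LinearMap.comp_apply, ha, hb]⟩⟩

/-- the underlying linear map -/
def lin {X Y : Ob 𝒮} (f : X ⟶ Y) : X.M →ₗ[P] Y.M := f.1

/-- morphism from a linear map -/
def ofLin {X Y : Ob 𝒮} (f : X.M →ₗ[P] Y.M) (hf : ∀ v, ∃ w, f (X.cst v) = Y.cst w) : X ⟶ Y :=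
  ⟨f, hf⟩

@[simp] lemma lin_ofLin {X Y : Ob 𝒮} (f : X.M →ₗ[P] Y.M)
    (hf : ∀ v, ∃ w, f (X.cst v) = Y.cst w) : lin (ofLin f hf) = f := rfl

lemma lin_cst {X Y : Ob 𝒮} (f : X ⟶ Y) (v : Fin X.m → D) : ∃ w, lin f (X.cst v) = Y.cst w :=
  f.2 v

@[ext] lemma hom_ext {X Y : Ob 𝒮} {f g : X ⟶ Y} (h : lin f = lin g) : f = g := Subtype.ext h

@[simp] lemma lin_comp {X Y Z : Ob 𝒮} (f : X ⟶ Y) (g : Y ⟶ Z) :
    lin (f ≫ g) = (lin g).comp (lin f) := rfl

@[simp] lemma lin_id (X : Ob 𝒮) : lin (𝟙 X) = LinearMap.id := rfl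

instance : Preadditive (Ob 𝒮) where
  homGroup X Y := inferInstanceAs (AddCommGroup (homSub X Y))
  add_comp X Y Z f f' g := by
    apply hom_ext
    exact LinearMap.comp_add _ _ _
  comp_add X Y Z f g g' := by
    apply hom_ext
    exact LinearMap.add_comp _ _ _

@[simp] lemma lin_add {X Y : Ob 𝒮} (f g : X ⟶ Y) : lin (f + g) = lin f + lin g := rfl
@[simp] lemma lin_sub {X Y : Ob 𝒮} (f g : X ⟶ Y) : lin (f - g) = lin f - lin g := rfl
@[simp] lemma lin_neg {X Y : Ob 𝒮} (f : X ⟶ Y) : lin (-f) = - lin f := rfl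
@[simp] lemma lin_zero {X Y : Ob 𝒮} : lin (0 : X ⟶ Y) = 0 := rfl

/-- the range of a morphism as a submodule of `P^m` -/
def rangeSub {X Y : Ob 𝒮} (f : X ⟶ Y) : Submodule P (Fin Y.m → P) :=
  (LinearMap.range (lin f)).comap Y.N.mkQ

lemma le_rangeSub {X Y : Ob 𝒮} (f : X ⟶ Y) : Y.N ≤ rangeSub f := by
  intro p hp
  simp only [rangeSub, Submodule.mem_comap]
  rw [(Submodule.Quotient.mk_eq_zero _).2 hp |> fun h => (show Y.N.mkQ p = 0 from h)]
  exact zero_mem _

lemma rangeSub_eq {X Y : Ob 𝒮} (f : X ⟶ Y) (w : Fin X.m → Fin Y.m → D)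
    (hw : ∀ i, lin f (X.cst (Pi.single i 1)) = Y.cst (w i)) :
    rangeSub f = Y.N ⊔ Submodule.span P (Set.range fun i => fun j => 𝒮.C (w i j)) := by
  apply le_antisymm
  · intro p hp
    obtain ⟨q, hq⟩ := hp
    obtain ⟨q', rfl⟩ := X.N.mkQ_surjective q
    rw [mkQ_eq_sum, map_sum] at hq
    simp only [map_smul, hw] at hq
    have h1 : Y.N.mkQ (∑ i, q' i • fun j => 𝒮.C (w i j)) = Y.N.mkQ p := by
      rw [← hq, map_sum]
      refine Finset.sum_congr rfl fun i _ => ?_
      rw [map_smul]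
      rfl
    have h2 : p - (∑ i, q' i • fun j => 𝒮.C (w i j)) ∈ Y.N := by
      rw [← Submodule.Quotient.mk_eq_zero]
      have : Y.N.mkQ (p - ∑ i, q' i • fun j => 𝒮.C (w i j)) = 0 := by
        rw [map_sub, h1, sub_self]
      exact this
    have h3 : p = (p - (∑ i, q' i • fun j => 𝒮.C (w i j))) +
        ∑ i, q' i • fun j => 𝒮.C (w i j) := by abel
    rw [h3]
    refine Submodule.add_mem_sup h2 (Submodule.sum_mem _ fun i _ => Submodule.smul_mem _ _ ?_)
    exact Submodule.subset_span ⟨i, rfl⟩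
  · apply sup_le (le_rangeSub f)
    rw [Submodule.span_le]
    rintro _ ⟨i, rfl⟩
    exact ⟨_, hw i⟩

lemma good_rangeSub {X Y : Ob 𝒮} (f : X ⟶ Y) : 𝒮.good Y.m (rangeSub f) := by
  choose w hw using fun i => lin_cst f (Pi.single i 1)
  rw [rangeSub_eq f w hw]
  exact 𝒮.good_sup _ _ _ _ Y.h

/-- the cokernel -/
def coker {X Y : Ob 𝒮} (f : X ⟶ Y) : Ob 𝒮 := ⟨Y.m, rangeSub f, good_rangeSub f⟩

/-- the projection to the cokernel -/
def cokerπ {X Y : Ob 𝒮} (f : X ⟶ Y) : Y ⟶ coker f :=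
  ofLin (Submodule.mapQ _ _ LinearMap.id (le_rangeSub f)) fun v => ⟨v, rfl⟩

lemma comp_cokerπ {X Y : Ob 𝒮} (f : X ⟶ Y) : f ≫ cokerπ f = 0 := by
  apply hom_ext
  rw [lin_comp, lin_zero]
  refine LinearMap.ext fun x => ?_
  obtain ⟨p, hp⟩ := Y.N.mkQ_surjective (lin f x)
  simp only [LinearMap.comp_apply, LinearMap.zero_apply]
  rw [← hp]
  exact (Submodule.Quotient.mk_eq_zero (rangeSub f)).2 ⟨x, hp.symm⟩

lemma cokerπ_surjective {X Y : Ob 𝒮} (f : X ⟶ Y) : Function.Surjective (lin (cokerπ f)) := by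
  intro y
  obtain ⟨p, rfl⟩ := (coker f).N.mkQ_surjective y
  exact ⟨Y.N.mkQ p, rfl⟩

lemma epi_of_surjective {X Y : Ob 𝒮} (f : X ⟶ Y) (hf : Function.Surjective (lin f)) : Epi f where
  left_cancellation g h hgh := by
    apply hom_ext
    refine LinearMap.ext fun y => ?_
    obtain ⟨x, rfl⟩ := hf y
    exact LinearMap.congr_fun (congrArg lin hgh) x

/-- descent to the cokernel -/
def cokerDesc {X Y Z : Ob 𝒮} (f : X ⟶ Y) (g : Y ⟶ Z) (h : f ≫ g = 0) : coker f ⟶ Z :=
  ofLin (Submodule.liftQ _ ((lin g).comp Y.N.mkQ) (by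
    intro p hp
    obtain ⟨x, hx⟩ := hp
    have h1 : lin g (Y.N.mkQ p) = 0 := by
      rw [← hx]
      exact LinearMap.congr_fun (congrArg lin h) x
    exact h1)) (fun v => by
      obtain ⟨w, hw⟩ := lin_cst g v
      exact ⟨w, hw⟩)

lemma cokerπ_desc {X Y Z : Ob 𝒮} (f : X ⟶ Y) (g : Y ⟶ Z) (h : f ≫ g = 0) :
    cokerπ f ≫ cokerDesc f g h = g := by
  apply hom_ext
  refine LinearMap.ext fun x => ?_
  obtain ⟨p, rfl⟩ := Y.N.mkQ_surjective x
  rfl

/-- `coker f` is a cokernel -/
def isColimitCoker {X Y : Ob 𝒮} (f : X ⟶ Y) :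
    IsColimit (CokernelCofork.ofπ (cokerπ f) (comp_cokerπ f)) :=
  CokernelCofork.IsColimit.ofπ _ _ (fun g h => cokerDesc f g h) (fun g h => cokerπ_desc f g h)
    (fun g h b hb => by
      have := epi_of_surjective (cokerπ f) (cokerπ_surjective f)
      rw [← cancel_epi (cokerπ f), hb, cokerπ_desc])

instance : HasCokernels (Ob 𝒮) where
  has_colimit f := HasColimit.mk ⟨_, isColimitCoker f⟩

end Ob

end Vale.Agent.P200F.E

end
namespace AFast1c6758x255a
@[reducible] def a0.{u1} {x1 : Type u1} {x2 : Type u1} [x3 : Ring x1] [x4 : Ring x2] {x5 : Vale.Agent.P200F.E.Sys x1 x2} {x6 : Vale.Agent.P200F.E.Ob x5} : Add x6.M := inferInstance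
@[reducible] def a1.{u1} {x1 : Type u1} {x2 : Type u1} [x3 : Ring x1] [x4 : Ring x2] {x5 : Vale.Agent.P200F.E.Sys x1 x2} {x6 : Vale.Agent.P200F.E.Ob x5} : AddZeroClass x6.M := inferInstance
@[reducible] def a2.{u1} {x1 : Type u1} {x2 : Type u1} [x3 : Ring x1] [x4 : Ring x2] {x5 : Vale.Agent.P200F.E.Sys x1 x2} {x6 : Vale.Agent.P200F.E.Ob x5} : AddZero x6.M := inferInstance
@[reducible] def a3.{u1} {x1 : Type u1} {x2 : Type u1} [x3 : Ring x1] [x4 : Ring x2] {x5 : Vale.Agent.P200F.E.Sys x1 x2} {x6 : Vale.Agent.P200F.E.Ob x5} : AddCommMagma x6.M := inferInstance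
end AFast1c6758x255a
attribute [local instance] AFast1c6758x255a.a0 AFast1c6758x255a.a1 AFast1c6758x255a.a2
  AFast1c6758x255a.a3

section

open CategoryTheory CategoryTheory.Limits

universe v u

namespace Vale.Agent.P200F.E

/-- an integer valued rank function -/
structure RankFn (C : Type u) [Category.{v} C] [Preadditive C] [HasCokernels C]
    [HasBinaryBiproducts C] where
  rk : C → ℕ
  rk_epi : ∀ {M N : C} (f : M ⟶ N), Epi f → rk N ≤ rk M
  rk_coker : ∀ {M N : C} (f : M ⟶ N), rk N ≤ rk M + rk (cokernel f)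
  rk_sum : ∀ M N : C, rk (M ⊞ N) = rk M + rk N

namespace RankFn

variable {C : Type u} [Category.{v} C] [Preadditive C] [HasCokernels C] [HasBinaryBiproducts C]
  (r : RankFn C)

lemma rk_iso {M N : C} (e : M ≅ N) : r.rk M = r.rk N :=
  le_antisymm (r.rk_epi e.inv inferInstance) (r.rk_epi e.hom inferInstance)

lemma rk_of_epi_zero {M N : C} (f : M ⟶ N) (hf : Epi f) (h0 : f = 0) : r.rk N = 0 := by
  have hid : (𝟙 N) = 0 := by
    rw [← cancel_epi f]
    simp [h0]
  have hiso : N ≅ N ⊞ N :=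
    { hom := biprod.inl
      inv := biprod.fst
      hom_inv_id := by simp
      inv_hom_id := by
        apply biprod.hom_ext' <;> apply biprod.hom_ext
        · simp
        · simp
        · have h1 : (biprod.inr : N ⟶ N ⊞ N) = 0 := by
            rw [← Category.id_comp (biprod.inr : N ⟶ N ⊞ N), hid]; simp
          simp [h1]
        · have h1 : (biprod.inr : N ⟶ N ⊞ N) = 0 := by
            rw [← Category.id_comp (biprod.inr : N ⟶ N ⊞ N), hid]; simp
          simp [h1] }
  have h1 := r.rk_iso hiso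
  rw [r.rk_sum] at h1
  omega

lemma rk_coker_of_epi {M N : C} (f : M ⟶ N) (hf : Epi f) : r.rk (cokernel f) = 0 := by
  refine r.rk_of_epi_zero (cokernel.π f) inferInstance ?_
  rw [← cancel_epi f]
  simp

/-- the morphisms to be inverted -/
def S : MorphismProperty C := fun M N s => r.rk (cokernel s) = 0 ∧ r.rk M = r.rk N

lemma rk_coker_comp {M N P : C} (s : M ⟶ N) (t : N ⟶ P) :
    r.rk (cokernel (s ≫ t)) ≤ r.rk (cokernel s) + r.rk (cokernel t) := by
  let a : cokernel s ⟶ cokernel (s ≫ t) :=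
    cokernel.desc s (t ≫ cokernel.π (s ≫ t)) (by rw [← Category.assoc]; exact cokernel.condition _)
  have ha : cokernel.π s ≫ a = t ≫ cokernel.π (s ≫ t) := cokernel.π_desc _ _ _
  let b : cokernel t ⟶ cokernel a :=
    cokernel.desc t (cokernel.π (s ≫ t) ≫ cokernel.π a) (by
      rw [← Category.assoc, ← ha, Category.assoc, cokernel.condition, comp_zero])
  have hb : cokernel.π t ≫ b = cokernel.π (s ≫ t) ≫ cokernel.π a := cokernel.π_desc _ _ _
  have hbe : Epi b := by
    have : Epi (cokernel.π t ≫ b) := by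
      rw [hb]; infer_instance
    exact epi_of_epi (cokernel.π t) b
  have h1 := r.rk_coker a
  have h2 := r.rk_epi b hbe
  omega

instance : (r.S).IsMultiplicative where
  id_mem M := ⟨r.rk_coker_of_epi _ inferInstance, rfl⟩
  comp_mem s t hs ht := by
    refine ⟨?_, hs.2.trans ht.2⟩
    have h := r.rk_coker_comp s t
    have h1 := hs.1
    have h2 := ht.1
    omega

instance : (r.S).HasLeftCalculusOfFractions where
  exists_leftFraction := by
    intro X Y φ
    obtain ⟨X', s, hs, f, rfl⟩ := φ.cases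
    let p : X' ⟶ X ⊞ Y := biprod.lift s (-f)
    let π := cokernel.π p
    let i1 : X ⟶ cokernel p := biprod.inl ≫ π
    let i2 : Y ⟶ cokernel p := biprod.inr ≫ π
    have hp : p = s ≫ biprod.inl - f ≫ biprod.inr := by
      apply biprod.hom_ext <;> simp [p]
    have hsq : s ≫ i1 = f ≫ i2 := by
      have h : p ≫ π = 0 := cokernel.condition p
      have h' : p ≫ π = s ≫ i1 - f ≫ i2 := by
        have : ∀ q : X' ⟶ X ⊞ Y, q = s ≫ biprod.inl - f ≫ biprod.inr →
            q ≫ π = s ≫ i1 - f ≫ i2 := by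
          rintro q rfl
          simp only [Preadditive.sub_comp, Category.assoc, i1, i2]
        exact this p hp
      exact sub_eq_zero.1 (h'.symm.trans h)
    -- the cokernel of `i2` is a quotient of the cokernel of `s`
    have hc : r.rk (cokernel i2) ≤ r.rk (cokernel s) := by
      let b : cokernel s ⟶ cokernel i2 := cokernel.desc s (i1 ≫ cokernel.π i2) (by
        rw [← Category.assoc, hsq, Category.assoc, cokernel.condition, comp_zero])
      have hb : cokernel.π s ≫ b = i1 ≫ cokernel.π i2 := cokernel.π_desc _ _ _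
      refine r.rk_epi b ?_
      refine ⟨fun {Z} g h hgh => ?_⟩
      rw [← cancel_epi (cokernel.π i2), ← cancel_epi π]
      apply biprod.hom_ext'
      · have h1 : cokernel.π s ≫ b ≫ g = cokernel.π s ≫ b ≫ h := by rw [hgh]
        rw [← Category.assoc, ← Category.assoc, hb] at h1
        simpa [i1] using h1
      · have h1 : i2 ≫ cokernel.π i2 = 0 := cokernel.condition i2
        have h2 : ∀ k : cokernel i2 ⟶ Z, biprod.inr ≫ π ≫ cokernel.π i2 ≫ k = 0 := by
          intro k
          have h3 : (i2 ≫ cokernel.π i2) ≫ k = 0 := by rw [h1, zero_comp]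
          rw [Category.assoc] at h3
          exact (Category.assoc _ _ _).symm.trans h3
        rw [h2, h2]
    refine ⟨⟨i1, i2, ⟨?_, ?_⟩⟩, ?_⟩
    · have := hs.1
      omega
    · have h1 := r.rk_coker i2
      have h2 := r.rk_coker p
      rw [r.rk_sum] at h2
      have h3 := hs.1
      have h4 := hs.2
      change r.rk Y = r.rk (cokernel p)
      omega
    · exact hsq.symm
  ext := by
    intro X' X Y f1 f2 s hs h
    let d : X ⟶ Y := f1 - f2
    have hd : s ≫ d = 0 := by simp [d, h]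
    let e : cokernel s ⟶ Y := cokernel.desc s d hd
    have he : cokernel.π s ≫ e = d := cokernel.π_desc _ _ _
    let b : cokernel d ⟶ cokernel e := cokernel.desc d (cokernel.π e) (by
      rw [← he, Category.assoc, cokernel.condition, comp_zero])
    have hb : cokernel.π d ≫ b = cokernel.π e := cokernel.π_desc _ _ _
    have hbe : Epi b := by
      have : Epi (cokernel.π d ≫ b) := by rw [hb]; infer_instance
      exact epi_of_epi (cokernel.π d) b
    refine ⟨cokernel d, cokernel.π d, ⟨r.rk_coker_of_epi _ inferInstance, ?_⟩, ?_⟩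
    · have h1 := r.rk_epi (cokernel.π d) inferInstance
      have h2 := r.rk_coker e
      have h3 := r.rk_epi b hbe
      have h4 := hs.1
      omega
    · have h1 : d ≫ cokernel.π d = 0 := cokernel.condition d
      have h2 : f1 ≫ cokernel.π d - f2 ≫ cokernel.π d = 0 := by
        rw [← Preadditive.sub_comp]; exact h1
      exact sub_eq_zero.1 h2

section division

variable {D : Type*} [Category* D] [Preadditive D] (L : C ⥤ D) [L.IsLocalization r.S] [L.Additive]

/-- a nonzero endomorphism of an object of rank one is an isomorphism in the localization -/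
theorem isIso_of_ne_zero {O : C} (hO : r.rk O = 1) (φ : L.obj O ⟶ L.obj O) (hφ : φ ≠ 0) :
    IsIso φ := by
  obtain ⟨ψ, rfl⟩ := Localization.exists_leftFraction L r.S φ
  obtain ⟨Y, f, s, hs, rfl⟩ := ψ.cases
  have hi : IsIso (L.map s) := Localization.inverts L r.S s hs
  have hY : r.rk Y = 1 := by rw [← hs.2, hO]
  have h1 := r.rk_epi (cokernel.π f) inferInstance
  have hmap : (MorphismProperty.LeftFraction.mk (W := r.S) f s hs).map L
      (Localization.inverts L r.S) = L.map f ≫ inv (L.map s) := rfl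
  rcases Nat.lt_or_ge (r.rk (cokernel f)) 1 with h0 | h0
  · have hf : r.S f := ⟨by omega, by rw [hO, hY]⟩
    have hfi : IsIso (L.map f) := Localization.inverts L r.S f hf
    rw [hmap]
    infer_instance
  · exfalso
    apply hφ
    have ht : r.S (cokernel.π f) := ⟨r.rk_coker_of_epi _ inferInstance, by omega⟩
    have hti : IsIso (L.map (cokernel.π f)) := Localization.inverts L r.S _ ht
    have hz : L.map f = 0 := by
      rw [← cancel_mono (L.map (cokernel.π f)), ← L.map_comp, cokernel.condition]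
      simp
    rw [hmap, hz, zero_comp]

/-- the identity of an object of nonzero rank is nonzero in the localization -/
theorem id_ne_zero {O : C} (hO : r.rk O ≠ 0) : 𝟙 (L.obj O) ≠ 0 := by
  intro h
  have h1 : L.map (𝟙 O) = L.map (0 : O ⟶ O) := by simpa using h
  obtain ⟨Z, s, hs, hz⟩ := (MorphismProperty.map_eq_iff_postcomp L r.S _ _).1 h1
  have hs0 : s = 0 := by simpa using hz
  have h2 : r.rk Z ≤ r.rk (cokernel s) := by
    have hc : s ≫ 𝟙 Z = 0 := by simp [hs0]
    refine r.rk_epi (cokernel.desc s (𝟙 Z) hc) ?_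
    have : Epi (cokernel.π s ≫ cokernel.desc s (𝟙 Z) hc) := by
      rw [cokernel.π_desc]; infer_instance
    exact epi_of_epi (cokernel.π s) _
  have h3 := hs.1
  have h4 := hs.2
  omega

/-- the endomorphism ring of an object of rank one is a division ring -/
@[instance_reducible]
noncomputable def endDivisionRing {O : C} (hO : r.rk O = 1) : DivisionRing (End (L.obj O)) := by
  classical
  have : Nontrivial (End (L.obj O)) := ⟨⟨𝟙 _, 0, r.id_ne_zero L (by omega)⟩⟩
  exact DivisionRing.ofIsUnitOrEqZero (fun a => by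
    by_cases ha : a = 0
    · exact Or.inr ha
    · left
      have := r.isIso_of_ne_zero L hO a ha
      exact (isUnit_iff_isIso a).2 inferInstance)

end division

end RankFn

end Vale.Agent.P200F.E

end

section

open CategoryTheory CategoryTheory.Limits

universe u

namespace Vale.Agent.P200F.E

variable {D P : Type u} [Ring D] [Ring P] {𝒮 : Sys D P}

namespace Ob

/-- the direct sum of two presentations -/
def dsum (X Y : Ob 𝒮) : Ob 𝒮 := ⟨X.m + Y.m, _, 𝒮.good_prod X.m Y.m X.N Y.N X.h Y.h⟩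

/-- extension by zero on the right -/
def exL (P : Type u) [Ring P] (m m' : ℕ) : (Fin m → P) →ₗ[P] (Fin (m + m') → P) :=
  LinearMap.pi fun j => Fin.addCases (fun i => LinearMap.proj i) (fun _ => 0) j

/-- extension by zero on the left -/
def exR (P : Type u) [Ring P] (m m' : ℕ) : (Fin m' → P) →ₗ[P] (Fin (m + m') → P) :=
  LinearMap.pi fun j => Fin.addCases (fun _ => 0) (fun i => LinearMap.proj i) j

lemma exL_castAdd (m m' : ℕ) (p : Fin m → P) (i : Fin m) :
    exL P m m' p (Fin.castAdd m' i) = p i := by simp [exL]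

lemma exL_natAdd (m m' : ℕ) (p : Fin m → P) (i : Fin m') :
    exL P m m' p (Fin.natAdd m i) = 0 := by simp [exL]

lemma exR_castAdd (m m' : ℕ) (p : Fin m' → P) (i : Fin m) :
    exR P m m' p (Fin.castAdd m' i) = 0 := by simp [exR]

lemma exR_natAdd (m m' : ℕ) (p : Fin m' → P) (i : Fin m') :
    exR P m m' p (Fin.natAdd m i) = p i := by simp [exR]

lemma funLeft_exL (m m' : ℕ) (p : Fin m → P) :
    LinearMap.funLeft P P (Fin.castAdd m') (exL P m m' p) = p := by
  funext i
  rw [LinearMap.funLeft_apply, exL_castAdd]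

lemma funLeft_exL' (m m' : ℕ) (p : Fin m → P) :
    LinearMap.funLeft P P (Fin.natAdd m) (exL P m m' p) = 0 := by
  funext i
  rw [LinearMap.funLeft_apply, exL_natAdd]
  rfl

lemma funLeft_exR (m m' : ℕ) (p : Fin m' → P) :
    LinearMap.funLeft P P (Fin.natAdd m) (exR P m m' p) = p := by
  funext i
  rw [LinearMap.funLeft_apply, exR_natAdd]

lemma funLeft_exR' (m m' : ℕ) (p : Fin m' → P) :
    LinearMap.funLeft P P (Fin.castAdd m') (exR P m m' p) = 0 := by
  funext i
  rw [LinearMap.funLeft_apply, exR_castAdd]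
  rfl

lemma exL_const (C : D →+* P) (m m' : ℕ) (v : Fin m → D) :
    (exL P m m' fun j => C (v j)) =
      fun j => C (Fin.append v (0 : Fin m' → D) j) := by
  funext j
  refine Fin.addCases (fun i => ?_) (fun i => ?_) j
  · rw [exL_castAdd, Fin.append_left]
  · rw [exL_natAdd, Fin.append_right, Pi.zero_apply, map_zero]

lemma exR_const (C : D →+* P) (m m' : ℕ) (v : Fin m' → D) :
    (exR P m m' fun j => C (v j)) =
      fun j => C (Fin.append (0 : Fin m → D) v j) := by
  funext j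
  refine Fin.addCases (fun i => ?_) (fun i => ?_) j
  · rw [exR_castAdd, Fin.append_left, Pi.zero_apply, map_zero]
  · rw [exR_natAdd, Fin.append_right]

lemma ex_total (m m' : ℕ) (p : Fin (m + m') → P) :
    exL P m m' (LinearMap.funLeft P P (Fin.castAdd m') p) +
      exR P m m' (LinearMap.funLeft P P (Fin.natAdd m) p) = p := by
  funext j
  refine Fin.addCases (fun i => ?_) (fun i => ?_) j
  · rw [Pi.add_apply, exL_castAdd, exR_castAdd, add_zero]
    rfl
  · rw [Pi.add_apply, exL_natAdd, exR_natAdd, zero_add]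
    rfl

/-- first inclusion -/
def inl (X Y : Ob 𝒮) : X ⟶ dsum X Y :=
  ofLin (Submodule.mapQ _ _ (exL P X.m Y.m) (by
    intro p hp
    refine ⟨?_, ?_⟩
    · change LinearMap.funLeft P P (Fin.castAdd Y.m) (exL P X.m Y.m p) ∈ X.N
      rw [funLeft_exL]
      exact hp
    · change LinearMap.funLeft P P (Fin.natAdd X.m) (exL P X.m Y.m p) ∈ Y.N
      rw [funLeft_exL']
      exact zero_mem _)) (fun v => by
    exact ⟨Fin.append v (0 : Fin Y.m → D),
      congrArg (dsum X Y).N.mkQ (exL_const 𝒮.C X.m Y.m v)⟩)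

/-- second inclusion -/
def inr (X Y : Ob 𝒮) : Y ⟶ dsum X Y :=
  ofLin (Submodule.mapQ _ _ (exR P X.m Y.m) (by
    intro p hp
    refine ⟨?_, ?_⟩
    · change LinearMap.funLeft P P (Fin.castAdd Y.m) (exR P X.m Y.m p) ∈ X.N
      rw [funLeft_exR']
      exact zero_mem _
    · change LinearMap.funLeft P P (Fin.natAdd X.m) (exR P X.m Y.m p) ∈ Y.N
      rw [funLeft_exR]
      exact hp)) (fun v => by
    exact ⟨Fin.append (0 : Fin X.m → D) v,
      congrArg (dsum X Y).N.mkQ (exR_const 𝒮.C X.m Y.m v)⟩)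

/-- first projection -/
def fst (X Y : Ob 𝒮) : dsum X Y ⟶ X :=
  ofLin (Submodule.mapQ _ _ (LinearMap.funLeft P P (Fin.castAdd Y.m)) (fun _ hp => hp.1))
    (fun v => ⟨fun i => v (Fin.castAdd Y.m i), rfl⟩)

/-- second projection -/
def snd (X Y : Ob 𝒮) : dsum X Y ⟶ Y :=
  ofLin (Submodule.mapQ _ _ (LinearMap.funLeft P P (Fin.natAdd X.m)) (fun _ hp => hp.2))
    (fun v => ⟨fun i => v (Fin.natAdd X.m i), rfl⟩)

lemma mkQ_ext {X Y : Ob 𝒮} {f g : X ⟶ Y} (h : ∀ p, lin f (X.N.mkQ p) = lin g (X.N.mkQ p)) :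
    f = g := by
  apply hom_ext
  refine LinearMap.ext fun x => ?_
  obtain ⟨p, rfl⟩ := X.N.mkQ_surjective x
  exact h p

lemma inl_fst (X Y : Ob 𝒮) : inl X Y ≫ fst X Y = 𝟙 X := by
  apply mkQ_ext
  intro p
  change X.N.mkQ (LinearMap.funLeft P P (Fin.castAdd Y.m) (exL P X.m Y.m p)) = X.N.mkQ p
  rw [funLeft_exL]

lemma inl_snd (X Y : Ob 𝒮) : inl X Y ≫ snd X Y = 0 := by
  apply mkQ_ext
  intro p
  change Y.N.mkQ (LinearMap.funLeft P P (Fin.natAdd X.m) (exL P X.m Y.m p)) = 0
  rw [funLeft_exL', map_zero]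

lemma inr_fst (X Y : Ob 𝒮) : inr X Y ≫ fst X Y = 0 := by
  apply mkQ_ext
  intro p
  change X.N.mkQ (LinearMap.funLeft P P (Fin.castAdd Y.m) (exR P X.m Y.m p)) = 0
  rw [funLeft_exR', map_zero]

lemma inr_snd (X Y : Ob 𝒮) : inr X Y ≫ snd X Y = 𝟙 Y := by
  apply mkQ_ext
  intro p
  change Y.N.mkQ (LinearMap.funLeft P P (Fin.natAdd X.m) (exR P X.m Y.m p)) = Y.N.mkQ p
  rw [funLeft_exR]

lemma dsum_total (X Y : Ob 𝒮) :
    fst X Y ≫ inl X Y + snd X Y ≫ inr X Y = 𝟙 (dsum X Y) := by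
  apply mkQ_ext
  intro p
  exact (map_add (dsum X Y).N.mkQ _ _).symm.trans (congrArg (dsum X Y).N.mkQ (ex_total X.m Y.m p))

/-- the bicone -/
def bicone (X Y : Ob 𝒮) : BinaryBicone X Y where
  pt := dsum X Y
  fst := fst X Y
  snd := snd X Y
  inl := inl X Y
  inr := inr X Y
  inl_fst := inl_fst X Y
  inl_snd := inl_snd X Y
  inr_fst := inr_fst X Y
  inr_snd := inr_snd X Y

instance : HasBinaryBiproducts (Ob 𝒮) where
  has_binary_biproduct X Y := hasBinaryBiproduct_of_total (bicone X Y) (dsum_total X Y)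

/-- the abstract biproduct is isomorphic to the concrete one -/
noncomputable def dsumIso (X Y : Ob 𝒮) : dsum X Y ≅ X ⊞ Y :=
  biprod.uniqueUpToIso X Y (isBinaryBilimitOfTotal (bicone X Y) (dsum_total X Y))

/-- the abstract cokernel is isomorphic to the concrete one -/
noncomputable def cokerIso {X Y : Ob 𝒮} (f : X ⟶ Y) : coker f ≅ cokernel f :=
  IsColimit.coconePointUniqueUpToIso (isColimitCoker f) (colimit.isColimit _)

lemma surjective_of_epi {X Y : Ob 𝒮} (f : X ⟶ Y) (hf : Epi f) : Function.Surjective (lin f) := by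
  have h1 : cokerπ f = 0 := by
    rw [← cancel_epi f, comp_cokerπ, comp_zero]
  intro y
  obtain ⟨p, rfl⟩ := Y.N.mkQ_surjective y
  have h2 : lin (cokerπ f) (Y.N.mkQ p) = 0 := by rw [h1]; rfl
  have h3 : p ∈ rangeSub f := (Submodule.Quotient.mk_eq_zero (rangeSub f)).1 h2
  exact h3

lemma rangeSub_of_epi {X Y : Ob 𝒮} (f : X ⟶ Y) (hf : Epi f) : rangeSub f = ⊤ := by
  rw [eq_top_iff]
  intro p _
  obtain ⟨x, hx⟩ := surjective_of_epi f hf (Y.N.mkQ p)
  exact ⟨x, hx⟩

/-- the rank function -/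
structure RkData (𝒮 : Sys D P) where
  rk : Ob 𝒮 → ℕ
  rk_coker : ∀ {X Y : Ob 𝒮} (f : X ⟶ Y), rk Y ≤ rk X + rk (coker f)
  rk_dsum : ∀ X Y : Ob 𝒮, rk (dsum X Y) = rk X + rk Y
  rk_top : ∀ X : Ob 𝒮, X.N = ⊤ → rk X = 0

namespace RkData

variable (ρ : RkData 𝒮)

lemma rk_epi {X Y : Ob 𝒮} (f : X ⟶ Y) (hf : Epi f) : ρ.rk Y ≤ ρ.rk X := by
  have h1 := ρ.rk_coker f
  have h2 : ρ.rk (coker f) = 0 := ρ.rk_top _ (rangeSub_of_epi f hf)
  omega

lemma rk_iso {X Y : Ob 𝒮} (e : X ≅ Y) : ρ.rk X = ρ.rk Y :=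
  le_antisymm (ρ.rk_epi e.inv inferInstance) (ρ.rk_epi e.hom inferInstance)

/-- the abstract rank function -/
noncomputable def toRankFn : RankFn (Ob 𝒮) where
  rk := ρ.rk
  rk_epi f hf := ρ.rk_epi f hf
  rk_coker f := by
    have h1 := ρ.rk_coker f
    rwa [ρ.rk_iso (cokerIso f)] at h1
  rk_sum X Y := by
    rw [← ρ.rk_iso (dsumIso X Y), ρ.rk_dsum]

end RkData

end Ob

end Vale.Agent.P200F.E

end

section

open CategoryTheory CategoryTheory.Limits

universe v u

namespace Vale.Agent.P200F.E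

namespace RankFn

variable {C : Type u} [Category.{v} C] [Preadditive C] [HasCokernels C] [HasBinaryBiproducts C]
  (r : RankFn C)

section loc

variable {D : Type*} [Category* D] [Preadditive D] (L : C ⥤ D) [L.IsLocalization r.S] [L.Additive]

include r

/-- every morphism is a left fraction -/
lemma exists_frac {X Y : C} (φ : L.obj X ⟶ L.obj Y) :
    ∃ (Z : C) (f : X ⟶ Z) (s : Y ⟶ Z), r.S s ∧ φ ≫ L.map s = L.map f := by
  obtain ⟨ψ, rfl⟩ := Localization.exists_leftFraction L r.S φ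
  obtain ⟨Z, f, s, hs, rfl⟩ := ψ.cases
  exact ⟨Z, f, s, hs, MorphismProperty.LeftFraction.map_comp_map_s _ L (Localization.inverts L r.S)⟩

lemma isIso_map {X Y : C} (s : X ⟶ Y) (hs : r.S s) : IsIso (L.map s) :=
  Localization.inverts L r.S s hs

/-- a morphism is zero in the localization iff it is killed by some `t` -/
lemma map_eq_zero {X Y : C} (f : X ⟶ Y) (h : L.map f = 0) :
    ∃ (Z : C) (t : Y ⟶ Z), r.S t ∧ f ≫ t = 0 := by
  have h1 : L.map f = L.map 0 := by simpa using h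
  obtain ⟨Z, s, hs, hz⟩ := (MorphismProperty.map_eq_iff_postcomp L r.S _ _).1 h1
  exact ⟨Z, s, hs, by simpa using hz⟩

/-- cokernel projections out of objects of rank zero are inverted -/
lemma S_cokernel_π {X Y : C} (h : X ⟶ Y) (h0 : r.rk X = 0) : r.S (cokernel.π h) := by
  refine ⟨r.rk_coker_of_epi _ inferInstance, ?_⟩
  have h1 := r.rk_epi (cokernel.π h) inferInstance
  have h2 := r.rk_coker h
  omega

/-- a morphism whose cokernel has rank zero becomes an epimorphism -/
lemma epi_map {X Y : C} (g : X ⟶ Y) (hg : r.rk (cokernel g) = 0) : Epi (L.map g) := by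
  apply Preadditive.epi_of_cancel_zero
  intro T a ha
  have := Localization.essSurj L r.S
  let e : L.obj (L.objPreimage T) ≅ T := L.objObjPreimageIso T
  obtain ⟨Z, f, s, hs, hfs⟩ := r.exists_frac L (a ≫ e.inv)
  have hi := r.isIso_map L s hs
  have h0 : L.map (g ≫ f) = 0 := by
    rw [L.map_comp, ← hfs, ← Category.assoc, ← Category.assoc, ha]
    simp
  obtain ⟨Z', t, ht, hz⟩ := r.map_eq_zero L _ h0
  have hti := r.isIso_map L t ht
  have hz' : g ≫ (f ≫ t) = 0 := by rw [← Category.assoc, hz]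
  let k : cokernel g ⟶ Z' := cokernel.desc g (f ≫ t) hz'
  have hk : cokernel.π g ≫ k = f ≫ t := cokernel.π_desc _ _ _
  have hp := r.S_cokernel_π k hg
  have hpi := r.isIso_map L _ hp
  have h1 : (f ≫ t) ≫ cokernel.π k = 0 := by
    rw [← hk, Category.assoc, cokernel.condition, comp_zero]
  have h2 : L.map f ≫ L.map t ≫ L.map (cokernel.π k) = 0 := by
    rw [← L.map_comp, ← L.map_comp, ← Category.assoc, h1, L.map_zero]
  have h3 : L.map f = 0 := by
    rw [← cancel_mono (L.map t ≫ L.map (cokernel.π k)), h2, zero_comp]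
  have h4 : a ≫ e.inv = 0 := by
    rw [← cancel_mono (L.map s), hfs, h3, zero_comp]
  rw [← cancel_mono e.inv, h4, zero_comp]

/-- an object that becomes zero has rank zero -/
lemma rk_eq_zero_of_id {X : C} (h : 𝟙 (L.obj X) = 0) : r.rk X = 0 := by
  by_contra h0
  exact r.id_ne_zero L h0 h

/-- common denominators -/
lemma exists_common {J : Type*} [Finite J] {X Y : C} (a : J → (L.obj X ⟶ L.obj Y)) :
    ∃ (Z : C) (s : Y ⟶ Z) (f : J → (X ⟶ Z)), r.S s ∧ ∀ j, a j ≫ L.map s = L.map (f j) := by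
  classical
  cases nonempty_fintype J
  suffices h : ∀ t : Finset J, ∃ (Z : C) (s : Y ⟶ Z) (f : J → (X ⟶ Z)), r.S s ∧
      ∀ j ∈ t, a j ≫ L.map s = L.map (f j) by
    obtain ⟨Z, s, f, hs, hf⟩ := h Finset.univ
    exact ⟨Z, s, f, hs, fun j => hf j (Finset.mem_univ j)⟩
  intro t
  induction t using Finset.induction_on with
  | empty => exact ⟨Y, 𝟙 Y, fun _ => 0, MorphismProperty.id_mem _ _, by simp⟩
  | insert i t hi ih =>
    obtain ⟨Z, s, f, hs, hf⟩ := ih
    obtain ⟨Z0, f0, s0, hs0, hf0⟩ := r.exists_frac L (a i)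
    obtain ⟨ψ, hψ⟩ := MorphismProperty.RightFraction.exists_leftFraction
      (MorphismProperty.RightFraction.mk (W := r.S) s0 hs0 s)
    obtain ⟨Z', v, w, hw, rfl⟩ := ψ.cases
    simp only at hψ
    refine ⟨Z', s ≫ w, fun j => if j = i then f0 ≫ v else f j ≫ w,
      MorphismProperty.comp_mem _ _ _ hs hw, ?_⟩
    intro j hj
    by_cases hji : j = i
    · subst hji
      simp only [if_true]
      rw [hψ, L.map_comp, ← Category.assoc, hf0, ← L.map_comp]
    · simp only [if_neg hji]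
      rw [L.map_comp, ← Category.assoc, hf j (Finset.mem_of_mem_insert_of_ne hj hji),
        ← L.map_comp]

/-- natural endomorphisms are central -/
lemma comm_natural (z : ∀ X : C, X ⟶ X) (hz : ∀ {X Y : C} (f : X ⟶ Y), f ≫ z Y = z X ≫ f)
    {X Y : C} (a : L.obj X ⟶ L.obj Y) : a ≫ L.map (z Y) = L.map (z X) ≫ a := by
  obtain ⟨Z, f, s, hs, hfs⟩ := r.exists_frac L a
  have hi := r.isIso_map L s hs
  rw [← cancel_mono (L.map s), Category.assoc, Category.assoc, hfs, ← L.map_comp, ← L.map_comp,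
    ← hz s, ← hz f, L.map_comp, L.map_comp, ← Category.assoc, hfs]

end loc

end RankFn

end Vale.Agent.P200F.E

end

section

open CategoryTheory CategoryTheory.Limits MulOpposite

universe v u

namespace Vale.Agent.P200F.E

section coord

variable {D : Type*} [Category* D] [Preadditive D]

/-- an endomorphism as an element of the opposite of the endomorphism ring -/
abbrev opp {A : D} (f : A ⟶ A) : (End A)ᵐᵒᵖ := MulOpposite.op f

/-- an element of the opposite of the endomorphism ring as a morphism -/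
abbrev arr {A : D} (f : (End A)ᵐᵒᵖ) : A ⟶ A := MulOpposite.unop f

/-- coordinates of `T` with respect to `A`: `T` is a biproduct of copies of `A` -/
structure Coord (A T : D) (ι : Type*) [Fintype ι] [DecidableEq ι] where
  a : ι → (A ⟶ T)
  b : ι → (T ⟶ A)
  orth : ∀ k l, a k ≫ b l = if k = l then 𝟙 A else 0
  total : ∑ k, b k ≫ a k = 𝟙 T

namespace Coord

variable {A T : D} {ι : Type*} [Fintype ι] [DecidableEq ι]

/-- transport along an isomorphism -/
def ofIso (c : Coord A T ι) {T' : D} (e : T ≅ T') : Coord A T' ι where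
  a k := c.a k ≫ e.hom
  b k := e.inv ≫ c.b k
  orth k l := by simp [c.orth]
  total := by
    have : ∀ k, (e.inv ≫ c.b k) ≫ c.a k ≫ e.hom = e.inv ≫ (c.b k ≫ c.a k) ≫ e.hom := by
      intro k; simp
    rw [Finset.sum_congr rfl fun k _ => this k, ← Preadditive.comp_sum, ← Preadditive.sum_comp,
      c.total]
    simp

/-- the coordinate isomorphism -/
noncomputable def equiv (c : Coord A T ι) : (A ⟶ T) ≃ₗ[(End A)ᵐᵒᵖ] (ι → (End A)ᵐᵒᵖ) where
  toFun v k := opp (v ≫ c.b k)
  invFun u := ∑ k, arr (u k) ≫ c.a k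
  map_add' v w := by
    funext k
    change opp ((v + w) ≫ c.b k) = opp (v ≫ c.b k) + opp (w ≫ c.b k)
    rw [Preadditive.add_comp]
    rfl
  map_smul' e v := by
    funext k
    change opp ((arr e ≫ v) ≫ c.b k) = e * opp (v ≫ c.b k)
    rw [Category.assoc]
    rfl
  left_inv v := by
    change ∑ k, (v ≫ c.b k) ≫ c.a k = v
    simp_rw [Category.assoc]
    rw [← Preadditive.comp_sum, c.total, Category.comp_id]
  right_inv u := by
    funext l
    change opp ((∑ k, arr (u k) ≫ c.a k) ≫ c.b l) = u l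
    rw [Preadditive.sum_comp]
    simp_rw [Category.assoc, c.orth]
    rw [Finset.sum_eq_single l]
    · simp
    · intro k _ hk
      simp [hk]
    · simp

lemma equiv_apply (c : Coord A T ι) (v : A ⟶ T) (k : ι) :
    c.equiv v k = opp (v ≫ c.b k) := rfl

/-- linear functionals are morphisms -/
lemma exists_hom (c : Coord A T ι) (φ : (A ⟶ T) →ₗ[(End A)ᵐᵒᵖ] (End A)ᵐᵒᵖ) :
    ∃ h : T ⟶ A, ∀ v : A ⟶ T, opp (v ≫ h) = φ v := by
  refine ⟨∑ k, c.b k ≫ arr (φ (c.a k)), fun v => ?_⟩
  have h1 : v = ∑ k, opp (v ≫ c.b k) • c.a k := by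
    change v = ∑ k, (v ≫ c.b k) ≫ c.a k
    simp_rw [Category.assoc]
    rw [← Preadditive.comp_sum, c.total, Category.comp_id]
  conv_rhs => rw [h1, map_sum]
  rw [Preadditive.comp_sum]
  have h2 : ∀ f : ι → (A ⟶ A), opp (∑ k, f k) = ∑ k, opp (f k) := fun f =>
    map_sum (MulOpposite.opAddEquiv : End A ≃+ (End A)ᵐᵒᵖ) f Finset.univ
  rw [h2]
  refine Finset.sum_congr rfl fun k _ => ?_
  rw [map_smul]
  change opp (v ≫ c.b k ≫ arr (φ (c.a k))) = opp (v ≫ c.b k) * φ (c.a k)
  rw [← Category.assoc]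
  rfl

/-- morphisms are determined on vectors -/
lemma hom_eq_zero (c : Coord A T ι) {T' : D} (h : T ⟶ T') (h0 : ∀ v : A ⟶ T, v ≫ h = 0) : h = 0 := by
  rw [← Category.id_comp h, ← c.total, Preadditive.sum_comp]
  refine Finset.sum_eq_zero fun k _ => ?_
  rw [Category.assoc, h0, comp_zero]

end Coord

end coord

section exact

variable {D : Type*} [Category* D] [Preadditive D] {A T1 T2 : D} {ι1 ι2 : Type*} [Fintype ι1]
  [DecidableEq ι1] [Fintype ι2] [DecidableEq ι2]

/-- the dimension formula for a cokernel in the localization -/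
theorem finrank_coker (hdiv : ∀ a : End A, IsUnit a ∨ a = 0) (hnt : 𝟙 A ≠ 0)
    (c1 : Coord A T1 ι1) (c2 : Coord A T2 ι2)
    (q : T1 ⟶ T2) (hq : Epi q) (W : Submodule (End A)ᵐᵒᵖ (A ⟶ T1))
    (hW : ∀ w ∈ W, w ≫ q = 0)
    (hW' : ∀ h : T1 ⟶ A, (∀ w ∈ W, w ≫ h = 0) → ∃ h' : T2 ⟶ A, q ≫ h' = h) :
    Fintype.card ι2 + Module.finrank (End A)ᵐᵒᵖ W = Fintype.card ι1 := by
  have : Nontrivial (End A) := ⟨⟨𝟙 A, 0, hnt⟩⟩
  let _ : DivisionRing (End A) := DivisionRing.ofIsUnitOrEqZero hdiv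
  have hf1 : Module.finrank (End A)ᵐᵒᵖ (A ⟶ T1) = Fintype.card ι1 := by
    rw [c1.equiv.finrank_eq, Module.finrank_fintype_fun_eq_card]
  have hf2 : Module.finrank (End A)ᵐᵒᵖ (A ⟶ T2) = Fintype.card ι2 := by
    rw [c2.equiv.finrank_eq, Module.finrank_fintype_fun_eq_card]
  have : Module.Finite (End A)ᵐᵒᵖ (A ⟶ T1) := Module.Finite.equiv c1.equiv.symm
  let Q : (A ⟶ T1) →ₗ[(End A)ᵐᵒᵖ] (A ⟶ T2) :=
    { toFun := fun v => v ≫ q
      map_add' := fun v w => Preadditive.add_comp _ _ _ _ _ _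
      map_smul' := fun e v => by
        change (arr e ≫ v) ≫ q = arr e ≫ v ≫ q
        rw [Category.assoc] }
  have hker : LinearMap.ker Q = W := by
    apply le_antisymm
    · intro v hv
      by_contra hvW
      obtain ⟨φ, hφv, hφW⟩ := Submodule.exists_le_ker_of_notMem hvW
      obtain ⟨h, hh⟩ := c1.exists_hom φ
      obtain ⟨h', hh'⟩ := hW' h (fun w hw => by
        have h1 : φ w = 0 := hφW hw
        have h2 := hh w
        rw [h1] at h2
        exact MulOpposite.op_injective h2)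
      apply hφv
      rw [← hh v, ← hh', ← Category.assoc]
      have hv' : v ≫ q = 0 := hv
      rw [hv', zero_comp]
      rfl
    · intro w hw
      exact hW w hw
  have hsurj : LinearMap.range Q = ⊤ := by
    by_contra hne
    obtain ⟨φ, hφ0, hφ⟩ := Submodule.exists_le_ker_of_lt_top _ (lt_top_iff_ne_top.2 hne)
    obtain ⟨h, hh⟩ := c2.exists_hom φ
    apply hφ0
    have h1 : q ≫ h = 0 := by
      apply c1.hom_eq_zero
      intro v
      have h2 : φ (v ≫ q) = 0 := hφ ⟨v, rfl⟩
      have h3 := hh (v ≫ q)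
      rw [h2] at h3
      rw [← Category.assoc]
      exact MulOpposite.op_injective h3
    have h2 : h = 0 := by
      rw [← cancel_epi q, h1, comp_zero]
    apply LinearMap.ext
    intro v
    rw [← hh v, h2, comp_zero]
    rfl
  have h1 := LinearMap.finrank_range_add_finrank_ker Q
  rw [hker, hsurj, finrank_top, hf1, hf2] at h1
  exact h1

end exact

namespace RankFn

variable {C : Type u} [Category.{v} C] [Preadditive C] [HasCokernels C] [HasBinaryBiproducts C]
  (r : RankFn C) {D : Type*} [Category* D] [Preadditive D] (L : C ⥤ D) [L.IsLocalization r.S]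
  [L.Additive]

include r

/-- **Choice of a basis.** -/
theorem exists_basis {O Z : C} (hO : r.rk O = 1) {ι : Type*} (g : ι → (O ⟶ Z))
    (hg : ∀ {T : D} (h : L.obj Z ⟶ T), (∀ i, L.map (g i) ≫ h = 0) → h = 0) (n : ℕ) :
    ∀ (Z' : C) (q : Z ⟶ Z'), Epi q → r.rk Z' = n → ∃ (P : C) (σ : P ⟶ Z), r.S (σ ≫ q) ∧
      Nonempty (Coord (L.obj O) (L.obj P) (Fin n)) := by
  induction n with
  | zero =>
    intro Z' q hq hZ'
    have hid : 𝟙 (cokernel (𝟙 O)) = 0 := by
      have h1 : cokernel.π (𝟙 O) = 0 := by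
        have h2 := cokernel.condition (𝟙 O)
        rwa [Category.id_comp] at h2
      rw [← cancel_epi (cokernel.π (𝟙 O)), h1, comp_zero, zero_comp]
    have hrk : r.rk (cokernel (𝟙 O)) = 0 := r.rk_coker_of_epi _ inferInstance
    refine ⟨cokernel (𝟙 O), 0, ⟨?_, by rw [hrk, hZ']⟩, ⟨?_⟩⟩
    · have h1 := r.rk_epi (cokernel.π ((0 : cokernel (𝟙 O) ⟶ Z) ≫ q)) inferInstance
      omega
    · exact
        { a := fun k => k.elim0
          b := fun k => k.elim0
          orth := fun k => k.elim0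
          total := by
            rw [← L.map_id, hid]
            simp }
  | succ n ih =>
    intro Z' q hq hZ'
    have hex : ∃ i, L.map (g i ≫ q) ≠ 0 := by
      by_contra hne
      push Not at hne
      have h1 : L.map q = 0 := hg (L.map q) (fun i => by rw [← L.map_comp]; exact hne i)
      have h2 : Epi (L.map q) := r.epi_map L q (r.rk_coker_of_epi q hq)
      have h3 : 𝟙 (L.obj Z') = 0 := by
        rw [← cancel_epi (L.map q), h1, comp_zero, zero_comp]
      have h4 := r.rk_eq_zero_of_id L h3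
      omega
    obtain ⟨i, hi⟩ := hex
    have h1 := r.rk_coker (g i ≫ q)
    have h2 := r.rk_epi (cokernel.π (g i ≫ q)) inferInstance
    have h3 : r.rk (cokernel (g i ≫ q)) ≠ n + 1 := by
      intro h4
      apply hi
      have h5 : r.S (cokernel.π (g i ≫ q)) :=
        ⟨r.rk_coker_of_epi _ inferInstance, by omega⟩
      have h6 := r.isIso_map L _ h5
      rw [← cancel_mono (L.map (cokernel.π (g i ≫ q))), ← L.map_comp, cokernel.condition]
      simp
    obtain ⟨P1, σ1, hσ1, ⟨c1⟩⟩ := ih (cokernel (g i ≫ q)) (q ≫ cokernel.π (g i ≫ q))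
      inferInstance (by omega)
    have h0 : (g i ≫ q) ≫ cokernel.π (biprod.desc (g i) σ1 ≫ q) = 0 := by
      have h5 : (g i ≫ q) = biprod.inl ≫ biprod.desc (g i) σ1 ≫ q := by
        rw [← Category.assoc, biprod.inl_desc]
      rw [h5, Category.assoc, cokernel.condition, comp_zero]
    have h0' : σ1 ≫ q ≫ cokernel.π (biprod.desc (g i) σ1 ≫ q) = 0 := by
      have h5 : (σ1 ≫ q) = biprod.inr ≫ biprod.desc (g i) σ1 ≫ q := by
        rw [← Category.assoc, biprod.inr_desc]
      rw [← Category.assoc, h5, Category.assoc, cokernel.condition, comp_zero]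
    let e : cokernel (g i ≫ q) ⟶ cokernel (biprod.desc (g i) σ1 ≫ q) :=
      cokernel.desc _ _ h0
    have he : cokernel.π (g i ≫ q) ≫ e = cokernel.π (biprod.desc (g i) σ1 ≫ q) :=
      cokernel.π_desc _ _ _
    let e' : cokernel (σ1 ≫ q ≫ cokernel.π (g i ≫ q)) ⟶
        cokernel (biprod.desc (g i) σ1 ≫ q) := cokernel.desc _ e (by
      rw [Category.assoc, Category.assoc, he, h0'])
    have he' : cokernel.π (σ1 ≫ q ≫ cokernel.π (g i ≫ q)) ≫ e' = e := cokernel.π_desc _ _ _
    have hepi : Epi e' := by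
      have h5 : Epi (cokernel.π (g i ≫ q) ≫ e) := by rw [he]; infer_instance
      have h6 : Epi e := epi_of_epi (cokernel.π (g i ≫ q)) e
      have h7 : Epi (cokernel.π (σ1 ≫ q ≫ cokernel.π (g i ≫ q)) ≫ e') := by rw [he']; exact h6
      exact epi_of_epi (cokernel.π (σ1 ≫ q ≫ cokernel.π (g i ≫ q))) e'
    refine ⟨O ⊞ P1, biprod.desc (g i) σ1, ⟨?_, ?_⟩, ⟨?_⟩⟩
    · have h5 := r.rk_epi e' hepi
      have h6 := hσ1.1
      omega
    · rw [r.rk_sum, hO, hσ1.2]
      omega
    · refine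
        { a := Fin.cons (L.map biprod.inl) (fun k => c1.a k ≫ L.map biprod.inr)
          b := Fin.cons (L.map biprod.fst) (fun k => L.map biprod.snd ≫ c1.b k)
          orth := ?_
          total := ?_ }
      · intro k l
        refine Fin.cases ?_ (fun k => ?_) k <;> refine Fin.cases ?_ (fun l => ?_) l
        · rw [Fin.cons_zero, Fin.cons_zero, ← L.map_comp]
          simp
        · rw [Fin.cons_zero, Fin.cons_succ, ← Category.assoc, ← L.map_comp]
          simp [(Fin.succ_ne_zero l).symm]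
        · rw [Fin.cons_zero, Fin.cons_succ, Category.assoc, ← L.map_comp]
          simp [Fin.succ_ne_zero k]
        · rw [Fin.cons_succ, Fin.cons_succ]
          have h5 : (c1.a k ≫ L.map biprod.inr) ≫ L.map (biprod.snd : O ⊞ P1 ⟶ P1) ≫ c1.b l =
              c1.a k ≫ L.map (biprod.inr ≫ (biprod.snd : O ⊞ P1 ⟶ P1)) ≫ c1.b l := by
            simp only [L.map_comp, Category.assoc]
          rw [h5]
          simp [c1.orth, Fin.succ_inj]
      · rw [Fin.sum_univ_succ]
        simp only [Fin.cons_zero, Fin.cons_succ]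
        have h5 : ∀ k, (L.map (biprod.snd : O ⊞ P1 ⟶ P1) ≫ c1.b k) ≫ c1.a k ≫
            L.map (biprod.inr : P1 ⟶ O ⊞ P1) =
            L.map (biprod.snd : O ⊞ P1 ⟶ P1) ≫ (c1.b k ≫ c1.a k) ≫
            L.map (biprod.inr : P1 ⟶ O ⊞ P1) := by
          intro k; simp
        rw [Finset.sum_congr rfl fun k _ => h5 k, ← Preadditive.comp_sum, ← Preadditive.sum_comp,
          c1.total, Category.id_comp, ← L.map_comp, ← L.map_comp, ← L.map_add, biprod.total,
          L.map_id]

/-- an object with jointly epimorphic maps from `O` has coordinates -/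
theorem exists_coord {O Z : C} (hO : r.rk O = 1) {ι : Type*} (g : ι → (O ⟶ Z))
    (hg : ∀ {T : D} (h : L.obj Z ⟶ T), (∀ i, L.map (g i) ≫ h = 0) → h = 0) :
    Nonempty (Coord (L.obj O) (L.obj Z) (Fin (r.rk Z))) := by
  obtain ⟨P, σ, hσ, ⟨c⟩⟩ := r.exists_basis L hO g hg (r.rk Z) Z (𝟙 Z) inferInstance rfl
  rw [Category.comp_id] at hσ
  have := r.isIso_map L σ hσ
  exact ⟨c.ofIso (asIso (L.map σ))⟩

end RankFn

end Vale.Agent.P200F.E

end

section

open CategoryTheory CategoryTheory.Limits MulOpposite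

universe v' u' u

namespace Vale.Agent.P200F.E

variable {D P : Type u} [Ring D] [Ring P] {𝒮 : Sys D P}

namespace Ob

/-- the free object of rank one -/
structure Free1 (𝒮 : Sys D P) where
  N : Submodule P (Fin 1 → P)
  h : 𝒮.good 1 N
  kill : ∀ (Z : Ob 𝒮) (p : Fin 1 → P), p ∈ N → ∀ z : Z.M, p 0 • z = 0

namespace Free1

variable (F : Free1 𝒮)

/-- the object -/
abbrev O : Ob 𝒮 := ⟨1, F.N, F.h⟩

/-- the generator -/
def one : F.O.M := F.O.cst (1 : Fin 1 → D)

lemma mkQ_eq (p : Fin 1 → P) : F.O.N.mkQ p = p 0 • F.one := by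
  have h : p = p 0 • (fun j => 𝒮.C ((1 : Fin 1 → D) j)) := by
    funext j
    fin_cases j
    simp
  conv_lhs => rw [h]
  rw [map_smul]
  rfl

lemma exists_smul (z : F.O.M) : ∃ p : P, z = p • F.one := by
  obtain ⟨p, rfl⟩ := F.O.N.mkQ_surjective z
  exact ⟨p 0, F.mkQ_eq p⟩

lemma hom_ext_one {Z : Ob 𝒮} {f g : F.O ⟶ Z} (h : lin f F.one = lin g F.one) : f = g := by
  apply hom_ext
  refine LinearMap.ext fun z => ?_
  obtain ⟨p, rfl⟩ := F.exists_smul z
  rw [map_smul, map_smul, h]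

lemma cst_eq (v : Fin 1 → D) : F.O.cst v = 𝒮.C (v 0) • F.one := F.mkQ_eq _

/-- the morphism with a given value -/
def hom (Z : Ob 𝒮) (v : Fin Z.m → D) : F.O ⟶ Z :=
  ofLin (F.N.liftQ ((LinearMap.toSpanSingleton P Z.M (Z.cst v)).comp (LinearMap.proj 0))
    (fun p hp => F.kill Z p hp (Z.cst v))) (fun w => ⟨w 0 • v, by
      rw [cst_smul]
      rfl⟩)

lemma lin_hom_one (Z : Ob 𝒮) (v : Fin Z.m → D) : lin (F.hom Z v) F.one = Z.cst v := by
  change (LinearMap.toSpanSingleton P Z.M (Z.cst v)) (𝒮.C ((1 : Fin 1 → D) 0)) = _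
  rw [LinearMap.toSpanSingleton_apply]
  simp

lemma lin_one (Z : Ob 𝒮) (f : F.O ⟶ Z) : ∃ v, lin f F.one = Z.cst v := lin_cst f _

/-- right multiplication by a scalar -/
def rm (d : D) : F.O ⟶ F.O := F.hom F.O (fun _ => d)

lemma lin_rm_one (d : D) : lin (F.rm d) F.one = 𝒮.C d • F.one := by
  rw [rm, lin_hom_one, cst_eq]

lemma rm_comp {Z : Ob 𝒮} (d : D) (f : F.O ⟶ Z) : lin (F.rm d ≫ f) F.one = 𝒮.C d • lin f F.one := by
  rw [lin_comp, LinearMap.comp_apply, lin_rm_one, map_smul]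

lemma rm_mul (d d' : D) : F.rm (d * d') = F.rm d ≫ F.rm d' := by
  apply F.hom_ext_one
  rw [rm_comp, lin_rm_one, lin_rm_one, map_mul, mul_smul]

lemma rm_add (d d' : D) : F.rm (d + d') = F.rm d + F.rm d' := by
  apply F.hom_ext_one
  rw [lin_add, LinearMap.add_apply, lin_rm_one, lin_rm_one, lin_rm_one, map_add, add_smul]

lemma rm_one : F.rm 1 = 𝟙 F.O := by
  apply F.hom_ext_one
  rw [lin_rm_one, map_one, one_smul, lin_id, LinearMap.id_apply]

lemma rm_zero : F.rm 0 = 0 := by
  apply F.hom_ext_one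
  rw [lin_rm_one, map_zero, zero_smul, lin_zero, LinearMap.zero_apply]

end Free1

end Ob

open Ob

section rep

variable (F : Free1 𝒮) {M : Type} [AddMonoid M] (mon : Multiplicative M →* P)

/-- `∑ mon m • g_m(1)` -/
noncomputable def tot (Z : Ob 𝒮) : (M →₀ (F.O ⟶ Z)) →+ Z.M :=
  Finsupp.liftAddHom fun m =>
    { toFun := fun a => mon (Multiplicative.ofAdd m) • lin a F.one
      map_zero' := by rw [lin_zero, LinearMap.zero_apply, smul_zero]
      map_add' := fun a b => by rw [lin_add, LinearMap.add_apply, smul_add] }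

lemma tot_single (Z : Ob 𝒮) (m : M) (a : F.O ⟶ Z) :
    tot F mon Z (Finsupp.single m a) = mon (Multiplicative.ofAdd m) • lin a F.one := by
  simp [tot]

/-- composition on the right -/
noncomputable def compR {𝒟 : Type*} [Category* 𝒟] [Preadditive 𝒟] (M : Type) {A Y Z : 𝒟}
    (f : Y ⟶ Z) : (M →₀ (A ⟶ Y)) →+ (M →₀ (A ⟶ Z)) :=
  Finsupp.mapRange.addMonoidHom (Preadditive.rightComp A f)

@[simp] lemma compR_apply {𝒟 : Type*} [Category* 𝒟] [Preadditive 𝒟] (M : Type) {A Y Z : 𝒟}
    (f : Y ⟶ Z) (g : M →₀ (A ⟶ Y)) (m : M) : compR M f g m = g m ≫ f := rfl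

lemma compR_single {𝒟 : Type*} [Category* 𝒟] [Preadditive 𝒟] (M : Type) {A Y Z : 𝒟}
    (f : Y ⟶ Z) (m : M) (a : A ⟶ Y) :
    compR M f (Finsupp.single m a) = Finsupp.single m (a ≫ f) := by
  simp [compR, Preadditive.rightComp]

lemma compR_comp {𝒟 : Type*} [Category* 𝒟] [Preadditive 𝒟] (M : Type) {A X Y Z : 𝒟}
    (e : X ⟶ Y) (f : Y ⟶ Z) (g : M →₀ (A ⟶ X)) :
    compR M f (compR M e g) = compR M (e ≫ f) g := by
  ext m
  simp

lemma lin_tot {Y Z : Ob 𝒮} (f : Y ⟶ Z) (g : M →₀ (F.O ⟶ Y)) :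
    lin f (tot F mon Y g) = tot F mon Z (compR M f g) := by
  induction g using Finsupp.induction_linear with
  | zero => simp
  | add a b ha hb => rw [map_add, map_add, ha, hb, map_add, map_add]
  | single m a =>
    rw [tot_single, compR_single, tot_single, map_smul, lin_comp, LinearMap.comp_apply]

variable (ρ : RkData 𝒮) {𝒟 : Type u'} [Category.{v'} 𝒟] [Preadditive 𝒟] (L : Ob 𝒮 ⥤ 𝒟)
  [L.IsLocalization ρ.toRankFn.S] [L.Additive]

/-- the image of a family in the localization -/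
noncomputable def mapL {X Y : Ob 𝒮} (M : Type) : (M →₀ (X ⟶ Y)) →+ (M →₀ (L.obj X ⟶ L.obj Y)) :=
  Finsupp.mapRange.addMonoidHom L.mapAddHom

@[simp] lemma mapL_apply {X Y : Ob 𝒮} (M : Type) (g : M →₀ (X ⟶ Y)) (m : M) :
    mapL L M g m = L.map (g m) := rfl

lemma mapL_single {X Y : Ob 𝒮} (M : Type) (m : M) (a : X ⟶ Y) :
    mapL L M (Finsupp.single m a) = Finsupp.single m (L.map a) := by
  simp [mapL]

lemma mapL_compR {X Y Z : Ob 𝒮} (M : Type) (f : Y ⟶ Z) (g : M →₀ (X ⟶ Y)) :
    mapL L M (compR M f g) = compR M (L.map f) (mapL L M g) := by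
  ext m
  simp

/-- **the expansion of an element** -/
def Rep {Y : Ob 𝒮} (y : Y.M) (G : M →₀ (L.obj F.O ⟶ L.obj Y)) : Prop :=
  ∃ (Z : Ob 𝒮) (u : Y ⟶ Z) (g : M →₀ (F.O ⟶ Z)), ρ.toRankFn.S u ∧ lin u y = tot F mon Z g ∧
    mapL L M g = compR M (L.map u) G

variable {F mon ρ L}

lemma Rep.zero {Y : Ob 𝒮} : Rep F mon ρ L (0 : Y.M) (0 : M →₀ (L.obj F.O ⟶ L.obj Y)) :=
  ⟨Y, 𝟙 Y, 0, MorphismProperty.id_mem _ _, by simp, by simp⟩

lemma Rep.add {Y : Ob 𝒮} {y y' : Y.M} {G G' : M →₀ (L.obj F.O ⟶ L.obj Y)}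
    (h : Rep F mon ρ L y G) (h' : Rep F mon ρ L y' G') : Rep F mon ρ L (y + y') (G + G') := by
  obtain ⟨Z, u, g, hu, hy, hg⟩ := h
  obtain ⟨Z', u', g', hu', hy', hg'⟩ := h'
  obtain ⟨ψ, hψ⟩ := MorphismProperty.RightFraction.exists_leftFraction
    (MorphismProperty.RightFraction.mk (W := ρ.toRankFn.S) u hu u')
  obtain ⟨T, v, w, hw, rfl⟩ := ψ.cases
  simp only at hψ
  -- hψ : u' ≫ w = u ≫ v
  refine ⟨T, u' ≫ w, compR M v g + compR M w g', MorphismProperty.comp_mem _ _ _ hu' hw, ?_, ?_⟩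
  · rw [map_add, map_add]
    congr 1
    · rw [hψ, lin_comp, LinearMap.comp_apply, hy, lin_tot]
    · rw [lin_comp, LinearMap.comp_apply, hy', lin_tot]
  · rw [map_add, map_add, mapL_compR, mapL_compR, hg, hg', compR_comp, compR_comp, ← L.map_comp,
      ← L.map_comp, hψ]

/-- naturality -/
lemma Rep.nat {Y Y' : Ob 𝒮} (f : Y ⟶ Y') {y : Y.M} {G : M →₀ (L.obj F.O ⟶ L.obj Y)}
    (h : Rep F mon ρ L y G) : Rep F mon ρ L (lin f y) (compR M (L.map f) G) := by
  obtain ⟨Z, u, g, hu, hy, hg⟩ := h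
  obtain ⟨ψ, hψ⟩ := MorphismProperty.RightFraction.exists_leftFraction
    (MorphismProperty.RightFraction.mk (W := ρ.toRankFn.S) u hu f)
  obtain ⟨T, v, w, hw, rfl⟩ := ψ.cases
  simp only at hψ
  refine ⟨T, w, compR M v g, hw, ?_, ?_⟩
  · have h1 : lin w (lin f y) = lin v (lin u y) := by
      rw [← LinearMap.comp_apply, ← LinearMap.comp_apply, ← lin_comp, ← lin_comp, hψ]
    rw [h1, hy, lin_tot]
  · rw [mapL_compR, hg, compR_comp, compR_comp, ← L.map_comp, ← L.map_comp, hψ]

/-- descent along a morphism of the class `S` -/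
lemma Rep.desc {Y Z : Ob 𝒮} (u : Y ⟶ Z) (hu : ρ.toRankFn.S u) {y : Y.M}
    {G : M →₀ (L.obj F.O ⟶ L.obj Y)}
    (h : Rep F mon ρ L (lin u y) (compR M (L.map u) G)) : Rep F mon ρ L y G := by
  obtain ⟨T, v, g, hv, hy, hg⟩ := h
  refine ⟨T, u ≫ v, g, MorphismProperty.comp_mem _ _ _ hu hv, ?_, ?_⟩
  · rw [lin_comp, LinearMap.comp_apply, hy]
  · rw [hg, compR_comp, ← L.map_comp]

/-- the value of a morphism -/
lemma Rep.const {Y : Ob 𝒮} (a : F.O ⟶ Y) :
    Rep F mon ρ L (lin a F.one) (Finsupp.single (0 : M) (L.map a)) := by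
  refine ⟨Y, 𝟙 Y, Finsupp.single 0 a, MorphismProperty.id_mem _ _, ?_, ?_⟩
  · rw [tot_single, ofAdd_zero, map_one, one_smul, lin_id, LinearMap.id_apply]
  · rw [mapL_single, L.map_id, compR_single, Category.comp_id]

/-- the shift of a family -/
noncomputable def shift {A : Type*} [AddCommMonoid A] (m0 : M) : (M →₀ A) →+ (M →₀ A) :=
  Finsupp.mapDomain.addMonoidHom fun m => m0 + m

lemma shift_single {A : Type*} [AddCommMonoid A] (m0 m : M) (a : A) :
    shift m0 (Finsupp.single m a) = Finsupp.single (m0 + m) a := by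
  simp [shift]

lemma tot_shift {Z : Ob 𝒮} (m0 : M) (g : M →₀ (F.O ⟶ Z)) :
    tot F mon Z (shift m0 g) = mon (Multiplicative.ofAdd m0) • tot F mon Z g := by
  induction g using Finsupp.induction_linear with
  | zero => simp
  | add a b ha hb => rw [map_add, map_add, ha, hb, map_add, smul_add]
  | single m a =>
    rw [shift_single, tot_single, tot_single, ofAdd_add, map_mul, mul_smul]

lemma mapL_shift {X Y : Ob 𝒮} (m0 : M) (g : M →₀ (X ⟶ Y)) :
    mapL L M (shift m0 g) = shift m0 (mapL L M g) := by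
  induction g using Finsupp.induction_linear with
  | zero => simp
  | add a b ha hb => rw [map_add, map_add, ha, hb, map_add, map_add]
  | single m a => rw [shift_single, mapL_single, mapL_single, shift_single]

lemma compR_shift {𝒟 : Type*} [Category* 𝒟] [Preadditive 𝒟] {A Y Z : 𝒟} (f : Y ⟶ Z) (m0 : M)
    (g : M →₀ (A ⟶ Y)) : compR M f (shift m0 g) = shift m0 (compR M f g) := by
  induction g using Finsupp.induction_linear with
  | zero => simp
  | add a b ha hb => rw [map_add, map_add, ha, hb, map_add, map_add]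
  | single m a => rw [shift_single, compR_single, compR_single, shift_single]

/-- multiplication by a monomial -/
lemma Rep.monmul {Y : Ob 𝒮} {y : Y.M} {G : M →₀ (L.obj F.O ⟶ L.obj Y)}
    (h : Rep F mon ρ L y G) (m0 : M) :
    Rep F mon ρ L (mon (Multiplicative.ofAdd m0) • y) (shift m0 G) := by
  obtain ⟨Z, u, g, hu, hy, hg⟩ := h
  refine ⟨Z, u, shift m0 g, hu, ?_, ?_⟩
  · rw [map_smul, hy, tot_shift]
  · rw [mapL_shift, hg, compR_shift]

/-- composition on the left -/
noncomputable def compL {𝒟 : Type*} [Category* 𝒟] [Preadditive 𝒟] (M : Type) {A B Y : 𝒟}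
    (f : A ⟶ B) : (M →₀ (B ⟶ Y)) →+ (M →₀ (A ⟶ Y)) :=
  Finsupp.mapRange.addMonoidHom (Preadditive.leftComp Y f)

@[simp] lemma compL_apply {𝒟 : Type*} [Category* 𝒟] [Preadditive 𝒟] (M : Type) {A B Y : 𝒟}
    (f : A ⟶ B) (g : M →₀ (B ⟶ Y)) (m : M) : compL M f g m = f ≫ g m := rfl

lemma compL_single {𝒟 : Type*} [Category* 𝒟] [Preadditive 𝒟] (M : Type) {A B Y : 𝒟}
    (f : A ⟶ B) (m : M) (a : B ⟶ Y) :
    compL M f (Finsupp.single m a) = Finsupp.single m (f ≫ a) := by
  simp [compL, Preadditive.leftComp]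

/-- scalars -/
lemma Rep.smul {Y : Ob 𝒮} {y : Y.M} {G : M →₀ (L.obj F.O ⟶ L.obj Y)} (d : D)
    (hd : ∀ m, Commute (𝒮.C d) (mon m)) (h : Rep F mon ρ L y G) :
    Rep F mon ρ L (𝒮.C d • y) (compL M (L.map (F.rm d)) G) := by
  obtain ⟨Z, u, g, hu, hy, hg⟩ := h
  refine ⟨Z, u, compL M (F.rm d) g, hu, ?_, ?_⟩
  · rw [map_smul, hy]
    clear hy hg
    induction g using Finsupp.induction_linear with
    | zero => simp
    | add a b ha hb => rw [map_add, smul_add, ha, hb, map_add, map_add]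
    | single m a =>
      rw [compL_single, tot_single, tot_single, F.rm_comp, smul_smul, smul_smul,
        (hd (Multiplicative.ofAdd m)).eq]
  · ext m
    have h1 := DFunLike.congr_fun hg m
    simp only [mapL_apply, compR_apply, compL_apply, L.map_comp] at h1 ⊢
    rw [h1, Category.assoc]

/-- the action of an element `η = V0 x + V1 y` -/
noncomputable def act {A B Y : 𝒟} (m0 m1 : M) (V0 V1 : A ⟶ B) :
    (M →₀ (B ⟶ Y)) →+ (M →₀ (A ⟶ Y)) :=
  (shift m0).comp (compL M V0) + (shift m1).comp (compL M V1)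

lemma act_single {A B Y : 𝒟} (m0 m1 : M) (V0 V1 : A ⟶ B) (m : M) (a : B ⟶ Y) :
    act m0 m1 V0 V1 (Finsupp.single m a) =
      Finsupp.single (m0 + m) (V0 ≫ a) + Finsupp.single (m1 + m) (V1 ≫ a) := by
  simp only [act, AddMonoidHom.add_apply, AddMonoidHom.comp_apply, compL_single, shift_single]

lemma act_compR {A B Y Z : 𝒟} (m0 m1 : M) (V0 V1 : A ⟶ B) (f : Y ⟶ Z) (G : M →₀ (B ⟶ Y)) :
    act m0 m1 V0 V1 (compR M f G) = compR M f (act m0 m1 V0 V1 G) := by
  induction G using Finsupp.induction_linear with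
  | zero => simp
  | add a b ha hb => simp only [map_add, ha, hb]
  | single m a =>
    rw [compR_single, act_single, act_single, map_add, compR_single, compR_single,
      Category.assoc, Category.assoc]

/-- **multiplication by `η`** -/
lemma Rep.eta (m0 m1 : M) (η : P) (V0 V1 : L.obj F.O ⟶ L.obj F.O)
    (hcomm : ∀ m, Commute η (mon m)) (hadd0 : ∀ m, m0 + m = m + m0) (hadd1 : ∀ m, m1 + m = m + m1)
    (h1 : Rep F mon ρ L (η • F.one) (Finsupp.single m0 V0 + Finsupp.single m1 V1))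
    {Y : Ob 𝒮} {y : Y.M} {G : M →₀ (L.obj F.O ⟶ L.obj Y)} (h : Rep F mon ρ L y G) :
    Rep F mon ρ L (η • y) (act m0 m1 V0 V1 G) := by
  obtain ⟨Z, u, g, hu, hy, hg⟩ := h
  have key : Rep F mon ρ L (η • tot F mon Z g) (act m0 m1 V0 V1 (mapL L M g)) := by
    clear hy hg
    induction g using Finsupp.induction_linear with
    | zero => simpa using Rep.zero
    | add a b ha hb =>
      rw [map_add, smul_add, map_add, map_add]
      exact ha.add hb
    | single m a =>
      have h2 := (h1.nat a).monmul m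
      rw [map_smul, map_add, compR_single, compR_single, map_add, shift_single, shift_single] at h2
      rw [tot_single, mapL_single, act_single, hadd0, hadd1, smul_smul,
        (hcomm (Multiplicative.ofAdd m)).eq, ← smul_smul]
      exact h2
  rw [hg, act_compR, ← hy, ← map_smul] at key
  exact key.desc u hu

/-- uniqueness of the expansion -/
lemma Rep.unique (hfree : ∀ (Z : Ob 𝒮) (g : M →₀ (F.O ⟶ Z)), tot F mon Z g = 0 →
      ∀ m, L.map (g m) = 0)
    {Y : Ob 𝒮} {y : Y.M} {G G' : M →₀ (L.obj F.O ⟶ L.obj Y)}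
    (h : Rep F mon ρ L y G) (h' : Rep F mon ρ L y G') : G = G' := by
  obtain ⟨Z, u, g, hu, hy, hg⟩ := h
  obtain ⟨Z', u', g', hu', hy', hg'⟩ := h'
  obtain ⟨ψ, hψ⟩ := MorphismProperty.RightFraction.exists_leftFraction
    (MorphismProperty.RightFraction.mk (W := ρ.toRankFn.S) u hu u')
  obtain ⟨T, v, w, hw, rfl⟩ := ψ.cases
  simp only at hψ
  have h1 : tot F mon T (compR M v g - compR M w g') = 0 := by
    rw [map_sub, ← lin_tot, ← lin_tot, ← hy, ← hy', ← LinearMap.comp_apply,
      ← LinearMap.comp_apply, ← lin_comp, ← lin_comp, hψ, sub_self]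
  ext m
  have h2 := hfree T _ h1 m
  have h3 := DFunLike.congr_fun hg m
  have h4 := DFunLike.congr_fun hg' m
  simp only [mapL_apply, compR_apply] at h3 h4
  have h5 : (compR M v g - compR M w g') m = g m ≫ v - g' m ≫ w := rfl
  rw [h5, L.map_sub, L.map_comp, L.map_comp, h3, h4, Category.assoc, Category.assoc,
    ← L.map_comp, ← L.map_comp, hψ, ← Preadditive.sub_comp] at h2
  have h6 := ρ.toRankFn.isIso_map L (u' ≫ w) (MorphismProperty.comp_mem _ _ _ hu' hw)
  rw [hψ] at h6
  have h7 := (cancel_mono (L.map (u ≫ v))).1 (h2.trans zero_comp.symm)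
  exact sub_eq_zero.1 h7

end rep

end Vale.Agent.P200F.E

end

section

open CategoryTheory CategoryTheory.Limits MulOpposite

universe v' u' w u

namespace Vale.Agent.P200F.E

variable {D P : Type u} [Ring D] [Ring P] {𝒮 : Sys D P}

open Ob

section alg

variable (F : Free1 𝒮) {M : Type} [AddCommMonoid M] (mon : Multiplicative M →* P)
  (ρ : RkData 𝒮) {𝒟 : Type u'} [Category.{v'} 𝒟] [Preadditive 𝒟] (L : Ob 𝒮 ⥤ 𝒟)
  [L.IsLocalization ρ.toRankFn.S] [L.Additive]
  {U : Type w} [Ring U] (θ : U ≃+* (End (L.obj F.O))ᵐᵒᵖ)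

/-- an element of `U` as a morphism -/
def mo (u : U) : L.obj F.O ⟶ L.obj F.O := (θ u).unop

/-- a morphism as an element of `U` -/
def el (a : L.obj F.O ⟶ L.obj F.O) : U := θ.symm (opp a)

@[simp] lemma mo_el (a : L.obj F.O ⟶ L.obj F.O) : mo F L θ (el F L θ a) = a := by
  simp [mo, el]

@[simp] lemma el_mo (u : U) : el F L θ (mo F L θ u) = u := by
  change θ.symm (θ u) = u
  simp

lemma mo_mul (u v : U) : mo F L θ (u * v) = mo F L θ u ≫ mo F L θ v := by
  unfold mo
  rw [map_mul]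
  rfl

lemma mo_add (u v : U) : mo F L θ (u + v) = mo F L θ u + mo F L θ v := by
  unfold mo
  rw [map_add]
  rfl

lemma mo_zero : mo F L θ (0 : U) = 0 := by
  unfold mo
  rw [map_zero]
  rfl

lemma mo_one : mo F L θ (1 : U) = 𝟙 _ := by
  unfold mo
  rw [map_one]
  rfl

lemma mo_injective {u v : U} (h : mo F L θ u = mo F L θ v) : u = v := by
  rw [← el_mo F L θ u, ← el_mo F L θ v, h]

/-- the scalars -/
noncomputable def ιU : D →+* U where
  toFun d := el F L θ (L.map (F.rm d))
  map_one' := by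
    apply mo_injective F L θ
    rw [mo_el, F.rm_one, L.map_id, mo_one]
  map_mul' d d' := by
    apply mo_injective F L θ
    rw [mo_mul, mo_el, mo_el, mo_el, F.rm_mul, L.map_comp]
  map_zero' := by
    apply mo_injective F L θ
    rw [mo_el, F.rm_zero, L.map_zero, mo_zero]
  map_add' d d' := by
    apply mo_injective F L θ
    rw [mo_add, mo_el, mo_el, mo_el, F.rm_add, L.map_add]

lemma mo_ιU (d : D) : mo F L θ (ιU F L θ d) = L.map (F.rm d) := mo_el F L θ _

/-- the coefficients of an element of `U[M]` as morphisms -/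
noncomputable def toF (G : AddMonoidAlgebra U M) : M →₀ (L.obj F.O ⟶ L.obj F.O) :=
  G.coeff.mapRange (mo F L θ) (mo_zero F L θ)

lemma toF_apply (G : AddMonoidAlgebra U M) (m : M) :
    toF F L θ G m = mo F L θ (G.coeff m) := by simp [toF]

lemma toF_add (G G' : AddMonoidAlgebra U M) :
    toF F L θ (G + G') = toF F L θ G + toF F L θ G' := by
  ext m
  rw [Finsupp.add_apply, toF_apply, toF_apply, toF_apply, AddMonoidAlgebra.coeff_add,
    Finsupp.add_apply, mo_add]

lemma toF_zero : toF F L θ (0 : AddMonoidAlgebra U M) = 0 := by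
  ext m
  rw [toF_apply, AddMonoidAlgebra.coeff_zero, Finsupp.zero_apply, mo_zero, Finsupp.zero_apply]

lemma toF_single (m : M) (u : U) :
    toF F L θ (AddMonoidAlgebra.single m u) = Finsupp.single m (mo F L θ u) := by
  unfold toF
  rw [AddMonoidAlgebra.coeff_single, Finsupp.mapRange_single]

lemma toF_injective {G G' : AddMonoidAlgebra U M} (h : toF F L θ G = toF F L θ G') : G = G' := by
  apply AddMonoidAlgebra.ext
  ext m
  have h1 := DFunLike.congr_fun h m
  rw [toF_apply, toF_apply] at h1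
  exact mo_injective F L θ h1

lemma toF_act (m0 m1 : M) (u0 u1 : U) (G : AddMonoidAlgebra U M) :
    toF F L θ ((AddMonoidAlgebra.single m0 u0 + AddMonoidAlgebra.single m1 u1) * G) =
      act m0 m1 (mo F L θ u0) (mo F L θ u1) (toF F L θ G) := by
  induction G using AddMonoidAlgebra.induction_linear with
  | zero => rw [mul_zero, toF_zero, map_zero]
  | add a b ha hb => rw [mul_add, toF_add, ha, hb, toF_add, map_add]
  | single m u =>
    rw [add_mul, AddMonoidAlgebra.single_mul_single, AddMonoidAlgebra.single_mul_single, toF_add,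
      toF_single, toF_single, toF_single, act_single, mo_mul, mo_mul]

lemma toF_compL (u : U) (G : AddMonoidAlgebra U M) :
    toF F L θ (AddMonoidAlgebra.single 0 u * G) = compL M (mo F L θ u) (toF F L θ G) := by
  induction G using AddMonoidAlgebra.induction_linear with
  | zero => rw [mul_zero, toF_zero, map_zero]
  | add a b ha hb => rw [mul_add, toF_add, ha, hb, toF_add, map_add]
  | single m u =>
    rw [AddMonoidAlgebra.single_mul_single, toF_single, toF_single, compL_single, mo_mul, zero_add]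

lemma toF_shift (m0 : M) (G : AddMonoidAlgebra U M) :
    toF F L θ (AddMonoidAlgebra.single m0 1 * G) = shift m0 (toF F L θ G) := by
  induction G using AddMonoidAlgebra.induction_linear with
  | zero => rw [mul_zero, toF_zero, map_zero]
  | add a b ha hb => rw [mul_add, toF_add, ha, hb, toF_add, map_add]
  | single m u =>
    rw [AddMonoidAlgebra.single_mul_single, toF_single, toF_single, shift_single, one_mul]

/-- `E` is the expansion of `p` -/
def Wt (p : P) (E : AddMonoidAlgebra U M) : Prop :=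
  ∀ (y : F.O.M) (G : AddMonoidAlgebra U M), Rep F mon ρ L y (toF F L θ G) →
    Rep F mon ρ L (p • y) (toF F L θ (E * G))

variable {F mon ρ L θ}

lemma Wt.add {p p' : P} {E E' : AddMonoidAlgebra U M} (h : Wt F mon ρ L θ p E)
    (h' : Wt F mon ρ L θ p' E') : Wt F mon ρ L θ (p + p') (E + E') := by
  intro y G hG
  rw [add_smul, add_mul, toF_add]
  exact (h y G hG).add (h' y G hG)

lemma Wt.mul {p p' : P} {E E' : AddMonoidAlgebra U M} (h : Wt F mon ρ L θ p E)
    (h' : Wt F mon ρ L θ p' E') : Wt F mon ρ L θ (p * p') (E * E') := by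
  intro y G hG
  rw [mul_smul, mul_assoc]
  exact h _ _ (h' y G hG)

lemma Wt.scalar (d : D) (hd : ∀ m, Commute (𝒮.C d) (mon m)) :
    Wt F mon ρ L θ (𝒮.C d) (AddMonoidAlgebra.single 0 (ιU F L θ d)) := by
  intro y G hG
  rw [toF_compL, mo_ιU]
  exact hG.smul d hd

lemma Wt.monomial (m0 : M) :
    Wt F mon ρ L θ (mon (Multiplicative.ofAdd m0)) (AddMonoidAlgebra.single m0 1) := by
  intro y G hG
  rw [toF_shift]
  exact hG.monmul m0

lemma Wt.eta (m0 m1 : M) (η : P) (hcomm : ∀ m, Commute η (mon m))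
    (Z : Ob 𝒮) (s a b : F.O ⟶ Z) (hs : ρ.toRankFn.S s)
    (h : η • lin s F.one = mon (Multiplicative.ofAdd m0) • lin a F.one +
      mon (Multiplicative.ofAdd m1) • lin b F.one) :
    ∃ u0 u1 : U, Wt F mon ρ L θ η
      (AddMonoidAlgebra.single m0 u0 + AddMonoidAlgebra.single m1 u1) := by
  have hsi := ρ.toRankFn.isIso_map L s hs
  refine ⟨el F L θ (L.map a ≫ inv (L.map s)), el F L θ (L.map b ≫ inv (L.map s)), ?_⟩
  intro y G hG
  rw [toF_act, mo_el, mo_el]
  refine Rep.eta m0 m1 η _ _ hcomm (fun m => add_comm _ _) (fun m => add_comm _ _) ?_ hG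
  refine ⟨Z, s, Finsupp.single m0 a + Finsupp.single m1 b, hs, ?_, ?_⟩
  · rw [map_smul, h, map_add, tot_single, tot_single]
  · rw [map_add, mapL_single, mapL_single, map_add, compR_single, compR_single]
    simp

lemma Rep.one : Rep F mon ρ L F.one (toF F L θ (1 : AddMonoidAlgebra U M)) := by
  have h := Rep.const (F := F) (mon := mon) (ρ := ρ) (L := L) (M := M) (𝟙 F.O)
  rw [lin_id, LinearMap.id_apply, L.map_id] at h
  rw [AddMonoidAlgebra.one_def, toF_single, mo_one]
  exact h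

lemma Wt.unique (hfree : ∀ (Z : Ob 𝒮) (g : M →₀ (F.O ⟶ Z)), tot F mon Z g = 0 →
      ∀ m, L.map (g m) = 0) {p p' : P} {E E' : AddMonoidAlgebra U M}
    (h : Wt F mon ρ L θ p E) (h' : Wt F mon ρ L θ p' E') (hp : p • F.one = p' • F.one) :
    E = E' := by
  have h1 := h _ _ Rep.one
  have h2 := h' _ _ Rep.one
  rw [mul_one] at h1 h2
  rw [hp] at h1
  exact toF_injective F L θ (Rep.unique hfree h1 h2)

/-- **the ring homomorphism of expansions** -/
theorem exists_hom {A : Type*} [CommSemiring A] (φ : A →+* P)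
    (hfree : ∀ (Z : Ob 𝒮) (g : M →₀ (F.O ⟶ Z)), tot F mon Z g = 0 → ∀ m, L.map (g m) = 0)
    (hA : ∀ q : A, ∃ E : AddMonoidAlgebra U M, Wt F mon ρ L θ (φ q) E) :
    ∃ ev : A →+* AddMonoidAlgebra U M, (∀ q, Wt F mon ρ L θ (φ q) (ev q)) ∧
      ∀ q, φ q • F.one = 0 → ev q = 0 := by
  choose ev hev using hA
  have huniq : ∀ {q : A} {E : AddMonoidAlgebra U M}, Wt F mon ρ L θ (φ q) E → ev q = E :=
    fun {q} {E} h => Wt.unique hfree (hev q) h rfl
  have hone : Wt F mon ρ L θ (1 : P) (1 : AddMonoidAlgebra U M) := by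
    intro y G hG
    rw [one_smul, one_mul]
    exact hG
  have hzero : Wt F mon ρ L θ (0 : P) (0 : AddMonoidAlgebra U M) := by
    intro y G hG
    rw [zero_smul, zero_mul, toF_zero]
    exact Rep.zero
  refine ⟨{ toFun := ev
            map_one' := huniq (by rw [map_one]; exact hone)
            map_mul' := fun a b => huniq (by rw [map_mul]; exact (hev a).mul (hev b))
            map_zero' := huniq (by rw [map_zero]; exact hzero)
            map_add' := fun a b => huniq (by rw [map_add]; exact (hev a).add (hev b)) },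
    hev, ?_⟩
  intro q hq
  exact Wt.unique hfree (hev q) hzero (by rw [hq, zero_smul])

/-- elements commuting in `P` have commuting expansions -/
lemma Wt.commute (hfree : ∀ (Z : Ob 𝒮) (g : M →₀ (F.O ⟶ Z)), tot F mon Z g = 0 →
      ∀ m, L.map (g m) = 0) {p p' : P} {E E' : AddMonoidAlgebra U M}
    (h : Wt F mon ρ L θ p E) (h' : Wt F mon ρ L θ p' E') (hp : p * p' = p' * p) :
    E * E' = E' * E :=
  Wt.unique hfree (h.mul h') (h'.mul h) (by rw [hp])

end alg

end Vale.Agent.P200F.E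

end

section

open CategoryTheory CategoryTheory.Limits MulOpposite

universe v u

namespace Vale.Agent.P200F.E

namespace RankFn

variable {C : Type u} [Category.{v} C] [Preadditive C] [HasCokernels C] [HasBinaryBiproducts C]
  (r : RankFn C) {D : Type*} [Category* D] [Preadditive D] (L : C ⥤ D) [L.IsLocalization r.S]
  [L.Additive]

include r

/-- finitely many morphisms which vanish in the localization are killed by one `t` -/
theorem exists_kill {J : Type*} [Finite J] {X : J → C} {Y : C} (g : ∀ j, X j ⟶ Y)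
    (h : ∀ j, L.map (g j) = 0) : ∃ (Z : C) (t : Y ⟶ Z), r.S t ∧ ∀ j, g j ≫ t = 0 := by
  classical
  cases nonempty_fintype J
  suffices hs : ∀ T : Finset J, ∃ (Z : C) (t : Y ⟶ Z), r.S t ∧ ∀ j ∈ T, g j ≫ t = 0 by
    obtain ⟨Z, t, ht, hz⟩ := hs Finset.univ
    exact ⟨Z, t, ht, fun j => hz j (Finset.mem_univ j)⟩
  intro T
  induction T using Finset.induction_on with
  | empty => exact ⟨Y, 𝟙 Y, r.S.id_mem _, fun j hj => absurd hj (Finset.notMem_empty j)⟩
  | insert a T _ ih =>
    obtain ⟨Z, t, ht, hz⟩ := ih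
    obtain ⟨Z', t', ht', hz'⟩ := r.map_eq_zero L (g a ≫ t) (by rw [L.map_comp, h a, zero_comp])
    refine ⟨Z', t ≫ t', r.S.comp_mem _ _ ht ht', fun j hj => ?_⟩
    rcases Finset.mem_insert.1 hj with h1 | h1
    · subst h1
      rw [← Category.assoc, hz']
    · rw [← Category.assoc, hz j h1, zero_comp]

/-- coordinates of a power of `X`, `X` isomorphic to `O` in the localization -/
noncomputable def coordOf {O X T : C} (s : O ⟶ X) (hs : IsIso (L.map s)) {I : Type} [Fintype I]
    [DecidableEq I] (incl : I → (X ⟶ T)) (pr : I → (T ⟶ X))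
    (horth : ∀ i k, incl i ≫ pr k = if i = k then 𝟙 X else 0)
    (htot : ∑ i, pr i ≫ incl i = 𝟙 T) : Coord (L.obj O) (L.obj T) I where
  a i := L.map (s ≫ incl i)
  b i := L.map (pr i) ≫ inv (L.map s)
  orth k l := by
    rw [← Category.assoc, ← L.map_comp, Category.assoc, horth]
    by_cases h : k = l
    · subst h
      simp
    · rw [if_neg h, if_neg h, comp_zero, L.map_zero, zero_comp]
  total := by
    have h : ∀ k : I, (L.map (pr k) ≫ inv (L.map s)) ≫ L.map (s ≫ incl k) =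
        L.map (pr k ≫ incl k) := by
      intro k
      simp
    rw [Finset.sum_congr rfl fun k _ => h k, ← L.map_sum, htot, L.map_id]

/-- **the rank of a presented object** -/
theorem rank_pres {O X T1 T2 : C} (hO : r.rk O = 1) (s : O ⟶ X) (hs : r.S s)
    {I J J' : Type} [Fintype I] [DecidableEq I] [Finite J] [Finite J']
    (incl : I → (X ⟶ T1)) (pr : I → (T1 ⟶ X))
    (horth : ∀ i k, incl i ≫ pr k = if i = k then 𝟙 X else 0)
    (htot : ∑ i, pr i ≫ incl i = 𝟙 T1) (q : T1 ⟶ T2) (hq : Epi q)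
    (α : J → (O ⟶ T1)) (γ : J' → (X ⟶ T1)) (hα : ∀ j, α j ≫ q = 0) (hγ : ∀ j, γ j ≫ q = 0)
    (huniv : ∀ {Z : C} (g : T1 ⟶ Z), (∀ j, α j ≫ g = 0) → (∀ j, γ j ≫ g = 0) →
      ∃ g' : T2 ⟶ Z, q ≫ g' = g)
    (u : J → I → (End (L.obj O))ᵐᵒᵖ) (hu : ∀ j i, arr (u j i) ≫ L.map s = L.map (α j ≫ pr i))
    (w : J' → I → (End (L.obj O))ᵐᵒᵖ)
    (hw : ∀ j i, arr (w j i) ≫ L.map s = L.map (s ≫ γ j ≫ pr i)) :
    r.rk T2 + Module.finrank (End (L.obj O))ᵐᵒᵖ
      (Submodule.span (End (L.obj O))ᵐᵒᵖ (Set.range u) ⊔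
        Submodule.span (End (L.obj O))ᵐᵒᵖ (Set.range w) :
          Submodule (End (L.obj O))ᵐᵒᵖ (I → (End (L.obj O))ᵐᵒᵖ)) = Fintype.card I := by
  have hsi := r.isIso_map L s hs
  let c1 := coordOf L s hsi incl pr horth htot
  have hrow : ∀ j, c1.equiv (L.map (α j)) = u j := by
    intro j
    funext i
    rw [Coord.equiv_apply]
    have h1 : L.map (α j) ≫ L.map (pr i) ≫ inv (L.map s) = arr (u j i) := by
      rw [← Category.assoc, ← L.map_comp, ← hu]
      simp
    exact congrArg opp h1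
  have hrow' : ∀ j, c1.equiv (L.map (s ≫ γ j)) = w j := by
    intro j
    funext i
    rw [Coord.equiv_apply]
    have h1 : L.map (s ≫ γ j) ≫ L.map (pr i) ≫ inv (L.map s) = arr (w j i) := by
      rw [← Category.assoc, ← L.map_comp, Category.assoc, ← hw]
      simp
    exact congrArg opp h1
  let W : Submodule (End (L.obj O))ᵐᵒᵖ (L.obj O ⟶ L.obj T1) :=
    Submodule.span (End (L.obj O))ᵐᵒᵖ (Set.range fun j => L.map (α j)) ⊔
      Submodule.span (End (L.obj O))ᵐᵒᵖ (Set.range fun j => L.map (s ≫ γ j))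
  have hspan : (Submodule.span (End (L.obj O))ᵐᵒᵖ (Set.range u) ⊔
        Submodule.span (End (L.obj O))ᵐᵒᵖ (Set.range w) :
          Submodule (End (L.obj O))ᵐᵒᵖ (I → (End (L.obj O))ᵐᵒᵖ)) =
        W.map c1.equiv.toLinearMap := by
    have h1 : Set.range u = c1.equiv.toLinearMap '' Set.range fun j => L.map (α j) := by
      rw [← Set.range_comp]
      congr 1
      funext j
      exact (hrow j).symm
    have h2 : Set.range w = c1.equiv.toLinearMap '' Set.range fun j => L.map (s ≫ γ j) := by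
      rw [← Set.range_comp]
      congr 1
      funext j
      exact (hrow' j).symm
    rw [h1, h2, Submodule.map_sup, Submodule.map_span, Submodule.map_span]
  have hfr : Module.finrank (End (L.obj O))ᵐᵒᵖ
      (Submodule.span (End (L.obj O))ᵐᵒᵖ (Set.range u) ⊔
        Submodule.span (End (L.obj O))ᵐᵒᵖ (Set.range w) :
          Submodule (End (L.obj O))ᵐᵒᵖ (I → (End (L.obj O))ᵐᵒᵖ)) =
      Module.finrank (End (L.obj O))ᵐᵒᵖ W := by
    rw [hspan]
    exact (LinearEquiv.finrank_eq (c1.equiv.submoduleMap W)).symm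
  rw [hfr]
  have hqe : Epi (L.map q) := r.epi_map L _ (r.rk_coker_of_epi _ hq)
  obtain ⟨c2⟩ := r.exists_coord L hO (Z := T2) (fun i : I => s ≫ incl i ≫ q) (by
      intro T h hh
      rw [← cancel_epi (L.map q), comp_zero]
      apply c1.hom_eq_zero
      intro v
      rw [← Category.id_comp (L.map q ≫ h), ← c1.total, Preadditive.sum_comp,
        Preadditive.comp_sum]
      refine Finset.sum_eq_zero fun i _ => ?_
      have h1 := hh i
      have h2 : c1.a i ≫ L.map q ≫ h = 0 := by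
        change L.map (s ≫ incl i) ≫ L.map q ≫ h = 0
        rw [← Category.assoc, ← L.map_comp, Category.assoc]
        exact h1
      rw [Category.assoc, h2, comp_zero, comp_zero])
  have hfin := finrank_coker (A := L.obj O) (fun e => by
      by_cases he : e = 0
      · exact Or.inr he
      · left
        have := r.isIso_of_ne_zero L hO e he
        exact (isUnit_iff_isIso e).2 inferInstance) (r.id_ne_zero L (by omega)) c1 c2
    (L.map q) hqe W (by
      intro x hx
      let Q : (L.obj O ⟶ L.obj T1) →ₗ[(End (L.obj O))ᵐᵒᵖ] (L.obj O ⟶ L.obj T2) :=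
        { toFun := fun v => v ≫ L.map q
          map_add' := fun v w => Preadditive.add_comp _ _ _ _ _ _
          map_smul' := fun e v => by
            change (arr e ≫ v) ≫ L.map q = arr e ≫ v ≫ L.map q
            rw [Category.assoc] }
      have hle : W ≤ LinearMap.ker Q := by
        refine sup_le ?_ ?_
        · rw [Submodule.span_le]
          rintro _ ⟨j, rfl⟩
          change L.map (α j) ≫ L.map q = 0
          rw [← L.map_comp, hα, L.map_zero]
        · rw [Submodule.span_le]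
          rintro _ ⟨j, rfl⟩
          change L.map (s ≫ γ j) ≫ L.map q = 0
          rw [← L.map_comp, Category.assoc, hγ, comp_zero, L.map_zero]
      exact hle hx) (by
      intro h hh
      obtain ⟨Z, g, t, ht, hht⟩ := r.exists_frac L h
      have hti := r.isIso_map L t ht
      obtain ⟨Z1, t1, ht1, hk1⟩ := r.exists_kill L (fun j => α j ≫ g) (fun j => by
        rw [L.map_comp, ← hht, ← Category.assoc,
          hh _ (Submodule.mem_sup_left (Submodule.subset_span ⟨j, rfl⟩)), zero_comp])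
      obtain ⟨Z2, t2, ht2, hk2⟩ := r.exists_kill L (fun j => γ j ≫ g ≫ t1) (fun j => by
        have h1 := hh _ (Submodule.mem_sup_right (Submodule.subset_span ⟨j, rfl⟩) :
          L.map (s ≫ γ j) ∈ W)
        have h2 : L.map (γ j) ≫ h = 0 := by
          rw [← cancel_epi (L.map s), ← Category.assoc, ← L.map_comp, h1, comp_zero]
        rw [L.map_comp, L.map_comp, ← hht, Category.assoc, ← Category.assoc, h2, zero_comp])
      have ht1i := r.isIso_map L t1 ht1
      have ht2i := r.isIso_map L t2 ht2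
      have httt := r.isIso_map L (t ≫ t1 ≫ t2)
        (r.S.comp_mem _ _ ht (r.S.comp_mem _ _ ht1 ht2))
      obtain ⟨g', hg'⟩ := huniv (g ≫ t1 ≫ t2) (fun j => by
        rw [← Category.assoc, ← Category.assoc, hk1, zero_comp]) (fun j => by
        have := hk2 j
        simpa only [Category.assoc] using this)
      refine ⟨L.map g' ≫ inv (L.map (t ≫ t1 ≫ t2)), ?_⟩
      rw [← Category.assoc, ← L.map_comp, hg', IsIso.comp_inv_eq, L.map_comp, L.map_comp,
        L.map_comp, L.map_comp, ← Category.assoc h, hht])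
  rw [Fintype.card_fin] at hfin
  exact hfin

end RankFn

end Vale.Agent.P200F.E

end
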