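import Vale.Agent.P200F.Ns
import Vale.Agent.P200F.C2
import Vale.Agent.P200F.E1

set_option linter.all false

section

open CategoryTheory CategoryTheory.Limits

universe u

namespace Vale.Agent.P200F.V.SB

open Module Vale.Agent.P200F.E

variable {K : Type u} [Field K] {D : Type u} [DivisionRing D] [Algebra K D] {κ R : ℕ}

theorem cp_coeff (n : Fin R → ℕ) (u : PA D κ R) (m : Mon κ R) :
    (cp D κ R n u).coeff m = if mdeg m = n then u.coeff m else 0 := by
  change (u.coeff.filter fun m => mdeg m = n) m = _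
  rw [Finsupp.filter_apply]

theorem cp_mem (n : Fin R → ℕ) (u : PA D κ R) : cp D κ R n u ∈ pp D κ R n := by
  intro m hm
  rw [cp_coeff] at hm
  by_contra h
  rw [if_neg h] at hm
  exact hm rfl

theorem cp_of_mem {n : Fin R → ℕ} {u : PA D κ R} (hu : u ∈ pp D κ R n) :
    cp D κ R n u = u := by
  apply AddMonoidAlgebra.ext
  ext m
  rw [cp_coeff]
  split_ifs with h
  · rfl
  · by_contra h'
    exact h (hu m (fun h0 => h' h0.symm))

theorem cp_of_mem_ne {n n' : Fin R → ℕ} {u : PA D κ R} (hu : u ∈ pp D κ R n) (h : n' ≠ n) :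
    cp D κ R n' u = 0 := by
  apply AddMonoidAlgebra.ext
  ext m
  rw [cp_coeff, AddMonoidAlgebra.coeff_zero, Finsupp.zero_apply]
  split_ifs with h1
  · by_contra h'
    exact h (h1.symm.trans (hu m h'))
  · rfl

theorem mdeg_add (m m' : Mon κ R) : mdeg (m + m') = mdeg m + mdeg m' := by
  funext g
  rw [Pi.add_apply]
  unfold mdeg
  rw [← Finset.sum_add_distrib]
  rfl

theorem single_mem (m : Mon κ R) (d : D) : AddMonoidAlgebra.single m d ∈ pp D κ R (mdeg m) := by
  intro m' hm'
  rw [AddMonoidAlgebra.coeff_single] at hm'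
  by_contra h
  rw [Finsupp.single_eq_of_ne (fun h' => h (by rw [h']))] at hm'
  exact hm' rfl

/-- products of homogeneous polynomials -/
theorem mul_mem {d d' : Fin R → ℕ} {p q : PA D κ R} (hp : p ∈ pp D κ R d)
    (hq : q ∈ pp D κ R d') : p * q ∈ pp D κ R (d + d') := by
  classical
  intro m hm
  have h1 := AddMonoidAlgebra.support_coeff_mul_subset p q (Finsupp.mem_support_iff.2 hm)
  obtain ⟨a, ha, b, hb, rfl⟩ := Finset.mem_add.1 h1
  rw [mdeg_add, hp a (Finsupp.mem_support_iff.1 ha), hq b (Finsupp.mem_support_iff.1 hb)]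

theorem bm_monomial (g : Fin R) (m : Fin (κ + 2) →₀ ℕ) (a : K) :
    bm K D κ g (MvPolynomial.monomial m a) =
      AddMonoidAlgebra.single (Finsupp.mapDomain (fun v : Fin (κ + 2) => (g, v)) m)
        (algebraMap K D a) := by
  have h1 : AddMonoidAlgebra.mapDomainAlgHom K K
      (Finsupp.mapDomain.addMonoidHom fun v : Fin (κ + 2) => (g, v))
        (AddMonoidAlgebra.single m a) =
      AddMonoidAlgebra.single (Finsupp.mapDomain (fun v : Fin (κ + 2) => (g, v)) m) a := by
    exact AddMonoidAlgebra.mapDomain_single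
  change AddMonoidAlgebra.mapAlgHom (R := K) (Mon κ R) (Algebra.ofId K D)
    (AddMonoidAlgebra.mapDomainAlgHom K K
      (Finsupp.mapDomain.addMonoidHom fun v : Fin (κ + 2) => (g, v))
        (AddMonoidAlgebra.single m a)) = _
  rw [h1, AddMonoidAlgebra.mapAlgHom_single]
  rfl

theorem bm_X (g : Fin R) (v : Fin (κ + 2)) :
    bm K D κ g (MvPolynomial.X v) = va D κ R (g, v) := by
  rw [MvPolynomial.X, bm_monomial, Finsupp.mapDomain_single, map_one]
  rfl

/-- the multidegree of a monomial of the block `g` -/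
theorem mdeg_mapDomain (g : Fin R) (m : Fin (κ + 2) →₀ ℕ) :
    mdeg (Finsupp.mapDomain (fun v : Fin (κ + 2) => (g, v)) m : Mon κ R) =
      Pi.single g m.degree := by
  funext g'
  unfold mdeg
  by_cases h : g' = g
  · subst h
    rw [Pi.single_eq_same, Finsupp.degree_eq_sum]
    apply Finset.sum_congr rfl
    intro v _
    exact Finsupp.mapDomain_apply (fun a b hab => (Prod.ext_iff.1 hab).2) m v
  · rw [Pi.single_eq_of_ne h]
    apply Finset.sum_eq_zero
    intro v _
    apply Finsupp.mapDomain_of_notMem_range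
    rintro ⟨w, hw⟩
    exact h (Prod.ext_iff.1 hw).1.symm

/-- homogeneous polynomials over `K` in one block -/
theorem bm_mem (g : Fin R) {p : MvPolynomial (Fin (κ + 2)) K} {e : ℕ}
    (hp : p.IsHomogeneous e) : bm K D κ g p ∈ pp D κ R (Pi.single g e) := by
  rw [p.as_sum, map_sum]
  apply Submodule.sum_mem
  intro m hm
  rw [bm_monomial]
  have h1 : m.degree = e := by
    by_contra h
    exact (MvPolynomial.mem_support_iff.1 hm) (hp.coeff_eq_zero h)
  have h2 := single_mem (Finsupp.mapDomain (fun v : Fin (κ + 2) => (g, v)) m : Mon κ R)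
    (algebraMap K D (MvPolynomial.coeff m p))
  rw [mdeg_mapDomain, h1] at h2
  exact h2

theorem bm_rel_mem (β : Fin R → Blk K κ) (g : Fin R) (i : Fin κ) :
    bm K D κ g ((β g).rel i) ∈ pp D κ R (Pi.single g ((β g).e i)) := by
  apply bm_mem
  unfold Blk.rel
  exact (MvPolynomial.isHomogeneous_X_pow _ _).sub ((β g).hom i)

section vec
variable {s : ℕ}

/-- every vector is the sum of its components -/
theorem sum_cvi (u : Fin s → PA D κ R) :
    ∃ S : Finset (Fin R → ℕ), u = ∑ n ∈ S, cvi D κ R (Fin s) n u := by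
  classical
  refine ⟨Finset.univ.biUnion fun i => (u i).coeff.support.image mdeg, ?_⟩
  funext i
  apply AddMonoidAlgebra.ext
  ext m
  rw [Finset.sum_apply]
  have h1 : ∀ n, (cvi D κ R (Fin s) n u i).coeff m = if mdeg m = n then (u i).coeff m else 0 :=
    fun n => cp_coeff n (u i) m
  rw [AddMonoidAlgebra.coeff_sum, Finsupp.finsetSum_apply, Finset.sum_congr rfl fun n _ => h1 n,
    Finset.sum_ite_eq]
  split_ifs with h
  · rfl
  · by_contra h'
    apply h
    rw [Finset.mem_biUnion]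
    exact ⟨i, Finset.mem_univ _, Finset.mem_image_of_mem _ (Finsupp.mem_support_iff.2 h')⟩

theorem sum_cp (u : PA D κ R) : ∃ S : Finset (Fin R → ℕ), u = ∑ n ∈ S, cp D κ R n u := by
  obtain ⟨S, hS⟩ := sum_cvi (fun _ : Fin 1 => u)
  refine ⟨S, ?_⟩
  have h := congrFun hS 0
  rw [Finset.sum_apply] at h
  exact h

theorem cvi_of_mem {n : Fin R → ℕ} {u : Fin s → PA D κ R} (hu : u ∈ pvi D κ R (Fin s) n) :
    cvi D κ R (Fin s) n u = u := funext fun i => cp_of_mem (hu i)

theorem cvi_of_mem_ne {n n' : Fin R → ℕ} {u : Fin s → PA D κ R}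
    (hu : u ∈ pvi D κ R (Fin s) n) (h : n' ≠ n) : cvi D κ R (Fin s) n' u = 0 :=
  funext fun i => cp_of_mem_ne (hu i) h

theorem cvi_mem_of {N : Submodule (PA D κ R) (Fin s → PA D κ R)}
    {u : Fin s → PA D κ R} {n : Fin R → ℕ} (hu : u ∈ N) (hn : u ∈ pvi D κ R (Fin s) n)
    (n' : Fin R → ℕ) : cvi D κ R (Fin s) n' u ∈ N := by
  by_cases h : n' = n
  · subst h
    rwa [cvi_of_mem hn]
  · rw [cvi_of_mem_ne hn h]
    exact N.zero_mem

/-- a submodule generated by homogeneous vectors is homogeneous -/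
theorem span_hom {S : Set (Fin s → PA D κ R)} (hS : ∀ u ∈ S, ∃ n, u ∈ pvi D κ R (Fin s) n) :
    ∀ u ∈ Submodule.span (PA D κ R) S, ∀ n,
      cvi D κ R (Fin s) n u ∈ Submodule.span (PA D κ R) S := by
  intro u hu
  induction hu using Submodule.span_induction with
  | mem x hx =>
    obtain ⟨n, hn⟩ := hS x hx
    exact cvi_mem_of (Submodule.subset_span hx) hn
  | zero =>
    intro n
    rw [map_zero]
    exact Submodule.zero_mem _
  | add a b _ _ ha hb =>
    intro n
    rw [map_add]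
    exact Submodule.add_mem _ (ha n) (hb n)
  | smul a x _ hx =>
    intro n
    obtain ⟨T, hT⟩ := sum_cvi x
    obtain ⟨T', hT'⟩ := sum_cp a
    rw [hT, hT', Finset.sum_smul, map_sum]
    apply Submodule.sum_mem
    intro n1 _
    rw [Finset.smul_sum, map_sum]
    apply Submodule.sum_mem
    intro n2 _
    exact cvi_mem_of (Submodule.smul_mem _ _ (hx n2))
      (fun i => mul_mem (cp_mem n1 a) (cp_mem n2 (x i))) n

theorem isGi_sup_span {β : Fin R → Blk K κ} {N : Submodule (PA D κ R) (Fin s → PA D κ R)}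
    (h : IsGi β N) {S : Set (Fin s → PA D κ R)}
    (hS : ∀ u ∈ S, ∃ n, u ∈ pvi D κ R (Fin s) n) :
    IsGi β (N ⊔ Submodule.span _ S) := by
  refine ⟨?_, fun g i w => Submodule.mem_sup_left (h.rel g i w)⟩
  intro u hu n
  obtain ⟨a, ha, b, hb, rfl⟩ := Submodule.mem_sup.1 hu
  rw [map_add]
  exact Submodule.add_mem_sup (h.hom a ha n) (span_hom hS b hb n)

theorem isGi_N0 (β : Fin R → Blk K κ) : IsGi β (N0 D β s) := by
  rw [isGi_iff]
  refine ⟨?_, fun g i j => Submodule.subset_span ⟨g, i, j, rfl⟩⟩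
  have h1 : ∀ u ∈ {u : Fin s → PA D κ R |
      ∃ g i j, u = Pi.single j (bm K D κ g ((β g).rel i))}, ∃ n, u ∈ pvi D κ R (Fin s) n := by
    rintro u ⟨g, i, j, rfl⟩
    refine ⟨Pi.single g ((β g).e i), fun j' => ?_⟩
    by_cases h : j' = j
    · subst h
      rw [Pi.single_eq_same]
      exact bm_rel_mem β g i
    · rw [Pi.single_eq_of_ne h]
      exact Submodule.zero_mem _
  exact fun u hu n => span_hom h1 u hu n

end vec

theorem const_mem {s : ℕ} (v : Fin s → D) :
    cst κ R v ∈ pvi D κ R (Fin s) 0 := by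
  intro i
  have h : mdeg (0 : Mon κ R) = 0 := by
    funext g
    simp [mdeg]
  have h1 := single_mem (0 : Mon κ R) (v i)
  rw [h] at h1
  exact h1

/-- **the small category of the presentations of one block** -/
noncomputable def sysB (D : Type u) [DivisionRing D] [Algebra K D] (β : Blk K κ) :
    Sys D (PA D κ 1) where
  C := AddMonoidAlgebra.singleZeroRingHom
  good m N := IsGi (fun _ : Fin 1 => β) N
  good_sup m k N v hN := by
    apply isGi_sup_span hN
    rintro u ⟨i, rfl⟩
    exact ⟨0, const_mem (v i)⟩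
  good_prod m m' N N' hN hN' := by
    refine ⟨?_, ?_⟩
    · intro u hu n
      exact ⟨hN.hom _ hu.1 n, hN'.hom _ hu.2 n⟩
    · intro g i w
      exact ⟨hN.rel g i _, hN'.rel g i _⟩

theorem Ob.kill {β : Blk K κ} (Z : Ob (sysB D β)) (i : Fin κ) (z : Z.M) :
    bm K D κ (0 : Fin 1) (β.rel i) • z = 0 := by
  obtain ⟨p, rfl⟩ := Z.N.mkQ_surjective z
  rw [← map_smul]
  exact (Submodule.Quotient.mk_eq_zero _).2 (Z.h.rel 0 i p)

theorem N0_kill {β : Blk K κ} (Z : Ob (sysB D β)) {s : ℕ} (z : Fin s → Z.M)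
    (p : Fin s → PA D κ 1) (hp : p ∈ N0 D (fun _ : Fin 1 => β) s) : ∑ j, p j • z j = 0 := by
  induction hp using Submodule.span_induction with
  | mem x hx =>
    obtain ⟨g, i, j, rfl⟩ := hx
    apply Finset.sum_eq_zero
    intro j' _
    by_cases h : j' = j
    · subst h
      rw [Pi.single_eq_same]
      have hg : g = 0 := Subsingleton.elim _ _
      subst hg
      exact Ob.kill Z i (z j')
    · rw [Pi.single_eq_of_ne h, zero_smul]
  | zero => simp
  | add a b _ _ ha hb =>
    have h : ∀ j, (a + b) j • z j = a j • z j + b j • z j := fun j => add_smul _ _ _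
    rw [Finset.sum_congr rfl fun j _ => h j, Finset.sum_add_distrib, ha, hb, add_zero]
  | smul c a _ ha =>
    have h : ∀ j, (c • a) j • z j = c • (a j • z j) := fun j => mul_smul _ _ _
    rw [Finset.sum_congr rfl fun j _ => h j, ← Finset.smul_sum, ha, smul_zero]

/-- the free object of rank one -/
noncomputable def free1 (D : Type u) [DivisionRing D] [Algebra K D] (β : Blk K κ) :
    Ob.Free1 (sysB D β) where
  N := N0 D (fun _ : Fin 1 => β) 1
  h := isGi_N0 _
  kill Z p hp z := by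
    have h := N0_kill Z (fun _ : Fin 1 => z) p hp
    rwa [Fin.sum_univ_one] at h

/-- the rank data -/
noncomputable def rkD {β : Blk K κ} (h : RkAx D β) : Ob.RkData (sysB D β) where
  rk X := Classical.choose (h.ex X.m X.N ((isGi_iff _).1 X.h))
  rk_coker {X Y} f := by
    choose w hw using fun i => Ob.lin_cst f (Pi.single i 1)
    refine h.coker X.m Y.m X.N Y.N w ((isGi_iff _).1 X.h) ((isGi_iff _).1 Y.h) ?_ _ _ _
      (Classical.choose_spec (h.ex X.m X.N ((isGi_iff _).1 X.h)))
      (Classical.choose_spec (h.ex Y.m Y.N ((isGi_iff _).1 Y.h))) ?_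
    · intro p hp
      have h1 : Ob.lin f (X.N.mkQ p) = 0 := by
        have : X.N.mkQ p = 0 := (Submodule.Quotient.mk_eq_zero _).2 hp
        rw [this, map_zero]
      rw [Ob.mkQ_eq_sum, map_sum] at h1
      have h2 : Y.N.mkQ (cmat κ 1 w p) = 0 := by
        rw [← h1, cmat, Fintype.linearCombination_apply, map_sum]
        refine Finset.sum_congr rfl fun i _ => ?_
        rw [map_smul, map_smul, hw]
        rfl
      exact (Submodule.Quotient.mk_eq_zero Y.N).1 h2
    · have h1 := Classical.choose_spec (h.ex (Ob.coker f).m (Ob.coker f).N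
        ((isGi_iff _).1 (Ob.coker f).h))
      have h2 := Ob.rangeSub_eq f w hw
      have h3 : Y.N ⊔ Submodule.span (PA D κ 1) (Set.range fun i => cst κ 1 (w i)) =
          Ob.rangeSub f := h2.symm
      rw [h3]
      exact h1
  rk_dsum X Y := by
    have h1 := h.prod X.m Y.m X.N Y.N ((isGi_iff _).1 X.h) ((isGi_iff _).1 Y.h) _ _
      (Classical.choose_spec (h.ex X.m X.N ((isGi_iff _).1 X.h)))
      (Classical.choose_spec (h.ex Y.m Y.N ((isGi_iff _).1 Y.h)))
    exact IsRk.unique (Classical.choose_spec (h.ex (Ob.dsum X Y).m (Ob.dsum X Y).N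
        ((isGi_iff _).1 (Ob.dsum X Y).h))) h1
  rk_top X hX := by
    have h1 := Classical.choose_spec (h.ex X.m X.N ((isGi_iff _).1 X.h))
    refine IsRk.unique h1 ?_
    rw [hX]
    exact h.top X.m

theorem rkD_spec {β : Blk K κ} (h : RkAx D β) (X : Ob (sysB D β)) :
    IsRk β X.N ((rkD h).rk X) := Classical.choose_spec (h.ex X.m X.N ((isGi_iff _).1 X.h))

theorem rkD_eq {β : Blk K κ} (h : RkAx D β) (X : Ob (sysB D β)) {k : ℕ} (hk : IsRk β X.N k) :
    (rkD h).rk X = k := IsRk.unique (rkD_spec h X) hk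

theorem rk_O {β : Blk K κ} (h : RkAx D β) : (rkD h).rk (free1 D β).O = 1 :=
  rkD_eq h _ h.one

end Vale.Agent.P200F.V.SB

end

section

open CategoryTheory CategoryTheory.Limits

universe v' u' u

namespace Vale.Agent.P200F.E.Ob

variable {D P : Type u} [Ring D] [Ring P] {𝒮 : Sys D P}

/-- the morphism given by the images of the basis vectors -/
noncomputable def mkHom (X Z : Ob 𝒮) (v : Fin X.m → Fin Z.m → D)
    (h : ∀ p ∈ X.N, ∑ j, p j • Z.cst (v j) = 0) : X ⟶ Z :=
  ofLin (X.N.liftQ (Fintype.linearCombination P fun j => Z.cst (v j)) (fun p hp => by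
    rw [LinearMap.mem_ker, Fintype.linearCombination_apply]
    exact h p hp)) (fun w => ⟨∑ j, w j • v j, by
      rw [cst_sum]
      change Fintype.linearCombination P (fun j => Z.cst (v j)) (fun j => 𝒮.C (w j)) = _
      rw [Fintype.linearCombination_apply]
      exact Finset.sum_congr rfl fun j _ => (cst_smul Z (w j) (v j)).symm⟩)

lemma lin_mkHom (X Z : Ob 𝒮) (v : Fin X.m → Fin Z.m → D)
    (h : ∀ p ∈ X.N, ∑ j, p j • Z.cst (v j) = 0) (j : Fin X.m) :
    lin (mkHom X Z v h) (X.cst (Pi.single j 1)) = Z.cst (v j) := by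
  change Fintype.linearCombination P (fun j => Z.cst (v j))
    (fun i => 𝒮.C ((Pi.single j (1 : D) : Fin X.m → D) i)) = _
  rw [Fintype.linearCombination_apply, Finset.sum_eq_single j]
  · rw [Pi.single_eq_same, map_one, one_smul]
  · intro i _ hi
    rw [Pi.single_eq_of_ne hi, map_zero, zero_smul]
  · intro hj
    exact absurd (Finset.mem_univ _) hj

end Vale.Agent.P200F.E.Ob

namespace Vale.Agent.P200F.V.SB

open Module Vale.Agent.P200F.E

variable {K : Type u} [Field K] {D : Type u} [DivisionRing D] [Algebra K D] {κ : ℕ}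

/-- the exponents of `x`, `y` -/
noncomputable def emb (κ : ℕ) : (Fin 2 →₀ ℕ) →+ Mon κ 1 :=
  Finsupp.mapDomain.addMonoidHom fun v : Fin 2 =>
    ((0 : Fin 1), (Fin.castLE (Nat.le_add_left 2 κ) v : Fin (κ + 2)))

/-- the monomials in `x`, `y` -/
noncomputable def monB (D : Type u) [DivisionRing D] (κ : ℕ) :
    Multiplicative (Fin 2 →₀ ℕ) →* PA D κ 1 where
  toFun m := AddMonoidAlgebra.single (emb κ m.toAdd) 1
  map_one' := by
    rw [toAdd_one, map_zero]
    rfl
  map_mul' m m' := by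
    rw [toAdd_mul, map_add, AddMonoidAlgebra.single_mul_single, one_mul]

theorem monB_ofAdd (m : Fin 2 →₀ ℕ) :
    monB D κ (Multiplicative.ofAdd m) = AddMonoidAlgebra.single (emb κ m) 1 := rfl

theorem emb_single_zero : emb κ (Finsupp.single 0 1) = Finsupp.single (0, 0) 1 := by
  change Finsupp.mapDomain _ _ = _
  rw [Finsupp.mapDomain_single]
  rfl

theorem emb_single_one : emb κ (Finsupp.single 1 1) = Finsupp.single (0, 1) 1 := by
  change Finsupp.mapDomain _ _ = _
  rw [Finsupp.mapDomain_single]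
  congr 2

theorem monB_x : monB D κ (Multiplicative.ofAdd (Finsupp.single 0 1)) = va D κ 1 (0, 0) := by
  rw [monB_ofAdd, emb_single_zero]
  rfl

theorem monB_y : monB D κ (Multiplicative.ofAdd (Finsupp.single 1 1)) = va D κ 1 (0, 1) := by
  rw [monB_ofAdd, emb_single_one]
  rfl

/-- the `j`-th exponent of degree `n` -/
noncomputable def mm (n j : ℕ) : Fin 2 →₀ ℕ := Finsupp.single 0 (n - j) + Finsupp.single 1 j

theorem mm_zero (n j : ℕ) : mm n j 0 = n - j := by simp [mm]

theorem mm_one (n j : ℕ) : mm n j 1 = j := by simp [mm]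

theorem mm_eq (m : Fin 2 →₀ ℕ) : mm (m 0 + m 1) (m 1) = m := by
  ext i
  fin_cases i
  · change mm _ _ 0 = m 0
    rw [mm_zero]
    omega
  · change mm _ _ 1 = m 1
    rw [mm_one]

theorem monB_mm (n : ℕ) (j : Fin (n + 1)) :
    monB D κ (Multiplicative.ofAdd (mm n j)) = mv D κ n j := by
  have h0 : (Finsupp.single 0 (n - (j : ℕ)) : Fin 2 →₀ ℕ) =
      (n - (j : ℕ)) • Finsupp.single 0 1 := by simp
  have h1 : (Finsupp.single 1 (j : ℕ) : Fin 2 →₀ ℕ) = (j : ℕ) • Finsupp.single 1 1 := by simp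
  rw [mm, h0, h1, ofAdd_add, ofAdd_nsmul, ofAdd_nsmul, map_mul, map_pow, map_pow, monB_x, monB_y]
  rfl

theorem mdeg_emb (m : Fin 2 →₀ ℕ) : mdeg (emb κ m) = fun _ => m 0 + m 1 := by
  induction m using Finsupp.induction_linear with
  | zero =>
    rw [map_zero]
    funext g
    simp [mdeg]
  | add a b ha hb =>
    rw [map_add, mdeg_add, ha, hb]
    funext g
    simp only [Pi.add_apply, Finsupp.add_apply]
    omega
  | single i n =>
    funext g
    unfold mdeg
    change ∑ v, Finsupp.mapDomain _ (Finsupp.single i n) (g, v) = _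
    rw [Finsupp.mapDomain_single]
    have hg : g = 0 := Subsingleton.elim _ _
    subst hg
    rw [Finset.sum_eq_single (Fin.castLE (Nat.le_add_left 2 κ) i)]
    · rw [Finsupp.single_eq_same]
      fin_cases i <;> simp
    · intro v _ hv
      rw [Finsupp.single_eq_of_ne]
      intro h
      exact hv (Prod.ext_iff.1 h).2
    · intro h
      exact absurd (Finset.mem_univ _) h

/-- `mon m • (constant vector)` is homogeneous -/
theorem mon_smul_mem {s : ℕ} (m : Fin 2 →₀ ℕ) (v : Fin s → D) :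
    monB D κ (Multiplicative.ofAdd m) • cst κ 1 v ∈ pvi D κ 1 (Fin s) (fun _ => m 0 + m 1) := by
  intro i
  have h := mul_mem (single_mem (emb κ m) (1 : D)) (const_mem (κ := κ) (R := 1) v i)
  rw [mdeg_emb, add_zero] at h
  exact h

theorem mv_mem (n : ℕ) : mv D κ n ∈ pvi D κ 1 (Fin (n + 1)) (fun _ => n) := by
  intro j
  rw [← monB_mm, monB_ofAdd]
  have h := single_mem (R := 1) (emb κ (mm n j)) (1 : D)
  rw [mdeg_emb, mm_zero, mm_one] at h
  have h1 : n - (j : ℕ) + j = n := Nat.sub_add_cancel (Nat.lt_succ_iff.1 j.2)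
  rw [h1] at h
  exact h

/-- the object `O^(n+1) / (x^n, x^(n-1) y, …)` -/
noncomputable abbrev En (D : Type u) [DivisionRing D] [Algebra K D] (β : Blk K κ) (n : ℕ) :
    Ob (sysB D β) :=
  ⟨n + 1, N0 D (fun _ : Fin 1 => β) (n + 1) ⊔ Submodule.span (PA D κ 1) {mv D κ n},
    isGi_sup_span (isGi_N0 _) (by
      rintro u rfl
      exact ⟨_, mv_mem n⟩)⟩

theorem rk_En {β : Blk K κ} (h : RkAx D β) (n : ℕ) : (rkD h).rk (En D β n) = 0 :=
  rkD_eq h _ (h.mono n)

theorem En_kill {β : Blk K κ} (n : ℕ) (Z : Ob (sysB D β)) (v : Fin (n + 1) → Fin Z.m → D)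
    (h : ∑ j, mv D κ n j • Z.cst (v j) = 0) (p : Fin (n + 1) → PA D κ 1)
    (hp : p ∈ N0 D (fun _ : Fin 1 => β) (n + 1) ⊔ Submodule.span (PA D κ 1) {mv D κ n}) :
    ∑ j, p j • Z.cst (v j) = 0 := by
  obtain ⟨a, ha, b, hb, rfl⟩ := Submodule.mem_sup.1 hp
  obtain ⟨c, rfl⟩ := Submodule.mem_span_singleton.1 hb
  have h1 : ∀ j, (a + c • mv D κ n) j • Z.cst (v j) =
      a j • Z.cst (v j) + c • (mv D κ n j • Z.cst (v j)) := by
    intro j
    rw [Pi.add_apply, add_smul, Pi.smul_apply, smul_eq_mul, mul_smul]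
  have h2 : ∑ j, a j • Z.cst (v j) = 0 := N0_kill Z (fun j => Z.cst (v j)) a ha
  rw [Finset.sum_congr rfl fun j _ => h1 j, Finset.sum_add_distrib, h2, ← Finset.smul_sum, h,
    smul_zero, add_zero]

/-- the morphism from `En` -/
noncomputable def fromEn {β : Blk K κ} (n : ℕ) (Z : Ob (sysB D β)) (v : Fin (n + 1) → Fin Z.m → D)
    (h : ∑ j, mv D κ n j • Z.cst (v j) = 0) : En D β n ⟶ Z :=
  Ob.mkHom (En D β n) Z v (fun p hp => En_kill n Z v h p hp)

theorem lin_fromEn {β : Blk K κ} (n : ℕ) (Z : Ob (sysB D β)) (v : Fin (n + 1) → Fin Z.m → D)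
    (h : ∑ j, mv D κ n j • Z.cst (v j) = 0) (j : Fin (n + 1)) :
    Ob.lin (fromEn n Z v h) ((En D β n).cst (Pi.single j 1)) = Z.cst (v j) :=
  Ob.lin_mkHom (En D β n) Z v (fun p hp => En_kill n Z v h p hp) j

/-- the basis maps of `En` -/
noncomputable def toEn (D : Type u) [DivisionRing D] [Algebra K D] (β : Blk K κ) (n : ℕ)
    (j : Fin (n + 1)) : (free1 D β).O ⟶ En D β n :=
  (free1 D β).hom (En D β n) (Pi.single j 1)

theorem lin_toEn (β : Blk K κ) (n : ℕ) (j : Fin (n + 1)) :
    Ob.lin (toEn D β n j) (free1 D β).one = (En D β n).cst (Pi.single j 1) :=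
  (free1 D β).lin_hom_one _ _

/-- an object of rank zero becomes zero -/
theorem map_eq_zero_of_rk {𝒟 : Type u'} [Category.{v'} 𝒟] [Preadditive 𝒟] {β : Blk K κ}
    (h : RkAx D β)
    (L : Ob (sysB D β) ⥤ 𝒟) [L.IsLocalization (rkD h).toRankFn.S] [L.Additive]
    {X Y Z : Ob (sysB D β)} (hY : (rkD h).rk Y = 0) (f : X ⟶ Y) (g : Y ⟶ Z) :
    L.map (f ≫ g) = 0 := by
  have h1 : cokernel.π (𝟙 Y) = 0 := by
    have h2 := cokernel.condition (𝟙 Y)
    rwa [Category.id_comp] at h2
  have h2 : (rkD h).toRankFn.S (cokernel.π (𝟙 Y)) :=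
    (rkD h).toRankFn.S_cokernel_π (𝟙 Y) hY
  have h3 := (rkD h).toRankFn.isIso_map L _ h2
  have h4 : 𝟙 (L.obj Y) = 0 := by
    rw [← cancel_mono (L.map (cokernel.π (𝟙 Y)))]
    rw [h1, L.map_zero, comp_zero, comp_zero]
  rw [L.map_comp, ← Category.comp_id (L.map f), h4, comp_zero, zero_comp]

/-- **uniqueness of expansions** -/
theorem hfree {𝒟 : Type u'} [Category.{v'} 𝒟] [Preadditive 𝒟] {β : Blk K κ} (h : RkAx D β)
    (L : Ob (sysB D β) ⥤ 𝒟) [L.IsLocalization (rkD h).toRankFn.S] [L.Additive]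
    (Z : Ob (sysB D β)) (g : (Fin 2 →₀ ℕ) →₀ ((free1 D β).O ⟶ Z))
    (hg : tot (free1 D β) (monB D κ) Z g = 0) (m : Fin 2 →₀ ℕ) : L.map (g m) = 0 := by
  classical
  choose v hv using fun m' => (free1 D β).lin_one Z (g m')
  let n := m 0 + m 1
  -- the sum of the terms of degree `n`
  have h1 : ∑ m' ∈ g.support, monB D κ (Multiplicative.ofAdd m') • cst κ 1 (v m') ∈ Z.N := by
    apply (Submodule.Quotient.mk_eq_zero Z.N).1
    change Z.N.mkQ _ = 0
    rw [map_sum, ← hg, tot, Finsupp.liftAddHom_apply, Finsupp.sum]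
    refine Finset.sum_congr rfl fun m' _ => ?_
    rw [map_smul]
    change _ = monB D κ (Multiplicative.ofAdd m') • Ob.lin (g m') (free1 D β).one
    rw [hv]
    rfl
  have h2 := Z.h.hom _ h1 (fun _ => n)
  rw [map_sum] at h2
  have h3 : ∀ m' ∈ g.support,
      cvi D κ 1 (Fin Z.m) (fun _ => n) (monB D κ (Multiplicative.ofAdd m') • cst κ 1 (v m')) =
      if m' 0 + m' 1 = n then monB D κ (Multiplicative.ofAdd m') • cst κ 1 (v m') else 0 := by
    intro m' _
    split_ifs with hn
    · apply cvi_of_mem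
      rw [← hn]
      exact mon_smul_mem m' (v m')
    · apply cvi_of_mem_ne (mon_smul_mem m' (v m'))
      intro h'
      exact hn (congrFun h' 0).symm
  rw [Finset.sum_congr rfl h3, ← Finset.sum_filter] at h2
  -- pass to the quotient
  have h4 : ∑ m' ∈ g.support.filter (fun m' => m' 0 + m' 1 = n),
      monB D κ (Multiplicative.ofAdd m') • Z.cst (v m') = 0 := by
    have h5 := (Submodule.Quotient.mk_eq_zero Z.N).2 h2
    change Z.N.mkQ _ = 0 at h5
    rw [map_sum] at h5
    rw [← h5]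
    refine Finset.sum_congr rfl fun m' _ => ?_
    rw [map_smul]
    rfl
  have h5 : ∑ j : Fin (n + 1), mv D κ n j • Z.cst (v (mm n j)) = 0 := by
    rw [← h4]
    symm
    apply Finset.sum_of_injOn (fun m' => (⟨m' 1 % (n + 1), Nat.mod_lt _ (Nat.succ_pos n)⟩ :
      Fin (n + 1)))
    · intro a ha b hb hab
      rw [Finset.mem_coe, Finset.mem_filter] at ha hb
      have h6 : a 1 % (n + 1) = b 1 % (n + 1) := congrArg Fin.val hab
      rw [Nat.mod_eq_of_lt (by omega), Nat.mod_eq_of_lt (by omega)] at h6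
      rw [← mm_eq a, ← mm_eq b, ha.2, hb.2, h6]
    · intro a _
      exact Finset.mem_coe.2 (Finset.mem_univ _)
    · intro j _ hj
      have h6 : g (mm n j) = 0 := by
        by_contra hne
        apply hj
        refine ⟨mm n j, ?_, ?_⟩
        · rw [Finset.mem_coe, Finset.mem_filter, Finsupp.mem_support_iff]
          refine ⟨hne, ?_⟩
          rw [mm_zero, mm_one]
          omega
        · apply Fin.ext
          change mm n j 1 % (n + 1) = j
          rw [mm_one, Nat.mod_eq_of_lt j.2]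
      rw [← hv, h6, Ob.lin_zero, LinearMap.zero_apply, smul_zero]
    · intro a ha
      rw [Finset.mem_filter] at ha
      have h6 : a 1 % (n + 1) = a 1 := Nat.mod_eq_of_lt (by omega)
      have h7 : mm n (a 1 % (n + 1)) = a := by
        rw [h6, ← ha.2, mm_eq]
      have h8 := monB_mm (D := D) (κ := κ) n ⟨a 1 % (n + 1), Nat.mod_lt _ (Nat.succ_pos n)⟩
      rw [← h8]
      change _ = monB D κ (Multiplicative.ofAdd (mm n (a 1 % (n + 1)))) •
        Z.cst (v (mm n (a 1 % (n + 1))))
      rw [h7]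
  have h6 : g m = toEn D β n ⟨m 1, by omega⟩ ≫ fromEn n Z (fun j => v (mm n j)) h5 := by
    apply (free1 D β).hom_ext_one
    rw [Ob.lin_comp, LinearMap.comp_apply, lin_toEn, lin_fromEn, hv]
    have h8 : mm n (m 1) = m := mm_eq m
    change Z.cst (v m) = Z.cst (v (mm n (m 1)))
    rw [h8]
  rw [h6]
  exact map_eq_zero_of_rk h L (rk_En h n) _ _

end Vale.Agent.P200F.V.SB

end

section

open CategoryTheory CategoryTheory.Limits

universe v' u' w u

namespace Vale.Agent.P200F.V.SB

open Module Vale.Agent.P200F.E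

variable {K : Type u} [Field K] {D : Type u} [DivisionRing D] [Algebra K D] {κ : ℕ}

theorem va_mem (v : Fin (κ + 2)) : va D κ 1 (0, v) ∈ pp D κ 1 (fun _ => 1) := by
  have h := single_mem (R := 1) (Finsupp.single ((0 : Fin 1), v) 1) (1 : D)
  have h1 : mdeg (Finsupp.single ((0 : Fin 1), v) 1 : Mon κ 1) = fun _ => 1 := by
    funext g
    unfold mdeg
    have hg : g = 0 := Subsingleton.elim _ _
    subst hg
    rw [Finset.sum_eq_single v]
    · rw [Finsupp.single_eq_same]
    · intro v' _ hv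
      rw [Finsupp.single_eq_of_ne]
      intro h
      exact hv (Prod.ext_iff.1 h).2
    · intro h
      exact absurd (Finset.mem_univ _) h
  rw [h1] at h
  exact h

theorem ev3_mem (i : Fin κ) : ev3 D κ i ∈ pvi D κ 1 (Fin 3) (fun _ => 1) := by
  intro j
  fin_cases j
  · exact va_mem 0
  · exact va_mem 1
  · exact Submodule.neg_mem _ (va_mem i.succ.succ)

/-- the object `O^3 / (x, y, -η_i)` -/
noncomputable abbrev E3 (D : Type u) [DivisionRing D] [Algebra K D] (β : Blk K κ) (i : Fin κ) :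
    Ob (sysB D β) :=
  ⟨3, N0 D (fun _ : Fin 1 => β) 3 ⊔ Submodule.span (PA D κ 1) {ev3 D κ i},
    isGi_sup_span (isGi_N0 _) (by
      rintro u rfl
      exact ⟨_, ev3_mem i⟩)⟩

/-- the basis maps of `E3` -/
noncomputable def toE3 (D : Type u) [DivisionRing D] [Algebra K D] (β : Blk K κ) (i : Fin κ)
    (j : Fin 3) : (free1 D β).O ⟶ E3 D β i :=
  (free1 D β).hom (E3 D β i) (Pi.single j 1)

theorem lin_toE3 (β : Blk K κ) (i : Fin κ) (j : Fin 3) :
    Ob.lin (toE3 D β i j) (free1 D β).one = (E3 D β i).cst (Pi.single j 1) :=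
  (free1 D β).lin_hom_one _ _

/-- elements of `E3` -/
theorem E3_mkQ (β : Blk K κ) (i : Fin κ) (p : Fin 3 → PA D κ 1) :
    (E3 D β i).N.mkQ p = p 0 • Ob.lin (toE3 D β i 0) (free1 D β).one +
      p 1 • Ob.lin (toE3 D β i 1) (free1 D β).one +
      p 2 • Ob.lin (toE3 D β i 2) (free1 D β).one := by
  rw [lin_toE3, lin_toE3, lin_toE3]
  have h := Ob.mkQ_eq_sum (E3 D β i) p
  rw [h]
  exact Fin.sum_univ_three (fun j : Fin 3 => p j • (E3 D β i).cst (Pi.single j 1))

theorem E3_rel (β : Blk K κ) (i : Fin κ) :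
    va D κ 1 (0, i.succ.succ) • Ob.lin (toE3 D β i 2) (free1 D β).one =
      va D κ 1 (0, 0) • Ob.lin (toE3 D β i 0) (free1 D β).one +
      va D κ 1 (0, 1) • Ob.lin (toE3 D β i 1) (free1 D β).one := by
  have h1 : (E3 D β i).N.mkQ (ev3 D κ i) = 0 :=
    (Submodule.Quotient.mk_eq_zero (E3 D β i).N).2
      (Submodule.mem_sup_right (Submodule.mem_span_singleton_self _))
  rw [E3_mkQ] at h1
  have h2 : ev3 D κ i 0 = va D κ 1 (0, 0) := rfl
  have h3 : ev3 D κ i 1 = va D κ 1 (0, 1) := rfl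
  have h4 : ev3 D κ i 2 = - va D κ 1 (0, i.succ.succ) := rfl
  rw [h2, h3, h4, neg_smul, add_neg_eq_zero] at h1
  exact h1.symm

/-- the vectors of the map `En 1 ⟶ coker` -/
noncomputable def w2 (D : Type u) [DivisionRing D] [Algebra K D] (β : Blk K κ) (i : Fin κ)
    (j : Fin (1 + 1)) : Fin (Ob.coker (toE3 D β i 2)).m → D :=
  (Pi.single (Fin.castSucc j) 1 : Fin 3 → D)

theorem cst_w2 (β : Blk K κ) (i : Fin κ) (j : Fin (1 + 1)) :
    (Ob.coker (toE3 D β i 2)).cst (w2 D β i j) =
      Ob.lin (Ob.cokerπ (toE3 D β i 2))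
        (Ob.lin (toE3 D β i (Fin.castSucc j)) (free1 D β).one) := by
  rw [lin_toE3]
  rfl

theorem coker_zero (β : Blk K κ) (i : Fin κ) :
    Ob.lin (Ob.cokerπ (toE3 D β i 2)) (Ob.lin (toE3 D β i 2) (free1 D β).one) = 0 := by
  rw [← LinearMap.comp_apply, ← Ob.lin_comp, Ob.comp_cokerπ]
  rfl

theorem mv_one_zero : mv D κ 1 0 = va D κ 1 (0, 0) := by
  change va D κ 1 (0, 0) ^ 1 * va D κ 1 (0, 1) ^ 0 = _
  rw [pow_one, pow_zero, mul_one]

theorem mv_one_one : mv D κ 1 1 = va D κ 1 (0, 1) := by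
  change va D κ 1 (0, 0) ^ 0 * va D κ 1 (0, 1) ^ 1 = _
  rw [pow_one, pow_zero, one_mul]

theorem coker_rel (β : Blk K κ) (i : Fin κ) :
    ∑ j, mv D κ 1 j • (Ob.coker (toE3 D β i 2)).cst (w2 D β i j) = 0 := by
  have h1 := congrArg (Ob.lin (Ob.cokerπ (toE3 D β i 2))) (E3_rel (D := D) β i)
  rw [map_add, map_smul, map_smul, map_smul, coker_zero, smul_zero] at h1
  rw [Fin.sum_univ_two, mv_one_zero, mv_one_one, cst_w2, cst_w2]
  exact h1.symm

theorem rk_coker (β : Blk K κ) (h : RkAx D β) (i : Fin κ) :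
    (rkD h).rk (Ob.coker (toE3 D β i 2)) = 0 := by
  let φ : En D β 1 ⟶ Ob.coker (toE3 D β i 2) := fromEn 1 _ (w2 D β i) (coker_rel β i)
  have h1 : ∀ j, Ob.lin φ ((En D β 1).cst (Pi.single j 1)) =
      Ob.lin (Ob.cokerπ (toE3 D β i 2))
        (Ob.lin (toE3 D β i (Fin.castSucc j)) (free1 D β).one) := fun j =>
    (lin_fromEn 1 _ (w2 D β i) (coker_rel β i) j).trans (cst_w2 β i j)
  have hφ : Epi φ := by
    apply Ob.epi_of_surjective
    intro y
    obtain ⟨z, rfl⟩ := Ob.cokerπ_surjective (toE3 D β i 2) y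
    obtain ⟨p, rfl⟩ := (E3 D β i).N.mkQ_surjective z
    refine ⟨p 0 • (En D β 1).cst (Pi.single 0 1) + p 1 • (En D β 1).cst (Pi.single 1 1), ?_⟩
    rw [map_add, map_smul, map_smul, h1, h1, E3_mkQ, map_add, map_add, map_smul, map_smul,
      map_smul, coker_zero, smul_zero, add_zero]
    rfl
  have h1 := (rkD h).rk_epi φ hφ
  rw [rk_En] at h1
  omega

theorem S_toE3 (β : Blk K κ) (h : RkAx D β) (i : Fin κ) :
    (rkD h).toRankFn.S (toE3 D β i 2) := by
  have h1 : (rkD h).rk (cokernel (toE3 D β i 2)) = 0 := by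
    rw [← (rkD h).rk_iso (Ob.cokerIso (toE3 D β i 2)), rk_coker β h i]
  refine ⟨h1, ?_⟩
  change (rkD h).rk (free1 D β).O = (rkD h).rk (E3 D β i)
  rw [rk_O h]
  have h2 := (rkD h).rk_coker (toE3 D β i 2)
  rw [rk_O h, rk_coker β h i] at h2
  have h3 := h.eta i _ (rkD_spec h (E3 D β i))
  omega

theorem va_comm (v : Fin (κ + 2)) (m : Multiplicative (Fin 2 →₀ ℕ)) :
    Commute (va D κ 1 (0, v)) (monB D κ m) := by
  change va D κ 1 (0, v) * monB D κ m = monB D κ m * va D κ 1 (0, v)
  rw [← ofAdd_toAdd m, monB_ofAdd, va, AddMonoidAlgebra.single_mul_single,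
    AddMonoidAlgebra.single_mul_single, add_comm]

theorem const_comm (β : Blk K κ) (d : D) (m : Multiplicative (Fin 2 →₀ ℕ)) :
    Commute ((sysB D β).C d) (monB D κ m) := by
  change AddMonoidAlgebra.single 0 d * monB D κ m = monB D κ m * AddMonoidAlgebra.single 0 d
  rw [← ofAdd_toAdd m, monB_ofAdd, AddMonoidAlgebra.single_mul_single,
    AddMonoidAlgebra.single_mul_single, add_comm, mul_one, one_mul]

/-- multiplication by an element of `K` -/
noncomputable def zK {β : Blk K κ} (k : K) (X : Ob (sysB D β)) : X ⟶ X :=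
  Ob.ofLin
    { toFun := fun z => ((sysB D β).C (algebraMap K D k)) • z
      map_add' := fun a b => smul_add _ _ _
      map_smul' := fun c z => by
        have h : (sysB D β).C (algebraMap K D k) * c = c * (sysB D β).C (algebraMap K D k) := by
          have h1 : (sysB D β).C (algebraMap K D k) = algebraMap K (PA D κ 1) k := rfl
          rw [h1]
          exact Algebra.commutes k c
        rw [RingHom.id_apply, smul_smul, h, ← smul_smul] }
    (fun v => ⟨(algebraMap K D k) • v, (Ob.cst_smul X _ v).symm⟩)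

theorem zK_natural {β : Blk K κ} (k : K) {X Y : Ob (sysB D β)} (f : X ⟶ Y) :
    f ≫ zK k Y = zK k X ≫ f := by
  apply Ob.hom_ext
  refine LinearMap.ext fun z => ?_
  change (sysB D β).C (algebraMap K D k) • Ob.lin f z =
    Ob.lin f ((sysB D β).C (algebraMap K D k) • z)
  rw [map_smul]

theorem rm_eq_zK {β : Blk K κ} (k : K) :
    (free1 D β).rm (algebraMap K D k) = zK k (free1 D β).O := by
  apply (free1 D β).hom_ext_one
  rw [Ob.Free1.lin_rm_one]
  rfl

section ev

variable {β : Blk K κ} (h : RkAx D β) {𝒟 : Type u'} [Category.{v'} 𝒟] [Preadditive 𝒟]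
  (L : Ob (sysB D β) ⥤ 𝒟) [L.IsLocalization (rkD h).toRankFn.S] [L.Additive]
  {U : Type u} [DivisionRing U] (θ : U ≃+* (End (L.obj (free1 D β).O))ᵐᵒᵖ)

include h in
theorem central (k : K) (u : U) :
    ιU (free1 D β) L θ (algebraMap K D k) * u = u * ιU (free1 D β) L θ (algebraMap K D k) := by
  apply mo_injective (free1 D β) L θ
  rw [mo_mul, mo_mul, mo_ιU, rm_eq_zK]
  exact ((rkD h).toRankFn.comm_natural L (fun X => zK k X) (fun f => zK_natural k f)
    (mo (free1 D β) L θ u)).symm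

/-- `U` as an algebra over `K` -/
@[instance_reducible]
noncomputable def algU : Algebra K U :=
  ((ιU (free1 D β) L θ).comp (algebraMap K D)).toAlgebra' (central h L θ)

/-- the expansion of every polynomial over `K` -/
theorem exists_Wt (q : MvPolynomial (Fin (κ + 2)) K) :
    ∃ E : AddMonoidAlgebra U (Fin 2 →₀ ℕ),
      Wt (free1 D β) (monB D κ) (rkD h) L θ (bm K D κ (0 : Fin 1) q) E := by
  induction q using MvPolynomial.induction_on with
  | C k =>
    refine ⟨AddMonoidAlgebra.single 0 (ιU (free1 D β) L θ (algebraMap K D k)), ?_⟩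
    have h1 : bm K D κ (0 : Fin 1) (MvPolynomial.C k) = (sysB D β).C (algebraMap K D k) := by
      rw [← MvPolynomial.algebraMap_eq, AlgHom.commutes]
      rfl
    rw [h1]
    exact Wt.scalar (algebraMap K D k) (fun m => const_comm β _ m)
  | add p q hp hq =>
    obtain ⟨E, hE⟩ := hp
    obtain ⟨E', hE'⟩ := hq
    exact ⟨E + E', by rw [map_add]; exact hE.add hE'⟩
  | mul_X p v hp =>
    obtain ⟨E, hE⟩ := hp
    have hv : ∃ E' : AddMonoidAlgebra U (Fin 2 →₀ ℕ),
        Wt (free1 D β) (monB D κ) (rkD h) L θ (bm K D κ (0 : Fin 1) (MvPolynomial.X v)) E' := by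
      rw [bm_X]
      refine Fin.cases ?_ (fun v => ?_) v
      · refine ⟨AddMonoidAlgebra.single (Finsupp.single 0 1) 1, ?_⟩
        rw [← monB_x]
        exact Wt.monomial _
      · refine Fin.cases ?_ (fun i => ?_) v
        · refine ⟨AddMonoidAlgebra.single (Finsupp.single 1 1) 1, ?_⟩
          have h1 : va D κ 1 (0, (0 : Fin (κ + 1)).succ) = va D κ 1 (0, 1) := rfl
          rw [h1, ← monB_y]
          exact Wt.monomial _
        · obtain ⟨u0, u1, hu⟩ := Wt.eta (F := free1 D β) (mon := monB D κ) (ρ := rkD h) (L := L)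
            (θ := θ) (Finsupp.single 0 1) (Finsupp.single 1 1) (va D κ 1 (0, i.succ.succ))
            (fun m => va_comm _ m) (E3 D β i) (toE3 D β i 2) (toE3 D β i 0) (toE3 D β i 1)
            (S_toE3 β h i) (by rw [monB_x, monB_y]; exact E3_rel β i)
          exact ⟨_, hu⟩
    obtain ⟨E', hE'⟩ := hv
    exact ⟨E * E', by rw [map_mul]; exact hE.mul hE'⟩

/-- **the elements of the block** -/
theorem exists_ev :
    letI := algU h L θ
    ∃ (ι : D →ₐ[K] U) (V : Fin κ → Fin 2 → U), (∀ d, ι d = ιU (free1 D β) L θ d) ∧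
      (∀ i ε d, V i ε * ι d = ι d * V i ε) ∧ IsEv β V := by
  let _ := algU h L θ
  have hfr := hfree h L
  obtain ⟨ev, hev, hev0⟩ := exists_hom (F := free1 D β) (mon := monB D κ) (ρ := rkD h) (L := L)
    (θ := θ) ((bm K D κ (0 : Fin 1) : MvPolynomial (Fin (κ + 2)) K →ₐ[K] PA D κ 1) :
      MvPolynomial (Fin (κ + 2)) K →+* PA D κ 1) hfr (exists_Wt h L θ)
  have hV : ∀ i : Fin κ, ∃ u0 u1 : U,
      Wt (free1 D β) (monB D κ) (rkD h) L θ (va D κ 1 (0, i.succ.succ))
      (AddMonoidAlgebra.single (Finsupp.single 0 1) u0 +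
        AddMonoidAlgebra.single (Finsupp.single 1 1) u1) := by
    intro i
    exact Wt.eta (F := free1 D β) (mon := monB D κ) (ρ := rkD h) (L := L)
            (θ := θ) (Finsupp.single 0 1) (Finsupp.single 1 1) (va D κ 1 (0, i.succ.succ))
            (fun m => va_comm _ m) (E3 D β i) (toE3 D β i 2) (toE3 D β i 0) (toE3 D β i 1)
            (S_toE3 β h i) (by rw [monB_x, monB_y]; exact E3_rel β i)
  choose u0 u1 hu using hV
  let ι : D →ₐ[K] U :=
    { ιU (free1 D β) L θ with
      commutes' := fun k => rfl }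
  refine ⟨ι, fun i => ![u0 i, u1 i], fun d => rfl, ?_, ?_⟩
  · intro i ε d
    have h1 : Wt (free1 D β) (monB D κ) (rkD h) L θ ((sysB D β).C d)
        (AddMonoidAlgebra.single 0 (ιU (free1 D β) L θ d)) :=
      Wt.scalar d (fun m => const_comm β d m)
    have h2 := Wt.commute hfr (hu i) h1 (by
      change va D κ 1 (0, i.succ.succ) * AddMonoidAlgebra.single 0 d =
        AddMonoidAlgebra.single 0 d * va D κ 1 (0, i.succ.succ)
      rw [va, AddMonoidAlgebra.single_mul_single, AddMonoidAlgebra.single_mul_single, add_comm,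
        mul_one, one_mul])
    rw [add_mul, mul_add, AddMonoidAlgebra.single_mul_single, AddMonoidAlgebra.single_mul_single,
      AddMonoidAlgebra.single_mul_single, AddMonoidAlgebra.single_mul_single, add_zero, zero_add,
      add_zero, zero_add] at h2
    have hne : (Finsupp.single 0 1 : Fin 2 →₀ ℕ) ≠ Finsupp.single 1 1 := by
      intro h3
      have h4 := DFunLike.congr_fun h3 0
      simp at h4
    have h3 := fun m => DFunLike.congr_fun (congrArg AddMonoidAlgebra.coeff h2) m
    simp only [AddMonoidAlgebra.coeff_add, AddMonoidAlgebra.coeff_single, Finsupp.add_apply] at h3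
    fin_cases ε
    · have h4 := h3 (Finsupp.single 0 1)
      rw [Finsupp.single_eq_same, Finsupp.single_eq_same, Finsupp.single_eq_of_ne hne,
        Finsupp.single_eq_of_ne hne, add_zero, add_zero] at h4
      exact h4
    · have h4 := h3 (Finsupp.single 1 1)
      rw [Finsupp.single_eq_same, Finsupp.single_eq_same, Finsupp.single_eq_of_ne hne.symm,
        Finsupp.single_eq_of_ne hne.symm, zero_add, zero_add] at h4
      exact h4
  · refine ⟨{ ev with commutes' := fun k => ?_ }, ?_, ?_, ?_, ?_⟩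
    · change ev (algebraMap K _ k) = algebraMap K (AddMonoidAlgebra U (Fin 2 →₀ ℕ)) k
      refine Wt.unique hfr (hev (algebraMap K _ k)) (p' := (sysB D β).C (algebraMap K D k)) ?_ ?_
      · exact Wt.scalar (algebraMap K D k) (fun m => const_comm β _ m)
      · change (bm K D κ (0 : Fin 1) (algebraMap K _ k)) • _ = _
        rw [AlgHom.commutes]
        rfl
    · change ev (MvPolynomial.X 0) = _
      refine Wt.unique hfr (hev _) (p' := va D κ 1 (0, 0)) ?_ ?_
      · rw [← monB_x]
        exact Wt.monomial _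
      · change (bm K D κ (0 : Fin 1) (MvPolynomial.X 0)) • _ = _
        rw [bm_X]
    · change ev (MvPolynomial.X 1) = _
      refine Wt.unique hfr (hev _) (p' := va D κ 1 (0, 1)) ?_ ?_
      · rw [← monB_y]
        exact Wt.monomial _
      · change (bm K D κ (0 : Fin 1) (MvPolynomial.X 1)) • _ = _
        rw [bm_X]
    · intro i
      change ev (MvPolynomial.X i.succ.succ) = _
      refine Wt.unique hfr (hev _) (p' := va D κ 1 (0, i.succ.succ)) (hu i) ?_
      change (bm K D κ (0 : Fin 1) (MvPolynomial.X i.succ.succ)) • _ = _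
      rw [bm_X]
    · intro i
      change ev (β.rel i) = 0
      apply hev0
      exact Ob.kill (free1 D β).O i (free1 D β).one

end ev

end Vale.Agent.P200F.V.SB

end
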