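import Vale.Agent.P200F.Ns
import Vale.Agent.P200F.C3
import Vale.Agent.P200F.E2

set_option linter.all false

section

namespace Vale.Agent.P200F.V

open Module

universe u

variable {K : Type u} [Field K] {D : Type u} [DivisionRing D] [Algebra K D] {κ : ℕ} {s : ℕ}
  {β : Blk K κ}

private theorem mu_va_comm (v : Fin 1 × Fin (κ + 2)) (u : PA D κ 1) :
    va D κ 1 v * u = u * va D κ 1 v := by
  unfold va
  induction u using AddMonoidAlgebra.induction_linear with
  | zero => rw [mul_zero, zero_mul]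
  | add f g hf hg => rw [mul_add, add_mul, hf, hg]
  | single m d => rw [AddMonoidAlgebra.single_mul_single, AddMonoidAlgebra.single_mul_single,
      one_mul, mul_one, add_comm]

private theorem mu_pow_mem (v : Fin (κ + 2)) (w : Fin (κ + 2)) (a b : ℕ) :
    va D κ 1 (0, v) ^ a * va D κ 1 (0, w) ^ b ∈ pp D κ 1 (fun _ => a + b) := by
  unfold va
  rw [AddMonoidAlgebra.single_pow, AddMonoidAlgebra.single_pow,
    AddMonoidAlgebra.single_mul_single]
  intro m hm
  rw [AddMonoidAlgebra.coeff_single, Finsupp.single_apply] at hm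
  have h : a • Finsupp.single ((0 : Fin 1), v) 1 + b • Finsupp.single ((0 : Fin 1), w) 1 = m := by
    by_contra hne
    rw [if_neg hne] at hm
    exact hm rfl
  subst h
  funext g
  have hg : g = 0 := Subsingleton.elim _ _
  subst hg
  unfold mdeg
  simp [Finsupp.single_apply, Finset.sum_add_distrib]

private theorem mu_va_mem (v : Fin (κ + 2)) : va D κ 1 (0, v) ∈ pp D κ 1 (fun _ => 1) := by
  have := mu_pow_mem (D := D) v v 1 0
  simpa using this

/-- the ideal of one component -/
private noncomputable def muJ (D : Type u) [DivisionRing D] [Algebra K D] (β : Blk K κ) :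
    Submodule (PA D κ 1) (PA D κ 1) :=
  (N0i D (fun _ : Fin 1 => β) (Fin 1)).comap (LinearMap.pi fun _ => LinearMap.id)

private theorem mem_muJ {p : PA D κ 1} :
    p ∈ muJ D β ↔ (fun _ => p) ∈ N0i D (fun _ : Fin 1 => β) (Fin 1) := Iff.rfl

private theorem mu_mem_N0 {u : Fin s → PA D κ 1} :
    u ∈ N0i D (fun _ : Fin 1 => β) (Fin s) ↔ ∀ j, u j ∈ muJ D β := by
  rw [mem_N0i_iff]
  rfl

private theorem mu_kernel (β : Blk K κ) : ∀ (n : ℕ) (u : Fin (n + 1) → PA D κ 1),
    (∀ i : Fin n, va D κ 1 (0, 0) * u i.castSucc - va D κ 1 (0, 1) * u i.succ ∈ muJ D β) →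
    ∃ p : PA D κ 1, ∀ i : Fin (n + 1),
      u i - p * (va D κ 1 (0, 0) ^ (i : ℕ) * va D κ 1 (0, 1) ^ (n - i : ℕ)) ∈ muJ D β := by
  intro n
  induction n with
  | zero =>
    intro u _
    refine ⟨u 0, fun i => ?_⟩
    have hi : i = 0 := Fin.ext (by omega)
    subst hi
    simp
  | succ n ih =>
    intro u hu
    have h1 : ∀ i : Fin (n + 1), ∃ p : PA D κ 1,
        u i.succ - va D κ 1 (0, 0) * p ∈ muJ D β ∧
        u i.castSucc - va D κ 1 (0, 1) * p ∈ muJ D β := by
      intro i
      have h := (muJ D β).neg_mem (hu i)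
      rw [neg_sub] at h
      exact koszul_xy β (mem_muJ.1 h)
    choose p hp1 hp2 using h1
    obtain ⟨q, hq⟩ := ih p (fun i => by
      have h2 := hp1 i.castSucc
      have h3 := hp2 i.succ
      rw [Fin.succ_castSucc] at h2
      have h4 := (muJ D β).sub_mem h3 h2
      have e : u i.succ.castSucc - va D κ 1 (0, 1) * p i.succ -
          (u i.succ.castSucc - va D κ 1 (0, 0) * p i.castSucc) =
          va D κ 1 (0, 0) * p i.castSucc - va D κ 1 (0, 1) * p i.succ := by abel
      rwa [e] at h4)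
    refine ⟨q, fun i => ?_⟩
    refine Fin.lastCases ?_ (fun j => ?_) i
    · have h2 := hp1 (Fin.last n)
      have h3 := (muJ D β).smul_mem (va D κ 1 (0, 0)) (hq (Fin.last n))
      have h4 := (muJ D β).add_mem h2 h3
      have e : u (Fin.last n).succ - va D κ 1 (0, 0) * p (Fin.last n) +
          va D κ 1 (0, 0) • (p (Fin.last n) - q * (va D κ 1 (0, 0) ^ ((Fin.last n : Fin (n + 1)) : ℕ) *
            va D κ 1 (0, 1) ^ (n - (Fin.last n : Fin (n + 1)) : ℕ))) =
          u (Fin.last (n + 1)) - q * (va D κ 1 (0, 0) ^ ((Fin.last (n + 1) : Fin (n + 2)) : ℕ) *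
            va D κ 1 (0, 1) ^ (n + 1 - (Fin.last (n + 1) : Fin (n + 2)) : ℕ)) := by
        rw [Fin.succ_last, smul_eq_mul, mul_sub, ← mul_assoc (va D κ 1 (0, 0)) q,
          mu_va_comm (0, 0) q, mul_assoc q, ← mul_assoc (va D κ 1 (0, 0)) (_ ^ _), ← pow_succ']
        simp
      rwa [e] at h4
    · have h2 := hp2 j
      have h3 := (muJ D β).smul_mem (va D κ 1 (0, 1)) (hq j)
      have h4 := (muJ D β).add_mem h2 h3
      have hj : (j : ℕ) ≤ n := Nat.lt_succ_iff.1 j.2
      have e : u j.castSucc - va D κ 1 (0, 1) * p j +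
          va D κ 1 (0, 1) • (p j - q * (va D κ 1 (0, 0) ^ (j : ℕ) *
            va D κ 1 (0, 1) ^ (n - j : ℕ))) =
          u j.castSucc - q * (va D κ 1 (0, 0) ^ ((j.castSucc : Fin (n + 2)) : ℕ) *
            va D κ 1 (0, 1) ^ (n + 1 - (j.castSucc : Fin (n + 2)) : ℕ)) := by
        rw [smul_eq_mul, mul_sub, ← mul_assoc (va D κ 1 (0, 1)) q,
          mu_va_comm (0, 1) q, mul_assoc q, ← mul_assoc (va D κ 1 (0, 1)) (_ ^ _),
          mu_va_comm (0, 1) (_ ^ _), mul_assoc, ← pow_succ', Fin.val_castSucc,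
          Nat.succ_sub hj]
        abel
      rwa [e] at h4

/-- the map `u ↦ (x u_i - y u_(i+1))` -/
private noncomputable def muPsi (D : Type u) [DivisionRing D] (κ n : ℕ) :
    (Fin (n + 1) → PA D κ 1) →ₗ[PA D κ 1] (Fin n → PA D κ 1) :=
  pmat fun i j => (if i = j.castSucc then va D κ 1 (0, 0) else 0) -
    (if i = j.succ then va D κ 1 (0, 1) else 0)

private theorem muPsi_apply (n : ℕ) (w : Fin (n + 1) → PA D κ 1) (j : Fin n) :
    muPsi D κ n w j = va D κ 1 (0, 0) * w j.castSucc - va D κ 1 (0, 1) * w j.succ := by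
  unfold muPsi
  rw [pmat_apply]
  simp only [mul_sub, Finset.sum_sub_distrib, mul_ite, mul_zero, Finset.sum_ite_eq',
    Finset.mem_univ, if_true]
  rw [mu_va_comm, mu_va_comm]

private theorem muPsi_homg (n : ℕ) : IsHomg (fun _ => 1) (muPsi D κ n) := by
  apply pmat_isHomg
  intro i j
  apply Submodule.sub_mem
  · split_ifs
    · exact mu_va_mem 0
    · exact Submodule.zero_mem _
  · split_ifs
    · exact mu_va_mem 1
    · exact Submodule.zero_mem _

/-- the vector of monomials -/
private noncomputable def muV (D : Type u) [DivisionRing D] (κ n : ℕ) : Fin (n + 1) → PA D κ 1 :=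
  fun i : Fin (n + 1) => va D κ 1 (0, 0) ^ (i : ℕ) * va D κ 1 (0, 1) ^ (n - i : ℕ)

private theorem muPsi_muV (n : ℕ) : muPsi D κ n (muV D κ n) = 0 := by
  funext j
  rw [muPsi_apply]
  unfold muV
  have hj : (j : ℕ) < n := j.2
  rw [Fin.val_castSucc, Fin.val_succ, ← mul_assoc, ← pow_succ', ← mul_assoc,
    mu_va_comm (0, 1) (_ ^ _), mul_assoc, ← pow_succ', Nat.sub_add_eq, Nat.sub_add_cancel (by omega)]
  exact sub_self _

private theorem muPsi_comap (n : ℕ) :
    (N0i D (fun _ : Fin 1 => β) (Fin n)).comap (muPsi D κ n) =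
      N0i D (fun _ : Fin 1 => β) (Fin (n + 1)) ⊔ Submodule.span (PA D κ 1) {muV D κ n} := by
  apply le_antisymm
  · intro w hw
    rw [Submodule.mem_comap, mu_mem_N0] at hw
    obtain ⟨p, hp⟩ := mu_kernel β n w (fun i => by
      have := hw i
      rwa [muPsi_apply] at this)
    have h1 : w - p • muV D κ n ∈ N0i D (fun _ : Fin 1 => β) (Fin (n + 1)) := by
      rw [mu_mem_N0]
      exact hp
    have h2 : w = (w - p • muV D κ n) + p • muV D κ n := by abel
    rw [h2]
    exact Submodule.add_mem_sup h1 (Submodule.smul_mem _ _ (Submodule.mem_span_singleton_self _))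
  · refine sup_le ?_ ?_
    · intro w hw
      rw [mu_mem_N0] at hw
      rw [Submodule.mem_comap, mu_mem_N0]
      intro j
      rw [muPsi_apply]
      exact (muJ D β).sub_mem ((muJ D β).smul_mem _ (hw _)) ((muJ D β).smul_mem _ (hw _))
    · rw [Submodule.span_singleton_le_iff_mem, Submodule.mem_comap, muPsi_muV]
      exact Submodule.zero_mem _

/-- multiples of a vector, as a map from `PA^1` -/
private noncomputable def muPhi (v : Fin s → PA D κ 1) :
    (Fin 1 → PA D κ 1) →ₗ[PA D κ 1] (Fin s → PA D κ 1) :=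
  pmat fun _ j => v j

private theorem muPhi_apply (v : Fin s → PA D κ 1) (w : Fin 1 → PA D κ 1) :
    muPhi v w = w 0 • v := by
  funext j
  unfold muPhi
  rw [pmat_apply, Fin.sum_univ_one]
  rfl

private theorem muPhi_range (v : Fin s → PA D κ 1) :
    LinearMap.range (muPhi v) = Submodule.span (PA D κ 1) {v} := by
  apply le_antisymm
  · rintro _ ⟨w, rfl⟩
    rw [muPhi_apply]
    exact Submodule.smul_mem _ _ (Submodule.mem_span_singleton_self _)
  · rw [Submodule.span_singleton_le_iff_mem]
    exact ⟨fun _ => 1, by rw [muPhi_apply, one_smul]⟩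

private theorem mu_free_x (β : Blk K κ) {p : PA D κ 1} (n a : ℕ) (ha : a ≤ n)
    (h : p * (va D κ 1 (0, 0) ^ a * va D κ 1 (0, 1) ^ (n - a)) ∈ muJ D β) : p ∈ muJ D β := by
  by_contra hcon
  have h1 := free_xy β (u := p) (fun h' => hcon (mem_muJ.2 h')) n
    (fun i => if (i : ℕ) = n - a then 1 else 0) (by
      rw [← mem_muJ]
      have hlt : n - a < n + 1 := by omega
      rw [Finset.sum_eq_single (⟨n - a, hlt⟩ : Fin (n + 1))]
      · simp only [if_true, one_smul]
        have e1 : n - (n - a) = a := by omega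
        rw [e1]
        have e2 : ∀ (k l : ℕ), va D κ 1 (0, 0) ^ k * va D κ 1 (0, 1) ^ l * p =
            p * (va D κ 1 (0, 0) ^ k * va D κ 1 (0, 1) ^ l) := by
          intro k l
          have c1 : ∀ (v : Fin 1 × Fin (κ + 2)) (k : ℕ) (q : PA D κ 1),
              va D κ 1 v ^ k * q = q * va D κ 1 v ^ k := by
            intro v k q
            exact (Commute.pow_left (mu_va_comm v q) k)
          rw [mul_assoc, c1 (0, 1) l p, ← mul_assoc, c1 (0, 0) k p, mul_assoc]
        rw [e2]
        exact h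
      · intro b _ hb
        rw [if_neg, zero_smul]
        intro hb'
        exact hb (Fin.ext hb')
      · intro hb
        exact absurd (Finset.mem_univ _) hb)
  have h2 := congrFun h1 ⟨n - a, by omega⟩
  simp at h2

private theorem muPhi_comap (β : Blk K κ) (v : Fin s → PA D κ 1) (j : Fin s) (n a : ℕ) (ha : a ≤ n)
    (hv : v j = va D κ 1 (0, 0) ^ a * va D κ 1 (0, 1) ^ (n - a))
    (hcen : ∀ i q, v i * q = q * v i) :
    (N0i D (fun _ : Fin 1 => β) (Fin s)).comap (muPhi v) = N0i D (fun _ : Fin 1 => β) (Fin 1) := by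
  apply le_antisymm
  · intro w hw
    rw [Submodule.mem_comap, mu_mem_N0] at hw
    rw [mu_mem_N0]
    intro i
    have hi : i = 0 := Subsingleton.elim _ _
    subst hi
    have h1 := hw j
    rw [muPhi_apply, Pi.smul_apply, smul_eq_mul, hv] at h1
    exact mu_free_x β n a ha h1
  · intro w hw
    rw [mu_mem_N0] at hw
    rw [Submodule.mem_comap, mu_mem_N0]
    intro i
    rw [muPhi_apply, Pi.smul_apply, smul_eq_mul, ← hcen]
    exact (muJ D β).smul_mem _ (hw 0)

private theorem mu_pow_comm (v w : Fin 1 × Fin (κ + 2)) (a b : ℕ) (q : PA D κ 1) :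
    va D κ 1 v ^ a * va D κ 1 w ^ b * q = q * (va D κ 1 v ^ a * va D κ 1 w ^ b) := by
  have c1 : ∀ (v : Fin 1 × Fin (κ + 2)) (k : ℕ) (q : PA D κ 1),
      va D κ 1 v ^ k * q = q * va D κ 1 v ^ k := fun v k q =>
    (Commute.pow_left (mu_va_comm v q) k)
  rw [mul_assoc, c1 w b q, ← mul_assoc, c1 v a q, mul_assoc]

private theorem mu_hO (β : Blk K κ) (m n : ℤ) : hO β.e (m + n) = hO β.e m + n * dl β.e := by
  unfold hO
  ring

/-- the dimensions of `PA^s / (N0 + PA v)`, `v` homogeneous of degree `n` -/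
private theorem mu_qd (β : Blk K κ) (v : Fin s → PA D κ 1) (j : Fin s) (n a : ℕ) (ha : a ≤ n)
    (hv : v j = va D κ 1 (0, 0) ^ a * va D κ 1 (0, 1) ^ (n - a))
    (hcen : ∀ i q, v i * q = q * v i) (hdeg : ∀ i, v i ∈ pp D κ 1 (fun _ => n)) :
    ∃ m0 : ℕ, ∀ m, m0 ≤ m →
      (qdi (N0i D (fun _ : Fin 1 => β) (Fin s) ⊔ Submodule.span (PA D κ 1) {v}) (fun _ => m) : ℤ) =
        (s - 1) * hO β.e m + n * dl β.e := by
  obtain ⟨n1, h1⟩ := qdi_N0i D β (Fin s)
  obtain ⟨n2, h2⟩ := qdi_N0i D β (Fin 1)
  refine ⟨max n1 n2 + n, fun m hm => ?_⟩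
  have hm1 : n1 ≤ m := by omega
  have hm2 : n2 ≤ m - n := by omega
  have hmn : n ≤ m := by omega
  have hhom : IsHomg (fun _ => n) (muPhi v) := pmat_isHomg fun _ i => hdeg i
  have key := qdi_comap hhom (N' := N0i D (fun _ : Fin 1 => β) (Fin s)) (isGi_N0i _).hom (fun _ => m - n)
  have e0 : ((fun _ => m - n) + fun _ => n : Fin 1 → ℕ) = fun _ => m := by
    funext i
    simp only [Pi.add_apply]
    omega
  rw [muPhi_comap β v j n a ha hv hcen, muPhi_range, e0] at key
  have k1 := h1 m hm1
  have k2 := h2 (m - n) hm2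
  have k3 := mu_hO β (m - n : ℕ) n
  have e1 : (((m - n : ℕ) : ℤ) + n) = m := by omega
  rw [e1] at k3
  have key' : (qdi (N0i D (fun _ : Fin 1 => β) (Fin 1)) (fun _ => m - n) : ℤ) +
      qdi (N0i D (fun _ : Fin 1 => β) (Fin s) ⊔ Submodule.span (PA D κ 1) {v}) (fun _ => m) =
      qdi (N0i D (fun _ : Fin 1 => β) (Fin s)) (fun _ => m) := by
    exact_mod_cast key
  rw [k1, k2, Nat.card_fin, Nat.card_fin] at key'
  push_cast at key' ⊢
  linear_combination key' + k3

theorem isRk_mu (hI : IntP D (fun _ : Fin 1 => β)) (n : ℕ) :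
    IsRk β (N0i D (fun _ : Fin 1 => β) (Fin (n + 1)) ⊔ Submodule.span (PA D κ 1)
      {fun i : Fin (n + 1) => va D κ 1 (0, 0) ^ (i : ℕ) * va D κ 1 (0, 1) ^ (n - i : ℕ)}) 0 := by
  change IsRk β (N0i D (fun _ : Fin 1 => β) (Fin (n + 1)) ⊔ Submodule.span (PA D κ 1) {muV D κ n}) 0
  refine ⟨⟨⊤, le_top, isGi_top _, 0, 0, rfl, 0, fun m _ => ?_⟩, ?_⟩
  · rw [qdi_top]; simp
  intro N' hle hN' r hr
  have hψ := muPsi_homg (D := D) (κ := κ) n
  have hcomap := muPsi_comap (D := D) (β := β) n
  have hN'' : IsGi (fun _ : Fin 1 => β) (N0i D (fun _ : Fin 1 => β) (Fin n) ⊔ N'.map (muPsi D κ n)) :=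
    IsGi.sup_map hψ hN' (isGi_N0i _)
  have hc2 : (N0i D (fun _ : Fin 1 => β) (Fin n) ⊔ N'.map (muPsi D κ n)).comap (muPsi D κ n) = N' := by
    apply le_antisymm
    · intro w hw
      rw [Submodule.mem_comap, Submodule.mem_sup] at hw
      obtain ⟨a, ha, b, hb, hab⟩ := hw
      obtain ⟨v, hv, rfl⟩ := Submodule.mem_map.1 hb
      have h3 : w - v ∈ (N0i D (fun _ : Fin 1 => β) (Fin n)).comap (muPsi D κ n) := by
        rw [Submodule.mem_comap, map_sub, ← hab, add_sub_cancel_right]
        exact ha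
      rw [hcomap] at h3
      have h4 := N'.add_mem (hle h3) hv
      rwa [sub_add_cancel] at h4
    · intro w hw
      rw [Submodule.mem_comap]
      exact Submodule.mem_sup_right (Submodule.mem_map_of_mem hw)
  obtain ⟨A, B, -, -, hB, m0, hAB⟩ := exists_AB hI hN''
  have hrng : N0i D (fun _ : Fin 1 => β) (Fin n) ⊔ N'.map (muPsi D κ n) ⊔
      LinearMap.range (muPsi D κ n) =
      N0i D (fun _ : Fin 1 => β) (Fin n) ⊔ LinearMap.range (muPsi D κ n) := by
    rw [sup_assoc]
    congr 1
    exact sup_eq_right.2 LinearMap.map_le_range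
  obtain ⟨n1, h1⟩ := qdi_N0i D β (Fin n)
  obtain ⟨n2, h2⟩ := mu_qd β (muV D κ n) 0 n 0 (Nat.zero_le n) (by simp [muV])
    (fun i q => mu_pow_comm _ _ _ _ q) (fun i => by
      have := mu_pow_mem (D := D) (κ := κ) 0 1 (i : ℕ) (n - i)
      have hi : (i : ℕ) ≤ n := Nat.lt_succ_iff.1 i.2
      rwa [Nat.add_sub_cancel' hi] at this)
  have hkey : IsRho β N' (-B) := by
    refine ⟨A, A + B, by ring, max (max n1 n2) m0, fun m hm => ?_⟩
    have hm1 : n1 ≤ m + 1 := by omega
    have hm2 : n2 ≤ m := by omega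
    have hm3 : m0 ≤ m + 1 := by omega
    have key1 := qdi_comap hψ hN''.hom (fun _ => m)
    have key2 := qdi_comap hψ (N' := N0i D (fun _ : Fin 1 => β) (Fin n)) (isGi_N0i _).hom (fun _ => m)
    have e0 : ((fun _ => m) + fun _ => 1 : Fin 1 → ℕ) = fun _ => m + 1 := rfl
    rw [hc2, hrng, e0] at key1
    rw [hcomap, e0] at key2
    have k1 := h1 (m + 1) hm1
    have k2 := h2 m hm2
    have k3 := hAB (m + 1) hm3
    have k4 := mu_hO β m 1
    have key1' : (qdi N' (fun _ => m) : ℤ) +
        qdi (N0i D (fun _ : Fin 1 => β) (Fin n) ⊔ LinearMap.range (muPsi D κ n)) (fun _ => m + 1) =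
        qdi (N0i D (fun _ : Fin 1 => β) (Fin n) ⊔ N'.map (muPsi D κ n)) (fun _ => m + 1) := by
      exact_mod_cast key1
    have key2' : (qdi (N0i D (fun _ : Fin 1 => β) (Fin (n + 1)) ⊔
        Submodule.span (PA D κ 1) {muV D κ n}) (fun _ => m) : ℤ) +
        qdi (N0i D (fun _ : Fin 1 => β) (Fin n) ⊔ LinearMap.range (muPsi D κ n)) (fun _ => m + 1) =
        qdi (N0i D (fun _ : Fin 1 => β) (Fin n)) (fun _ => m + 1) := by
      exact_mod_cast key2
    rw [k3] at key1'
    rw [k1, k2, Nat.card_fin] at key2'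
    push_cast at *
    rw [k4] at key1' key2'
    linear_combination key1' - key2'
  have := isRho_unique hr hkey
  omega

theorem isRk_eta (hI : IntP D (fun _ : Fin 1 => β)) (i : Fin κ) {k : ℕ}
    (h : IsRk β (N0i D (fun _ : Fin 1 => β) (Fin 3) ⊔ Submodule.span (PA D κ 1)
      {![va D κ 1 (0, 0), va D κ 1 (0, 1), -va D κ 1 (0, i.succ.succ)]}) k) : 1 ≤ k := by
  have hdeg : ∀ j, (![va D κ 1 (0, 0), va D κ 1 (0, 1), -va D κ 1 (0, i.succ.succ)] :
      Fin 3 → PA D κ 1) j ∈ pp D κ 1 (fun _ => 1) := by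
    intro j
    fin_cases j
    · exact mu_va_mem 0
    · exact mu_va_mem 1
    · exact Submodule.neg_mem _ (mu_va_mem _)
  obtain ⟨m0, hm⟩ := mu_qd (D := D) β ![va D κ 1 (0, 0), va D κ 1 (0, 1),
    -va D κ 1 (0, i.succ.succ)] 0 1 1 le_rfl (by simp) (fun j q => by
      fin_cases j
      · exact mu_va_comm _ _
      · exact mu_va_comm _ _
      · change -va D κ 1 (0, i.succ.succ) * q = q * -va D κ 1 (0, i.succ.succ)
        rw [neg_mul, mul_neg, mu_va_comm]) hdeg
  have h1 := h.2 _ le_rfl ((IsGi.sup_span (isGi_N0i _) (fun w hw => by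
    rw [Set.mem_singleton_iff] at hw
    subst hw
    exact ⟨_, hdeg⟩))) 1 ⟨2, 1, by norm_num, m0, fun m hm' => by
      rw [hm m hm']
      push_cast
      ring⟩
  exact_mod_cast h1

end Vale.Agent.P200F.V

end

section

namespace Vale.Agent.P200F.V

open Module

universe u

variable {K : Type u} [Field K] {D : Type u} [DivisionRing D] [Algebra K D] {κ : ℕ}
  {ι ι' : Type} {β : Blk K κ}

/-- `rho` is invariant under reindexing -/
theorem a7_isRho_funLeft (e : ι ≃ ι') {N : Submodule (PA D κ 1) (ι → PA D κ 1)} {r : ℤ}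
    (h : IsRho β N r) :
    IsRho β (N.comap (LinearMap.funLeft (PA D κ 1) (PA D κ 1) e)) r := by
  obtain ⟨A, B, hr, m0, h0⟩ := h
  exact ⟨A, B, hr, m0, fun m hm => by rw [qdi_funLeft, h0 m hm]⟩

/-- reindexing back -/
theorem a7_comap_symm (e : ι ≃ ι') (N : Submodule (PA D κ 1) (ι → PA D κ 1)) :
    (N.comap (LinearMap.funLeft (PA D κ 1) (PA D κ 1) e)).comap
      (LinearMap.funLeft (PA D κ 1) (PA D κ 1) e.symm) = N := by
  ext u
  rw [Submodule.mem_comap, Submodule.mem_comap]
  have h : LinearMap.funLeft (PA D κ 1) (PA D κ 1) e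
      (LinearMap.funLeft (PA D κ 1) (PA D κ 1) e.symm u) = u := by
    funext i
    rw [LinearMap.funLeft_apply, LinearMap.funLeft_apply, Equiv.symm_apply_apply]
  rw [h]

/-- the rank is invariant under reindexing -/
theorem isRk_funLeft (e : ι ≃ ι') {N : Submodule (PA D κ 1) (ι → PA D κ 1)} {k : ℕ}
    (h : IsRk β N k) : IsRk β (N.comap (LinearMap.funLeft (PA D κ 1) (PA D κ 1) e)) k := by
  obtain ⟨⟨N', h1, h2, h3⟩, h4⟩ := h
  refine ⟨⟨_, Submodule.comap_mono h1, isGi_funLeft e h2, a7_isRho_funLeft e h3⟩, ?_⟩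
  intro N'' h5 h6 r h7
  refine h4 _ ?_ (isGi_funLeft e.symm h6) r (a7_isRho_funLeft e.symm h7)
  have h8 := Submodule.comap_mono (f := LinearMap.funLeft (PA D κ 1) (PA D κ 1) e.symm) h5
  rwa [a7_comap_symm] at h8

/-- the two versions of the smallest object -/
theorem a7_N0_eq (s : ℕ) : N0 D (fun _ : Fin 1 => β) s = N0i D (fun _ : Fin 1 => β) (Fin s) := by
  apply le_antisymm
  · unfold N0
    rw [Submodule.span_le]
    rintro u ⟨g, i, j, rfl⟩
    refine Submodule.subset_span ⟨g, i, Pi.single j 1, ?_⟩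
    rw [← Pi.single_smul, smul_eq_mul, mul_one]
  · unfold N0i
    rw [Submodule.span_le]
    rintro u ⟨g, i, w, rfl⟩
    have h2 : bm K D κ g (((fun _ : Fin 1 => β) g).rel i) • w =
        ∑ j, w j • (Pi.single j (bm K D κ g (((fun _ : Fin 1 => β) g).rel i)) :
          Fin s → PA D κ 1) := by
      funext j
      rw [Finset.sum_apply, Finset.sum_eq_single j]
      · rw [Pi.smul_apply, Pi.smul_apply, Pi.single_eq_same, smul_eq_mul, smul_eq_mul]
        exact bm_comm _ _ _
      · intro j' _ hj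
        rw [Pi.smul_apply, Pi.single_eq_of_ne hj.symm, smul_zero]
      · intro hj
        exact absurd (Finset.mem_univ _) hj
    rw [h2]
    exact Submodule.sum_mem _ fun j _ =>
      Submodule.smul_mem _ _ (Submodule.subset_span ⟨g, i, j, rfl⟩)

theorem a7_le_comap (e : ι ≃ ι') (u : ι' → PA D κ 1) :
    N0i D (fun _ : Fin 1 => β) ι' ⊔ Submodule.span (PA D κ 1) {u} ≤
      (N0i D (fun _ : Fin 1 => β) ι ⊔ Submodule.span (PA D κ 1) {fun i => u (e i)}).comap
        (LinearMap.funLeft (PA D κ 1) (PA D κ 1) e) := by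
  apply sup_le
  · unfold N0i
    rw [Submodule.span_le]
    rintro v ⟨g, i, w, rfl⟩
    exact Submodule.mem_sup_left (Submodule.subset_span ⟨g, i, fun j => w (e j), rfl⟩)
  · rw [Submodule.span_singleton_le_iff_mem]
    exact Submodule.mem_sup_right (Submodule.mem_span_singleton_self _)

/-- reindexing of an object generated by one vector -/
theorem a7_comap_eq (e : ι ≃ ι') (u : ι' → PA D κ 1) :
    (N0i D (fun _ : Fin 1 => β) ι ⊔ Submodule.span (PA D κ 1) {fun i => u (e i)}).comap
        (LinearMap.funLeft (PA D κ 1) (PA D κ 1) e) =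
      N0i D (fun _ : Fin 1 => β) ι' ⊔ Submodule.span (PA D κ 1) {u} := by
  apply le_antisymm _ (a7_le_comap e u)
  have h1 := Submodule.comap_mono (f := LinearMap.funLeft (PA D κ 1) (PA D κ 1) e)
    (a7_le_comap (β := β) e.symm fun i => u (e i))
  have h2 := a7_comap_symm (D := D) (κ := κ) e.symm (N0i D (fun _ : Fin 1 => β) ι' ⊔
    Submodule.span (PA D κ 1) {fun i => u (e (e.symm i))})
  rw [Equiv.symm_symm] at h2
  rw [h2] at h1
  simpa only [Equiv.apply_symm_apply] using h1

/-- constant matrices are homogeneous of degree `0` -/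
theorem a7_cmat_isHomg {s t : ℕ} (w : Fin s → Fin t → D) : IsHomg 0 (cmat κ 1 w) := by
  intro n u
  have h1 : ∀ u : Fin s → PA D κ 1, cmat κ 1 w u =
      fun j => ∑ i, u i * AddMonoidAlgebra.single 0 (w i j) := by
    intro u
    funext j
    rw [cmat, Fintype.linearCombination_apply, Finset.sum_apply]
    rfl
  rw [h1, h1]
  funext j
  change cp D κ 1 (n + 0) (∑ i, u i * AddMonoidAlgebra.single 0 (w i j)) =
    ∑ i, cp D κ 1 n (u i) * AddMonoidAlgebra.single 0 (w i j)
  rw [map_sum]
  refine Finset.sum_congr rfl fun i _ => cp_mul_right ?_ n (u i)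
  have h2 := a1_single_mem (0 : Mon κ 1) (w i j)
  have h3 : mdeg (0 : Mon κ 1) = 0 := by
    funext g
    unfold mdeg
    exact Finset.sum_eq_zero fun _ _ => rfl
  rwa [h3] at h2

theorem rkAx (hI : IntP D (fun _ : Fin 1 => β)) : RkAx D β where
  ex s N hN := exists_isRk hI ((isGi_iff N).2 hN)
  coker s t N N' w _ _ hle k k' k'' h h' h'' := by
    refine isRk_comap_le hI (a7_cmat_isHomg w) hle h h' ?_
    have h1 : LinearMap.range (cmat κ 1 w) =
        Submodule.span (PA D κ 1) (Set.range fun i => cst κ 1 (w i)) :=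
      Fintype.range_linearCombination _ _
    rwa [h1]
  prod s t N N' hN hN' k k' h h' :=
    isRk_funLeft finSumFinEquiv
      (isRk_dsum hI ((isGi_iff N).2 hN) ((isGi_iff N').2 hN') h h')
  one := by
    have h := isRk_N0i hI (Fin 1)
    rw [Nat.card_eq_fintype_card, Fintype.card_fin] at h
    rwa [a7_N0_eq]
  top s := isRk_top β (Fin s)
  mono n := by
    rw [a7_N0_eq]
    have h := isRk_funLeft Fin.revPerm (isRk_mu hI n)
    have h1 : (fun i : Fin (n + 1) => va D κ 1 (0, 0) ^ (i : ℕ) * va D κ 1 (0, 1) ^ (n - i : ℕ)) =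
        fun i => mv D κ n (Fin.revPerm i) := by
      funext i
      unfold mv
      have h2 : ((Fin.revPerm i : Fin (n + 1)) : ℕ) = n - i := by
        rw [Fin.revPerm_apply, Fin.val_rev]
        omega
      have h3 : (i : ℕ) = n - (n - i) := by
        have := i.isLt
        omega
      rw [h2, ← h3]
    rw [h1, a7_comap_eq] at h
    exact h
  eta i k h := by
    rw [a7_N0_eq] at h
    exact isRk_eta hI i h

end Vale.Agent.P200F.V

end

section

open CategoryTheory CategoryTheory.Limits

universe v' u' u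

namespace Vale.Agent.P200F.V.SB

open Module Vale.Agent.P200F.E

section transport

/-- the dimension of a span is invariant under isomorphisms of rings -/
theorem finrank_span_transport {U : Type*} [Ring U] {E' : Type*} [Ring E'] (θ : U ≃+* E')
    {I : Type*} (A : Set (I → U)) :
    finrank U (Submodule.span U A) =
      finrank E' (Submodule.span E' ((fun v i => θ (v i)) '' A)) := by
  have h1 : ∀ x ∈ Submodule.span U A, (fun i => θ (x i)) ∈
      Submodule.span E' ((fun v i => θ (v i)) '' A) := by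
    intro x hx
    induction hx using Submodule.span_induction with
    | mem x hx => exact Submodule.subset_span ⟨x, hx, rfl⟩
    | zero =>
      have : (fun i : I => θ ((0 : I → U) i)) = 0 := by
        funext i
        simp
      rw [this]
      exact Submodule.zero_mem _
    | add x y _ _ hx hy =>
      have : (fun i : I => θ ((x + y) i)) = (fun i => θ (x i)) + fun i => θ (y i) := by
        funext i
        simp
      rw [this]
      exact Submodule.add_mem _ hx hy
    | smul c x _ hx =>
      have : (fun i : I => θ ((c • x) i)) = θ c • fun i => θ (x i) := by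
        funext i
        simp
      rw [this]
      exact Submodule.smul_mem _ _ hx
  have h2 : ∀ y ∈ Submodule.span E' ((fun v i => θ (v i)) '' A), (fun i => θ.symm (y i)) ∈
      Submodule.span U A := by
    intro x hx
    induction hx using Submodule.span_induction with
    | mem x hx =>
      obtain ⟨v, hv, rfl⟩ := hx
      have : (fun i : I => θ.symm (θ (v i))) = v := by
        funext i
        simp
      rw [this]
      exact Submodule.subset_span hv
    | zero =>
      have : (fun i : I => θ.symm ((0 : I → E') i)) = 0 := by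
        funext i
        simp
      rw [this]
      exact Submodule.zero_mem _
    | add x y _ _ hx hy =>
      have : (fun i : I => θ.symm ((x + y) i)) =
          (fun i => θ.symm (x i)) + fun i => θ.symm (y i) := by
        funext i
        simp
      rw [this]
      exact Submodule.add_mem _ hx hy
    | smul c x _ hx =>
      have : (fun i : I => θ.symm ((c • x) i)) = θ.symm c • fun i => θ.symm (x i) := by
        funext i
        simp
      rw [this]
      exact Submodule.smul_mem _ _ hx
  let j : Submodule.span U A ≃+ Submodule.span E' ((fun v i => θ (v i)) '' A) :=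
    { toFun := fun x => ⟨fun i => θ (x.1 i), h1 x.1 x.2⟩
      invFun := fun y => ⟨fun i => θ.symm (y.1 i), h2 y.1 y.2⟩
      left_inv := fun x => by
        apply Subtype.ext
        funext i
        exact θ.symm_apply_apply _
      right_inv := fun x => by
        apply Subtype.ext
        funext i
        exact θ.apply_symm_apply _
      map_add' := fun x y => by
        apply Subtype.ext
        funext i
        exact map_add θ _ _ }
  have h3 := lift_rank_eq_of_equiv_equiv θ j θ.bijective (fun c x => by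
    apply Subtype.ext
    funext i
    exact map_mul θ _ _)
  have h4 := congrArg Cardinal.toNat h3
  rwa [Cardinal.toNat_lift, Cardinal.toNat_lift] at h4

end transport

variable {K : Type u} [Field K] {D : Type u} [DivisionRing D] [Algebra K D] {κ : ℕ} {β : Blk K κ}

theorem isGi_cpw (I : Type) {π : Type} {N : Submodule (PA D κ 1) (π → PA D κ 1)}
    (hN : IsGi (fun _ : Fin 1 => β) N) : IsGi (fun _ : Fin 1 => β) (cpw I N) where
  hom u hu n i := hN.hom _ (hu i) n
  rel g i w j := hN.rel g i fun q => w (j, q)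

/-- constants in `K` are central -/
theorem cpo_comm (c : K) (a : PA D κ 1) :
    cpo D κ 1 (algebraMap K D c) * a = a * cpo D κ 1 (algebraMap K D c) := by
  induction a using AddMonoidAlgebra.induction_linear with
  | zero => rw [zero_mul, mul_zero]
  | add a b ha hb => rw [add_mul, mul_add, ha, hb]
  | single m d =>
    rw [cpo, AddMonoidAlgebra.single_mul_single, AddMonoidAlgebra.single_mul_single, zero_add,
      add_zero, Algebra.commutes]

/-- linear maps of a sum -/
theorem lin_sum {D P : Type u} [Ring D] [Ring P] {𝒮 : Sys D P} {X Y : Ob 𝒮} {ι : Type*}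
    (s : Finset ι) (f : ι → (X ⟶ Y)) : Ob.lin (∑ i ∈ s, f i) = ∑ i ∈ s, Ob.lin (f i) := by
  classical
  induction s using Finset.induction_on with
  | empty => rw [Finset.sum_empty, Finset.sum_empty, Ob.lin_zero]
  | insert a s ha ih => rw [Finset.sum_insert ha, Finset.sum_insert ha, Ob.lin_add, ih]

section obj
variable {I J J' : Type} [DecidableEq I] {t : ℕ} (X : Ob (sysB D β)) {m : ℕ}
  (e : I × Fin X.m ≃ Fin m)

/-- the power `X^I` -/
noncomputable abbrev powO : Ob (sysB D β) :=
  ⟨m, (cpw I X.N).comap (LinearMap.funLeft (PA D κ 1) (PA D κ 1) e),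
    isGi_funLeft e (isGi_cpw I X.h)⟩

/-- the quotient by the rows -/
noncomputable abbrev presO (f : Fin t → Fin X.m → D) (z : J → I → Fin t → K) (a : J' → I → K) :
    Ob (sysB D β) :=
  ⟨m, (RS K X.N f z a).comap (LinearMap.funLeft (PA D κ 1) (PA D κ 1) e),
    isGi_funLeft e (isGi_RS X.h f z a)⟩

/-- the vector of a coordinate -/
noncomputable def incL (i : I) : (Fin X.m → PA D κ 1) →ₗ[PA D κ 1] (Fin m → PA D κ 1) :=
  LinearMap.pi fun k => if (e.symm k).1 = i then LinearMap.proj (e.symm k).2 else 0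

theorem incL_apply (i : I) (v : Fin X.m → PA D κ 1) (k : Fin m) :
    incL X e i v k = if (e.symm k).1 = i then v (e.symm k).2 else 0 := by
  unfold incL
  rw [LinearMap.pi_apply]
  split_ifs <;> rfl

theorem incL_e (i j : I) (v : Fin X.m → PA D κ 1) (q : Fin X.m) :
    incL X e i v (e (j, q)) = if j = i then v q else 0 := by
  rw [incL_apply, e.symm_apply_apply]

/-- the inclusions -/
noncomputable def incO (i : I) : X ⟶ powO X e :=
  Ob.ofLin (Submodule.mapQ _ _ (incL X e i) (by
    intro v hv j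
    have h1 : (fun q => LinearMap.funLeft (PA D κ 1) (PA D κ 1) e (incL X e i v) (j, q)) =
        if j = i then v else 0 := by
      funext q
      rw [LinearMap.funLeft_apply, incL_e]
      split_ifs <;> rfl
    rw [h1]
    split_ifs
    · exact hv
    · exact X.N.zero_mem)) (fun v => ⟨fun k => if (e.symm k).1 = i then v (e.symm k).2 else 0, by
      refine congrArg (powO X e).N.mkQ ?_
      funext k
      change _ = (sysB D β).C (if (e.symm k).1 = i then v (e.symm k).2 else 0)
      rw [incL_apply, apply_ite (sysB D β).C, map_zero]⟩)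

theorem lin_incO (i : I) (p : Fin X.m → PA D κ 1) :
    Ob.lin (incO X e i) (X.N.mkQ p) = (powO X e).N.mkQ (incL X e i p) := rfl

/-- the projections -/
noncomputable def prO (i : I) : powO X e ⟶ X :=
  Ob.ofLin (Submodule.mapQ _ _ (LinearMap.funLeft (PA D κ 1) (PA D κ 1) fun q => e (i, q))
    (fun w hw => hw i)) (fun v => ⟨fun q => v (e (i, q)), rfl⟩)

theorem lin_prO (i : I) (p : Fin m → PA D κ 1) :
    Ob.lin (prO X e i) ((powO X e).N.mkQ p) = X.N.mkQ fun q => p (e (i, q)) := rfl

theorem inc_pr (i k : I) : incO X e i ≫ prO X e k = if i = k then 𝟙 X else 0 := by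
  apply Ob.mkQ_ext
  intro p
  rw [Ob.lin_comp, LinearMap.comp_apply, lin_incO, lin_prO]
  have h1 : (fun q => incL X e i p (e (k, q))) = if i = k then p else 0 := by
    funext q
    rw [incL_e]
    by_cases h : i = k
    · rw [if_pos h.symm, if_pos h]
    · rw [if_neg (fun h' => h h'.symm), if_neg h]
      rfl
  rw [h1]
  split_ifs
  · rfl
  · rw [map_zero]
    rfl

theorem pr_inc [Fintype I] : ∑ i, prO X e i ≫ incO X e i = 𝟙 (powO X e) := by
  apply Ob.mkQ_ext
  intro p
  rw [lin_sum, LinearMap.sum_apply]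
  have h1 : ∀ i ∈ Finset.univ, Ob.lin (prO X e i ≫ incO X e i) ((powO X e).N.mkQ p) =
      (powO X e).N.mkQ (incL X e i fun q => p (e (i, q))) := fun i _ => rfl
  rw [Finset.sum_congr rfl h1, ← map_sum]
  refine congrArg (powO X e).N.mkQ ?_
  funext k
  rw [Finset.sum_apply]
  have h2 : ∀ i ∈ Finset.univ, incL X e i (fun q => p (e (i, q))) k =
      if (e.symm k).1 = i then p (e (i, (e.symm k).2)) else 0 := fun i _ => incL_apply X e i _ k
  rw [Finset.sum_congr rfl h2, Finset.sum_ite_eq, if_pos (Finset.mem_univ _)]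
  exact congrArg p (e.apply_symm_apply k)

/-- multiplication by a scalar of `K` -/
noncomputable def scL (c : K) {n : ℕ} : (Fin n → PA D κ 1) →ₗ[PA D κ 1] (Fin n → PA D κ 1) where
  toFun v k := cpo D κ 1 (algebraMap K D c) * v k
  map_add' v w := by
    funext k
    exact mul_add _ _ _
  map_smul' p v := by
    funext k
    change cpo D κ 1 (algebraMap K D c) * (p * v k) = p * (cpo D κ 1 (algebraMap K D c) * v k)
    rw [← mul_assoc, cpo_comm, mul_assoc]

/-- multiplication by a scalar of `K` -/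
noncomputable def scO (c : K) : X ⟶ X :=
  Ob.ofLin (Submodule.mapQ _ _ (scL c) (fun v hv => X.N.smul_mem _ hv))
    (fun v => ⟨fun k => algebraMap K D c * v k, by
      refine congrArg X.N.mkQ ?_
      funext k
      exact (map_mul (sysB D β).C _ _).symm⟩)

theorem lin_scO' (c : K) (x : X.M) :
    Ob.lin (scO X c) x = (sysB D β).C (algebraMap K D c) • x := by
  obtain ⟨p, rfl⟩ := X.N.mkQ_surjective x
  rfl

variable (f : Fin t → Fin X.m → D) (z : J → I → Fin t → K) (a : J' → I → K)

/-- the projection -/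
noncomputable def qO : powO X e ⟶ presO X e f z a :=
  Ob.ofLin (Submodule.mapQ _ _ LinearMap.id (by
    intro w hw
    exact Submodule.mem_sup_left hw)) (fun v => ⟨v, rfl⟩)

theorem lin_qO (p : Fin m → PA D κ 1) :
    Ob.lin (qO X e f z a) ((powO X e).N.mkQ p) = (presO X e f z a).N.mkQ p := rfl

theorem epi_qO : Epi (qO X e f z a) := by
  apply Ob.epi_of_surjective
  intro y
  obtain ⟨p, rfl⟩ := (presO X e f z a).N.mkQ_surjective y
  exact ⟨(powO X e).N.mkQ p, rfl⟩

/-- the rows -/
noncomputable def alO (j : J) : (free1 D β).O ⟶ powO X e :=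
  (free1 D β).hom (powO X e) fun k => ∑ l, algebraMap K D (z j (e.symm k).1 l) * f l (e.symm k).2

/-- the scalar rows -/
noncomputable def gaO [Fintype I] (j : J') : X ⟶ powO X e := ∑ i, scO X (a j i) ≫ incO X e i

theorem gaO_pr [Fintype I] (j : J') (i : I) : gaO X e a j ≫ prO X e i = scO X (a j i) := by
  rw [gaO, Preadditive.sum_comp, Finset.sum_eq_single i]
  · rw [Category.assoc, inc_pr, if_pos rfl, Category.comp_id]
  · intro k _ hk
    rw [Category.assoc, inc_pr, if_neg hk, comp_zero]
  · intro h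
    exact absurd (Finset.mem_univ _) h

theorem lin_gaO [Fintype I] (j : J') (b : Fin X.m → PA D κ 1) :
    Ob.lin (gaO X e a j) (X.N.mkQ b) = (powO X e).N.mkQ fun k =>
      cpo D κ 1 (algebraMap K D (a j (e.symm k).1)) * b (e.symm k).2 := by
  rw [gaO, lin_sum, LinearMap.sum_apply]
  have h1 : ∀ i ∈ Finset.univ, Ob.lin (scO X (a j i) ≫ incO X e i) (X.N.mkQ b) =
      (powO X e).N.mkQ (incL X e i (scL (a j i) b)) := fun i _ => rfl
  rw [Finset.sum_congr rfl h1, ← map_sum]
  refine congrArg (powO X e).N.mkQ ?_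
  funext k
  rw [Finset.sum_apply]
  have h2 : ∀ i ∈ Finset.univ, incL X e i (scL (a j i) b) k =
      if (e.symm k).1 = i then scL (a j i) b (e.symm k).2 else 0 := fun i _ => incL_apply X e i _ k
  rw [Finset.sum_congr rfl h2, Finset.sum_ite_eq, if_pos (Finset.mem_univ _)]
  rfl

theorem lin_alO (j : J) : Ob.lin (alO X e f z j) (free1 D β).one = (powO X e).N.mkQ fun k =>
      cpo D κ 1 (∑ l, algebraMap K D (z j (e.symm k).1 l) * f l (e.symm k).2) := by
  rw [alO, Ob.Free1.lin_hom_one]
  rfl

theorem alO_q (j : J) : alO X e f z j ≫ qO X e f z a = 0 := by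
  apply Ob.Free1.hom_ext_one
  rw [Ob.lin_comp, LinearMap.comp_apply, lin_alO, lin_qO, Ob.lin_zero, LinearMap.zero_apply]
  refine (Submodule.Quotient.mk_eq_zero _).2 ?_
  refine Submodule.mem_sup_right (Submodule.mem_sup_left (Submodule.subset_span ⟨j, ?_⟩))
  funext w
  rw [LinearMap.funLeft_apply, e.symm_apply_apply]

theorem gaO_q [Fintype I] (j : J') : gaO X e a j ≫ qO X e f z a = 0 := by
  apply Ob.mkQ_ext
  intro b
  rw [Ob.lin_comp, LinearMap.comp_apply, lin_gaO, lin_qO, Ob.lin_zero, LinearMap.zero_apply]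
  refine (Submodule.Quotient.mk_eq_zero _).2 ?_
  refine Submodule.mem_sup_right (Submodule.mem_sup_right (Submodule.subset_span ⟨j, b, ?_⟩))
  funext w
  rw [LinearMap.funLeft_apply, e.symm_apply_apply]

theorem univO [Fintype I] {Z : Ob (sysB D β)} (g : powO X e ⟶ Z)
    (h1 : ∀ j, alO X e f z j ≫ g = 0) (h2 : ∀ j, gaO X e a j ≫ g = 0) :
    ∃ g' : presO X e f z a ⟶ Z, qO X e f z a ≫ g' = g := by
  have hle : RS K X.N f z a ≤ (LinearMap.ker ((Ob.lin g).comp (powO X e).N.mkQ)).comap
      (LinearMap.funLeft (PA D κ 1) (PA D κ 1) e.symm) := by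
    refine sup_le ?_ (sup_le ?_ ?_)
    · intro w hw
      have h3 : LinearMap.funLeft (PA D κ 1) (PA D κ 1) e.symm w ∈ (powO X e).N := by
        intro i
        have h4 : (fun q => LinearMap.funLeft (PA D κ 1) (PA D κ 1) e
            (LinearMap.funLeft (PA D κ 1) (PA D κ 1) e.symm w) (i, q)) = fun q => w (i, q) := by
          funext q
          rw [LinearMap.funLeft_apply, LinearMap.funLeft_apply, e.symm_apply_apply]
        rw [h4]
        exact hw i
      have h5 : (powO X e).N.mkQ (LinearMap.funLeft (PA D κ 1) (PA D κ 1) e.symm w) = 0 :=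
        (Submodule.Quotient.mk_eq_zero _).2 h3
      rw [Submodule.mem_comap, LinearMap.mem_ker, LinearMap.comp_apply, h5, map_zero]
    · rw [Submodule.span_le]
      rintro _ ⟨j, rfl⟩
      have h3 := congrArg (fun F : (free1 D β).O ⟶ Z => Ob.lin F (free1 D β).one) (h1 j)
      rw [Ob.lin_comp, LinearMap.comp_apply, lin_alO, Ob.lin_zero, LinearMap.zero_apply] at h3
      exact h3
    · rw [Submodule.span_le]
      rintro _ ⟨j, b, rfl⟩
      have h3 := congrArg (fun F : X ⟶ Z => Ob.lin F (X.N.mkQ b)) (h2 j)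
      rw [Ob.lin_comp, LinearMap.comp_apply, lin_gaO, Ob.lin_zero, LinearMap.zero_apply] at h3
      exact h3
  refine ⟨Ob.ofLin (Submodule.liftQ _ ((Ob.lin g).comp (powO X e).N.mkQ) ?_) ?_, ?_⟩
  · intro p hp
    have h3 := hle hp
    rw [Submodule.mem_comap] at h3
    have h4 : LinearMap.funLeft (PA D κ 1) (PA D κ 1) e.symm
        (LinearMap.funLeft (PA D κ 1) (PA D κ 1) e p) = p := by
      funext k
      rw [LinearMap.funLeft_apply, LinearMap.funLeft_apply, e.apply_symm_apply]
    rwa [h4] at h3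
  · intro v
    obtain ⟨w, hw⟩ := Ob.lin_cst g v
    exact ⟨w, hw⟩
  · apply Ob.mkQ_ext
    intro p
    rfl

end obj

section main
variable (h : RkAx D β) {𝒟 : Type u'} [Category.{v'} 𝒟] [Preadditive 𝒟]
  (L : Ob (sysB D β) ⥤ 𝒟) [L.IsLocalization (rkD h).toRankFn.S] [L.Additive]
  {U : Type u} [DivisionRing U] [Algebra K U] (θ : U ≃+* (End (L.obj (free1 D β).O))ᵐᵒᵖ)

include h in
/-- **The dimension formula** -/
theorem rkl (hK : ∀ c : K, algebraMap K U c = ιU (free1 D β) L θ (algebraMap K D c))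
    (t : ℕ) (u : Fin t → U) : ∃ (p : ℕ) (N : Submodule (PA D κ 1) (Fin p → PA D κ 1))
    (f : Fin t → Fin p → D), IsGi (fun _ : Fin 1 => β) N ∧
      ∀ (I J J' : Type) [Finite I] [Finite J] [Finite J'] (z : J → I → Fin t → K)
        (a : J' → I → K),
        IsRk β (RS K N f z a) (finrank U ((I → U) ⧸
          (Submodule.span U (Set.range fun (j : J) (i : I) => ∑ k, algebraMap K U (z j i k) * u k) ⊔
            Submodule.span U (Set.range fun (j : J') (i : I) => algebraMap K U (a j i))))) := by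
  obtain ⟨X, s, f, hs, hf⟩ := (rkD h).toRankFn.exists_common L
    (fun k : Fin t => mo (free1 D β) L θ (u k))
  choose fv hfv using fun k => Ob.Free1.lin_one (free1 D β) X (f k)
  refine ⟨X.m, X.N, fv, X.h, ?_⟩
  intro I J J' _ _ _ z a
  classical
  cases nonempty_fintype I
  let m := Fintype.card (I × Fin X.m)
  let e : I × Fin X.m ≃ Fin m := Fintype.equivFin _
  have hsi := (rkD h).toRankFn.isIso_map L s hs
  have hpr : ∀ j i, alO X e fv z j ≫ prO X e i =
      ∑ k, (free1 D β).rm (algebraMap K D (z j i k)) ≫ f k := by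
    intro j i
    apply Ob.Free1.hom_ext_one
    rw [Ob.lin_comp, LinearMap.comp_apply, lin_alO, lin_prO, lin_sum, LinearMap.sum_apply]
    have h1 : ∀ k ∈ Finset.univ, Ob.lin ((free1 D β).rm (algebraMap K D (z j i k)) ≫ f k)
        (free1 D β).one = X.N.mkQ fun q => cpo D κ 1 (algebraMap K D (z j i k) * fv k q) := by
      intro k _
      rw [Ob.Free1.rm_comp, hfv, ← Ob.cst_smul]
      rfl
    rw [Finset.sum_congr rfl h1, ← map_sum]
    refine congrArg X.N.mkQ ?_
    funext q
    rw [Finset.sum_apply]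
    simp only [e.symm_apply_apply]
    exact map_sum (AddMonoidAlgebra.singleZeroRingHom (R := D) (M := Mon κ 1)) _ _
  have hrow := (rkD h).toRankFn.rank_pres L (rk_O h) s hs (incO X e) (prO X e) (inc_pr X e)
    (pr_inc X e) (qO X e fv z a) (epi_qO X e fv z a) (alO X e fv z) (gaO X e a)
    (alO_q X e fv z a) (gaO_q X e fv z a) (fun g h1 h2 => univO X e fv z a g h1 h2)
    (fun j i => θ (∑ k, algebraMap K U (z j i k) * u k)) (by
      intro j i
      rw [hpr, L.map_sum]
      change mo (free1 D β) L θ (∑ k, algebraMap K U (z j i k) * u k) ≫ L.map s = _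
      have h1 : mo (free1 D β) L θ (∑ k, algebraMap K U (z j i k) * u k) =
          ∑ k, mo (free1 D β) L θ (algebraMap K U (z j i k) * u k) := by
        refine map_sum (AddMonoidHom.mk' (mo (free1 D β) L θ)
          (fun x y => mo_add (free1 D β) L θ x y)) _ _
      rw [h1, Preadditive.sum_comp]
      refine Finset.sum_congr rfl fun k _ => ?_
      rw [mo_mul, hK, mo_ιU, Category.assoc, hf, L.map_comp])
    (fun j i => θ (algebraMap K U (a j i))) (by
      intro j i
      rw [gaO_pr]
      change mo (free1 D β) L θ (algebraMap K U (a j i)) ≫ L.map s = _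
      rw [hK, mo_ιU, ← L.map_comp]
      refine congrArg L.map ?_
      apply Ob.Free1.hom_ext_one
      rw [Ob.Free1.rm_comp, Ob.lin_comp, LinearMap.comp_apply, lin_scO'])
  have h2 : Submodule.span (End (L.obj (free1 D β).O))ᵐᵒᵖ
        (Set.range fun (j : J) (i : I) => θ (∑ k, algebraMap K U (z j i k) * u k)) ⊔
      Submodule.span (End (L.obj (free1 D β).O))ᵐᵒᵖ
        (Set.range fun (j : J') (i : I) => θ (algebraMap K U (a j i))) =
      Submodule.span (End (L.obj (free1 D β).O))ᵐᵒᵖ ((fun v i => θ (v i)) ''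
        ((Set.range fun (j : J) (i : I) => ∑ k, algebraMap K U (z j i k) * u k) ∪
          Set.range fun (j : J') (i : I) => algebraMap K U (a j i))) := by
    rw [Set.image_union, Submodule.span_union, ← Set.range_comp, ← Set.range_comp]
    rfl
  rw [h2, ← finrank_span_transport θ, Submodule.span_union] at hrow
  have h3 := Submodule.finrank_quotient_add_finrank
    (Submodule.span U (Set.range fun (j : J) (i : I) => ∑ k, algebraMap K U (z j i k) * u k) ⊔
            Submodule.span U (Set.range fun (j : J') (i : I) => algebraMap K U (a j i)))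
  rw [Module.finrank_fintype_fun_eq_card] at h3
  have h4 : finrank U ((I → U) ⧸
          (Submodule.span U (Set.range fun (j : J) (i : I) => ∑ k, algebraMap K U (z j i k) * u k) ⊔
            Submodule.span U (Set.range fun (j : J') (i : I) => algebraMap K U (a j i)))) =
      (rkD h).rk (presO X e fv z a) := by
    have h5 : (rkD h).toRankFn.rk (presO X e fv z a) = (rkD h).rk (presO X e fv z a) := rfl
    omega
  rw [h4]
  have h6 := isRk_funLeft e.symm (rkD_spec h (presO X e fv z a))
  have h7 : (presO X e fv z a).N.comap (LinearMap.funLeft (PA D κ 1) (PA D κ 1) e.symm) =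
      RS K X.N fv z a := by
    ext w
    have h8 : LinearMap.funLeft (PA D κ 1) (PA D κ 1) e
        (LinearMap.funLeft (PA D κ 1) (PA D κ 1) e.symm w) = w := by
      funext k
      rw [LinearMap.funLeft_apply, LinearMap.funLeft_apply, e.symm_apply_apply]
    change LinearMap.funLeft (PA D κ 1) (PA D κ 1) e
        (LinearMap.funLeft (PA D κ 1) (PA D κ 1) e.symm w) ∈ RS K X.N fv z a ↔ _
    rw [h8]
  rwa [h7] at h6

end main

end Vale.Agent.P200F.V.SB

end
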