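import Vale.Agent.P200F.Ns
import Vale.Agent.P200F.A1

set_option linter.all false

section

namespace Vale.Agent.P200F.V.Rig

open MvPolynomial

universe u

/-- the blocks `N0 ≤ g < C.N` are the blocks of all the pairs of elements of `Y` -/
structure Rich {K : Type u} [Field K] {n κ : ℕ} (C : Circ K n κ) (N0 e : ℕ) (S : Finset K)
    (Y : Finset (Gen →₀ K)) : Prop where
  le : N0 ≤ C.N
  card : e < S.card
  single : ∀ v, Used n κ N0 v → Finsupp.single v 1 ∈ Y
  add : ∀ v w, Used n κ N0 v → Used n κ N0 w → v ≠ w → ∀ c ∈ S,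
    Finsupp.single v 1 + c • Finsupp.single w 1 ∈ Y
  vl : ∀ g < N0, ∀ s, C.vl g s ∈ Y
  vladd : ∀ g < N0, ∀ s t, s ≠ t → ∀ c ∈ S, C.vl g s + c • C.vl g t ∈ Y
  pair : ∀ y ∈ Y, ∀ y' ∈ Y, ∃ g < C.N, N0 ≤ g ∧ C.inp g 0 = y ∧ C.inp g 1 = y'
  new : ∀ g, N0 ≤ g → g < C.N → C.β g = Blk.triv K κ ∧ C.inp g 0 ∈ Y ∧ C.inp g 1 ∈ Y
  sup : ∀ y ∈ Y, Sup n κ N0 y

end Vale.Agent.P200F.V.Rig

end

section

namespace Vale.Agent.P200F.V.Rig

open MvPolynomial

universe u

theorem used_mono {n κ N N' : ℕ} (h : N ≤ N') {v : Gen} (hv : Used n κ N v) : Used n κ N' v := by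
  rcases v with i | p
  · exact hv
  · exact ⟨lt_of_lt_of_le hv.1 h, hv.2⟩

theorem sup_mono {K : Type u} [Field K] {n κ N N' : ℕ} (h : N ≤ N') {t : Gen →₀ K}
    (ht : Sup n κ N t) : Sup n κ N' t := fun v hv => used_mono h (ht v hv)

theorem sup_add {K : Type u} [Field K] {n κ N : ℕ} {t t' : Gen →₀ K}
    (ht : Sup n κ N t) (ht' : Sup n κ N t') : Sup n κ N (t + t') := by
  classical
  intro v hv
  rcases Finset.mem_union.1 (Finsupp.support_add hv) with h | h
  · exact ht v h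
  · exact ht' v h

theorem sup_smul {K : Type u} [Field K] {n κ N : ℕ} {t : Gen →₀ K}
    (ht : Sup n κ N t) (c : K) : Sup n κ N (c • t) := fun v hv =>
  ht v (Finsupp.support_smul hv)

theorem sup_single {K : Type u} [Field K] {n κ N : ℕ} {v : Gen} (hv : Used n κ N v) (c : K) :
    Sup n κ N (Finsupp.single v c) := by
  intro w hw
  have : w = v := Finset.mem_singleton.1 (Finsupp.support_single_subset hw)
  rw [this]
  exact hv

theorem sup_vl {K : Type u} [Field K] {n κ : ℕ} (C : Circ K n κ) {g : ℕ} (hg : g < C.N)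
    (s : Fin (κ + 2)) : Sup n κ C.N (C.vl g s) := by
  refine Fin.cases ?_ (fun s => ?_) s
  · exact sup_mono hg.le (C.old g hg 0)
  · refine Fin.cases ?_ (fun j => ?_) s
    · exact sup_mono hg.le (C.old g hg 1)
    · exact sup_single (v := Sum.inr (g, (j : ℕ))) ⟨hg, j.2⟩ 1

theorem finite_used_pair (n κ N : ℕ) : {v : Gen | Used n κ N v}.Finite := by
  refine Set.Finite.subset (s := (Sum.inl '' Set.Iio n) ∪ (Sum.inr '' (Set.Iio N ×ˢ Set.Iio κ))) ?_ ?_
  · exact ((Set.finite_Iio n).image _).union (((Set.finite_Iio N).prod (Set.finite_Iio κ)).image _)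
  · rintro (i | p) hv
    · exact Or.inl ⟨i, hv, rfl⟩
    · exact Or.inr ⟨p, ⟨hv.1, hv.2⟩, rfl⟩

/-- adding trivial blocks with inputs in the list `l` -/
noncomputable def Circ.addPairs {K : Type u} [Field K] {n κ : ℕ} (C : Circ K n κ)
    (l : List ((Gen →₀ K) × (Gen →₀ K))) (hl : ∀ p ∈ l, C.S p.1 ∧ C.S p.2) : Circ K n κ where
  N := C.N + l.length
  β := C.β
  inp g := if g < C.N then C.inp g else
    ![(l.getD (g - C.N) 0).1, (l.getD (g - C.N) 0).2]
  int := C.int
  triv g hg := C.triv g (by omega)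
  old := by
    intro g hg ε
    by_cases h : g < C.N
    · rw [if_pos h]
      exact C.old g h ε
    · rw [if_neg h]
      push Not at h
      have h1 : g - C.N < l.length := by omega
      have h2 := hl (l.getD (g - C.N) 0) (by
        rw [List.getD_eq_getElem _ _ h1]
        exact List.getElem_mem h1)
      refine Fin.cases ?_ (fun ε => ?_) ε
      · exact sup_mono h h2.1
      · have : ε = 0 := Subsingleton.elim _ _
        subst this
        exact sup_mono h h2.2

section addPairs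
variable {K : Type u} [Field K] {n κ : ℕ} (C : Circ K n κ)
  (l : List ((Gen →₀ K) × (Gen →₀ K))) (hl : ∀ p ∈ l, C.S p.1 ∧ C.S p.2)

theorem Circ.addPairs_inp_old {g : ℕ} (hg : g < C.N) : (C.addPairs l hl).inp g = C.inp g :=
  if_pos hg

theorem Circ.addPairs_inp_new (i : Fin l.length) :
    (C.addPairs l hl).inp (C.N + i) = ![(l.get i).1, (l.get i).2] := by
  have h : ¬ C.N + (i : ℕ) < C.N := by omega
  change (if C.N + (i : ℕ) < C.N then C.inp (C.N + i) else
    ![(l.getD (C.N + i - C.N) 0).1, (l.getD (C.N + i - C.N) 0).2]) = _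
  rw [if_neg h, Nat.add_sub_cancel_left, List.getD_eq_getElem _ _ i.2]
  rfl

theorem Circ.addPairs_vl {g : ℕ} (hg : g < C.N) (s : Fin (κ + 2)) :
    (C.addPairs l hl).vl g s = C.vl g s := by
  unfold Circ.vl
  rw [C.addPairs_inp_old l hl hg]

theorem Circ.addPairs_ev {g : ℕ} (hg : g < C.N) : (C.addPairs l hl).ev g = C.ev g := by
  unfold Circ.ev
  congr 1
  funext s
  rw [C.addPairs_vl l hl hg]

theorem Circ.addPairs_ext : C.Ext (RingHom.id K) (C.addPairs l hl) where
  le := Nat.le_add_right _ _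
  leκ := le_refl _
  I := by
    intro P hP
    rw [MvPolynomial.map_id]
    refine Ideal.span_mono ?_ hP
    rintro Q ⟨g, hg, i, rfl⟩
    refine ⟨g, lt_of_lt_of_le hg (Nat.le_add_right _ _), i, ?_⟩
    rw [C.addPairs_ev l hl hg]
    rfl

end addPairs

theorem exists_finset_card_pair {K : Type u} [Infinite K] (e : ℕ) : ∃ S : Finset K, e < S.card := by
  obtain ⟨S, hS⟩ := Infinite.exists_subset_card_eq K (e + 1)
  exact ⟨S, by omega⟩

/-- adding the pair blocks of a rich set -/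
theorem exists_rich {K : Type u} [Field K] [Infinite K] {n κ : ℕ} (hn : 0 < n) (C : Circ K n κ)
    (e : ℕ) (E : Finset (Gen →₀ K)) (hE : ∀ y ∈ E, C.S y) :
    ∃ (C1 : Circ K n κ) (S : Finset K) (Y : Finset (Gen →₀ K)), C.Ext (RingHom.id K) C1 ∧
      E ⊆ Y ∧ Rich C1 C.N e S Y ∧ 0 < C1.N := by
  classical
  obtain ⟨S, hS⟩ := exists_finset_card_pair (K := K) e
  let Un : Finset Gen := (finite_used_pair n κ C.N).toFinset
  have hUn : ∀ v, v ∈ Un ↔ Used n κ C.N v := fun v => Set.Finite.mem_toFinset _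
  let Y1 : Finset (Gen →₀ K) := Un.image fun v => Finsupp.single v 1
  let Y2 : Finset (Gen →₀ K) := (Un ×ˢ Un ×ˢ S).image fun p =>
    Finsupp.single p.1 1 + p.2.2 • Finsupp.single p.2.1 1
  let Y3 : Finset (Gen →₀ K) := (Finset.range C.N ×ˢ Finset.univ).image fun p => C.vl p.1 p.2
  let Y4 : Finset (Gen →₀ K) :=
    (Finset.range C.N ×ˢ (Finset.univ : Finset (Fin (κ + 2))) ×ˢ Finset.univ ×ˢ S).image fun p =>
      C.vl p.1 p.2.1 + p.2.2.2 • C.vl p.1 p.2.2.1
  let Y : Finset (Gen →₀ K) := E ∪ (Y1 ∪ (Y2 ∪ (Y3 ∪ Y4)))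
  have hY1 : ∀ v, Used n κ C.N v → Finsupp.single v (1 : K) ∈ Y := by
    intro v hv
    exact Finset.mem_union_right _ (Finset.mem_union_left _
      (Finset.mem_image.2 ⟨v, (hUn v).2 hv, rfl⟩))
  have hY2 : ∀ v w, Used n κ C.N v → Used n κ C.N w → ∀ c ∈ S,
      Finsupp.single v (1 : K) + c • Finsupp.single w (1 : K) ∈ Y := by
    intro v w hv hw c hc
    exact Finset.mem_union_right _ (Finset.mem_union_right _ (Finset.mem_union_left _
      (Finset.mem_image.2 ⟨(v, w, c), by simp [(hUn v).2 hv, (hUn w).2 hw, hc], rfl⟩)))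
  have hY3 : ∀ g < C.N, ∀ s, C.vl g s ∈ Y := by
    intro g hg s
    exact Finset.mem_union_right _ (Finset.mem_union_right _ (Finset.mem_union_right _
      (Finset.mem_union_left _ (Finset.mem_image.2 ⟨(g, s), by simp [hg], rfl⟩))))
  have hY4 : ∀ g < C.N, ∀ s t, ∀ c ∈ S, C.vl g s + c • C.vl g t ∈ Y := by
    intro g hg s t c hc
    exact Finset.mem_union_right _ (Finset.mem_union_right _ (Finset.mem_union_right _
      (Finset.mem_union_right _ (Finset.mem_image.2 ⟨(g, s, t, c), by simp [hg, hc], rfl⟩))))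
  have hsup : ∀ y ∈ Y, Sup n κ C.N y := by
    intro y hy
    rcases Finset.mem_union.1 hy with h | hy
    · exact hE y h
    rcases Finset.mem_union.1 hy with h | hy
    · obtain ⟨v, hv, rfl⟩ := Finset.mem_image.1 h
      exact sup_single ((hUn v).1 hv) 1
    rcases Finset.mem_union.1 hy with h | hy
    · obtain ⟨⟨v, w, c⟩, hv, rfl⟩ := Finset.mem_image.1 h
      simp only [Finset.mem_product] at hv
      exact sup_add (sup_single ((hUn v).1 hv.1) 1) (sup_smul (sup_single ((hUn w).1 hv.2.1) 1) c)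
    rcases Finset.mem_union.1 hy with h | h
    · obtain ⟨⟨g, s⟩, hg, rfl⟩ := Finset.mem_image.1 h
      simp only [Finset.mem_product, Finset.mem_range] at hg
      exact sup_vl C hg.1 s
    · obtain ⟨⟨g, s, t, c⟩, hg, rfl⟩ := Finset.mem_image.1 h
      simp only [Finset.mem_product, Finset.mem_range] at hg
      exact sup_add (sup_vl C hg.1 s) (sup_smul (sup_vl C hg.1 t) c)
  let l : List ((Gen →₀ K) × (Gen →₀ K)) := (Y ×ˢ Y).toList
  have hmem : ∀ p, p ∈ l ↔ p.1 ∈ Y ∧ p.2 ∈ Y := by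
    intro p
    rw [Finset.mem_toList, Finset.mem_product]
  have hl : ∀ p ∈ l, C.S p.1 ∧ C.S p.2 := fun p hp =>
    ⟨hsup _ ((hmem p).1 hp).1, hsup _ ((hmem p).1 hp).2⟩
  have h0 : Finsupp.single (Sum.inl 0 : Gen) (1 : K) ∈ Y := hY1 _ hn
  have hpos : 0 < l.length :=
    List.length_pos_of_mem ((hmem (Finsupp.single (Sum.inl 0) 1, Finsupp.single (Sum.inl 0) 1)).2
      ⟨h0, h0⟩)
  refine ⟨C.addPairs l hl, S, Y, C.addPairs_ext l hl, Finset.subset_union_left, ?_, ?_⟩
  · refine ⟨Nat.le_add_right _ _, hS, hY1, fun v w hv hw _ c hc => hY2 v w hv hw c hc, ?_, ?_, ?_, ?_,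
      hsup⟩
    · intro g hg s
      rw [C.addPairs_vl l hl hg]
      exact hY3 g hg s
    · intro g hg s t _ c hc
      rw [C.addPairs_vl l hl hg, C.addPairs_vl l hl hg]
      exact hY4 g hg s t c hc
    · intro y hy y' hy'
      obtain ⟨i, hi⟩ := List.get_of_mem ((hmem (y, y')).2 ⟨hy, hy'⟩)
      refine ⟨C.N + i, Nat.add_lt_add_left i.2 _, Nat.le_add_right _ _, ?_, ?_⟩
      · rw [C.addPairs_inp_new l hl i, hi]
        rfl
      · rw [C.addPairs_inp_new l hl i, hi]
        rfl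
    · intro g hg hg'
      have hg1 : g < C.N + l.length := hg'
      obtain ⟨j, rfl⟩ := Nat.exists_eq_add_of_le hg
      have hj : j < l.length := by omega
      have e1 := C.addPairs_inp_new l hl ⟨j, hj⟩
      have h2 := (hmem (l.get ⟨j, hj⟩)).1 (List.get_mem l ⟨j, hj⟩)
      refine ⟨C.triv _ hg, ?_, ?_⟩
      · change (C.addPairs l hl).inp (C.N + ((⟨j, hj⟩ : Fin l.length) : ℕ)) 0 ∈ Y
        rw [e1]
        exact h2.1
      · change (C.addPairs l hl).inp (C.N + ((⟨j, hj⟩ : Fin l.length) : ℕ)) 1 ∈ Y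
        rw [e1]
        exact h2.2
  · exact lt_of_lt_of_le hpos (Nat.le_add_left _ _)

theorem ev_pair {K : Type u} [Field K] {n κ : ℕ} (C : Circ K n κ) (g a b : ℕ) :
    C.ev g (X 0 ^ a * X 1 ^ b) = lin K (C.inp g 0) ^ a * lin K (C.inp g 1) ^ b := by
  unfold Circ.ev
  rw [map_mul, map_pow, map_pow, aeval_X, aeval_X]
  rfl

theorem bl_of_bin {K : Type u} [Field K] {n κ : ℕ} (C C1 : Circ K n κ) (e : ℕ)
    (E : Finset (Gen →₀ K)) (S : Finset K) (Y : Finset (Gen →₀ K))
    (hext : C.Ext (RingHom.id K) C1) (hEY : E ⊆ Y) (hR : Rich C1 C.N e S Y)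
    (P : MvPolynomial Gen K) (hP : C.Bin E e P) : C1.Bl e P := by
  classical
  obtain ⟨Q, hQ, hPQ⟩ := hP
  have key : ∃ Φ : ℕ → MvPolynomial (Fin (κ + 2)) K, (∀ g, (Φ g).IsHomogeneous e) ∧
      Q = ∑ g ∈ Finset.range C1.N, C1.ev g (Φ g) := by
    refine Submodule.span_induction (p := fun Q _ =>
      ∃ Φ : ℕ → MvPolynomial (Fin (κ + 2)) K, (∀ g, (Φ g).IsHomogeneous e) ∧
        Q = ∑ g ∈ Finset.range C1.N, C1.ev g (Φ g)) ?_ ?_ ?_ ?_ hQ
    · rintro Q ⟨y, hy, y', hy', a, b, hab, rfl⟩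
      obtain ⟨g0, hg0, -, h0, h1⟩ := hR.pair y (hEY hy) y' (hEY hy')
      refine ⟨fun g => if g = g0 then X 0 ^ a * X 1 ^ b else 0, ?_, ?_⟩
      · intro g
        dsimp only
        split_ifs
        · have h := ((isHomogeneous_X K (0 : Fin (κ + 2))).pow a).mul
            ((isHomogeneous_X K (1 : Fin (κ + 2))).pow b)
          rwa [one_mul, one_mul, hab] at h
        · exact isHomogeneous_zero _ _ _
      · rw [Finset.sum_eq_single g0]
        · beta_reduce
          rw [if_pos rfl, ev_pair, h0, h1]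
        · intro g _ hg
          beta_reduce
          rw [if_neg hg, map_zero]
        · intro h
          exact absurd (Finset.mem_range.2 hg0) h
    · exact ⟨fun _ => 0, fun _ => isHomogeneous_zero _ _ _, by simp⟩
    · rintro Q Q' _ _ ⟨Φ, h1, rfl⟩ ⟨Φ', h1', rfl⟩
      refine ⟨fun g => Φ g + Φ' g, fun g => (h1 g).add (h1' g), ?_⟩
      rw [← Finset.sum_add_distrib]
      exact Finset.sum_congr rfl fun g _ => (map_add _ _ _).symm
    · rintro c Q _ ⟨Φ, h1, rfl⟩
      refine ⟨fun g => c • Φ g, fun g => ?_, ?_⟩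
      · exact (homogeneousSubmodule (Fin (κ + 2)) K e).smul_mem c (h1 g)
      · rw [Finset.smul_sum]
        exact Finset.sum_congr rfl fun g _ => (map_smul _ _ _).symm
  obtain ⟨Φ, hΦ, hQe⟩ := key
  refine ⟨Φ, hΦ, ?_⟩
  rw [← hQe]
  have h := hext.I _ hPQ
  rwa [MvPolynomial.map_id] at h

end Vale.Agent.P200F.V.Rig

end

section

namespace Vale.Agent.P200F.V.Rig

open MvPolynomial

universe u

/-- **The family of a stage**: lifts of the `P l` and a finite family spanning the kernel. -/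
theorem exists_family {K : Type u} [Field K] {n κ : ℕ} (C : Circ K n κ) (e : ℕ) {r : ℕ}
    (P : Fin r → MvPolynomial Gen K) (hP : ∀ l, C.Bl e (P l)) :
    ∃ (t : ℕ) (h : Fin r ⊕ Fin t → ℕ → MvPolynomial (Fin (κ + 2)) K),
      (∀ m g, (h m g).IsHomogeneous e) ∧
      (∀ l, P l - ∑ g ∈ Finset.range C.N, C.ev g (h (Sum.inl l) g) ∈ C.I) ∧
      (∀ i, ∑ g ∈ Finset.range C.N, C.ev g (h (Sum.inr i) g) ∈ C.I) ∧
      ∀ Φ : ℕ → MvPolynomial (Fin (κ + 2)) K, (∀ g, (Φ g).IsHomogeneous e) →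
        ∑ g ∈ Finset.range C.N, C.ev g (Φ g) ∈ C.I →
        ∃ a : Fin t → K, ∀ g < C.N, Φ g = ∑ i, a i • h (Sum.inr i) g := by
  classical
  choose Φ0 hΦ0 hP0 using hP
  let H : Submodule K (MvPolynomial (Fin (κ + 2)) K) := homogeneousSubmodule (Fin (κ + 2)) K e
  have hH : Module.Finite K H := Module.Finite.iff_fg.2 (homogeneousSubmodule_fg (Fin (κ + 2)) K e)
  let W : Submodule K (Fin C.N → H) :=
    { carrier := {Φ | ∑ g : Fin C.N, C.ev g (Φ g : MvPolynomial (Fin (κ + 2)) K) ∈ C.I}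
      add_mem' := by
        intro x y hx hy
        have hxy : ∑ g : Fin C.N, C.ev g ((x + y) g : MvPolynomial (Fin (κ + 2)) K) =
            ∑ g : Fin C.N, C.ev g (x g : MvPolynomial (Fin (κ + 2)) K) +
              ∑ g : Fin C.N, C.ev g (y g : MvPolynomial (Fin (κ + 2)) K) := by
          rw [← Finset.sum_add_distrib]
          refine Finset.sum_congr rfl fun g _ => ?_
          rw [Pi.add_apply, Submodule.coe_add, map_add]
        change _ ∈ C.I
        rw [hxy]
        exact Ideal.add_mem _ hx hy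
      zero_mem' := by
        change _ ∈ C.I
        have h0 : ∑ g : Fin C.N, C.ev g (((0 : Fin C.N → H) g : H) :
            MvPolynomial (Fin (κ + 2)) K) = 0 := by
          refine Finset.sum_eq_zero fun g _ => ?_
          rw [Pi.zero_apply, Submodule.coe_zero, map_zero]
        rw [h0]
        exact Ideal.zero_mem _
      smul_mem' := by
        intro c x hx
        change _ ∈ C.I
        have hc : ∑ g : Fin C.N, C.ev g ((c • x) g : MvPolynomial (Fin (κ + 2)) K) =
            MvPolynomial.C c * ∑ g : Fin C.N, C.ev g (x g : MvPolynomial (Fin (κ + 2)) K) := by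
          rw [Finset.mul_sum]
          refine Finset.sum_congr rfl fun g _ => ?_
          rw [Pi.smul_apply, Submodule.coe_smul, map_smul, MvPolynomial.smul_eq_C_mul]
        rw [hc]
        exact Ideal.mul_mem_left _ _ hx }
  obtain ⟨s, w, hw⟩ := Submodule.fg_iff_exists_fin_generating_family.1
    (IsNoetherian.noetherian W)
  have hwW : ∀ j, w j ∈ W := fun j => by
    rw [← hw]
    exact Submodule.subset_span ⟨j, rfl⟩
  refine ⟨s, fun j g => Sum.elim (fun l => Φ0 l g)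
    (fun j => if hg : g < C.N then (w j ⟨g, hg⟩ : MvPolynomial (Fin (κ + 2)) K) else 0) j,
    ?_, ?_, ?_, ?_⟩
  · intro j g
    rcases j with l | j
    · exact hΦ0 l g
    · change (if hg : g < C.N then (w j ⟨g, hg⟩ : MvPolynomial (Fin (κ + 2)) K) else
        0).IsHomogeneous e
      split_ifs with hg
      · exact (w j ⟨g, hg⟩).2
      · exact isHomogeneous_zero _ _ _
  · intro l
    exact hP0 l
  · intro j
    have h1 : ∑ g ∈ Finset.range C.N, C.ev g
        (if hg : g < C.N then (w j ⟨g, hg⟩ : MvPolynomial (Fin (κ + 2)) K) else 0) =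
        ∑ g : Fin C.N, C.ev g (w j g : MvPolynomial (Fin (κ + 2)) K) := by
      rw [Finset.sum_range]
      refine Finset.sum_congr rfl fun g _ => ?_
      rw [dif_pos g.2]
    change ∑ g ∈ Finset.range C.N, C.ev g
        (if hg : g < C.N then (w j ⟨g, hg⟩ : MvPolynomial (Fin (κ + 2)) K) else 0) ∈ C.I
    rw [h1]
    exact hwW j
  · intro Φ hΦ hI
    let x : Fin C.N → H := fun g => ⟨Φ g, hΦ g⟩
    have hx : x ∈ W := by
      change ∑ g : Fin C.N, C.ev g (x g : MvPolynomial (Fin (κ + 2)) K) ∈ C.I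
      rw [Finset.sum_range] at hI
      exact hI
    rw [← hw] at hx
    obtain ⟨c, hc⟩ := (Submodule.mem_span_range_iff_exists_fun K).1 hx
    refine ⟨c, fun g hg => ?_⟩
    have h2 := congrFun hc ⟨g, hg⟩
    rw [Finset.sum_apply] at h2
    have h3 := congrArg (fun z : H => (z : MvPolynomial (Fin (κ + 2)) K)) h2
    change ((∑ j, (c j • w j) ⟨g, hg⟩ : H) : MvPolynomial (Fin (κ + 2)) K) = Φ g at h3
    rw [← h3, Submodule.coe_sum]
    refine Finset.sum_congr rfl fun j _ => ?_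
    change ((c j • w j) ⟨g, hg⟩ : MvPolynomial (Fin (κ + 2)) K) =
      c j • (if hg : g < C.N then (w j ⟨g, hg⟩ : MvPolynomial (Fin (κ + 2)) K) else 0)
    rw [dif_pos hg, Pi.smul_apply, Submodule.coe_smul]

end Vale.Agent.P200F.V.Rig

end

section

namespace Vale.Agent.P200F.V.Rig

open MvPolynomial

universe u

/-- one more element of a block (the new block of the level lemma) -/
noncomputable def newB {K : Type u} [Field K] {κ : ℕ} {ι : Type} [Fintype ι] (b : Blk K κ)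
    (c : Prop) [Decidable c] (e : ℕ) (he : 0 < e) (a : ι → MvPolynomial (Fin (κ + 2)) K)
    (ha : ∀ j, (a j).IsHomogeneous e) : Blk (KF K ι) (κ + 1) :=
  newBlk (R := 1) (fun _ => b) (fun _ => c) e he (fun _ => a) (fun _ => ha) 0

section ev
variable {K K' : Type u} [Field K] [Field K'] {κ : ℕ}

/-- change of the field of a linear form -/
noncomputable def mapL (φ : K →+* K') (t : Gen →₀ K) : Gen →₀ K' :=
  t.mapRange φ (map_zero φ)

theorem lin_mapL (φ : K →+* K') (t : Gen →₀ K) :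
    lin K' (mapL φ t) = MvPolynomial.map φ (lin K t) := by
  classical
  induction t using Finsupp.induction_linear with
  | zero =>
    have h : mapL φ (0 : Gen →₀ K) = 0 := Finsupp.mapRange_zero
    rw [h, map_zero, map_zero, map_zero]
  | add a b ha hb =>
    have h : mapL φ (a + b) = mapL φ a + mapL φ b := Finsupp.mapRange_add (map_add φ) a b
    rw [h, map_add, ha, hb, map_add, map_add]
  | single v c =>
    have h : mapL φ (Finsupp.single v c) = Finsupp.single v (φ c) := Finsupp.mapRange_single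
    rw [h, lin, lin, Finsupp.linearCombination_single, Finsupp.linearCombination_single,
      smul_eq_C_mul, smul_eq_C_mul, map_mul, map_C, map_X]

/-- the substitution of linear forms -/
noncomputable def evG (l : Fin (κ + 2) → (Gen →₀ K)) :
    MvPolynomial (Fin (κ + 2)) K →ₐ[K] MvPolynomial Gen K :=
  aeval fun s => lin K (l s)

theorem evG_X (l : Fin (κ + 2) → (Gen →₀ K)) (s : Fin (κ + 2)) : evG l (X s) = lin K (l s) :=
  aeval_X _ _

theorem evG_C (l : Fin (κ + 2) → (Gen →₀ K)) (c : K) : evG l (MvPolynomial.C c) = MvPolynomial.C c := by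
  rw [evG, aeval_C]
  rfl

/-- compatibility with the change of the field and one more slot -/
theorem evG_rename (φ : K →+* K') (l : Fin (κ + 2) → (Gen →₀ K))
    (l' : Fin (κ + 1 + 2) → (Gen →₀ K')) (h : ∀ s : Fin (κ + 2), l' s.castSucc = mapL φ (l s))
    (P : MvPolynomial (Fin (κ + 2)) K) :
    evG l' (rename (Fin.castSucc : Fin (κ + 2) → Fin (κ + 2 + 1)) (MvPolynomial.map φ P)) =
      MvPolynomial.map φ (evG l P) := by
  have h1 : (((evG l').comp (rename (Fin.castSucc : Fin (κ + 2) → Fin (κ + 2 + 1)))).toRingHom.comp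
      (MvPolynomial.map φ)) = (MvPolynomial.map φ).comp (evG l).toRingHom := by
    apply MvPolynomial.ringHom_ext
    · intro r
      simp only [AlgHom.toRingHom_eq_coe, RingHom.coe_comp, RingHom.coe_coe, Function.comp_apply,
        map_C, AlgHom.comp_apply]
      rw [rename_C, evG_C]
      erw [evG_C]
      rw [map_C]
    · intro s
      simp only [AlgHom.toRingHom_eq_coe, RingHom.coe_comp, RingHom.coe_coe, Function.comp_apply,
        map_X, AlgHom.comp_apply, rename_X]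
      rw [evG_X]
      erw [evG_X]
      rw [h, lin_mapL]
  exact RingHom.congr_fun h1 P

end ev

section rels
variable {K : Type u} [Field K] {κ : ℕ} {ι : Type} [Fintype ι]

theorem snoc_rel_castSucc (b : Blk K κ) (e : ℕ) (he : 0 < e) (P : MvPolynomial (Fin (κ + 2)) K)
    (hP : P.IsHomogeneous e) (i : Fin κ) :
    (b.snoc e he P hP).rel i.castSucc =
      rename (Fin.castSucc : Fin (κ + 2) → Fin (κ + 2 + 1)) (b.rel i) := by
  unfold Blk.rel
  have h1 : (b.snoc e he P hP).e i.castSucc = b.e i := Fin.snoc_castSucc (α := fun _ => ℕ) _ _ _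
  have h2 : (b.snoc e he P hP).Phi i.castSucc =
      rename (Fin.castSucc : Fin (κ + 2) → Fin (κ + 2 + 1)) (b.Phi i) := by
    change Fin.snoc (α := fun _ => MvPolynomial (Fin (κ + 1 + 2)) K)
      (fun i => rename (Fin.castSucc : Fin (κ + 2) → Fin (κ + 2 + 1)) (b.Phi i))
      (rename (Fin.castSucc : Fin (κ + 2) → Fin (κ + 2 + 1)) P) i.castSucc = _
    rw [Fin.snoc_castSucc]
  rw [h1, h2, map_sub, map_pow, rename_X]
  rfl

theorem snoc_rel_last (b : Blk K κ) (e : ℕ) (he : 0 < e) (P : MvPolynomial (Fin (κ + 2)) K)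
    (hP : P.IsHomogeneous e) :
    (b.snoc e he P hP).rel (Fin.last κ) =
      X (Fin.last (κ + 2)) ^ e - rename (Fin.castSucc : Fin (κ + 2) → Fin (κ + 2 + 1)) P := by
  unfold Blk.rel
  have h1 : (b.snoc e he P hP).e (Fin.last κ) = e := Fin.snoc_last (α := fun _ => ℕ) _ _
  have h2 : (b.snoc e he P hP).Phi (Fin.last κ) =
      rename (Fin.castSucc : Fin (κ + 2) → Fin (κ + 2 + 1)) P := by
    change Fin.snoc (α := fun _ => MvPolynomial (Fin (κ + 1 + 2)) K)
      (fun i => rename (Fin.castSucc : Fin (κ + 2) → Fin (κ + 2 + 1)) (b.Phi i))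
      (rename (Fin.castSucc : Fin (κ + 2) → Fin (κ + 2 + 1)) P) (Fin.last κ) = _
    rw [Fin.snoc_last]
  rw [h1, h2]
  rfl

theorem map_rel {K' : Type u} [Field K'] (b : Blk K κ) (f : K →+* K') (i : Fin κ) :
    (b.map f).rel i = MvPolynomial.map f (b.rel i) := by
  unfold Blk.rel
  rw [map_sub, map_pow, map_X]
  rfl

theorem newB_rel_castSucc (b : Blk K κ) (c : Prop) [Decidable c] (e : ℕ) (he : 0 < e)
    (a : ι → MvPolynomial (Fin (κ + 2)) K) (ha : ∀ j, (a j).IsHomogeneous e) (i : Fin κ) :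
    (newB b c e he a ha).rel i.castSucc =
      rename (Fin.castSucc : Fin (κ + 2) → Fin (κ + 2 + 1))
        (MvPolynomial.map (algebraMap K (KF K ι)) (b.rel i)) := by
  rw [← map_rel]
  exact snoc_rel_castSucc (b.map (algebraMap K (KF K ι))) (if c then e else 1)
    (by split_ifs <;> omega) (newPhi (R := 1) (fun _ => c) (fun _ => a) 0)
    (newPhi_hom (R := 1) (fun _ => c) (fun _ => a) (fun _ => ha) 0) i

theorem newB_rel_last (b : Blk K κ) (c : Prop) [Decidable c] (hc : c) (e : ℕ) (he : 0 < e)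
    (a : ι → MvPolynomial (Fin (κ + 2)) K) (ha : ∀ j, (a j).IsHomogeneous e) :
    (newB b c e he a ha).rel (Fin.last κ) =
      X (Fin.last (κ + 2)) ^ e - rename (Fin.castSucc : Fin (κ + 2) → Fin (κ + 2 + 1))
        (∑ j, MvPolynomial.C (Tv K j) * MvPolynomial.map (algebraMap K (KF K ι)) (a j)) := by
  have h := snoc_rel_last (b.map (algebraMap K (KF K ι))) (if c then e else 1)
    (by split_ifs <;> omega) (newPhi (R := 1) (fun _ => c) (fun _ => a) 0)
    (newPhi_hom (R := 1) (fun _ => c) (fun _ => a) (fun _ => ha) 0)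
  have h2 : newPhi (R := 1) (fun _ => c) (fun _ => a) 0 =
      ∑ j, MvPolynomial.C (Tv K j) * MvPolynomial.map (algebraMap K (KF K ι)) (a j) := if_pos hc
  have h3 : (if c then e else 1) = e := if_pos hc
  refine Eq.trans h ?_
  rw [h2, h3]

end rels

end Vale.Agent.P200F.V.Rig

end

section

namespace Vale.Agent.P200F.V.Rig

open MvPolynomial

universe u

section pt
variable {K : Type u} [Field K] {n κ : ℕ} (C : Circ K n κ)

theorem Circ.aeval_ev {Ω : Type u} [Field Ω] [Algebra K Ω] (q : Gen → Ω) (g : ℕ)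
    (P : MvPolynomial (Fin (κ + 2)) K) :
    aeval q (C.ev g P) = aeval (fun s => aeval q (lin K (C.vl g s))) P := by
  have h : (aeval q).comp (C.ev g) =
      (aeval (fun s => aeval q (lin K (C.vl g s))) : MvPolynomial (Fin (κ + 2)) K →ₐ[K] Ω) := by
    refine MvPolynomial.algHom_ext fun s => ?_
    rw [AlgHom.comp_apply, Circ.ev, aeval_X, aeval_X]
  exact DFunLike.congr_fun h P

theorem Circ.Ext.refl : C.Ext (RingHom.id K) C where
  le := le_rfl
  leκ := le_rfl
  I := fun P hP => by rwa [MvPolynomial.map_id]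

theorem Circ.Ext.trans {K' K'' : Type u} [Field K'] [Field K''] {κ' κ'' : ℕ} {φ : K →+* K'}
    {ψ : K' →+* K''} {C' : Circ K' n κ'} {C'' : Circ K'' n κ''} (h : C.Ext φ C')
    (h' : C'.Ext ψ C'') : C.Ext (ψ.comp φ) C'' where
  le := h.le.trans h'.le
  leκ := h.leκ.trans h'.leκ
  I := fun P hP => by
    rw [← MvPolynomial.map_map]
    exact h'.I _ (h.I P hP)

theorem aeval_map_of_comp {K' : Type u} [Field K'] (φ : K →+* K') {Ω : Type u} [Field Ω]
    [Algebra K' Ω] [Algebra K Ω] (hc : algebraMap K Ω = (algebraMap K' Ω).comp φ) (q : Gen → Ω)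
    (P : MvPolynomial Gen K) : aeval q (MvPolynomial.map φ P) = aeval q P := by
  rw [aeval_def, aeval_def, eval₂_map, hc]

theorem Circ.Ext.pt {K' : Type u} [Field K'] {κ' : ℕ} {φ : K →+* K'} {C' : Circ K' n κ'}
    (h : C.Ext φ C') {Ω : Type u} [Field Ω] [Algebra K' Ω] [Algebra K Ω]
    (hc : algebraMap K Ω = (algebraMap K' Ω).comp φ) {q : Gen → Ω} (hq : C'.Pt q) : C.Pt q := by
  intro P hP
  rw [← aeval_map_of_comp φ hc]
  exact hq _ (h.I P hP)

theorem Circ.Ext.noZ {K' : Type u} [Field K'] {κ' : ℕ} {φ : K →+* K'} {C' : Circ K' n κ'}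
    (h : C.Ext φ C') {r : ℕ} {P : Fin r → MvPolynomial Gen K} (hP : C.NoZ P) :
    C'.NoZ fun l => MvPolynomial.map φ (P l) := by
  intro Ω _ _ _ q hq hl
  let _ : Algebra K Ω := ((algebraMap K' Ω).comp φ).toAlgebra
  have hc : algebraMap K Ω = (algebraMap K' Ω).comp φ := rfl
  refine hP Ω q (Circ.Ext.pt C h hc hq) fun l => ?_
  rw [← aeval_map_of_comp φ hc]
  exact hl l

theorem used_of_le {n κ κ' N N' : ℕ} (h : N ≤ N') (hκ : κ ≤ κ') {v : Gen} (hv : Used n κ N v) :
    Used n κ' N' v := by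
  rcases v with i | p
  · exact hv
  · exact ⟨lt_of_lt_of_le hv.1 h, lt_of_lt_of_le hv.2 hκ⟩

theorem Circ.Ext.s {K' : Type u} [Field K'] {κ' : ℕ} {φ : K →+* K'} {C' : Circ K' n κ'}
    (h : C.Ext φ C') {t : Gen →₀ K} (ht : C.S t) : C'.S (mapL φ t) := by
  intro v hv
  refine used_of_le h.le h.leκ (ht v ?_)
  exact Finsupp.support_mapRange hv

theorem Circ.Ext.u {K' : Type u} [Field K'] {κ' : ℕ} {φ : K →+* K'} {C' : Circ K' n κ'}
    (h : C.Ext φ C') {v : Gen} (hv : C.U v) : C'.U v := used_of_le h.le h.leκ hv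

end pt

end Vale.Agent.P200F.V.Rig

end

section

namespace Vale.Agent.P200F.V.Rig

/-- two pairs of numbers with the same `e`-th powers of many combinations -/
theorem r1_pair {Ω : Type*} [Field Ω] (e : ℕ) (he : 0 < e) (Cs : Finset Ω) (hC : e < Cs.card)
    (u v u' v' : Ω) (hu : u ≠ 0) (h0 : u ^ e = u' ^ e)
    (h : ∀ c ∈ Cs, (u + c * v) ^ e = (u' + c * v') ^ e) :
    v' = u' / u * v := by
  classical
  have hu' : u' ≠ 0 := by
    intro h'
    rw [h', zero_pow he.ne'] at h0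
    exact hu ((pow_eq_zero_iff he.ne').1 h0)
  have hd : ∀ a b : Ω, ((Polynomial.C a + Polynomial.X * Polynomial.C b) ^ e).natDegree ≤ e := by
    intro a b
    refine (Polynomial.natDegree_pow_le).trans ?_
    have h1 : (Polynomial.C a + Polynomial.X * Polynomial.C b).natDegree ≤ 1 := by
      refine (Polynomial.natDegree_add_le _ _).trans (max_le ?_ ?_)
      · rw [Polynomial.natDegree_C]
        exact Nat.zero_le _
      · refine (Polynomial.natDegree_mul_le).trans ?_
        rw [Polynomial.natDegree_C, add_zero]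
        exact Polynomial.natDegree_X_le
    calc e * _ ≤ e * 1 := Nat.mul_le_mul_left e h1
      _ = e := mul_one e
  have hP : (Polynomial.C u + Polynomial.X * Polynomial.C v) ^ e -
      (Polynomial.C u' + Polynomial.X * Polynomial.C v') ^ e = 0 := by
    refine Polynomial.eq_zero_of_natDegree_lt_card_of_eval_eq_zero' _ Cs ?_ ?_
    · intro c hc
      simp only [Polynomial.eval_sub, Polynomial.eval_pow, Polynomial.eval_add, Polynomial.eval_C,
        Polynomial.eval_mul, Polynomial.eval_X]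
      rw [h c hc, sub_self]
    · refine lt_of_le_of_lt ((Polynomial.natDegree_sub_le _ _).trans (max_le (hd _ _) (hd _ _))) hC
  have hev : ∀ c : Ω, (u + c * v) ^ e = (u' + c * v') ^ e := by
    intro c
    have := congrArg (Polynomial.eval c) hP
    simp only [Polynomial.eval_sub, Polynomial.eval_pow, Polynomial.eval_add, Polynomial.eval_C,
        Polynomial.eval_mul, Polynomial.eval_X, Polynomial.eval_zero] at this
    exact sub_eq_zero.1 this
  by_cases hv : v = 0
  · have h1 : v' = 0 := by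
      by_contra hv'
      have h2 := hev (-(u' / v'))
      rw [hv, mul_zero, add_zero, neg_mul, div_mul_cancel₀ _ hv', add_neg_cancel,
        zero_pow he.ne'] at h2
      exact hu ((pow_eq_zero_iff he.ne').1 h2)
    rw [h1, hv, mul_zero]
  · have h2 := hev (-(u / v))
    rw [neg_mul, div_mul_cancel₀ _ hv, add_neg_cancel, zero_pow he.ne'] at h2
    have h3 := (pow_eq_zero_iff he.ne').1 h2.symm
    have h4 : u' * v = u * v' := by
      have := congrArg (fun z => z * v) h3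
      simp only [zero_mul] at this
      have h5 : (u' + -(u / v) * v') * v = u' * v - u * v' := by
        field_simp
        ring
      rw [h5] at this
      exact sub_eq_zero.1 this
    rw [div_mul_eq_mul_div, eq_div_iff hu, h4, mul_comm]

/-- **(R1).** -/
theorem r1 {K Ω ι : Type*} [Field K] [Field Ω] [Algebra K Ω] (e : ℕ) (he : 0 < e)
    (S : Finset K) (hS : e < S.card) (q q' : ι → Ω) (h1 : ∀ v, q v ^ e = q' v ^ e)
    (h2 : ∀ v w, v ≠ w → ∀ c ∈ S,
      (q v + algebraMap K Ω c * q w) ^ e = (q' v + algebraMap K Ω c * q' w) ^ e) :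
    ∃ ε : Ω, ε ^ e = 1 ∧ ∀ v, q' v = ε * q v := by
  classical
  by_cases hq : ∃ b0, q b0 ≠ 0
  · obtain ⟨b0, hb0⟩ := hq
    refine ⟨q' b0 / q b0, ?_, ?_⟩
    · rw [div_pow, ← h1, div_self (pow_ne_zero _ hb0)]
    · intro b
      by_cases hb : b0 = b
      · rw [← hb, div_mul_cancel₀ _ hb0]
      · refine r1_pair e he (S.image (algebraMap K Ω)) ?_ _ _ _ _ hb0 (h1 b0) ?_
        · rw [Finset.card_image_of_injective _ (algebraMap K Ω).injective]
          exact hS
        · intro c hc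
          obtain ⟨c', hc', rfl⟩ := Finset.mem_image.1 hc
          exact h2 b0 b hb c' hc'
  · push Not at hq
    refine ⟨1, one_pow e, ?_⟩
    intro b
    have h3 := h1 b
    rw [hq b, zero_pow he.ne'] at h3
    rw [hq b, mul_zero]
    exact (pow_eq_zero_iff he.ne').1 h3.symm

end Vale.Agent.P200F.V.Rig

end

section

namespace Vale.Agent.P200F.V.Rig

open MvPolynomial Module

/-- the family `y` contains the family `z` and many combinations of two of its members -/
def RichF (K : Type*) [Field K] {T : Type*} [AddCommGroup T] [Module K T] (e : ℕ) {S I : Type*}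
    (y : S → T) (z : I → T) : Prop :=
  (∀ i, ∃ s, y s = z i) ∧
    ∃ C : Finset K, e < C.card ∧ ∀ i j, i ≠ j → ∀ c ∈ C, ∃ s, y s = z i + c • z j

section phi

/-- factorisation of linear maps -/
theorem exists_comp_of_ker {K H A W : Type*} [Field K] [AddCommGroup H] [Module K H]
    [AddCommGroup A] [Module K A] [AddCommGroup W] [Module K W] (T : H →ₗ[K] A) (X : H →ₗ[K] W)
    (h : LinearMap.ker T ≤ LinearMap.ker X) : ∃ φ : A →ₗ[K] W, ∀ u, φ (T u) = X u := by
  obtain ⟨φ, hφ⟩ := LinearMap.exists_extend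
    (((LinearMap.ker T).liftQ X h).comp T.quotKerEquivRange.symm.toLinearMap)
  refine ⟨φ, fun u => ?_⟩
  have h1 := LinearMap.congr_fun hφ ⟨T u, u, rfl⟩
  rw [LinearMap.comp_apply, Submodule.subtype_apply] at h1
  rw [h1, LinearMap.comp_apply]
  have h2 : T.quotKerEquivRange.symm.toLinearMap ⟨T u, u, rfl⟩ =
      Submodule.Quotient.mk (p := LinearMap.ker T) u := by
    rw [LinearEquiv.coe_toLinearMap, LinearEquiv.symm_apply_eq]
    rfl
  rw [h2, Submodule.liftQ_apply]

/-- the functional -/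
theorem rig_phi {K Ω A σ G : Type*} [Field K] [Field Ω] [Algebra K Ω] [CommRing A] [Algebra K A]
    [Fintype G] (e : ℕ) (α : G → MvPolynomial σ K →ₐ[K] A) (ev : G → MvPolynomial σ K →ₐ[K] Ω)
    (hker : ∀ h : G → MvPolynomial σ K, (∀ g, (h g).IsHomogeneous e) → ∑ g, α g (h g) = 0 →
      ∑ g, ev g (h g) = 0) :
    ∃ φ : A →ₗ[K] Ω, ∀ g (h : MvPolynomial σ K), h.IsHomogeneous e → φ (α g h) = ev g h := by
  classical
  let T : (G → homogeneousSubmodule σ K e) →ₗ[K] A :=
    { toFun := fun u => ∑ g, α g (u g : MvPolynomial σ K)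
      map_add' := fun u v => by
        rw [← Finset.sum_add_distrib]
        refine Finset.sum_congr rfl fun g _ => ?_
        rw [Pi.add_apply, Submodule.coe_add, map_add]
      map_smul' := fun c u => by
        rw [RingHom.id_apply, Finset.smul_sum]
        refine Finset.sum_congr rfl fun g _ => ?_
        rw [Pi.smul_apply, Submodule.coe_smul, map_smul] }
  let Xf : (G → homogeneousSubmodule σ K e) →ₗ[K] Ω :=
    { toFun := fun u => ∑ g, ev g (u g : MvPolynomial σ K)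
      map_add' := fun u v => by
        rw [← Finset.sum_add_distrib]
        refine Finset.sum_congr rfl fun g _ => ?_
        rw [Pi.add_apply, Submodule.coe_add, map_add]
      map_smul' := fun c u => by
        rw [RingHom.id_apply, Finset.smul_sum]
        refine Finset.sum_congr rfl fun g _ => ?_
        rw [Pi.smul_apply, Submodule.coe_smul, map_smul] }
  obtain ⟨φ, hφ⟩ := exists_comp_of_ker T Xf (by
    intro u hu
    rw [LinearMap.mem_ker] at hu ⊢
    exact hker (fun g => (u g : MvPolynomial σ K)) (fun g => (u g).2) hu)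
  refine ⟨φ, fun g h hh => ?_⟩
  have h1 := hφ (Pi.single g ⟨h, hh⟩)
  have h2 : T (Pi.single g ⟨h, hh⟩) = α g h := by
    change ∑ g', α g' ((Pi.single g ⟨h, hh⟩ : G → homogeneousSubmodule σ K e) g' :
      MvPolynomial σ K) = _
    rw [Finset.sum_eq_single g]
    · rw [Pi.single_eq_same]
    · intro i _ hi
      rw [Pi.single_eq_of_ne hi, Submodule.coe_zero, map_zero]
    · intro h'
      exact absurd (Finset.mem_univ _) h'
  have h3 : Xf (Pi.single g ⟨h, hh⟩) = ev g h := by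
    change ∑ g', ev g' ((Pi.single g ⟨h, hh⟩ : G → homogeneousSubmodule σ K e) g' :
      MvPolynomial σ K) = _
    rw [Finset.sum_eq_single g]
    · rw [Pi.single_eq_same]
    · intro i _ hi
      rw [Pi.single_eq_of_ne hi, Submodule.coe_zero, map_zero]
    · intro h'
      exact absurd (Finset.mem_univ _) h'
  rw [h2, h3] at h1
  exact h1

end phi

/-- the functional at one linear form with non-zero value -/
theorem rig_Q {K Ω T A : Type*} [Field K] [Field Ω] [Algebra K Ω] [AddCommGroup T] [Module K T]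
    [CommRing A] [Algebra K A] (τ : T →ₗ[K] A) {e : ℕ} (he : 0 < e) {S : Type*} (y : S → T)
    {G : Type*} {κ : ℕ} (θ : G → Fin (κ + 2) → T)
    (hpair : ∀ s s', ∃ g, θ g 0 = y s ∧ θ g 1 = y s') (p : G → Fin (κ + 2) → Ω)
    (φ : A →ₗ[K] Ω) (h1 : ∀ g v, φ (τ (θ g v) ^ e) = p g v ^ e)
    (h3 : ∀ g, φ (τ (θ g 1) * τ (θ g 0) ^ (e - 1)) = p g 1 * p g 0 ^ (e - 1))
    (s : S) (hs : φ (τ (y s) ^ e) ≠ 0) :
    ∃ Q : T →ₗ[K] Ω, (∀ s', Q (y s') ^ e = φ (τ (y s') ^ e)) ∧
      ∀ g s', θ g 0 = y s → θ g 1 = y s' →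
        ∃ ε : Ω, ε ^ e = 1 ∧ p g 0 = ε * Q (y s) ∧ p g 1 = ε * Q (y s') := by
  have he0 : e ≠ 0 := he.ne'
  have hee : e - 1 + 1 = e := by omega
  obtain ⟨g0, hg0, -⟩ := hpair s s
  set a : Ω := p g0 0 with ha
  have haF : a ^ e = φ (τ (y s) ^ e) := by
    rw [ha, ← h1, hg0]
  have ha0 : a ≠ 0 := by
    intro h
    rw [h, zero_pow he0] at haF
    exact hs haF.symm
  let Q : T →ₗ[K] Ω :=
    { toFun := fun t => (a ^ (e - 1))⁻¹ * φ (τ t * τ (y s) ^ (e - 1))
      map_add' := fun t t' => by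
        rw [map_add, add_mul, map_add, mul_add]
      map_smul' := fun c t => by
        rw [map_smul, smul_mul_assoc, map_smul, mul_smul_comm, RingHom.id_apply] }
  have hQ : ∀ t, Q t = (a ^ (e - 1))⁻¹ * φ (τ t * τ (y s) ^ (e - 1)) := fun t => rfl
  have ha1 : a ^ (e - 1) ≠ 0 := pow_ne_zero _ ha0
  have hQs : Q (y s) = a := by
    rw [hQ, ← pow_succ', hee, ← haF]
    have h4 : a ^ e = a ^ (e - 1) * a := by rw [← pow_succ, hee]
    rw [h4, ← mul_assoc, inv_mul_cancel₀ ha1, one_mul]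
  have hL : ∀ g s', θ g 0 = y s → θ g 1 = y s' →
      ∃ ε : Ω, ε ^ e = 1 ∧ p g 0 = ε * Q (y s) ∧ p g 1 = ε * Q (y s') := by
    intro g s' h0 h0'
    have h4 : p g 0 ^ e = a ^ e := by
      rw [haF, ← h0, h1]
    refine ⟨p g 0 / a, ?_, ?_, ?_⟩
    · rw [div_pow, h4, div_self (pow_ne_zero _ ha0)]
    · rw [hQs, div_mul_cancel₀ _ ha0]
    · rw [hQ, ← h0', ← h0, h3]
      have h5 : p g 0 ^ (e - 1) * p g 0 = a ^ (e - 1) * a := by
        rw [← pow_succ, ← pow_succ, hee, h4]
      field_simp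
      linear_combination (-(p g 1)) * h5
  refine ⟨Q, fun s' => ?_, hL⟩
  obtain ⟨g, hg, hg'⟩ := hpair s s'
  obtain ⟨ε, hε, -, h5⟩ := hL g s' hg hg'
  rw [← hg', h1, h5, hg', mul_pow, hε, one_mul]

/-- homogeneity -/
theorem aeval_hom_scale {K Ω σ : Type*} [Field K] [Field Ω] [Algebra K Ω] {e : ℕ}
    {g : MvPolynomial σ K} (hg : g.IsHomogeneous e) (c : Ω) (v : σ → Ω) :
    aeval (fun k => c * v k) g = c ^ e * aeval v g := by
  rw [aeval_def, aeval_def, eval₂_eq, eval₂_eq, Finset.mul_sum]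
  refine Finset.sum_congr rfl fun m hm => ?_
  have h1 : ∏ i ∈ m.support, (c * v i) ^ m i = c ^ e * ∏ i ∈ m.support, v i ^ m i := by
    simp only [mul_pow]
    rw [Finset.prod_mul_distrib, Finset.prod_pow_eq_pow_sum]
    congr 2
    have h2 := hg (mem_support_iff.1 hm)
    rw [← h2, Finsupp.weight_apply, Finsupp.sum]
    simp
  rw [h1]
  ring

/-- **Rigidity.** -/
theorem rig_point {K Ω T A : Type*} [Field K] [Field Ω] [Algebra K Ω] [AddCommGroup T]
    [Module K T] [CommRing A] [Algebra K A] (τ : T →ₗ[K] A) {e : ℕ} (he : 0 < e) {ι S : Type*}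
    (b : ι → T) (hb : Submodule.span K (Set.range b) = ⊤) (y : S → T) (hby : RichF K e y b)
    {G : Type*} [Fintype G] {κ : ℕ} (θ : G → Fin (κ + 2) → T)
    (hpair : ∀ s s', ∃ g, θ g 0 = y s ∧ θ g 1 = y s')
    (hG : ∀ g, RichF K e y (θ g) ∨ ∃ s s', θ g 0 = y s ∧ θ g 1 = y s' ∧
      ∀ v, v ≠ 0 → v ≠ 1 → θ g v = 0)
    (p : G → Fin (κ + 2) → Ω)
    (hker : ∀ h : G → MvPolynomial (Fin (κ + 2)) K, (∀ g, (h g).IsHomogeneous e) →
      ∑ g, aeval (fun v => τ (θ g v)) (h g) = 0 → ∑ g, aeval (p g) (h g) = 0) :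
    ∃ q : T →ₗ[K] Ω, ∀ g, ∃ ε : Ω, ε ^ e = 1 ∧ ∀ v, p g v = ε * q (θ g v) := by
  classical
  have he0 : e ≠ 0 := he.ne'
  have hee : e - 1 + 1 = e := by omega
  obtain ⟨φ, hφ⟩ := rig_phi e (fun g => aeval fun v => τ (θ g v)) (fun g => aeval (p g)) hker
  have hφ' : ∀ g (h : MvPolynomial (Fin (κ + 2)) K), h.IsHomogeneous e →
      φ (aeval (fun v => τ (θ g v)) h) = aeval (p g) h := hφ
  have h1 : ∀ g v, φ (τ (θ g v) ^ e) = p g v ^ e := by
    intro g v
    have h := hφ' g (X v ^ e) (by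
      have := (isHomogeneous_X K v).pow e
      rwa [one_mul] at this)
    have a1 : aeval (fun v => τ (θ g v)) (X v ^ e : MvPolynomial (Fin (κ + 2)) K) =
        τ (θ g v) ^ e := by rw [map_pow, aeval_X]
    have a2 : aeval (p g) (X v ^ e : MvPolynomial (Fin (κ + 2)) K) = p g v ^ e := by
      rw [map_pow, aeval_X]
    rw [← a1, h, a2]
  have h2 : ∀ g v w (c : K), φ (τ (θ g v + c • θ g w) ^ e) =
      (p g v + algebraMap K Ω c * p g w) ^ e := by
    intro g v w c
    have h := hφ' g ((X v + C c * X w) ^ e) (by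
      have := ((isHomogeneous_X K v).add (by
        have h' := (isHomogeneous_C (Fin (κ + 2)) c).mul (isHomogeneous_X K w)
        rwa [zero_add] at h')).pow e
      rwa [one_mul] at this)
    have a1 : aeval (fun v => τ (θ g v)) ((X v + C c * X w) ^ e : MvPolynomial (Fin (κ + 2)) K) =
        τ (θ g v + c • θ g w) ^ e := by
      rw [map_pow, map_add, map_mul, aeval_X, aeval_X, aeval_C, map_add, map_smul,
        Algebra.smul_def]
    have a2 : aeval (p g) ((X v + C c * X w) ^ e : MvPolynomial (Fin (κ + 2)) K) =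
        (p g v + algebraMap K Ω c * p g w) ^ e := by
      rw [map_pow, map_add, map_mul, aeval_X, aeval_X, aeval_C]
    rw [← a1, h, a2]
  have h3 : ∀ g, φ (τ (θ g 1) * τ (θ g 0) ^ (e - 1)) = p g 1 * p g 0 ^ (e - 1) := by
    intro g
    have h := hφ' g (X 1 * X 0 ^ (e - 1)) (by
      have := (isHomogeneous_X K (1 : Fin (κ + 2))).mul
        ((isHomogeneous_X K (0 : Fin (κ + 2))).pow (e - 1))
      have h5 : 1 + (e - 1) = e := by omega
      rwa [one_mul, h5] at this)
    have a1 : aeval (fun v => τ (θ g v)) (X 1 * X 0 ^ (e - 1) : MvPolynomial (Fin (κ + 2)) K) =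
        τ (θ g 1) * τ (θ g 0) ^ (e - 1) := by rw [map_mul, map_pow, aeval_X, aeval_X]
    have a2 : aeval (p g) (X 1 * X 0 ^ (e - 1) : MvPolynomial (Fin (κ + 2)) K) =
        p g 1 * p g 0 ^ (e - 1) := by rw [map_mul, map_pow, aeval_X, aeval_X]
    rw [← a1, h, a2]
  have hp0 : ∀ g v, θ g v = 0 → p g v = 0 := by
    intro g v h
    have h4 := h1 g v
    rw [h, map_zero, zero_pow he0, map_zero] at h4
    exact eq_zero_of_pow_eq_zero h4.symm
  by_cases hall : ∀ s, φ (τ (y s) ^ e) = 0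
  · refine ⟨0, fun g => ⟨1, one_pow _, fun v => ?_⟩⟩
    rw [LinearMap.zero_apply, mul_zero]
    have h4 : ∀ s, θ g v = y s → p g v = 0 := by
      intro s h
      have h5 := h1 g v
      rw [h, hall s] at h5
      exact eq_zero_of_pow_eq_zero h5.symm
    rcases hG g with hr | ⟨s, s', hs, hs', hv⟩
    · obtain ⟨s, hs⟩ := hr.1 v
      exact h4 s hs.symm
    · by_cases hv0 : v = 0
      · exact h4 s (by rw [hv0, hs])
      by_cases hv1 : v = 1
      · exact h4 s' (by rw [hv1, hs'])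
      exact hp0 g v (hv v hv0 hv1)
  push Not at hall
  obtain ⟨s0, hs0⟩ := hall
  obtain ⟨q, hq, -⟩ := rig_Q τ he y θ hpair p φ h1 h3 s0 hs0
  -- two functionals with the same powers
  have hR : ∀ Q : T →ₗ[K] Ω, (∀ s', Q (y s') ^ e = φ (τ (y s') ^ e)) →
      ∃ ε : Ω, ε ^ e = 1 ∧ ∀ t, Q t = ε * q t := by
    intro Q hQ
    obtain ⟨C, hC, hyC⟩ := hby.2
    obtain ⟨ε, hε, h4⟩ := r1 (K := K) e he C hC (fun i => q (b i)) (fun i => Q (b i))
      (fun i => by
        obtain ⟨s, hs⟩ := hby.1 i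
        rw [← hs, hq, hQ])
      (fun i j hij c hc => by
        obtain ⟨s, hs⟩ := hyC i j hij c hc
        have h5 := hq s
        have h6 := hQ s
        rw [hs, map_add, map_smul, Algebra.smul_def] at h5 h6
        rw [h5, h6])
    refine ⟨ε, hε, fun t => ?_⟩
    have ht : t ∈ Submodule.span K (Set.range b) := by
      rw [hb]
      exact Submodule.mem_top
    refine Submodule.span_induction (p := fun t _ => Q t = ε * q t) ?_ ?_ ?_ ?_ ht
    · rintro _ ⟨i, rfl⟩
      exact h4 i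
    · rw [map_zero, map_zero, mul_zero]
    · intro x x' _ _ hx hx'
      rw [map_add, map_add, hx, hx', mul_add]
    · intro c x _ hx
      rw [map_smul, map_smul, hx, mul_smul_comm]
  refine ⟨q, fun g => ?_⟩
  rcases hG g with hr | ⟨s, s', hs, hs', hv⟩
  · obtain ⟨C, hC, hyC⟩ := hr.2
    exact r1 (K := K) e he C hC (fun v => q (θ g v)) (p g)
      (fun v => by
        obtain ⟨s, hs⟩ := hr.1 v
        rw [← h1, ← hs, hq])
      (fun v w hvw c hc => by
        obtain ⟨s, hs⟩ := hyC v w hvw c hc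
        have h6 := hq s
        rw [hs] at h6
        rw [← h2, ← h6, map_add, map_smul, Algebra.smul_def])
  · have hvz : ∀ (ε : Ω) v, v ≠ 0 → v ≠ 1 → p g v = ε * q (θ g v) := by
      intro ε v h4 h5
      rw [hp0 g v (hv v h4 h5), hv v h4 h5, map_zero, mul_zero]
    by_cases hF : φ (τ (y s) ^ e) = 0
    · have h4 : p g 0 = 0 := by
        have h5 := h1 g 0
        rw [hs, hF] at h5
        exact eq_zero_of_pow_eq_zero h5.symm
      have h5 : q (y s) = 0 := by
        have h6 := hq s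
        rw [hF] at h6
        exact eq_zero_of_pow_eq_zero h6
      have h6 : p g 1 ^ e = q (y s') ^ e := by
        rw [hq, ← h1, hs']
      obtain ⟨ε, hε, h7⟩ : ∃ ε : Ω, ε ^ e = 1 ∧ p g 1 = ε * q (y s') := by
        by_cases h8 : q (y s') = 0
        · rw [h8, zero_pow he0] at h6
          exact ⟨1, one_pow _, by rw [h8, mul_zero, eq_zero_of_pow_eq_zero h6]⟩
        · refine ⟨p g 1 / q (y s'), ?_, ?_⟩
          · rw [div_pow, h6, div_self (pow_ne_zero _ h8)]
          · rw [div_mul_cancel₀ _ h8]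
      refine ⟨ε, hε, fun v => ?_⟩
      by_cases hv0 : v = 0
      · rw [hv0, h4, hs, h5, mul_zero]
      by_cases hv1 : v = 1
      · rw [hv1, h7, hs']
      exact hvz ε v hv0 hv1
    · obtain ⟨Q, hQ, hL⟩ := rig_Q τ he y θ hpair p φ h1 h3 s hF
      obtain ⟨ε, hε, h4, h5⟩ := hL g s' hs hs'
      obtain ⟨δ, hδ, h6⟩ := hR Q hQ
      refine ⟨ε * δ, by rw [mul_pow, hε, hδ, one_mul], fun v => ?_⟩
      by_cases hv0 : v = 0
      · rw [hv0, h4, h6, hs, mul_assoc]
      by_cases hv1 : v = 1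
      · rw [hv1, h5, h6, hs', mul_assoc]
      exact hvz _ v hv0 hv1

theorem rig_point' {K Ω T A : Type*} [Field K] [Field Ω] [Algebra K Ω] [AddCommGroup T]
    [Module K T] [CommRing A] [Algebra K A] (τ : T →ₗ[K] A) {e : ℕ} (he : 0 < e) {ι S : Type*}
    (b : ι → T) (hb : Submodule.span K (Set.range b) = ⊤) (y : S → T) (hby : RichF K e y b)
    {G : Type*} [Fintype G] {κ : ℕ} (θ : G → Fin (κ + 2) → T)
    (hpair : ∀ s s', ∃ g, θ g 0 = y s ∧ θ g 1 = y s')
    (hG : ∀ g, RichF K e y (θ g) ∨ ∃ s s', θ g 0 = y s ∧ θ g 1 = y s' ∧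
      ∀ v, v ≠ 0 → v ≠ 1 → θ g v = 0)
    (p : G → Fin (κ + 2) → Ω) (tv : G → Fin (κ + 2) → A) (htv : ∀ g v, τ (θ g v) = tv g v)
    (hker : ∀ h : G → MvPolynomial (Fin (κ + 2)) K, (∀ g, (h g).IsHomogeneous e) →
      ∑ g, aeval (tv g) (h g) = 0 → ∑ g, aeval (p g) (h g) = 0) :
    ∃ q : T →ₗ[K] Ω, ∀ g, ∃ ε : Ω, ε ^ e = 1 ∧ ∀ v, p g v = ε * q (θ g v) := by
  refine rig_point τ he b hb y hby θ hpair hG p fun h hh hs => hker h hh ?_
  rw [← hs]
  refine Finset.sum_congr rfl fun g _ => ?_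
  have h1 : tv g = fun v => τ (θ g v) := funext fun v => (htv g v).symm
  rw [h1]

universe u

section core

variable {K : Type u} [Field K] {n κ : ℕ}

theorem rel_hom (β : Blk K κ) (i : Fin κ) : (β.rel i).IsHomogeneous (β.e i) := by
  unfold Blk.rel
  refine IsHomogeneous.sub ?_ (β.hom i)
  have h := (isHomogeneous_X K (i.succ.succ : Fin (κ + 2))).pow (β.e i)
  rwa [one_mul] at h

/-- a point of a block with zero inputs is zero -/
theorem blk_zero {Ω : Type*} [Field Ω] [Algebra K Ω] (β : Blk K κ) (p : Fin (κ + 2) → Ω)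
    (h : ∀ i, aeval p (β.rel i) = 0) (h0 : p 0 = 0) (h1 : p 1 = 0) : ∀ v, p v = 0 := by
  have key : ∀ m : ℕ, ∀ v : Fin (κ + 2), (v : ℕ) = m → p v = 0 := by
    intro m
    induction m using Nat.strong_induction_on with
    | _ m ih =>
      intro v
      refine Fin.cases (fun _ => h0) (fun v => ?_) v
      refine Fin.cases (fun _ => h1) (fun i => ?_) v
      intro hv
      have h2 := h i
      rw [Blk.rel, map_sub, map_pow, aeval_X, sub_eq_zero] at h2
      have h3 : aeval p (β.Phi i) = aeval (fun _ => (0 : Ω)) (β.Phi i) := by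
        rw [aeval_eq_eval₂Hom, aeval_eq_eval₂Hom]
        refine eval₂Hom_congr' rfl (fun j hj _ => ?_) rfl
        have h4 := β.tri i j hj
        refine ih j ?_ j rfl
        have h5 : ((i.succ.succ : Fin (κ + 2)) : ℕ) = i + 2 := rfl
        omega
      have h4 : aeval (fun _ => (0 : Ω)) (β.Phi i) = 0 := by
        have h5 := aeval_hom_scale (β.hom i) (0 : Ω) (fun _ => (0 : Ω))
        rw [zero_pow (β.e_pos i).ne', zero_mul] at h5
        simpa using h5
      rw [h3, h4] at h2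
      exact eq_zero_of_pow_eq_zero h2
  exact fun v => key v v rfl

/-- the value of a linear form -/
theorem aeval_linear {Ω : Type*} [Field Ω] [Algebra K Ω] (q : Gen → Ω) (t : Gen →₀ K) :
    aeval q (lin K t) = Finsupp.linearCombination K q t := by
  rw [lin, Finsupp.linearCombination_apply, Finsupp.linearCombination_apply, Finsupp.sum,
    Finsupp.sum, map_sum]
  refine Finset.sum_congr rfl fun v _ => ?_
  rw [map_smul, aeval_X]

theorem linearCombination_zero {Ω : Type*} [Field Ω] [Algebra K Ω] (q : Gen → Ω) (t : Gen →₀ K)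
    (h : ∀ v ∈ t.support, q v = 0) : Finsupp.linearCombination K q t = 0 := by
  rw [Finsupp.linearCombination_apply, Finsupp.sum]
  refine Finset.sum_eq_zero fun v hv => ?_
  rw [h v hv, smul_zero]

theorem aeval_ev {Ω : Type*} [Field Ω] [Algebra K Ω] (C : Circ K n κ) (q : Gen → Ω) (g : ℕ)
    (h : MvPolynomial (Fin (κ + 2)) K) :
    aeval q (C.ev g h) = aeval (fun s => aeval q (lin K (C.vl g s))) h := by
  rw [Circ.ev, ← AlgHom.comp_apply, comp_aeval]

theorem pt_rel {Ω : Type u} [Field Ω] [Algebra K Ω] (C : Circ K n κ) {q : Gen → Ω}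
    (hq : C.Pt q) {g : ℕ} (hg : g < C.N) (i : Fin κ) :
    aeval (fun s => aeval q (lin K (C.vl g s))) ((C.β g).rel i) = 0 := by
  rw [← aeval_ev]
  exact hq _ (Ideal.subset_span ⟨g, hg, i, rfl⟩)

theorem pt_of_rel {Ω : Type u} [Field Ω] [Algebra K Ω] (C : Circ K n κ) {q : Gen → Ω}
    (h : ∀ g < C.N, ∀ i, aeval (fun s => aeval q (lin K (C.vl g s))) ((C.β g).rel i) = 0) :
    C.Pt q := by
  intro P hP
  have h1 : C.I ≤ RingHom.ker (aeval q : MvPolynomial Gen K →ₐ[K] Ω) := by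
    refine Ideal.span_le.2 ?_
    rintro _ ⟨g, hg, i, rfl⟩
    rw [SetLike.mem_coe, RingHom.mem_ker, aeval_ev]
    exact h g hg i
  exact h1 hP

/-- a point with zero variables is zero -/
theorem pt_zero_core {Ω : Type u} [Field Ω] [Algebra K Ω] (C : Circ K n κ) {q : Gen → Ω}
    (hq : C.Pt q) (h : ∀ i < n, q (Sum.inl i) = 0) : ∀ v, C.U v → q v = 0 := by
  have key : ∀ g, g < C.N → ∀ j < κ, q (Sum.inr (g, j)) = 0 := by
    intro g
    induction g using Nat.strong_induction_on with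
    | _ g ih =>
      intro hg j hj
      have h1 : ∀ ε, aeval q (lin K (C.inp g ε)) = 0 := by
        intro ε
        rw [aeval_linear]
        refine linearCombination_zero q _ fun v hv => ?_
        have h2 := C.old g hg ε v hv
        rcases v with i | ⟨g', j'⟩
        · exact h i h2
        · exact ih g' h2.1 (lt_trans h2.1 hg) j' h2.2
      have h3 := blk_zero (C.β g) (fun s => aeval q (lin K (C.vl g s)))
        (fun i => pt_rel C hq hg i) (h1 0) (h1 1) (Fin.succ (Fin.succ ⟨j, hj⟩))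
      have h4 : aeval q (lin K (C.vl g (Fin.succ (Fin.succ ⟨j, hj⟩)))) = q (Sum.inr (g, j)) := by
        rw [aeval_linear]
        change Finsupp.linearCombination K q (Finsupp.single (Sum.inr (g, j)) 1) = _
        rw [Finsupp.linearCombination_single, one_smul]
      rw [← h4]
      exact h3
  intro v hv
  rcases v with i | ⟨g, j⟩
  · exact h i hv
  · exact key g hv.1 j hv.2

end core

theorem fin_cases_two {κ : ℕ} (s : Fin (κ + 2)) :
    s = 0 ∨ s = 1 ∨ ∃ j : Fin κ, s = j.succ.succ := by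
  refine Fin.cases (Or.inl rfl) (fun s => ?_) s
  refine Fin.cases (Or.inr (Or.inl rfl)) (fun j => ?_) s
  exact Or.inr (Or.inr ⟨j, rfl⟩)

theorem succ_succ_ne_zero {κ : ℕ} (j : Fin κ) : (j.succ.succ : Fin (κ + 2)) ≠ 0 :=
  Fin.succ_ne_zero _

theorem succ_succ_ne_one {κ : ℕ} (j : Fin κ) : (j.succ.succ : Fin (κ + 2)) ≠ 1 := by
  intro h
  exact Fin.succ_ne_zero _ (Fin.succ_injective _ (h.trans Fin.succ_zero_eq_one.symm))

section point

variable {K : Type u} [Field K] {n κ : ℕ}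

/-- the linear forms in the old generators -/
noncomputable def TS (K : Type u) [Field K] (n κ N0 : ℕ) : Submodule K (Gen →₀ K) :=
  Finsupp.supported K K {v | Used n κ N0 v}

theorem mem_TS {N0 : ℕ} {t : Gen →₀ K} (ht : Sup n κ N0 t) : t ∈ TS K n κ N0 := by
  rw [TS, Finsupp.mem_supported]
  exact fun v hv => ht v hv

/-- the basis -/
noncomputable def bS (K : Type u) [Field K] (n κ N0 : ℕ) (v : {v : Gen // Used n κ N0 v}) :
    TS K n κ N0 :=
  ⟨Finsupp.single v.1 1, Finsupp.single_mem_supported K 1 v.2⟩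

theorem span_bS (N0 : ℕ) : Submodule.span K (Set.range (bS K n κ N0)) = ⊤ := by
  have h1 : (Submodule.span K (Set.range (bS K n κ N0))).map (TS K n κ N0).subtype =
      TS K n κ N0 := by
    rw [Submodule.map_span, ← Set.range_comp]
    have h2 : Set.range ((TS K n κ N0).subtype ∘ bS K n κ N0) =
        (fun v => Finsupp.single v (1 : K)) '' {v | Used n κ N0 v} := by
      ext t
      constructor
      · rintro ⟨v, rfl⟩
        exact ⟨v.1, v.2, rfl⟩
      · rintro ⟨v, hv, rfl⟩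
        exact ⟨⟨v, hv⟩, rfl⟩
    rw [h2]
    exact (Finsupp.supported_eq_span_single K _).symm
  apply Submodule.map_injective_of_injective (f := (TS K n κ N0).subtype)
    Subtype.coe_injective
  rw [h1, Submodule.map_top, Submodule.range_subtype]

/-- the classes of the linear forms -/
noncomputable def tauS {A : Type u} [CommRing A] [Algebra K A] (π : MvPolynomial Gen K →ₐ[K] A)
    (n κ N0 : ℕ) : TS K n κ N0 →ₗ[K] A :=
  (π.toLinearMap.comp (lin K)).comp (TS K n κ N0).subtype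

theorem tauS_apply {A : Type u} [CommRing A] [Algebra K A] (π : MvPolynomial Gen K →ₐ[K] A)
    (N0 : ℕ) (t : TS K n κ N0) : tauS π n κ N0 t = π (lin K (t : Gen →₀ K)) := rfl

/-- the variables of the blocks -/
theorem exists_theta {C : Circ K n κ} {N0 e : ℕ} {S : Finset K} {Y : Finset (Gen →₀ K)}
    (hR : Rich C N0 e S Y) : ∃ θ : Fin C.N → Fin (κ + 2) → TS K n κ N0,
      (∀ g : Fin C.N, (g : ℕ) < N0 → ∀ s, (θ g s : Gen →₀ K) = C.vl g s) ∧
      ∀ g : Fin C.N, N0 ≤ (g : ℕ) → (θ g 0 : Gen →₀ K) = C.inp g 0 ∧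
        (θ g 1 : Gen →₀ K) = C.inp g 1 ∧ ∀ j : Fin κ, θ g j.succ.succ = 0 := by
  classical
  refine ⟨fun g s =>
    if h : (g : ℕ) < N0 then ⟨C.vl g s, mem_TS (hR.sup _ (hR.vl g h s))⟩
    else if s = 0 then ⟨C.inp g 0, mem_TS (hR.sup _ (hR.new g (not_lt.1 h) g.2).2.1)⟩
    else if s = 1 then ⟨C.inp g 1, mem_TS (hR.sup _ (hR.new g (not_lt.1 h) g.2).2.2)⟩
    else 0, fun g h s => ?_, fun g h => ⟨?_, ?_, fun j => ?_⟩⟩
  · simp only [dif_pos h]
  · simp only [dif_neg (not_lt.2 h), if_true]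
  · simp only [dif_neg (not_lt.2 h), if_true]
    rw [if_neg (one_ne_zero : (1 : Fin (κ + 2)) ≠ 0)]
  · simp only [dif_neg (not_lt.2 h), if_neg (succ_succ_ne_zero j), if_neg (succ_succ_ne_one j)]

theorem tau_theta {C : Circ K n κ} {N0 e : ℕ} {S : Finset K} {Y : Finset (Gen →₀ K)}
    (hR : Rich C N0 e S Y) {θ : Fin C.N → Fin (κ + 2) → TS K n κ N0}
    (hθ : ∀ g : Fin C.N, (g : ℕ) < N0 → ∀ s, (θ g s : Gen →₀ K) = C.vl g s)
    (hθ' : ∀ g : Fin C.N, N0 ≤ (g : ℕ) → (θ g 0 : Gen →₀ K) = C.inp g 0 ∧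
        (θ g 1 : Gen →₀ K) = C.inp g 1 ∧ ∀ j : Fin κ, θ g j.succ.succ = 0)
    {A : Type u} [CommRing A] [Algebra K A] (π : MvPolynomial Gen K →ₐ[K] A)
    (hπ : ∀ P, π P = 0 ↔ P ∈ C.I) (g : Fin C.N) (s : Fin (κ + 2)) :
    tauS π n κ N0 (θ g s) = π (lin K (C.vl g s)) := by
  rw [tauS_apply]
  rcases lt_or_ge (g : ℕ) N0 with h | h
  · rw [hθ g h s]
  · obtain ⟨h0, h1, h2⟩ := hθ' g h
    rcases fin_cases_two s with rfl | rfl | ⟨j, rfl⟩
    · rw [h0]
      rfl
    · rw [h1]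
      rfl
    · rw [h2, Submodule.coe_zero, map_zero, map_zero]
      symm
      rw [hπ]
      refine Ideal.subset_span ⟨g, g.2, j, ?_⟩
      rw [(hR.new g h g.2).1, Blk.rel, Circ.ev]
      simp only [Blk.triv, pow_one, sub_zero, aeval_X]

theorem aeval_theta (C : Circ K n κ)
    {A : Type u} [CommRing A] [Algebra K A] (π : MvPolynomial Gen K →ₐ[K] A)
    (g : Fin C.N) (h : MvPolynomial (Fin (κ + 2)) K) :
    aeval (fun s => π (lin K (C.vl g s))) h = π (C.ev g h) := by
  rw [Circ.ev]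
  exact (DFunLike.congr_fun (comp_aeval (fun s => lin K (C.vl g s)) π) h).symm

/-- the values of the functional at the linear forms -/
theorem aeval_TS {Ω : Type u} [Field Ω] [Algebra K Ω] (N0 : ℕ) (q : TS K n κ N0 →ₗ[K] Ω) :
    ∃ q' : Gen → Ω, (∀ v, ¬ Used n κ N0 v → q' v = 0) ∧
      ∀ t : TS K n κ N0, aeval q' (lin K (t : Gen →₀ K)) = q t := by
  classical
  refine ⟨fun v => if hv : Used n κ N0 v then q (bS K n κ N0 ⟨v, hv⟩) else 0,
    fun v hv => dif_neg hv, fun t => ?_⟩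
  have h1 : (Finsupp.linearCombination K fun v => if hv : Used n κ N0 v then
      q (bS K n κ N0 ⟨v, hv⟩) else (0 : Ω)).comp (TS K n κ N0).subtype = q := by
    refine LinearMap.ext_on_range (v := bS K n κ N0) (span_bS N0) fun v => ?_
    rw [LinearMap.comp_apply, Submodule.subtype_apply]
    change Finsupp.linearCombination K _ (Finsupp.single v.1 1) = _
    rw [Finsupp.linearCombination_single, one_smul]
    exact dif_pos v.2
  rw [aeval_linear]
  conv_rhs => rw [← h1]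
  rfl

/-- the hypothesis on the kernel -/
theorem core_ker (C : Circ K n κ) {e : ℕ}
    {A : Type u} [CommRing A] [Algebra K A] (π : MvPolynomial Gen K →ₐ[K] A)
    (hπ : ∀ P, π P = 0 ↔ P ∈ C.I)
    {Ω : Type u} [Field Ω] [Algebra K Ω] (p : ℕ → Fin (κ + 2) → Ω)
    (hker : ∀ Φ : ℕ → MvPolynomial (Fin (κ + 2)) K, (∀ g, (Φ g).IsHomogeneous e) →
      ∑ g ∈ Finset.range C.N, C.ev g (Φ g) ∈ C.I →
      ∑ g ∈ Finset.range C.N, aeval (p g) (Φ g) = 0)
    (h : Fin C.N → MvPolynomial (Fin (κ + 2)) K) (hh : ∀ g, (h g).IsHomogeneous e)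
    (hs : ∑ g : Fin C.N, aeval (fun v => π (lin K (C.vl g v))) (h g) = 0) :
    ∑ g : Fin C.N, aeval (p g) (h g) = 0 := by
  classical
  have h2 : ∀ g : Fin C.N, (if hg : (g : ℕ) < C.N then h ⟨g, hg⟩ else 0) = h g :=
    fun g => dif_pos g.2
  have h1 := hker (fun g => if hg : g < C.N then h ⟨g, hg⟩ else 0) (fun g => by
    by_cases hg : g < C.N
    · simp only [dif_pos hg]
      exact hh _
    · simp only [dif_neg hg]
      exact isHomogeneous_zero _ _ _) (by
    rw [Finset.sum_range, ← hπ, map_sum, ← hs]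
    refine Finset.sum_congr rfl fun g _ => ?_
    rw [aeval_theta C π, h2])
  rw [Finset.sum_range] at h1
  rw [← h1]
  refine Finset.sum_congr rfl fun g _ => ?_
  rw [h2]

/-- the rich family -/
noncomputable def yS {C : Circ K n κ} {N0 e : ℕ} {S : Finset K} {Y : Finset (Gen →₀ K)}
    (hR : Rich C N0 e S Y) (t : Y) : TS K n κ N0 := ⟨t.1, mem_TS (hR.sup t.1 t.2)⟩

theorem core_rich {C : Circ K n κ} {N0 e : ℕ} {S : Finset K} {Y : Finset (Gen →₀ K)}
    (hR : Rich C N0 e S Y) {θ : Fin C.N → Fin (κ + 2) → TS K n κ N0}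
    (hθ : ∀ g : Fin C.N, (g : ℕ) < N0 → ∀ s, (θ g s : Gen →₀ K) = C.vl g s)
    (hθ' : ∀ g : Fin C.N, N0 ≤ (g : ℕ) → (θ g 0 : Gen →₀ K) = C.inp g 0 ∧
        (θ g 1 : Gen →₀ K) = C.inp g 1 ∧ ∀ j : Fin κ, θ g j.succ.succ = 0) :
    RichF K e (yS hR) (bS K n κ N0) ∧
    (∀ s s', ∃ g, θ g 0 = yS hR s ∧ θ g 1 = yS hR s') ∧
    ∀ g, RichF K e (yS hR) (θ g) ∨ ∃ s s', θ g 0 = yS hR s ∧ θ g 1 = yS hR s' ∧
      ∀ v, v ≠ 0 → v ≠ 1 → θ g v = 0 := by
  refine ⟨⟨fun v => ⟨⟨Finsupp.single v.1 1, hR.single v.1 v.2⟩, rfl⟩, S, hR.card,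
    fun v w hvw c hc => ⟨⟨_, hR.add v.1 w.1 v.2 w.2 (fun h => hvw (Subtype.ext h)) c hc⟩, rfl⟩⟩,
    fun s s' => ?_, fun g => ?_⟩
  · obtain ⟨g, hg, hN, h0, h1⟩ := hR.pair s.1 s.2 s'.1 s'.2
    obtain ⟨h2, h3, -⟩ := hθ' ⟨g, hg⟩ hN
    exact ⟨⟨g, hg⟩, Subtype.ext (h2.trans h0), Subtype.ext (h3.trans h1)⟩
  · rcases lt_or_ge (g : ℕ) N0 with h | h
    · left
      refine ⟨fun s => ⟨⟨C.vl g s, hR.vl g h s⟩, Subtype.ext (hθ g h s).symm⟩, S, hR.card,
        fun s t hst c hc => ⟨⟨_, hR.vladd g h s t hst c hc⟩, Subtype.ext ?_⟩⟩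
      rw [Submodule.coe_add, Submodule.coe_smul, hθ g h, hθ g h]
      rfl
    · right
      obtain ⟨-, h0, h1⟩ := hR.new g h g.2
      obtain ⟨h2, h3, h4⟩ := hθ' g h
      refine ⟨⟨_, h0⟩, ⟨_, h1⟩, Subtype.ext h2, Subtype.ext h3, fun s hs0 hs1 => ?_⟩
      rcases fin_cases_two s with rfl | rfl | ⟨j, rfl⟩
      · exact absurd rfl hs0
      · exact absurd rfl hs1
      · exact h4 j

end point

end Vale.Agent.P200F.V.Rig

end

section

namespace Vale.Agent.P200F.V.Rig

open MvPolynomial Module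

universe u

section point

variable {K : Type u} [Field K] {n κ : ℕ}

/-- all pairs of the rich set force one point -/
theorem core_point_aux (C : Circ K n κ) (N0 e : ℕ) (he : 0 < e)
    (S : Finset K) (Y : Finset (Gen →₀ K)) (hR : Rich C N0 e S Y) {A : Type u} [CommRing A]
    [Algebra K A] (π : MvPolynomial Gen K →ₐ[K] A) (hπ : ∀ P, π P = 0 ↔ P ∈ C.I)
    {Ω : Type u} [Field Ω] [Algebra K Ω] (p : ℕ → Fin (κ + 2) → Ω)
    (hker : ∀ Φ : ℕ → MvPolynomial (Fin (κ + 2)) K, (∀ g, (Φ g).IsHomogeneous e) →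
      ∑ g ∈ Finset.range C.N, C.ev g (Φ g) ∈ C.I →
      ∑ g ∈ Finset.range C.N, aeval (p g) (Φ g) = 0) :
    ∃ q : Gen → Ω, (∀ v, ¬ Used n κ N0 v → q v = 0) ∧ ∀ g < C.N, ∃ ε : Ω, ε ^ e = 1 ∧
      ∀ s, p g s = ε * aeval q (lin K (C.vl g s)) := by
  classical
  obtain ⟨θ, hθ, hθ'⟩ := exists_theta hR
  obtain ⟨hY1, hY2, hY3⟩ := core_rich hR hθ hθ'
  obtain ⟨q, hq⟩ := rig_point' (tauS π n κ N0) he (bS K n κ N0) (span_bS N0) (yS hR) hY1 θ hY2
    hY3 (fun g : Fin C.N => p g) (fun g v => π (lin K (C.vl g v)))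
    (fun g v => tau_theta hR hθ hθ' π hπ g v) (core_ker C π hπ p hker)
  obtain ⟨q', hq0, hq'⟩ := aeval_TS N0 q
  refine ⟨q', hq0, fun g hg => ?_⟩
  obtain ⟨ε, hε, h1⟩ := hq ⟨g, hg⟩
  refine ⟨ε, hε, fun s => ?_⟩
  rw [h1 s, ← hq']
  rcases lt_or_ge g N0 with h | h
  · rw [hθ ⟨g, hg⟩ h s]
  · obtain ⟨h2, h3, h4⟩ := hθ' ⟨g, hg⟩ h
    rcases fin_cases_two s with rfl | rfl | ⟨j, rfl⟩
    · rw [h2]
      rfl
    · rw [h3]
      rfl
    · rw [h4, Submodule.coe_zero, map_zero, map_zero, aeval_linear]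
      have h5 : Finsupp.linearCombination K q' (C.vl g j.succ.succ) = 0 := by
        change Finsupp.linearCombination K q' (Finsupp.single (Sum.inr (g, (j : ℕ))) 1) = 0
        rw [Finsupp.linearCombination_single, one_smul]
        exact hq0 _ fun h' => absurd h'.1 (not_lt.2 h)
      rw [h5]

/-- all pairs of the rich set force one point -/
theorem core_point (C : Circ K n κ) (N0 e : ℕ) (he : 0 < e)
    (S : Finset K) (Y : Finset (Gen →₀ K)) (hR : Rich C N0 e S Y) {Ω : Type u} [Field Ω]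
    [Algebra K Ω] (p : ℕ → Fin (κ + 2) → Ω)
    (hker : ∀ Φ : ℕ → MvPolynomial (Fin (κ + 2)) K, (∀ g, (Φ g).IsHomogeneous e) →
      ∑ g ∈ Finset.range C.N, C.ev g (Φ g) ∈ C.I →
      ∑ g ∈ Finset.range C.N, aeval (p g) (Φ g) = 0) :
    ∃ q : Gen → Ω, (∀ v, ¬ Used n κ N0 v → q v = 0) ∧ ∀ g < C.N, ∃ ε : Ω, ε ^ e = 1 ∧
      ∀ s, p g s = ε * aeval q (lin K (C.vl g s)) :=
  core_point_aux C N0 e he S Y hR (Ideal.Quotient.mkₐ K C.I)
    (fun P => by rw [Ideal.Quotient.mkₐ_eq_mk, Ideal.Quotient.eq_zero_iff_mem]) p hker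

end point

/-- **IND, core.** -/
theorem core {K : Type u} [Field K] {n κ : ℕ} (C : Circ K n κ) (N0 e : ℕ) (he : 0 < e)
    (S : Finset K) (Y : Finset (Gen →₀ K)) (hR : Rich C N0 e S Y) {r : ℕ}
    (P : Fin r → MvPolynomial Gen K) (hZ : C.NoZ P) (Ω : Type u) [Field Ω] [IsAlgClosed Ω]
    [Algebra K Ω] (p : ℕ → Fin (κ + 2) → Ω)
    (hp : ∀ g < C.N, ∀ i, aeval (p g) ((C.β g).rel i) = 0)
    (hker : ∀ Φ : ℕ → MvPolynomial (Fin (κ + 2)) K, (∀ g, (Φ g).IsHomogeneous e) →
      ∑ g ∈ Finset.range C.N, C.ev g (Φ g) ∈ C.I →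
      ∑ g ∈ Finset.range C.N, aeval (p g) (Φ g) = 0)
    (hP : ∀ l, ∃ Φ : ℕ → MvPolynomial (Fin (κ + 2)) K, (∀ g, (Φ g).IsHomogeneous e) ∧
      P l - ∑ g ∈ Finset.range C.N, C.ev g (Φ g) ∈ C.I ∧
      ∑ g ∈ Finset.range C.N, aeval (p g) (Φ g) = 0) :
    ∀ g < C.N, p g = 0 := by
  obtain ⟨q, hqv, hq⟩ := core_point C N0 e he S Y hR p hker
  have hPt : C.Pt q := by
    refine pt_of_rel C fun g hg i => ?_
    obtain ⟨ε, hε, h2⟩ := hq g hg
    have h3 := hp g hg i
    have h4 : p g = fun s => ε * aeval q (lin K (C.vl g s)) := funext h2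
    rw [h4, aeval_hom_scale (rel_hom _ i)] at h3
    rcases mul_eq_zero.1 h3 with h5 | h5
    · have h6 : ε = 0 := eq_zero_of_pow_eq_zero h5
      rw [h6, zero_pow he.ne'] at hε
      exact absurd hε zero_ne_one
    · exact h5
  have hPl : ∀ l, aeval q (P l) = 0 := by
    intro l
    obtain ⟨Φ, hΦ, h1, h2⟩ := hP l
    have h3 := hPt _ h1
    rw [map_sub, sub_eq_zero] at h3
    rw [h3, map_sum, ← h2]
    refine Finset.sum_congr rfl fun g hg => ?_
    obtain ⟨ε, hε, h4⟩ := hq g (Finset.mem_range.1 hg)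
    have h5 : p g = fun s => ε * aeval q (lin K (C.vl g s)) := funext h4
    rw [aeval_ev, h5, aeval_hom_scale (hΦ g), hε, one_mul]
  have hall := pt_zero_core C hPt (hZ Ω q hPt hPl)
  have hq0 : ∀ v, q v = 0 := by
    intro v
    by_cases hv : Used n κ N0 v
    · refine hall v ?_
      rcases v with i | ⟨g, j⟩
      · exact hv
      · exact ⟨lt_of_lt_of_le hv.1 hR.le, hv.2⟩
    · exact hqv v hv
  intro g hg
  funext s
  obtain ⟨ε, -, h2⟩ := hq g hg
  rw [h2 s, aeval_linear, linearCombination_zero q _ fun v _ => hq0 v, mul_zero]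
  rfl

end Vale.Agent.P200F.V.Rig

end
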