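import Vale.Agent.P200F.Ns
import Vale.Agent.P200F.F1

set_option linter.all false

namespace AFast1d7254x5a
@[reducible] noncomputable def a0.{u1} {x1 : Type} {x2 : Type u1} [x3 : Field x2] : Algebra (MvPolynomial x1 x2) (OreLocalization (nonZeroDivisors (MvPolynomial x1 x2)) (MvPolynomial x1 x2)) := inferInstance
@[reducible] noncomputable def a1.{u1} {x1 : Type u1} [x2 : Field x1] {x3 : Type} : Semifield (Vale.Agent.P200F.V.KF x1 x3) := inferInstance
@[reducible] noncomputable def a2.{u1} {x1 : Type} {x2 : Type u1} [x3 : Field x2] : Field (FractionRing (MvPolynomial x1 x2)) := inferInstance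
theorem a3.{u1} {x1 : Type} {x2 : Type u1} [x3 : Field x2] : IsDomain (MvPolynomial x1 x2) := inferInstance
end AFast1d7254x5a
attribute [local instance] AFast1d7254x5a.a0 AFast1d7254x5a.a1 AFast1d7254x5a.a2 AFast1d7254x5a.a3
section

namespace Vale.Agent.P200F.V.Rig.Nw

open MvPolynomial

universe u

/-- the linear forms of the variables of a block with the inputs `i` -/
noncomputable def vlG {K : Type u} [Field K] (κ : ℕ) (i : Fin 2 → (Gen →₀ K)) (g : ℕ)
    (s : Fin (κ + 2)) : Gen →₀ K :=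
  Fin.cases (i 0) (fun s => Fin.cases (i 1)
    (fun j : Fin κ => Finsupp.single (Sum.inr (g, (j : ℕ))) 1) s) s

theorem vlG_zero {K : Type u} [Field K] (κ : ℕ) (i : Fin 2 → (Gen →₀ K)) (g : ℕ) :
    vlG κ i g 0 = i 0 := rfl

theorem vlG_one {K : Type u} [Field K] (κ : ℕ) (i : Fin 2 → (Gen →₀ K)) (g : ℕ) :
    vlG κ i g 1 = i 1 := rfl

theorem vlG_succ {K : Type u} [Field K] (κ : ℕ) (i : Fin 2 → (Gen →₀ K)) (g : ℕ) (j : Fin κ) :
    vlG κ i g j.succ.succ = Finsupp.single (Sum.inr (g, (j : ℕ))) 1 := rfl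

theorem vlG_last {K : Type u} [Field K] (κ : ℕ) (i : Fin 2 → (Gen →₀ K)) (g : ℕ) :
    vlG (κ + 1) i g (Fin.last (κ + 2)) = Finsupp.single (Sum.inr (g, κ)) 1 := by
  have h : Fin.last (κ + 2) = (Fin.last κ).succ.succ := rfl
  have h2 := vlG_succ (κ + 1) i g (Fin.last κ)
  rw [Fin.val_last] at h2
  rw [h]
  exact h2

theorem vlG_castSucc {K K' : Type u} [Field K] [Field K'] (φ : K →+* K') (κ : ℕ)
    (i : Fin 2 → (Gen →₀ K)) (i' : Fin 2 → (Gen →₀ K')) (hi : ∀ ε, i' ε = mapL φ (i ε)) (g : ℕ)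
    (s : Fin (κ + 2)) : vlG (κ + 1) i' g s.castSucc = mapL φ (vlG κ i g s) := by
  refine Fin.cases ?_ (fun s => ?_) s
  · exact hi 0
  · refine Fin.cases ?_ (fun j => ?_) s
    · exact hi 1
    · have h1 : (j.succ.succ).castSucc = (j.castSucc).succ.succ := rfl
      rw [vlG_succ]
      have h2 := vlG_succ (κ + 1) i' g j.castSucc
      rw [Fin.val_castSucc] at h2
      have h3 : mapL φ (Finsupp.single (Sum.inr (g, (j : ℕ)) : Gen) (1 : K)) =
          Finsupp.single (Sum.inr (g, (j : ℕ))) 1 := by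
        unfold mapL
        rw [Finsupp.mapRange_single, map_one]
      rw [h3]
      exact h2

theorem mapL_single {K K' : Type u} [Field K] [Field K'] (φ : K →+* K') (v : Gen) :
    mapL φ (Finsupp.single v (1 : K)) = Finsupp.single v 1 := by
  unfold mapL
  rw [Finsupp.mapRange_single, map_one]

theorem mapL_sup {K K' : Type u} [Field K] [Field K'] (φ : K →+* K') {n κ N : ℕ}
    {t : Gen →₀ K} (h : Sup n κ N t) : Sup n κ N (mapL φ t) :=
  fun v hv => h v (Finsupp.support_mapRange hv)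

theorem sup_single {K : Type u} [Field K] {n κ N : ℕ} {v : Gen} (h : Used n κ N v) :
    Sup n κ N (Finsupp.single v (1 : K)) := by
  intro w hw
  have h2 := Finsupp.support_single_subset hw
  rw [Finset.mem_singleton] at h2
  rw [h2]
  exact h

theorem used_le {n κ N κ' N' : ℕ} (hκ : κ ≤ κ') (hN : N ≤ N') {v : Gen} (h : Used n κ N v) :
    Used n κ' N' v := by
  cases v with
  | inl i => exact h
  | inr p => exact ⟨lt_of_lt_of_le h.1 hN, lt_of_lt_of_le h.2 hκ⟩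

theorem sup_le {K : Type u} [Field K] {n κ N κ' N' : ℕ} (hκ : κ ≤ κ') (hN : N ≤ N')
    {t : Gen →₀ K} (h : Sup n κ N t) : Sup n κ' N' t := fun v hv => used_le hκ hN (h v hv)

theorem lin_single {K : Type u} [Field K] (v : Gen) : lin K (Finsupp.single v (1 : K)) = X v := by
  rw [lin, Finsupp.linearCombination_single, one_smul]

/-- names of the parameters of the joins -/
abbrev JI (J : ℕ) : Type := Fin J × Fin 2

/-- the coefficients of the parameters of the joins -/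
noncomputable def jA (K : Type u) [Field K] (κ N J e : ℕ) (g : ℕ) (m : JI J) :
    MvPolynomial (Fin (κ + 2)) K :=
  if g = N + m.1 then X (if m.2 = 0 then 0 else 1) ^ e else 0

theorem jA_hom (K : Type u) [Field K] (κ N J e : ℕ) (g : ℕ) (m : JI J) :
    (jA K κ N J e g m).IsHomogeneous e := by
  unfold jA
  split_ifs with h
  · have h1 := (isHomogeneous_X K (0 : Fin (κ + 2))).pow e
    rw [one_mul] at h1
    exact h1
  · have h1 := (isHomogeneous_X K (1 : Fin (κ + 2))).pow e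
    rw [one_mul] at h1
    exact h1
  · exact isHomogeneous_zero _ _ _

/-- the coefficient of the component `g` in the root after `T` joins -/
def Sc {K : Type u} [Field K] (s s' : ℕ → K) : ℕ → ℕ → K
  | 0, g => if g = 0 then 1 else 0
  | T + 1, g => if g = T + 1 then s' T else s T * Sc s s' T g

theorem Sc_ne {K : Type u} [Field K] {s s' : ℕ → K} {T : ℕ} (hs : ∀ t < T, s t ≠ 0)
    (hs' : ∀ t < T, s' t ≠ 0) : ∀ g ≤ T, Sc s s' T g ≠ 0 := by
  induction T with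
  | zero =>
    intro g hg
    have h0 : g = 0 := by omega
    rw [Sc, if_pos h0]
    exact one_ne_zero
  | succ T ih =>
    intro g hg
    rw [Sc]
    split_ifs with h
    · exact hs' T (Nat.lt_succ_self T)
    · exact mul_ne_zero (hs T (Nat.lt_succ_self T))
        (ih (fun t ht => hs t (by omega)) (fun t ht => hs' t (by omega)) g (by omega))

/-- the field after the joins -/
abbrev K1 {K : Type u} [Field K] {n κ : ℕ} (C : Circ K n κ) : Type u := KF K (JI (C.N - 1))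

/-- the final field -/
abbrev K2 {K : Type u} [Field K] {n κ : ℕ} (C : Circ K n κ) (ι : Type) : Type u := KF (K1 C) ι

/-- the change of the field -/
noncomputable def ph {K : Type u} [Field K] {n κ : ℕ} (C : Circ K n κ) (ι : Type) : K →+* K2 C ι :=
  (algebraMap (K1 C) (K2 C ι)).comp (algebraMap K (K1 C))

section new
variable {K : Type u} [Field K] {n κ : ℕ} (C : Circ K n κ) (e : ℕ) (he : 0 < e)
variable {ι : Type} [Fintype ι] (h : ι → ℕ → MvPolynomial (Fin (κ + 2)) K)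
  (hh : ∀ m g, (h m g).IsHomogeneous e)

/-- the first parameters of the joins -/
noncomputable def ps (t : ℕ) : K1 C :=
  if ht : t < C.N - 1 then Tv K ((⟨t, ht⟩, 0) : JI (C.N - 1)) else 1

/-- the second parameters of the joins -/
noncomputable def ps' (t : ℕ) : K1 C :=
  if ht : t < C.N - 1 then Tv K ((⟨t, ht⟩, 1) : JI (C.N - 1)) else 1

/-- the blocks after the joins -/
noncomputable def B1 (g : ℕ) : Blk (K1 C) (κ + 1) :=
  newB (C.β g) (C.N ≤ g ∧ g < C.N + (C.N - 1)) e he (jA K κ C.N (C.N - 1) e g)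
    (jA_hom K κ C.N (C.N - 1) e g)

/-- the coefficients of the new parameters -/
noncomputable def a2 (g : ℕ) (m : ι) : MvPolynomial (Fin (κ + 1 + 2)) (K1 C) :=
  if g < C.N then MvPolynomial.C (Sc (ps C) (ps' C) (C.N - 1) g)⁻¹ *
    rename (Fin.castSucc : Fin (κ + 2) → Fin (κ + 2 + 1))
      (MvPolynomial.map (algebraMap K (K1 C)) (h m g))
  else 0

omit [Fintype ι] in
include hh in
theorem a2_hom (g : ℕ) (m : ι) : (a2 C h g m).IsHomogeneous e := by
  unfold a2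
  split_ifs
  · have h1 := (isHomogeneous_C (Fin (κ + 1 + 2)) (Sc (ps C) (ps' C) (C.N - 1) g)⁻¹).mul
      (((hh m g).map (algebraMap K (K1 C))).rename_isHomogeneous
        (f := (Fin.castSucc : Fin (κ + 2) → Fin (κ + 2 + 1))))
    rw [zero_add] at h1
    exact h1
  · exact isHomogeneous_zero _ _ _

/-- the blocks of the new circuit -/
noncomputable def B2 (g : ℕ) : Blk (K2 C ι) (κ + 1 + 1) :=
  newB (B1 C e he g) (g < C.N) e he (a2 C h g) (a2_hom C e h hh g)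

/-- the root after `T` joins -/
def gR (T : ℕ) : Gen :=
  match T with
  | 0 => Sum.inr (0, κ + 1)
  | T + 1 => Sum.inr (C.N + T, κ)

/-- the inputs after the joins -/
noncomputable def inp1 (g : ℕ) (ε : Fin 2) : Gen →₀ K1 C :=
  if g < C.N then mapL (algebraMap K (K1 C)) (C.inp g ε)
  else if ε = 0 then Finsupp.single (gR C (g - C.N)) 1
  else Finsupp.single (Sum.inr (g - C.N + 1, κ + 1)) 1

/-- the new circuit -/
noncomputable def newC (hint : ∀ R, IntAll (K2 C ι) fun g : Fin R => B2 C e he h hh g)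
    (htriv : ∀ g, C.N + (C.N - 1) ≤ g → B2 C e he h hh g = Blk.triv (K2 C ι) (κ + 1 + 1)) :
    Circ (K2 C ι) n (κ + 1 + 1) where
  N := C.N + (C.N - 1)
  β := B2 C e he h hh
  inp g ε := mapL (algebraMap (K1 C) (K2 C ι)) (inp1 C g ε)
  int := hint
  triv := htriv
  old := by
    intro g hg ε
    refine mapL_sup _ ?_
    unfold inp1
    split_ifs with h1 h2
    · exact sup_le (by omega) le_rfl (mapL_sup _ (C.old g h1 ε))
    · refine sup_single ?_
      obtain ⟨t, rfl⟩ := Nat.exists_eq_add_of_le (not_lt.1 h1)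
      rw [Nat.add_sub_cancel_left]
      cases t with
      | zero =>
        refine ⟨?_, ?_⟩
        · change 0 < C.N + 0
          omega
        · change κ + 1 < κ + 1 + 1
          omega
      | succ t =>
        refine ⟨?_, ?_⟩
        · change C.N + t < C.N + (t + 1)
          omega
        · change κ < κ + 1 + 1
          omega
    · refine sup_single ?_
      refine ⟨?_, ?_⟩
      · change g - C.N + 1 < g
        omega
      · change κ + 1 < κ + 1 + 1
        omega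

end new

end Vale.Agent.P200F.V.Rig.Nw

end
namespace AFast1d7254x230a
@[reducible] noncomputable def a0.{u1} {x1 : Type u1} [x2 : Field x1] {x3 : ℕ} {x4 : ℕ} {x5 : Vale.Agent.P200F.V.Rig.Circ x1 x3 x4} : Field (FractionRing (MvPolynomial (Vale.Agent.P200F.V.Rig.Nw.JI (x5.N - 1)) x1)) := inferInstance
theorem a1.{u1} {x1 : Type u1} [x2 : Field x1] {x3 : ℕ} {x4 : ℕ} {x5 : Vale.Agent.P200F.V.Rig.Circ x1 x3 x4} : IsDomain (MvPolynomial (Vale.Agent.P200F.V.Rig.Nw.JI (x5.N - 1)) x1) := inferInstance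
@[reducible] noncomputable def a2.{u1} {x1 : Type u1} [x2 : Field x1] {x3 : ℕ} {x4 : ℕ} {x5 : Vale.Agent.P200F.V.Rig.Circ x1 x3 x4} : Semifield (Vale.Agent.P200F.V.Rig.Nw.K1 x5) := inferInstance
theorem a3.{u1} {x1 : Type u1} [x2 : Field x1] {x3 : ℕ} {x4 : ℕ} {x5 : Vale.Agent.P200F.V.Rig.Circ x1 x3 x4} : IsDomain (Vale.Agent.P200F.V.Rig.Nw.K1 x5) := inferInstance
@[reducible] noncomputable def a4.{u1} {x1 : Type u1} [x2 : Field x1] {x3 : ℕ} {x4 : ℕ} {x5 : Vale.Agent.P200F.V.Rig.Circ x1 x3 x4} : DivisionRing (OreLocalization (nonZeroDivisors (MvPolynomial (Vale.Agent.P200F.V.Rig.Nw.JI (x5.N - 1)) x1)) (MvPolynomial (Vale.Agent.P200F.V.Rig.Nw.JI (x5.N - 1)) x1)) := inferInstance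
theorem a5.{u1} {x1 : Type u1} [x2 : Field x1] {x3 : ℕ} {x4 : ℕ} {x5 : Vale.Agent.P200F.V.Rig.Circ x1 x3 x4} : IsSimpleRing (Vale.Agent.P200F.V.Rig.Nw.K1 x5) := inferInstance
theorem a6.{u1} {x1 : Type} {x2 : Type u1} [x3 : Field x2] {x4 : ℕ} {x5 : ℕ} {x6 : Vale.Agent.P200F.V.Rig.Circ x2 x4 x5} : NoZeroDivisors (MvPolynomial x1 (Vale.Agent.P200F.V.Rig.Nw.K1 x6)) := inferInstance
@[reducible] noncomputable def a7.{u1} {x1 : Type} {x2 : Type u1} [x3 : Field x2] {x4 : ℕ} {x5 : ℕ} {x6 : Vale.Agent.P200F.V.Rig.Circ x2 x4 x5} : OreLocalization.OreSet (nonZeroDivisors (MvPolynomial x1 (Vale.Agent.P200F.V.Rig.Nw.K1 x6))) := inferInstance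
theorem a8.{u1} {x1 : Type u1} [x2 : Field x1] {x3 : ℕ} {x4 : ℕ} {x5 : Vale.Agent.P200F.V.Rig.Circ x1 x3 x4} : NoZeroDivisors (MvPolynomial (Vale.Agent.P200F.V.Rig.Nw.JI (x5.N - 1)) x1) := inferInstance
theorem a9.{u1} {x1 : Type u1} [x2 : Field x1] {x3 : ℕ} {x4 : ℕ} {x5 : Vale.Agent.P200F.V.Rig.Circ x1 x3 x4} : NoZeroDivisors (Localization (nonZeroDivisors (MvPolynomial (Vale.Agent.P200F.V.Rig.Nw.JI (x5.N - 1)) x1))) := inferInstance
@[reducible] noncomputable def a10.{u1} {x1 : Type u1} [x2 : Field x1] {x3 : ℕ} {x4 : ℕ} {x5 : Vale.Agent.P200F.V.Rig.Circ x1 x3 x4} : Ring (OreLocalization (nonZeroDivisors (MvPolynomial (Vale.Agent.P200F.V.Rig.Nw.JI (x5.N - 1)) x1)) (MvPolynomial (Vale.Agent.P200F.V.Rig.Nw.JI (x5.N - 1)) x1)) := inferInstance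
@[reducible] noncomputable def a11.{u1} {x1 : Type} {x2 : Type u1} [x3 : Field x2] {x4 : ℕ} {x5 : ℕ} {x6 : Vale.Agent.P200F.V.Rig.Circ x2 x4 x5} : CommMonoid (MvPolynomial x1 (Vale.Agent.P200F.V.Rig.Nw.K1 x6)) := inferInstance
@[reducible] noncomputable def a12.{u1} {x1 : Type} {x2 : Type u1} [x3 : Field x2] {x4 : ℕ} {x5 : ℕ} {x6 : Vale.Agent.P200F.V.Rig.Circ x2 x4 x5} : CommSemiring (MvPolynomial x1 (Vale.Agent.P200F.V.Rig.Nw.K1 x6)) := inferInstance
@[reducible] noncomputable def a13.{u1} {x1 : Type} {x2 : Type u1} [x3 : Field x2] {x4 : ℕ} {x5 : ℕ} {x6 : Vale.Agent.P200F.V.Rig.Circ x2 x4 x5} : CommSemiring (OreLocalization (nonZeroDivisors (MvPolynomial x1 (Vale.Agent.P200F.V.Rig.Nw.K1 x6))) (MvPolynomial x1 (Vale.Agent.P200F.V.Rig.Nw.K1 x6))) := inferInstance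
theorem a14.{u1} {x1 : Type u1} [x2 : Field x1] {x3 : ℕ} {x4 : ℕ} {x5 : Vale.Agent.P200F.V.Rig.Circ x1 x3 x4} : Nontrivial (MvPolynomial (Vale.Agent.P200F.V.Rig.Nw.JI (x5.N - 1)) x1) := inferInstance
@[reducible] noncomputable def a15.{u1} {x1 : Type u1} [x2 : Field x1] {x3 : ℕ} {x4 : ℕ} {x5 : Vale.Agent.P200F.V.Rig.Circ x1 x3 x4} : CommSemiring (Vale.Agent.P200F.V.Rig.Nw.K1 x5) := inferInstance
@[reducible] noncomputable def a16.{u1} {x1 : Type u1} [x2 : Field x1] {x3 : ℕ} {x4 : ℕ} {x5 : Vale.Agent.P200F.V.Rig.Circ x1 x3 x4} : OreLocalization.OreSet (nonZeroDivisors (MvPolynomial (Vale.Agent.P200F.V.Rig.Nw.JI (x5.N - 1)) x1)) := inferInstance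
@[reducible] noncomputable def a17.{u1} {x1 : Type u1} [x2 : Field x1] {x3 : ℕ} {x4 : ℕ} {x5 : Vale.Agent.P200F.V.Rig.Circ x1 x3 x4} {x6 : Type} : CommSemiring (Vale.Agent.P200F.V.Rig.Nw.K2 x5 x6) := inferInstance
@[reducible] noncomputable def a18.{u1} {x1 : Type u1} [x2 : Field x1] {x3 : ℕ} {x4 : ℕ} {x5 : Vale.Agent.P200F.V.Rig.Circ x1 x3 x4} : Semiring (Vale.Agent.P200F.V.Rig.Nw.K1 x5) := inferInstance
@[reducible] noncomputable def a19.{u1} {x1 : Type u1} [x2 : Field x1] {x3 : ℕ} {x4 : ℕ} {x5 : Vale.Agent.P200F.V.Rig.Circ x1 x3 x4} {x6 : Type} : Ring (AddMonoidAlgebra (Vale.Agent.P200F.V.Rig.Nw.K1 x5) (x6 →₀ ℕ)) := inferInstance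
@[reducible] noncomputable def a20.{u1} {x1 : Type u1} [x2 : Field x1] {x3 : ℕ} {x4 : ℕ} {x5 : Vale.Agent.P200F.V.Rig.Circ x1 x3 x4} : AddGroupWithOne (Vale.Agent.P200F.V.Rig.Nw.K1 x5) := inferInstance
@[reducible] noncomputable def a21.{u1} {x1 : Type u1} [x2 : Field x1] {x3 : ℕ} {x4 : ℕ} {x5 : Vale.Agent.P200F.V.Rig.Circ x1 x3 x4} {x6 : Type} : CommSemiring (AddMonoidAlgebra (Vale.Agent.P200F.V.Rig.Nw.K1 x5) (x6 →₀ ℕ)) := inferInstance
theorem a22.{u1} {x1 : Type u1} [x2 : Field x1] {x3 : ℕ} {x4 : ℕ} {x5 : Vale.Agent.P200F.V.Rig.Circ x1 x3 x4} : Nontrivial (FractionRing (MvPolynomial (Vale.Agent.P200F.V.Rig.Nw.JI (x5.N - 1)) x1)) := inferInstance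
@[reducible] noncomputable def a23.{u1} {x1 : Type u1} [x2 : Field x1] {x3 : ℕ} {x4 : ℕ} {x5 : Vale.Agent.P200F.V.Rig.Circ x1 x3 x4} : CommMonoid (MvPolynomial (Vale.Agent.P200F.V.Rig.Nw.JI (x5.N - 1)) x1) := inferInstance
theorem a24.{u1} {x1 : Type} {x2 : Type u1} [x3 : Field x2] {x4 : ℕ} {x5 : ℕ} {x6 : Vale.Agent.P200F.V.Rig.Circ x2 x4 x5} : Nontrivial (MvPolynomial x1 (Vale.Agent.P200F.V.Rig.Nw.K1 x6)) := inferInstance
@[reducible] noncomputable def a25.{u1} {x1 : Type u1} [x2 : Field x1] {x3 : ℕ} {x4 : ℕ} {x5 : Vale.Agent.P200F.V.Rig.Circ x1 x3 x4} : CommSemiring (OreLocalization (nonZeroDivisors (MvPolynomial (Vale.Agent.P200F.V.Rig.Nw.JI (x5.N - 1)) x1)) (MvPolynomial (Vale.Agent.P200F.V.Rig.Nw.JI (x5.N - 1)) x1)) := inferInstance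
@[reducible] noncomputable def a26.{u1} {x1 : Type u1} [x2 : Field x1] {x3 : ℕ} {x4 : ℕ} {x5 : Vale.Agent.P200F.V.Rig.Circ x1 x3 x4} {x6 : Type} : Algebra (Vale.Agent.P200F.V.Rig.Nw.K1 x5) (OreLocalization (nonZeroDivisors (MvPolynomial x6 (Vale.Agent.P200F.V.Rig.Nw.K1 x5))) (MvPolynomial x6 (Vale.Agent.P200F.V.Rig.Nw.K1 x5))) := inferInstance
@[reducible] noncomputable def a27.{u1} {x1 : Type} {x2 : Type u1} [x3 : Field x2] {x4 : ℕ} {x5 : ℕ} {x6 : Vale.Agent.P200F.V.Rig.Circ x2 x4 x5} : Ring (OreLocalization (nonZeroDivisors (MvPolynomial x1 (Vale.Agent.P200F.V.Rig.Nw.K1 x6))) (MvPolynomial x1 (Vale.Agent.P200F.V.Rig.Nw.K1 x6))) := inferInstance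
@[reducible] noncomputable def a28.{u1} {x1 : Type u1} [x2 : Field x1] {x3 : ℕ} {x4 : ℕ} {x5 : Vale.Agent.P200F.V.Rig.Circ x1 x3 x4} : Inv (OreLocalization (nonZeroDivisors (MvPolynomial (Vale.Agent.P200F.V.Rig.Nw.JI (x5.N - 1)) x1)) (MvPolynomial (Vale.Agent.P200F.V.Rig.Nw.JI (x5.N - 1)) x1)) := inferInstance
@[reducible] noncomputable def a29.{u1} {x1 : Type u1} [x2 : Field x1] {x3 : ℕ} {x4 : ℕ} {x5 : Vale.Agent.P200F.V.Rig.Circ x1 x3 x4} {x6 : Type} : Sub (MvPolynomial Vale.Agent.P200F.V.Rig.Gen (Vale.Agent.P200F.V.Rig.Nw.K2 x5 x6)) := inferInstance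
@[reducible] noncomputable def a30.{u1} {x1 : Type u1} [x2 : Field x1] {x3 : ℕ} {x4 : ℕ} {x5 : Vale.Agent.P200F.V.Rig.Circ x1 x3 x4} {x6 : Type} : SubNegMonoid (MvPolynomial Vale.Agent.P200F.V.Rig.Gen (Vale.Agent.P200F.V.Rig.Nw.K2 x5 x6)) := inferInstance
@[reducible] noncomputable def a31.{u1} {x1 : Type u1} [x2 : Field x1] {x3 : ℕ} {x4 : ℕ} {x5 : Vale.Agent.P200F.V.Rig.Circ x1 x3 x4} : CommRing (Vale.Agent.P200F.V.Rig.Nw.K1 x5) := inferInstance
@[reducible] noncomputable def a32.{u1} {x1 : Type u1} [x2 : Field x1] {x3 : ℕ} {x4 : ℕ} {x5 : Vale.Agent.P200F.V.Rig.Circ x1 x3 x4} : CommRing (OreLocalization (nonZeroDivisors (MvPolynomial (Vale.Agent.P200F.V.Rig.Nw.JI (x5.N - 1)) x1)) (MvPolynomial (Vale.Agent.P200F.V.Rig.Nw.JI (x5.N - 1)) x1)) := inferInstance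
@[reducible] noncomputable def a33.{u1} {x1 : Type u1} [x2 : Field x1] {x3 : ℕ} {x4 : ℕ} {x5 : Vale.Agent.P200F.V.Rig.Circ x1 x3 x4} {x6 : Type} : Semiring (Vale.Agent.P200F.V.Rig.Nw.K2 x5 x6) := inferInstance
@[reducible] noncomputable def a34.{u1} {x1 : Type u1} [x2 : Field x1] {x3 : ℕ} {x4 : ℕ} {x5 : Vale.Agent.P200F.V.Rig.Circ x1 x3 x4} : DivisionSemiring (Vale.Agent.P200F.V.Rig.Nw.K1 x5) := inferInstance
@[reducible] noncomputable def a35.{u1} {x1 : Type u1} [x2 : Field x1] {x3 : ℕ} {x4 : ℕ} {x5 : Vale.Agent.P200F.V.Rig.Circ x1 x3 x4} : NonAssocSemiring (Vale.Agent.P200F.V.Rig.Nw.K1 x5) := inferInstance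
@[reducible] noncomputable def a36.{u1} {x1 : Type u1} [x2 : Field x1] {x3 : ℕ} {x4 : ℕ} {x5 : Vale.Agent.P200F.V.Rig.Circ x1 x3 x4} {x6 : Type} : Algebra (Vale.Agent.P200F.V.Rig.Nw.K1 x5) (AddMonoidAlgebra (Vale.Agent.P200F.V.Rig.Nw.K1 x5) (x6 →₀ ℕ)) := inferInstance
@[reducible] noncomputable def a37.{u1} {x1 : Type u1} [x2 : Field x1] {x3 : ℕ} {x4 : ℕ} {x5 : Vale.Agent.P200F.V.Rig.Circ x1 x3 x4} {x6 : Type} : NonAssocSemiring (Vale.Agent.P200F.V.Rig.Nw.K2 x5 x6) := inferInstance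
@[reducible] noncomputable def a38.{u1} {x1 : Type u1} [x2 : Field x1] {x3 : ℕ} {x4 : ℕ} {x5 : Vale.Agent.P200F.V.Rig.Circ x1 x3 x4} : MulOneClass (Vale.Agent.P200F.V.Rig.Nw.K1 x5) := inferInstance
@[reducible] noncomputable def a39.{u1} {x1 : Type u1} [x2 : Field x1] {x3 : ℕ} {x4 : ℕ} {x5 : Vale.Agent.P200F.V.Rig.Circ x1 x3 x4} : MulZeroOneClass (Vale.Agent.P200F.V.Rig.Nw.K1 x5) := inferInstance
@[reducible] noncomputable def a40.{u1} {x1 : Type u1} [x2 : Field x1] {x3 : ℕ} {x4 : ℕ} {x5 : Vale.Agent.P200F.V.Rig.Circ x1 x3 x4} : MulZeroClass (Vale.Agent.P200F.V.Rig.Nw.K1 x5) := inferInstance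
@[reducible] noncomputable def a41.{u1} {x1 : Type} {x2 : Type u1} [x3 : Field x2] {x4 : ℕ} {x5 : ℕ} {x6 : Vale.Agent.P200F.V.Rig.Circ x2 x4 x5} : Semiring (OreLocalization (nonZeroDivisors (MvPolynomial x1 (Vale.Agent.P200F.V.Rig.Nw.K1 x6))) (MvPolynomial x1 (Vale.Agent.P200F.V.Rig.Nw.K1 x6))) := inferInstance
theorem a42.{u1} {x1 : Type u1} [x2 : Field x1] {x3 : ℕ} {x4 : ℕ} {x5 : Vale.Agent.P200F.V.Rig.Circ x1 x3 x4} {x6 : Type} : OneHomClass (Vale.Agent.P200F.V.Rig.Nw.K1 x5 →+* Vale.Agent.P200F.V.Rig.Nw.K2 x5 x6) (Vale.Agent.P200F.V.Rig.Nw.K1 x5) (Vale.Agent.P200F.V.Rig.Nw.K2 x5 x6) := inferInstance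
@[reducible] noncomputable def a43.{u1} {x1 : Type u1} [x2 : Field x1] {x3 : ℕ} {x4 : ℕ} {x5 : Vale.Agent.P200F.V.Rig.Circ x1 x3 x4} {x6 : Type} : AddCommMonoid (Vale.Agent.P200F.V.Rig.Gen →₀ Vale.Agent.P200F.V.Rig.Nw.K2 x5 x6) := inferInstance
theorem a44.{u1} {x1 : Type u1} [x2 : Field x1] {x3 : ℕ} {x4 : ℕ} {x5 : Vale.Agent.P200F.V.Rig.Circ x1 x3 x4} {x6 : Type} : MonoidHomClass (Vale.Agent.P200F.V.Rig.Nw.K1 x5 →+* Vale.Agent.P200F.V.Rig.Nw.K2 x5 x6) (Vale.Agent.P200F.V.Rig.Nw.K1 x5) (Vale.Agent.P200F.V.Rig.Nw.K2 x5 x6) := inferInstance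
@[reducible] noncomputable def a45.{u1} {x1 : Type u1} [x2 : Field x1] {x3 : ℕ} {x4 : ℕ} {x5 : Vale.Agent.P200F.V.Rig.Circ x1 x3 x4} {x6 : Type} : SubtractionMonoid (MvPolynomial Vale.Agent.P200F.V.Rig.Gen (Vale.Agent.P200F.V.Rig.Nw.K2 x5 x6)) := inferInstance
@[reducible] noncomputable def a46.{u1} {x1 : Type u1} [x2 : Field x1] {x3 : ℕ} {x4 : ℕ} {x5 : Vale.Agent.P200F.V.Rig.Circ x1 x3 x4} {x6 : Type} : AddGroup (MvPolynomial Vale.Agent.P200F.V.Rig.Gen (Vale.Agent.P200F.V.Rig.Nw.K2 x5 x6)) := inferInstance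
@[reducible] noncomputable def a47.{u1} {x1 : Type u1} [x2 : Field x1] {x3 : ℕ} {x4 : ℕ} {x5 : Vale.Agent.P200F.V.Rig.Circ x1 x3 x4} : Monoid (MvPolynomial (Vale.Agent.P200F.V.Rig.Nw.JI (x5.N - 1)) x1) := inferInstance
@[reducible] noncomputable def a48.{u1} {x1 : Type u1} [x2 : Field x1] {x3 : ℕ} {x4 : ℕ} {x5 : Vale.Agent.P200F.V.Rig.Circ x1 x3 x4} {x6 : Type} : AddGroupWithOne (MvPolynomial Vale.Agent.P200F.V.Rig.Gen (Vale.Agent.P200F.V.Rig.Nw.K2 x5 x6)) := inferInstance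
@[reducible] noncomputable def a49.{u1} {x1 : Type u1} [x2 : Field x1] {x3 : ℕ} {x4 : ℕ} {x5 : Vale.Agent.P200F.V.Rig.Circ x1 x3 x4} : MulOne (Vale.Agent.P200F.V.Rig.Nw.K1 x5) := inferInstance
@[reducible] noncomputable def a50.{u1} {x1 : Type u1} [x2 : Field x1] {x3 : ℕ} {x4 : ℕ} {x5 : Vale.Agent.P200F.V.Rig.Circ x1 x3 x4} : DivisionRing (Vale.Agent.P200F.V.Rig.Nw.K1 x5) := inferInstance
theorem a51.{u1} {x1 : Type u1} [x2 : Field x1] {x3 : ℕ} {x4 : ℕ} {x5 : Vale.Agent.P200F.V.Rig.Circ x1 x3 x4} {x6 : Type} : MulHomClass (MvPolynomial Vale.Agent.P200F.V.Rig.Gen (Vale.Agent.P200F.V.Rig.Nw.K1 x5) →+* MvPolynomial Vale.Agent.P200F.V.Rig.Gen (Vale.Agent.P200F.V.Rig.Nw.K2 x5 x6)) (MvPolynomial Vale.Agent.P200F.V.Rig.Gen (Vale.Agent.P200F.V.Rig.Nw.K1 x5)) (MvPolynomial Vale.Agent.P200F.V.Rig.Gen (Vale.Agent.P200F.V.Rig.Nw.K2 x5 x6)) := inferInstance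
@[reducible] noncomputable def a52.{u1} {x1 : Type u1} [x2 : Field x1] {x3 : ℕ} {x4 : ℕ} {x5 : Vale.Agent.P200F.V.Rig.Circ x1 x3 x4} : Semiring (OreLocalization (nonZeroDivisors (MvPolynomial (Vale.Agent.P200F.V.Rig.Nw.JI (x5.N - 1)) x1)) (MvPolynomial (Vale.Agent.P200F.V.Rig.Nw.JI (x5.N - 1)) x1)) := inferInstance
@[reducible] noncomputable def a53.{u1} {x1 : Type} {x2 : Type u1} [x3 : Field x2] {x4 : ℕ} {x5 : ℕ} {x6 : Vale.Agent.P200F.V.Rig.Circ x2 x4 x5} : CommRing (OreLocalization (nonZeroDivisors (MvPolynomial x1 (Vale.Agent.P200F.V.Rig.Nw.K1 x6))) (MvPolynomial x1 (Vale.Agent.P200F.V.Rig.Nw.K1 x6))) := inferInstance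
@[reducible] noncomputable def a54.{u1} {x1 : Type u1} [x2 : Field x1] {x3 : ℕ} {x4 : ℕ} {x5 : Vale.Agent.P200F.V.Rig.Circ x1 x3 x4} : Ring (Vale.Agent.P200F.V.Rig.Nw.K1 x5) := inferInstance
theorem a55.{u1} {x1 : Type u1} [x2 : Field x1] {x3 : ℕ} {x4 : ℕ} {x5 : Vale.Agent.P200F.V.Rig.Circ x1 x3 x4} {x6 : Type} : MonoidWithZeroHomClass (Vale.Agent.P200F.V.Rig.Nw.K1 x5 →+* Vale.Agent.P200F.V.Rig.Nw.K2 x5 x6) (Vale.Agent.P200F.V.Rig.Nw.K1 x5) (Vale.Agent.P200F.V.Rig.Nw.K2 x5 x6) := inferInstance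
@[reducible] noncomputable def a56.{u1} {x1 : Type u1} [x2 : Field x1] {x3 : ℕ} {x4 : ℕ} {x5 : Vale.Agent.P200F.V.Rig.Circ x1 x3 x4} : Algebra (Vale.Agent.P200F.V.Rig.Nw.K1 x5) (AddMonoidAlgebra (Vale.Agent.P200F.V.Rig.Nw.K1 x5) (Fin (x4 + 2 + 1) →₀ ℕ)) := inferInstance
@[reducible] noncomputable def a57.{u1} {x1 : Type u1} [x2 : Field x1] {x3 : ℕ} {x4 : ℕ} {x5 : Vale.Agent.P200F.V.Rig.Circ x1 x3 x4} : Algebra (Vale.Agent.P200F.V.Rig.Nw.K1 x5) (AddMonoidAlgebra (Vale.Agent.P200F.V.Rig.Nw.K1 x5) (Fin (x4 + 2) →₀ ℕ)) := inferInstance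
@[reducible] noncomputable def a58.{u1} {x1 : Type u1} [x2 : Field x1] {x3 : ℕ} {x4 : ℕ} {x5 : Vale.Agent.P200F.V.Rig.Circ x1 x3 x4} {x6 : Type} : CommRing (Vale.Agent.P200F.V.Rig.Nw.K2 x5 x6) := inferInstance
@[reducible] noncomputable def a59.{u1} {x1 : Type u1} [x2 : Field x1] {x3 : ℕ} {x4 : ℕ} {x5 : Vale.Agent.P200F.V.Rig.Circ x1 x3 x4} {x6 : Type} : Ring (Vale.Agent.P200F.V.Rig.Nw.K2 x5 x6) := inferInstance
@[reducible] noncomputable def a60.{u1} {x1 : Type u1} [x2 : Field x1] {x3 : ℕ} {x4 : ℕ} {x5 : Vale.Agent.P200F.V.Rig.Circ x1 x3 x4} {x6 : Type} : Pow (MvPolynomial Vale.Agent.P200F.V.Rig.Gen (Vale.Agent.P200F.V.Rig.Nw.K2 x5 x6)) ℕ := inferInstance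
end AFast1d7254x230a
attribute [local instance] AFast1d7254x230a.a0 AFast1d7254x230a.a1 AFast1d7254x230a.a2
  AFast1d7254x230a.a3 AFast1d7254x230a.a4 AFast1d7254x230a.a5 AFast1d7254x230a.a6
  AFast1d7254x230a.a7 AFast1d7254x230a.a8 AFast1d7254x230a.a9 AFast1d7254x230a.a10
  AFast1d7254x230a.a11 AFast1d7254x230a.a12 AFast1d7254x230a.a13 AFast1d7254x230a.a14
  AFast1d7254x230a.a15 AFast1d7254x230a.a16 AFast1d7254x230a.a17 AFast1d7254x230a.a18
  AFast1d7254x230a.a19 AFast1d7254x230a.a20 AFast1d7254x230a.a21 AFast1d7254x230a.a22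
  AFast1d7254x230a.a23 AFast1d7254x230a.a24 AFast1d7254x230a.a25 AFast1d7254x230a.a26
  AFast1d7254x230a.a27 AFast1d7254x230a.a28 AFast1d7254x230a.a29 AFast1d7254x230a.a30
  AFast1d7254x230a.a31 AFast1d7254x230a.a32 AFast1d7254x230a.a33 AFast1d7254x230a.a34
  AFast1d7254x230a.a35 AFast1d7254x230a.a36 AFast1d7254x230a.a37 AFast1d7254x230a.a38
  AFast1d7254x230a.a39 AFast1d7254x230a.a40 AFast1d7254x230a.a41 AFast1d7254x230a.a42
  AFast1d7254x230a.a43 AFast1d7254x230a.a44 AFast1d7254x230a.a45 AFast1d7254x230a.a46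
  AFast1d7254x230a.a47 AFast1d7254x230a.a48 AFast1d7254x230a.a49 AFast1d7254x230a.a50
  AFast1d7254x230a.a51 AFast1d7254x230a.a52 AFast1d7254x230a.a53 AFast1d7254x230a.a54
  AFast1d7254x230a.a55 AFast1d7254x230a.a56 AFast1d7254x230a.a57 AFast1d7254x230a.a58
  AFast1d7254x230a.a59 AFast1d7254x230a.a60
namespace AFast1d7254x230b
@[reducible] noncomputable def a0.{u1} {x1 : Type} {x2 : Type u1} [x3 : Field x2] {x4 : ℕ} {x5 : ℕ} {x6 : Vale.Agent.P200F.V.Rig.Circ x2 x4 x5} : Field (FractionRing (MvPolynomial x1 (Vale.Agent.P200F.V.Rig.Nw.K1 x6))) := inferInstance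
theorem a1.{u1} {x1 : Type} {x2 : Type u1} [x3 : Field x2] {x4 : ℕ} {x5 : ℕ} {x6 : Vale.Agent.P200F.V.Rig.Circ x2 x4 x5} : IsDomain (MvPolynomial x1 (Vale.Agent.P200F.V.Rig.Nw.K1 x6)) := inferInstance
@[reducible] noncomputable def a2.{u1} {x1 : Type u1} [x2 : Field x1] {x3 : ℕ} {x4 : ℕ} {x5 : Vale.Agent.P200F.V.Rig.Circ x1 x3 x4} {x6 : Type} : Semifield (Vale.Agent.P200F.V.Rig.Nw.K2 x5 x6) := inferInstance
theorem a3.{u1} {x1 : Type u1} [x2 : Field x1] {x3 : ℕ} {x4 : ℕ} {x5 : Vale.Agent.P200F.V.Rig.Circ x1 x3 x4} : IsCancelAdd (Vale.Agent.P200F.V.Rig.Nw.K1 x5) := inferInstance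
@[reducible] noncomputable def a4.{u1} {x1 : Type} {x2 : Type u1} [x3 : Field x2] {x4 : ℕ} {x5 : ℕ} {x6 : Vale.Agent.P200F.V.Rig.Circ x2 x4 x5} : DistribMulAction (MvPolynomial x1 (Vale.Agent.P200F.V.Rig.Nw.K1 x6)) (MvPolynomial x1 (Vale.Agent.P200F.V.Rig.Nw.K1 x6)) := inferInstance
@[reducible] noncomputable def a5.{u1} {x1 : Type u1} [x2 : Field x1] {x3 : ℕ} {x4 : ℕ} {x5 : Vale.Agent.P200F.V.Rig.Circ x1 x3 x4} : AddCancelMonoid (Vale.Agent.P200F.V.Rig.Nw.K1 x5) := inferInstance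
@[reducible] noncomputable def a6.{u1} {x1 : Type u1} [x2 : Field x1] {x3 : ℕ} {x4 : ℕ} {x5 : Vale.Agent.P200F.V.Rig.Circ x1 x3 x4} : AddGroup (Vale.Agent.P200F.V.Rig.Nw.K1 x5) := inferInstance
@[reducible] noncomputable def a7.{u1} {x1 : Type u1} [x2 : Field x1] {x3 : ℕ} {x4 : ℕ} {x5 : Vale.Agent.P200F.V.Rig.Circ x1 x3 x4} {x6 : Type} : AddCommMonoid (Vale.Agent.P200F.V.Rig.Nw.K2 x5 x6) := inferInstance
@[reducible] noncomputable def a8.{u1} {x1 : Type} {x2 : Type u1} [x3 : Field x2] {x4 : ℕ} {x5 : ℕ} {x6 : Vale.Agent.P200F.V.Rig.Circ x2 x4 x5} : DivisionRing (OreLocalization (nonZeroDivisors (MvPolynomial x1 (Vale.Agent.P200F.V.Rig.Nw.K1 x6))) (MvPolynomial x1 (Vale.Agent.P200F.V.Rig.Nw.K1 x6))) := inferInstance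
@[reducible] noncomputable def a9.{u1} {x1 : Type u1} [x2 : Field x1] {x3 : ℕ} {x4 : ℕ} {x5 : Vale.Agent.P200F.V.Rig.Circ x1 x3 x4} {x6 : Type} : DivisionSemiring (Vale.Agent.P200F.V.Rig.Nw.K2 x5 x6) := inferInstance
@[reducible] noncomputable def a10.{u1} {x1 : Type} {x2 : Type u1} [x3 : Field x2] {x4 : ℕ} {x5 : ℕ} {x6 : Vale.Agent.P200F.V.Rig.Circ x2 x4 x5} : AddCommMonoid (OreLocalization (nonZeroDivisors (MvPolynomial x1 (Vale.Agent.P200F.V.Rig.Nw.K1 x6))) (MvPolynomial x1 (Vale.Agent.P200F.V.Rig.Nw.K1 x6))) := inferInstance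
@[reducible] noncomputable def a11.{u1} {x1 : Type u1} [x2 : Field x1] {x3 : ℕ} {x4 : ℕ} {x5 : Vale.Agent.P200F.V.Rig.Circ x1 x3 x4} {x6 : Type} : DivisionRing (Vale.Agent.P200F.V.Rig.Nw.K2 x5 x6) := inferInstance
@[reducible] noncomputable def a12.{u1} {x1 : Type u1} [x2 : Field x1] {x3 : ℕ} {x4 : ℕ} {x5 : Vale.Agent.P200F.V.Rig.Circ x1 x3 x4} : AddCommMonoid (Vale.Agent.P200F.V.Rig.Nw.K1 x5) := inferInstance
theorem a13.{u1} {x1 : Type u1} [x2 : Field x1] {x3 : ℕ} {x4 : ℕ} {x5 : Vale.Agent.P200F.V.Rig.Circ x1 x3 x4} {x6 : Type} : MulHomClass (Vale.Agent.P200F.V.Rig.Nw.K1 x5 →+* Vale.Agent.P200F.V.Rig.Nw.K2 x5 x6) (Vale.Agent.P200F.V.Rig.Nw.K1 x5) (Vale.Agent.P200F.V.Rig.Nw.K2 x5 x6) := inferInstance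
@[reducible] noncomputable def a14.{u1} {x1 : Type u1} [x2 : Field x1] {x3 : ℕ} {x4 : ℕ} {x5 : Vale.Agent.P200F.V.Rig.Circ x1 x3 x4} {x6 : Type} : Module (Vale.Agent.P200F.V.Rig.Nw.K2 x5 x6) (Vale.Agent.P200F.V.Rig.Gen →₀ Vale.Agent.P200F.V.Rig.Nw.K2 x5 x6) := inferInstance
theorem a15.{u1} {x1 : Type u1} [x2 : Field x1] {x3 : ℕ} {x4 : ℕ} {x5 : Vale.Agent.P200F.V.Rig.Circ x1 x3 x4} {x6 : Type} : NonUnitalRingHomClass (Vale.Agent.P200F.V.Rig.Nw.K1 x5 →+* Vale.Agent.P200F.V.Rig.Nw.K2 x5 x6) (Vale.Agent.P200F.V.Rig.Nw.K1 x5) (Vale.Agent.P200F.V.Rig.Nw.K2 x5 x6) := inferInstance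
end AFast1d7254x230b
attribute [local instance] AFast1d7254x230b.a0 AFast1d7254x230b.a1 AFast1d7254x230b.a2
  AFast1d7254x230b.a3 AFast1d7254x230b.a4 AFast1d7254x230b.a5 AFast1d7254x230b.a6
  AFast1d7254x230b.a7 AFast1d7254x230b.a8 AFast1d7254x230b.a9 AFast1d7254x230b.a10
  AFast1d7254x230b.a11 AFast1d7254x230b.a12 AFast1d7254x230b.a13 AFast1d7254x230b.a14
  AFast1d7254x230b.a15

section

namespace Vale.Agent.P200F.V.Rig.Nt

open MvPolynomial Nw

universe u

theorem blk_ext {K : Type u} [Field K] {κ : ℕ} {β γ : Blk K κ} (he : β.e = γ.e)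
    (hP : β.Phi = γ.Phi) : β = γ := by
  obtain ⟨e, ep, P, h, t⟩ := β
  obtain ⟨e', ep', P', h', t'⟩ := γ
  obtain rfl : e = e' := he
  obtain rfl : P = P' := hP
  rfl

section nb
variable {K : Type u} [Field K] {κ : ℕ} {ι : Type} [Fintype ι]

theorem snoc_triv (b : Blk K κ) (hb : b = Blk.triv K κ) (e : ℕ) (he : 0 < e) (he1 : e = 1)
    (P : MvPolynomial (Fin (κ + 2)) K) (hP : P.IsHomogeneous e) (hP0 : P = 0) :
    b.snoc e he P hP = Blk.triv K (κ + 1) := by
  refine blk_ext ?_ ?_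
  · funext i
    refine Fin.lastCases ?_ (fun i => ?_) i
    · have h1 : (b.snoc e he P hP).e (Fin.last κ) = e := Fin.snoc_last (α := fun _ => ℕ) _ _
      rw [h1, he1]
      rfl
    · have h1 : (b.snoc e he P hP).e i.castSucc = b.e i := Fin.snoc_castSucc (α := fun _ => ℕ) _ _ _
      rw [h1, hb]
      rfl
  · funext i
    refine Fin.lastCases ?_ (fun i => ?_) i
    · have h2 : (b.snoc e he P hP).Phi (Fin.last κ) =
          rename (Fin.castSucc : Fin (κ + 2) → Fin (κ + 2 + 1)) P := by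
        change Fin.snoc (α := fun _ => MvPolynomial (Fin (κ + 1 + 2)) K)
          (fun i => rename (Fin.castSucc : Fin (κ + 2) → Fin (κ + 2 + 1)) (b.Phi i))
          (rename (Fin.castSucc : Fin (κ + 2) → Fin (κ + 2 + 1)) P) (Fin.last κ) = _
        rw [Fin.snoc_last]
      rw [h2, hP0, map_zero]
      rfl
    · have h2 : (b.snoc e he P hP).Phi i.castSucc =
          rename (Fin.castSucc : Fin (κ + 2) → Fin (κ + 2 + 1)) (b.Phi i) := by
        change Fin.snoc (α := fun _ => MvPolynomial (Fin (κ + 1 + 2)) K)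
          (fun i => rename (Fin.castSucc : Fin (κ + 2) → Fin (κ + 2 + 1)) (b.Phi i))
          (rename (Fin.castSucc : Fin (κ + 2) → Fin (κ + 2 + 1)) P) i.castSucc = _
        rw [Fin.snoc_castSucc]
      rw [h2, hb]
      change rename _ (0 : MvPolynomial (Fin (κ + 2)) K) = 0
      rw [map_zero]

theorem map_triv {K' : Type u} [Field K'] (f : K →+* K') :
    (Blk.triv K κ).map f = Blk.triv K' κ := by
  refine blk_ext rfl ?_
  funext i
  change MvPolynomial.map f (0 : MvPolynomial (Fin (κ + 2)) K) = 0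
  rw [map_zero]

theorem newB_triv (b : Blk K κ) (hb : b = Blk.triv K κ) (c : Prop) [Decidable c] (hc : ¬ c) (e : ℕ)
    (he : 0 < e) (a : ι → MvPolynomial (Fin (κ + 2)) K) (ha : ∀ j, (a j).IsHomogeneous e) :
    newB b c e he a ha = Blk.triv (KF K ι) (κ + 1) :=
  snoc_triv (b.map (algebraMap K (KF K ι))) (by rw [hb, map_triv]) (if c then e else 1)
    (by split_ifs <;> omega) (if_neg hc) (newPhi (R := 1) (fun _ => c) (fun _ => a) 0)
    (newPhi_hom (R := 1) (fun _ => c) (fun _ => a) (fun _ => ha) 0) (if_neg hc)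

theorem nb_int (hD : DStep K κ) (β : ℕ → Blk K κ) (C : ℕ → Prop) [DecidablePred C] (e : ℕ)
    (he : 0 < e) (a : ℕ → ι → MvPolynomial (Fin (κ + 2)) K) (ha : ∀ g j, (a g j).IsHomogeneous e)
    (h : ∀ R, IntAll K fun g : Fin R => β g)
    (hI : ∀ (R : ℕ) (Ω : Type u) [Field Ω] [IsAlgClosed Ω] [Algebra K Ω]
      (pt : Fin R → Fin (κ + 2) → Ω), (∀ g i, aeval (pt g) ((β g).rel i) = 0) →
      (∀ g, pt g 0 ≠ 0 ∨ pt g 1 ≠ 0) → ∀ c : Fin R → Ω, (∀ g : Fin R, ¬ C g → c g = 0) →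
        (∀ j, ∑ g : Fin R, c g * aeval (pt g) (a g j) = 0) → ∀ g, c g = 0) (R : ℕ) :
    IntAll (KF K ι) fun g : Fin R => newB (β g) (C g) e he (a g) (ha g) :=
  hD R (fun g => β g) (h R) ι (fun g => C g) e he (fun g => a g) (fun g => ha g)
    fun Ω _ _ _ pt h1 h2 c h3 h4 => hI R Ω pt h1 h2 c h3 h4

/-- scaling of a zero of a homogeneous polynomial -/
theorem aeval_smul_hom {σ : Type} {Ω : Type u} [Field Ω] [Algebra K Ω] {P : MvPolynomial σ K} {d : ℕ}
    (hP : P.IsHomogeneous d) (r : Ω) (p : σ → Ω) :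
    aeval (fun s => r * p s) P = r ^ d * aeval p P := by
  rw [aeval_def, aeval_def, eval₂_eq, eval₂_eq, Finset.mul_sum]
  refine Finset.sum_congr rfl fun m hm => ?_
  have h1 : m.sum (fun _ i => i) = d := by
    have h2 := hP (mem_support_iff.1 hm)
    rwa [Finsupp.weight_apply, Finsupp.sum_congr (g2 := fun _ i => i)] at h2
    intro x _
    simp
  have h3 : ∏ i ∈ m.support, (r * p i) ^ m i = r ^ d * ∏ i ∈ m.support, p i ^ m i := by
    rw [← h1, Finsupp.sum, ← Finset.prod_pow_eq_pow_sum, ← Finset.prod_mul_distrib]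
    exact Finset.prod_congr rfl fun i _ => mul_pow _ _ _
  rw [h3]
  ring

end nb

section blocks
variable {K : Type u} [Field K] {n κ : ℕ} (C : Circ K n κ) (e : ℕ) (he : 0 < e)

theorem B1_int (hD : DStep K κ) (R : ℕ) : IntAll (K1 C) fun g : Fin R => B1 C e he g := by
  refine nb_int hD C.β (fun g => C.N ≤ g ∧ g < C.N + (C.N - 1)) e he (jA K κ C.N (C.N - 1) e)
    (jA_hom K κ C.N (C.N - 1) e) C.int ?_ R
  intro R Ω _ _ _ pt _ h2 c h3 h4 g
  by_cases hg : C.N ≤ (g : ℕ) ∧ (g : ℕ) < C.N + (C.N - 1)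
  · obtain ⟨t, ht⟩ : ∃ t : Fin (C.N - 1), (g : ℕ) = C.N + t :=
      ⟨⟨g - C.N, by omega⟩, by
        show (g : ℕ) = C.N + (g - C.N)
        omega⟩
    have h5 : ∀ ε : Fin 2, c g * pt g (if ε = 0 then 0 else 1) ^ e = 0 := by
      intro ε
      have h6 := h4 (t, ε)
      rw [Finset.sum_eq_single g] at h6
      · unfold jA at h6
        rw [if_pos ht, map_pow, aeval_X] at h6
        exact h6
      · intro g' _ hg'
        unfold jA
        rw [if_neg, map_zero, mul_zero]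
        intro h7
        exact hg' (Fin.ext (h7.trans ht.symm))
      · intro h7
        exact absurd (Finset.mem_univ g) h7
    rcases h2 g with h6 | h6
    · have h7 := h5 0
      rw [if_pos rfl] at h7
      rcases mul_eq_zero.1 h7 with h8 | h8
      · exact h8
      · exact absurd h8 (pow_ne_zero e h6)
    · have h7 := h5 1
      rw [if_neg one_ne_zero] at h7
      rcases mul_eq_zero.1 h7 with h8 | h8
      · exact h8
      · exact absurd h8 (pow_ne_zero e h6)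
  · exact h3 g hg

theorem Tv_ne {K : Type u} [Field K] {ι : Type} (j : ι) : Tv K j ≠ 0 := by
  unfold Tv
  intro h
  have h1 : algebraMap (MvPolynomial ι K) (KF K ι) (X j) = algebraMap (MvPolynomial ι K) (KF K ι) 0 := by
    rw [h, map_zero]
  exact X_ne_zero j (IsFractionRing.injective (MvPolynomial ι K) (KF K ι) h1)

theorem ps_ne (t : ℕ) : ps C t ≠ 0 := by
  unfold ps
  split_ifs with h
  · exact Tv_ne _
  · exact one_ne_zero

theorem ps'_ne (t : ℕ) : ps' C t ≠ 0 := by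
  unfold ps'
  split_ifs with h
  · exact Tv_ne _
  · exact one_ne_zero

variable {ι : Type} (h : ι → ℕ → MvPolynomial (Fin (κ + 2)) K)
  (hh : ∀ m g, (h m g).IsHomogeneous e)

include hh in
theorem B2_ind
    (hI : ∀ (Ω : Type u) [Field Ω] [IsAlgClosed Ω] [Algebra K Ω] (p : ℕ → Fin (κ + 2) → Ω),
      (∀ g < C.N, ∀ i, aeval (p g) ((C.β g).rel i) = 0) →
      (∀ m, ∑ g ∈ Finset.range C.N, aeval (p g) (h m g) = 0) → ∀ g < C.N, p g = 0)
    (R : ℕ) (Ω : Type u) [Field Ω] [IsAlgClosed Ω] [Algebra (K1 C) Ω]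
    (pt : Fin R → Fin (κ + 1 + 2) → Ω) (h1 : ∀ g i, aeval (pt g) ((B1 C e he g).rel i) = 0)
    (h2 : ∀ g, pt g 0 ≠ 0 ∨ pt g 1 ≠ 0) (c : Fin R → Ω) (h3 : ∀ g : Fin R, ¬ (g : ℕ) < C.N → c g = 0)
    (h4 : ∀ j, ∑ g : Fin R, c g * aeval (pt g) (a2 C h g j) = 0) (g : Fin R) : c g = 0 := by
  let _ : Algebra K Ω := ((algebraMap (K1 C) Ω).comp (algebraMap K (K1 C))).toAlgebra
  have hr : ∀ g : Fin R, ∃ r : Ω, r ^ e =
      c g * algebraMap (K1 C) Ω (Sc (ps C) (ps' C) (C.N - 1) g)⁻¹ := fun g =>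
    IsAlgClosed.exists_pow_nat_eq _ he
  choose r hr using hr
  have hcs : ∀ (g : Fin R) (Q : MvPolynomial (Fin (κ + 2)) K),
      aeval (pt g) (rename (Fin.castSucc : Fin (κ + 2) → Fin (κ + 2 + 1))
        (MvPolynomial.map (algebraMap K (K1 C)) Q)) =
      aeval (fun s : Fin (κ + 2) => pt g s.castSucc) Q := by
    intro g Q
    rw [aeval_rename, aeval_def, eval₂_map, aeval_def]
    rfl
  let p : ℕ → Fin (κ + 2) → Ω := fun g s =>
    if hg : g < R then r ⟨g, hg⟩ * pt ⟨g, hg⟩ s.castSucc else 0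
  have hp1 : ∀ g : Fin R, p g = fun s => r g * pt g s.castSucc := by
    intro g
    funext s
    exact dif_pos g.2
  have hp2 : ∀ g, ¬ g < R → p g = fun s => 0 * (fun _ : Fin (κ + 2) => (0 : Ω)) s := by
    intro g hg
    funext s
    rw [zero_mul]
    exact dif_neg hg
  have hrel : ∀ g < C.N, ∀ i, aeval (p g) ((C.β g).rel i) = 0 := by
    intro g _ i
    have hh1 : ((C.β g).rel i).IsHomogeneous ((C.β g).e i) := by
      have h5 := (isHomogeneous_X K (i.succ.succ : Fin (κ + 2))).pow ((C.β g).e i)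
      rw [one_mul] at h5
      exact h5.sub ((C.β g).hom i)
    by_cases hg : g < R
    · have h6 := h1 ⟨g, hg⟩ i.castSucc
      have h7 : p g = fun s => r ⟨g, hg⟩ * pt ⟨g, hg⟩ s.castSucc := hp1 ⟨g, hg⟩
      rw [h7, aeval_smul_hom hh1]
      unfold B1 at h6
      rw [newB_rel_castSucc, hcs] at h6
      rw [h6, mul_zero]
    · rw [hp2 g hg, aeval_smul_hom hh1, zero_pow ((C.β g).e_pos i).ne', zero_mul]
  have hsum : ∀ m, ∑ g ∈ Finset.range C.N, aeval (p g) (h m g) = 0 := by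
    intro m
    rw [← h4 m]
    have h5 : ∀ g ∈ Finset.range C.N, aeval (p g) (h m g) =
        if hg : g < R then c ⟨g, hg⟩ * aeval (pt ⟨g, hg⟩) (a2 C h g m) else 0 := by
      intro g hgN
      by_cases hg : g < R
      · have h7 : p g = fun s => r ⟨g, hg⟩ * pt ⟨g, hg⟩ s.castSucc := hp1 ⟨g, hg⟩
        rw [dif_pos hg, h7, aeval_smul_hom (hh m g), hr]
        unfold a2
        rw [if_pos (Finset.mem_range.1 hgN), map_mul, hcs, aeval_C]
        ring
      · rw [dif_neg hg, hp2 g hg, aeval_smul_hom (hh m g), zero_pow he.ne', zero_mul]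
    rw [Finset.sum_congr rfl h5]
    obtain ⟨F, hF⟩ : ∃ F : ℕ → Ω, F = fun g' : ℕ => if hg : g' < R then
        c ⟨g', hg⟩ * aeval (pt ⟨g', hg⟩) (a2 C h g' m) else 0 := ⟨_, rfl⟩
    have h6 : ∀ g : Fin R, c g * aeval (pt g) (a2 C h g m) = F g := by
      intro g
      rw [hF]
      show _ = dite _ _ _
      rw [dif_pos g.2]
    rw [Finset.sum_congr rfl fun g _ => h6 g, Fin.sum_univ_eq_sum_range F R, ← hF]
    have h8 : ∀ M, R ≤ M → C.N ≤ M → ∀ f : ℕ → Ω, (∀ g, R ≤ g → f g = 0) → (∀ g, C.N ≤ g → f g = 0) →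
        ∑ g ∈ Finset.range C.N, f g = ∑ g ∈ Finset.range R, f g := by
      intro M hM1 hM2 f hf1 hf2
      rw [Finset.sum_subset (Finset.range_mono hM2), Finset.sum_subset (Finset.range_mono hM1)]
      · intro x _ hx
        exact hf1 x (not_lt.1 fun h => hx (Finset.mem_range.2 h))
      · intro x _ hx
        exact hf2 x (not_lt.1 fun h => hx (Finset.mem_range.2 h))
    refine h8 (max R C.N) (le_max_left _ _) (le_max_right _ _) _ ?_ ?_
    · intro g hg
      rw [hF]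
      exact dif_neg (not_lt.2 hg)
    · intro g hg
      rw [hF]
      by_cases hgR : g < R
      · show dite _ _ _ = 0
        rw [dif_pos hgR, h3 ⟨g, hgR⟩ (not_lt.2 hg), zero_mul]
      · exact dif_neg hgR
  have hz := hI Ω p hrel hsum
  by_cases hg : (g : ℕ) < C.N
  · have h5 := hz g hg
    rw [hp1 g] at h5
    have h6 : r g = 0 := by
      rcases h2 g with h7 | h7
      · have h8 := congrFun h5 0
        rcases mul_eq_zero.1 h8 with h9 | h9
        · exact h9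
        · exact absurd h9 h7
      · have h8 := congrFun h5 1
        rcases mul_eq_zero.1 h8 with h9 | h9
        · exact h9
        · exact absurd h9 h7
    have h7 := hr g
    rw [h6, zero_pow he.ne'] at h7
    rcases mul_eq_zero.1 h7.symm with h8 | h8
    · exact h8
    · rw [map_eq_zero] at h8
      exact absurd h8 (inv_ne_zero (Sc_ne (fun t _ => ps_ne C t) (fun t _ => ps'_ne C t) g
        (by omega)))
  · exact h3 g hg

end blocks

section main
variable {K : Type u} [Field K] {n κ : ℕ} (C : Circ K n κ) (e : ℕ) (he : 0 < e)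
variable {ι : Type} [Fintype ι] (h : ι → ℕ → MvPolynomial (Fin (κ + 2)) K)
  (hh : ∀ m g, (h m g).IsHomogeneous e)

theorem hint (hD : ∀ (K : Type u) [Field K] (κ : ℕ), DStep K κ)
    (hI : ∀ (Ω : Type u) [Field Ω] [IsAlgClosed Ω] [Algebra K Ω] (p : ℕ → Fin (κ + 2) → Ω),
      (∀ g < C.N, ∀ i, aeval (p g) ((C.β g).rel i) = 0) →
      (∀ m, ∑ g ∈ Finset.range C.N, aeval (p g) (h m g) = 0) → ∀ g < C.N, p g = 0) (R : ℕ) :
    IntAll (K2 C ι) fun g : Fin R => B2 C e he h hh g :=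
  nb_int (hD _ _) (B1 C e he) (fun g => g < C.N) e he (a2 C h) (a2_hom C e h hh)
    (B1_int C e he (hD K κ))
    (fun R Ω _ _ _ pt h1 h2 c h3 h4 => B2_ind C e he h hh hI R Ω pt h1 h2 c h3 h4) R

theorem htriv (g : ℕ) (hg : C.N + (C.N - 1) ≤ g) :
    B2 C e he h hh g = Blk.triv (K2 C ι) (κ + 1 + 1) := by
  unfold B2
  refine newB_triv _ ?_ _ (by omega) e he _ _
  unfold B1
  exact newB_triv _ (C.triv g (by omega)) _ (by omega) e he _ _

end main

end Vale.Agent.P200F.V.Rig.Nt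

end

section

namespace Vale.Agent.P200F.V.Rig.Nw

open MvPolynomial

universe u

/-- substitution of the components in the equation of the root -/
theorem root_abs {A : Type*} [CommRing A] (I : Ideal A) {ι : Type*} [Fintype ι] (N : ℕ) (R : A)
    (w S S' : ℕ → A) (Y : ι → A) (H : ι → ℕ → A) (hS : ∀ g < N, S g * S' g = 1)
    (h1 : R - ∑ g ∈ Finset.range N, S g * w g ∈ I)
    (h2 : ∀ g < N, w g - ∑ m, Y m * (S' g * H m g) ∈ I) :
    R - ∑ m, Y m * ∑ g ∈ Finset.range N, H m g ∈ I := by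
  have h3 : ∑ g ∈ Finset.range N, S g * (w g - ∑ m, Y m * (S' g * H m g)) ∈ I :=
    Ideal.sum_mem _ fun g hg => Ideal.mul_mem_left _ _ (h2 g (Finset.mem_range.1 hg))
  have h4 := Ideal.add_mem _ h1 h3
  have h5 : ∀ g ∈ Finset.range N, S g * (w g - ∑ m, Y m * (S' g * H m g)) =
      S g * w g - ∑ m, Y m * H m g := by
    intro g hg
    have h6 := hS g (Finset.mem_range.1 hg)
    rw [mul_sub, Finset.mul_sum]
    congr 1
    refine Finset.sum_congr rfl fun m _ => ?_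
    calc S g * (Y m * (S' g * H m g)) = (S g * S' g) * (Y m * H m g) := by ring
      _ = Y m * H m g := by rw [h6, one_mul]
  have h6 : ∑ m, Y m * ∑ g ∈ Finset.range N, H m g =
      ∑ g ∈ Finset.range N, ∑ m, Y m * H m g := by
    rw [Finset.sum_comm]
    exact Finset.sum_congr rfl fun m _ => Finset.mul_sum _ _ _
  have h7 : R - ∑ g ∈ Finset.range N, S g * w g +
      ∑ g ∈ Finset.range N, S g * (w g - ∑ m, Y m * (S' g * H m g)) =
      R - ∑ m, Y m * ∑ g ∈ Finset.range N, H m g := by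
    rw [Finset.sum_congr rfl h5, Finset.sum_sub_distrib, h6]
    ring
  rw [h7] at h4
  exact h4

section rel
variable {K : Type u} [Field K] {n κ : ℕ} (C : Circ K n κ) (e : ℕ) (he : 0 < e)
variable {ι : Type} [Fintype ι] (h : ι → ℕ → MvPolynomial (Fin (κ + 2)) K)
  (hh : ∀ m g, (h m g).IsHomogeneous e)
  (hint : ∀ R, IntAll (K2 C ι) fun g : Fin R => B2 C e he h hh g)
  (htriv : ∀ g, C.N + (C.N - 1) ≤ g → B2 C e he h hh g = Blk.triv (K2 C ι) (κ + 1 + 1))

theorem nc_ev (g : ℕ) (P : MvPolynomial (Fin (κ + 1 + 2)) (K1 C)) :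
    (newC C e he h hh hint htriv).ev g
      (rename (Fin.castSucc : Fin (κ + 1 + 2) → Fin (κ + 1 + 2 + 1))
        (MvPolynomial.map (algebraMap (K1 C) (K2 C ι)) P)) =
      MvPolynomial.map (algebraMap (K1 C) (K2 C ι)) (evG (vlG (κ + 1) (inp1 C g) g) P) := by
  refine evG_rename (algebraMap (K1 C) (K2 C ι)) (vlG (κ + 1) (inp1 C g) g)
    (vlG (κ + 1 + 1) ((newC C e he h hh hint htriv).inp g) g) ?_ P
  intro s
  exact vlG_castSucc _ _ _ _ (fun ε => rfl) g s

theorem ev_old (g : ℕ) (hg : g < C.N) (P : MvPolynomial (Fin (κ + 2)) K) :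
    evG (vlG (κ + 1) (inp1 C g) g) (rename (Fin.castSucc : Fin (κ + 2) → Fin (κ + 2 + 1))
      (MvPolynomial.map (algebraMap K (K1 C)) P)) =
      MvPolynomial.map (algebraMap K (K1 C)) (C.ev g P) := by
  refine evG_rename (algebraMap K (K1 C)) (vlG κ (C.inp g) g) (vlG (κ + 1) (inp1 C g) g) ?_ P
  intro s
  refine vlG_castSucc _ _ _ _ (fun ε => ?_) g s
  exact if_pos hg

theorem rel_mem (g : ℕ) (hg : g < C.N + (C.N - 1)) (i : Fin (κ + 1 + 1)) :
    (newC C e he h hh hint htriv).ev g ((B2 C e he h hh g).rel i) ∈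
      (newC C e he h hh hint htriv).I :=
  Ideal.subset_span ⟨g, hg, i, rfl⟩

omit [Fintype ι] in
theorem map_ph (P : MvPolynomial Gen K) :
    MvPolynomial.map (algebraMap (K1 C) (K2 C ι)) (MvPolynomial.map (algebraMap K (K1 C)) P) =
      MvPolynomial.map (ph C ι) P := by
  rw [MvPolynomial.map_map]
  rfl

theorem rel_old (g : ℕ) (hg : g < C.N) (i : Fin κ) :
    MvPolynomial.map (ph C ι) (C.ev g ((C.β g).rel i)) ∈ (newC C e he h hh hint htriv).I := by
  have h1 := rel_mem C e he h hh hint htriv g (by omega) i.castSucc.castSucc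
  have h2 : (B2 C e he h hh g).rel i.castSucc.castSucc =
      rename (Fin.castSucc : Fin (κ + 1 + 2) → Fin (κ + 1 + 2 + 1))
        (MvPolynomial.map (algebraMap (K1 C) (K2 C ι)) ((B1 C e he g).rel i.castSucc)) :=
    newB_rel_castSucc _ _ _ _ _ _ _
  have h3 : (B1 C e he g).rel i.castSucc =
      rename (Fin.castSucc : Fin (κ + 2) → Fin (κ + 2 + 1))
        (MvPolynomial.map (algebraMap K (K1 C)) ((C.β g).rel i)) :=
    newB_rel_castSucc _ _ _ _ _ _ _
  rw [h2, nc_ev, h3, ev_old C g hg, map_ph] at h1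
  exact h1

theorem ext : C.Ext (ph C ι) (newC C e he h hh hint htriv) where
  le := Nat.le_add_right _ _
  leκ := by omega
  I := by
    have h1 : C.I ≤ Ideal.comap (MvPolynomial.map (ph C ι)) (newC C e he h hh hint htriv).I := by
      refine Ideal.span_le.2 ?_
      rintro P ⟨g, hg, i, rfl⟩
      exact rel_old C e he h hh hint htriv g hg i
    intro P hP
    exact h1 hP

theorem rel_w (g : ℕ) (hg : g < C.N) :
    X (Sum.inr (g, κ + 1)) ^ e - ∑ m, MvPolynomial.C (Tv (K1 C) m) *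
      (MvPolynomial.C (algebraMap (K1 C) (K2 C ι) (Sc (ps C) (ps' C) (C.N - 1) g)⁻¹) *
        MvPolynomial.map (ph C ι) (C.ev g (h m g))) ∈ (newC C e he h hh hint htriv).I := by
  have h1 := rel_mem C e he h hh hint htriv g (by omega) (Fin.last (κ + 1))
  have h2 : (B2 C e he h hh g).rel (Fin.last (κ + 1)) =
      X (Fin.last (κ + 1 + 2)) ^ e -
        rename (Fin.castSucc : Fin (κ + 1 + 2) → Fin (κ + 1 + 2 + 1))
        (∑ j, MvPolynomial.C (Tv (K1 C) j) *
          MvPolynomial.map (algebraMap (K1 C) (K2 C ι)) (a2 C h g j)) :=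
    newB_rel_last _ _ hg _ _ _ _
  have h4 : ∀ j, (newC C e he h hh hint htriv).ev g
      (rename (Fin.castSucc : Fin (κ + 1 + 2) → Fin (κ + 1 + 2 + 1))
        (MvPolynomial.C (Tv (K1 C) j) *
          MvPolynomial.map (algebraMap (K1 C) (K2 C ι)) (a2 C h g j))) =
      MvPolynomial.C (Tv (K1 C) j) *
      (MvPolynomial.C (algebraMap (K1 C) (K2 C ι) (Sc (ps C) (ps' C) (C.N - 1) g)⁻¹) *
        MvPolynomial.map (ph C ι) (C.ev g (h j g))) := by
    intro j
    have h5 : a2 C h g j = MvPolynomial.C (Sc (ps C) (ps' C) (C.N - 1) g)⁻¹ *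
        rename (Fin.castSucc : Fin (κ + 2) → Fin (κ + 2 + 1))
          (MvPolynomial.map (algebraMap K (K1 C)) (h j g)) := if_pos hg
    have h6 : (newC C e he h hh hint htriv).ev g (rename
        (Fin.castSucc : Fin (κ + 1 + 2) → Fin (κ + 1 + 2 + 1))
        (MvPolynomial.C (Tv (K1 C) j))) = MvPolynomial.C (Tv (K1 C) j) := by
      rw [rename_C]
      exact evG_C _ _
    rw [map_mul (rename (Fin.castSucc : Fin (κ + 1 + 2) → Fin (κ + 1 + 2 + 1))),
      map_mul ((newC C e he h hh hint htriv).ev g), h6, nc_ev, h5, map_mul, evG_C, map_mul, map_C]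
    have h7 := ev_old C g hg (h j g)
    congr 2
    rw [← map_ph]
    exact congrArg _ h7
  rw [h2, map_sub, map_pow] at h1
  have h8 : (newC C e he h hh hint htriv).ev g (X (Fin.last (κ + 1 + 2))) =
      X (Sum.inr (g, κ + 1)) := by
    have h9 : (newC C e he h hh hint htriv).ev g (X (Fin.last (κ + 1 + 2))) =
        lin (K2 C ι) (vlG (κ + 1 + 1) ((newC C e he h hh hint htriv).inp g) g
          (Fin.last (κ + 1 + 2))) := evG_X _ _
    rw [h9, vlG_last, lin_single]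
  rw [h8, map_sum, map_sum] at h1
  have h10 := Finset.sum_congr (rfl : (Finset.univ : Finset ι) = Finset.univ) fun j _ => h4 j
  rw [h10] at h1
  exact h1

theorem rel_Z (t : ℕ) (ht : t < C.N - 1) :
    X (Sum.inr (C.N + t, κ)) ^ e -
      (MvPolynomial.C (algebraMap (K1 C) (K2 C ι) (ps C t)) * X (gR C t) ^ e +
        MvPolynomial.C (algebraMap (K1 C) (K2 C ι) (ps' C t)) * X (Sum.inr (t + 1, κ + 1)) ^ e) ∈
      (newC C e he h hh hint htriv).I := by
  have h1 := rel_mem C e he h hh hint htriv (C.N + t) (by omega) (Fin.last κ).castSucc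
  have h2 : (B2 C e he h hh (C.N + t)).rel (Fin.last κ).castSucc =
      rename (Fin.castSucc : Fin (κ + 1 + 2) → Fin (κ + 1 + 2 + 1))
        (MvPolynomial.map (algebraMap (K1 C) (K2 C ι))
          ((B1 C e he (C.N + t)).rel (Fin.last κ))) :=
    newB_rel_castSucc _ _ _ _ _ _ _
  have h3 : (B1 C e he (C.N + t)).rel (Fin.last κ) =
      X (Fin.last (κ + 2)) ^ e - rename (Fin.castSucc : Fin (κ + 2) → Fin (κ + 2 + 1))
        (∑ j, MvPolynomial.C (Tv K j) * MvPolynomial.map (algebraMap K (K1 C))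
          (jA K κ C.N (C.N - 1) e (C.N + t) j)) :=
    newB_rel_last _ _ ⟨by omega, by omega⟩ _ _ _ _
  have hn : ¬ C.N + t < C.N := by omega
  have hi0 : inp1 C (C.N + t) 0 = Finsupp.single (gR C t) 1 := by
    unfold inp1
    rw [if_neg hn, if_pos rfl, Nat.add_sub_cancel_left]
  have hi1 : inp1 C (C.N + t) 1 = Finsupp.single (Sum.inr (t + 1, κ + 1)) 1 := by
    unfold inp1
    rw [if_neg hn, if_neg (by decide), Nat.add_sub_cancel_left]
  have h4 : evG (vlG (κ + 1) (inp1 C (C.N + t)) (C.N + t)) ((B1 C e he (C.N + t)).rel (Fin.last κ)) =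
      X (Sum.inr (C.N + t, κ)) ^ e - (MvPolynomial.C (ps C t) * X (gR C t) ^ e +
        MvPolynomial.C (ps' C t) * X (Sum.inr (t + 1, κ + 1)) ^ e) := by
    have h5 : ∀ j : JI (C.N - 1), evG (vlG (κ + 1) (inp1 C (C.N + t)) (C.N + t))
        (rename (Fin.castSucc : Fin (κ + 2) → Fin (κ + 2 + 1)) (MvPolynomial.C (Tv K j) *
          MvPolynomial.map (algebraMap K (K1 C)) (jA K κ C.N (C.N - 1) e (C.N + t) j))) =
        if (j.1 : ℕ) = t then MvPolynomial.C (Tv K j) *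
          (if j.2 = 0 then X (gR C t) ^ e else X (Sum.inr (t + 1, κ + 1)) ^ e) else 0 := by
      intro j
      rw [map_mul (rename (Fin.castSucc : Fin (κ + 2) → Fin (κ + 2 + 1))), rename_C,
        map_mul (evG (vlG (κ + 1) (inp1 C (C.N + t)) (C.N + t)))]
      erw [evG_C]
      unfold jA
      by_cases hj : (j.1 : ℕ) = t
      · rw [if_pos hj, if_pos (by omega)]
        congr 1
        split_ifs with hj2
        · rw [map_pow, map_X, map_pow, rename_X, map_pow]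
          congr 1
          have h6 : evG (vlG (κ + 1) (inp1 C (C.N + t)) (C.N + t))
              (X ((0 : Fin (κ + 2)).castSucc)) =
              lin (K1 C) (vlG (κ + 1) (inp1 C (C.N + t)) (C.N + t) 0) := evG_X _ _
          refine Eq.trans h6 ?_
          rw [vlG_zero, hi0, lin_single]
        · rw [map_pow, map_X, map_pow, rename_X, map_pow]
          congr 1
          have h6 : evG (vlG (κ + 1) (inp1 C (C.N + t)) (C.N + t))
              (X ((1 : Fin (κ + 2)).castSucc)) =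
              lin (K1 C) (vlG (κ + 1) (inp1 C (C.N + t)) (C.N + t) 1) := evG_X _ _
          refine Eq.trans h6 ?_
          rw [vlG_one, hi1, lin_single]
      · rw [if_neg hj, if_neg (by omega), map_zero, map_zero, map_zero, mul_zero]
    rw [h3, map_sub, map_pow, map_sum, map_sum]
    have h7 : evG (vlG (κ + 1) (inp1 C (C.N + t)) (C.N + t)) (X (Fin.last (κ + 2))) =
        X (Sum.inr (C.N + t, κ)) := by
      have h8 : evG (vlG (κ + 1) (inp1 C (C.N + t)) (C.N + t)) (X (Fin.last (κ + 2))) =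
        lin (K1 C) (vlG (κ + 1) (inp1 C (C.N + t)) (C.N + t) (Fin.last (κ + 2))) := evG_X _ _
      rw [h8, vlG_last, lin_single]
    rw [h7, Finset.sum_congr (rfl : (Finset.univ : Finset (JI (C.N - 1))) = Finset.univ)
      fun j _ => h5 j]
    congr 1
    have h9 : (Finset.univ : Finset (JI (C.N - 1))) = Finset.univ ×ˢ Finset.univ := by
      ext x
      simp
    rw [h9, Finset.sum_product]
    rw [Finset.sum_eq_single (⟨t, ht⟩ : Fin (C.N - 1))]
    · rw [Fin.sum_univ_two, if_pos rfl, if_pos rfl, if_pos rfl]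
      have hne : ¬ (((⟨t, ht⟩, 1) : JI (C.N - 1)).2 = 0) := Fin.zero_ne_one.symm
      rw [if_neg hne]
      unfold ps ps'
      rw [dif_pos ht, dif_pos ht]
    · intro b _ hb
      refine Finset.sum_eq_zero fun ε _ => ?_
      rw [if_neg]
      intro hb2
      exact hb (Fin.ext hb2)
    · intro h10
      exact absurd (Finset.mem_univ _) h10
  rw [h2, nc_ev, h4, map_sub, map_pow, map_X, map_add, map_mul, map_mul, map_pow, map_pow, map_X,
    map_X, map_C, map_C] at h1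
  exact h1

theorem root_pow (T : ℕ) (hT : T ≤ C.N - 1) :
    X (gR C T) ^ e - ∑ g ∈ Finset.range (T + 1),
      MvPolynomial.C (algebraMap (K1 C) (K2 C ι) (Sc (ps C) (ps' C) T g)) *
        X (Sum.inr (g, κ + 1)) ^ e ∈ (newC C e he h hh hint htriv).I := by
  induction T with
  | zero =>
    rw [zero_add, Finset.sum_range_one]
    have h1 : Sc (ps C) (ps' C) 0 0 = 1 := by
      rw [Sc, if_pos rfl]
    rw [h1, map_one, map_one, one_mul]
    have h2 : gR C 0 = Sum.inr (0, κ + 1) := rfl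
    rw [h2, sub_self]
    exact Ideal.zero_mem _
  | succ T ih =>
    have h1 := rel_Z C e he h hh hint htriv T (by omega)
    have h2 := Ideal.mul_mem_left _ (MvPolynomial.C (algebraMap (K1 C) (K2 C ι) (ps C T)))
      (ih (by omega))
    have h3 := Ideal.add_mem _ h1 h2
    have h4 : Sc (ps C) (ps' C) (T + 1) (T + 1) = ps' C T := by
      rw [Sc, if_pos rfl]
    have h5 : ∀ g ∈ Finset.range (T + 1),
        MvPolynomial.C (algebraMap (K1 C) (K2 C ι) (Sc (ps C) (ps' C) (T + 1) g)) *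
          X (Sum.inr (g, κ + 1) : Gen) ^ e =
        MvPolynomial.C (algebraMap (K1 C) (K2 C ι) (ps C T)) *
          (MvPolynomial.C (algebraMap (K1 C) (K2 C ι) (Sc (ps C) (ps' C) T g)) *
            X (Sum.inr (g, κ + 1)) ^ e) := by
      intro g hg
      have hg2 : g ≠ T + 1 := by
        have := Finset.mem_range.1 hg
        omega
      have h6 : Sc (ps C) (ps' C) (T + 1) g = ps C T * Sc (ps C) (ps' C) T g := by
        rw [Sc, if_neg hg2]
      rw [h6, map_mul, map_mul, mul_assoc]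
    rw [Finset.sum_range_succ, h4, Finset.sum_congr rfl h5, ← Finset.mul_sum]
    have h7 : gR C (T + 1) = Sum.inr (C.N + T, κ) := rfl
    rw [h7]
    have h8 : ∀ a b c d p q : MvPolynomial Gen (K2 C ι),
        a - (p * b + q) + p * (b - d) = a - (p * d + q) := by
      intros
      ring
    rw [h8] at h3
    · exact h3
    · exact 0

theorem root_eq (hN : 0 < C.N) :
    X (gR C (C.N - 1)) ^ e - ∑ m, MvPolynomial.C (Tv (K1 C) m) *
      MvPolynomial.map (ph C ι) (∑ g ∈ Finset.range C.N, C.ev g (h m g)) ∈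
        (newC C e he h hh hint htriv).I := by
  have hps : ∀ t < C.N - 1, ps C t ≠ 0 := by
    intro t ht
    unfold ps
    rw [dif_pos ht]
    intro h0
    have h1 : (algebraMap (MvPolynomial (JI (C.N - 1)) K) (KF K (JI (C.N - 1))))
        (X ((⟨t, ht⟩, 0) : JI (C.N - 1))) = 0 := h0
    rw [map_eq_zero_iff _ (IsFractionRing.injective _ _)] at h1
    exact MvPolynomial.X_ne_zero _ h1
  have hps' : ∀ t < C.N - 1, ps' C t ≠ 0 := by
    intro t ht
    unfold ps'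
    rw [dif_pos ht]
    intro h0
    have h1 : (algebraMap (MvPolynomial (JI (C.N - 1)) K) (KF K (JI (C.N - 1))))
        (X ((⟨t, ht⟩, 1) : JI (C.N - 1))) = 0 := h0
    rw [map_eq_zero_iff _ (IsFractionRing.injective _ _)] at h1
    exact MvPolynomial.X_ne_zero _ h1
  have h1 := root_pow C e he h hh hint htriv (C.N - 1) le_rfl
  have h2 : C.N - 1 + 1 = C.N := by omega
  rw [h2] at h1
  have h8 : ∀ m, MvPolynomial.map (ph C ι) (∑ g ∈ Finset.range C.N, C.ev g (h m g)) =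
      ∑ g ∈ Finset.range C.N, MvPolynomial.map (ph C ι) (C.ev g (h m g)) :=
    fun m => map_sum _ _ _
  have h9 := root_abs (newC C e he h hh hint htriv).I C.N (X (gR C (C.N - 1)) ^ e)
    (fun g => X (Sum.inr (g, κ + 1)) ^ e)
    (fun g => MvPolynomial.C (algebraMap (K1 C) (K2 C ι) (Sc (ps C) (ps' C) (C.N - 1) g)))
    (fun g => MvPolynomial.C (algebraMap (K1 C) (K2 C ι) (Sc (ps C) (ps' C) (C.N - 1) g)⁻¹))
    (fun m => MvPolynomial.C (Tv (K1 C) m)) (fun m g => MvPolynomial.map (ph C ι) (C.ev g (h m g)))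
    (fun g hg => by
      have h10 : g ≤ C.N - 1 := by omega
      rw [← map_mul, ← map_mul, mul_inv_cancel₀ (Sc_ne hps hps' g h10), map_one, map_one])
    h1 (fun g hg => rel_w C e he h hh hint htriv g hg)
  rw [Finset.sum_congr (rfl : (Finset.univ : Finset ι) = Finset.univ) fun m _ =>
    congrArg (fun z => MvPolynomial.C (Tv (K1 C) m) * z) (h8 m)]
  exact h9

theorem gR_used (hN : 0 < C.N) (T : ℕ) (hT : T ≤ C.N - 1) :
    (newC C e he h hh hint htriv).U (gR C T) := by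
  cases T with
  | zero =>
    exact ⟨by
      change 0 < C.N + (C.N - 1)
      omega, by
      change κ + 1 < κ + 1 + 1
      omega⟩
  | succ t =>
    exact ⟨by
      change C.N + t < C.N + (C.N - 1)
      omega, by
      change κ < κ + 1 + 1
      omega⟩

/-- the parameters are linearly independent over the old field -/
theorem par_indep (c : ι → K) (hc : ∑ m, ph C ι (c m) * Tv (K1 C) m = 0) : c = 0 := by
  classical
  have h1 : (algebraMap (MvPolynomial ι (K1 C)) (KF (K1 C) ι))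
      (∑ m, MvPolynomial.C (algebraMap K (K1 C) (c m)) * X m) = 0 := by
    rw [map_sum]
    rw [← hc]
    refine Finset.sum_congr rfl fun m _ => ?_
    rw [map_mul]
    rfl
  rw [map_eq_zero_iff _ (IsFractionRing.injective _ _)] at h1
  funext m
  have h2 := congrArg (MvPolynomial.coeff (Finsupp.single m 1)) h1
  rw [MvPolynomial.coeff_zero, MvPolynomial.coeff_sum] at h2
  have h3 : ∀ j, MvPolynomial.coeff (Finsupp.single m 1)
      (MvPolynomial.C (algebraMap K (K1 C) (c j)) * X j : MvPolynomial ι (K1 C)) =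
      if j = m then algebraMap K (K1 C) (c j) else 0 := by
    intro j
    rw [MvPolynomial.coeff_C_mul, MvPolynomial.coeff_X]
    split_ifs with h4 h5 h5
    · rw [mul_one]
    · exact absurd (Finsupp.single_left_injective one_ne_zero h4) h5
    · exact absurd (by rw [h5]) h4
    · rw [mul_zero]
  rw [Finset.sum_congr rfl fun j _ => h3 j, Finset.sum_ite_eq' Finset.univ m,
    if_pos (Finset.mem_univ m)] at h2
  exact (map_eq_zero _).1 h2

end rel

end Vale.Agent.P200F.V.Rig.Nw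

end

section

namespace Vale.Agent.P200F.V.Rig

open MvPolynomial

universe u

theorem Nw.new_elt_of {K : Type u} [Field K] {n κ : ℕ} (C : Circ K n κ) (hN : 0 < C.N) (e : ℕ)
    (he : 0 < e) {ι : Type} [Fintype ι] (h : ι → ℕ → MvPolynomial (Fin (κ + 2)) K)
    (hh : ∀ m g, (h m g).IsHomogeneous e)
    (hint : ∀ R, IntAll (Nw.K2 C ι) fun g : Fin R => Nw.B2 C e he h hh g)
    (htriv : ∀ g, C.N + (C.N - 1) ≤ g →
      Nw.B2 C e he h hh g = Blk.triv (Nw.K2 C ι) (κ + 1 + 1)) :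
    ∃ (K' : Type u) (_ : Field K') (φ : K →+* K') (κ' : ℕ) (C' : Circ K' n κ') (ξ : Gen →₀ K')
      (Y : ι → K'), C.Ext φ C' ∧ C'.S ξ ∧ (∀ c : ι → K, ∑ m, φ (c m) * Y m = 0 → c = 0) ∧
      lin K' ξ ^ e - ∑ m, MvPolynomial.C (Y m) *
        MvPolynomial.map φ (∑ g ∈ Finset.range C.N, C.ev g (h m g)) ∈ C'.I := by
  refine ⟨Nw.K2 C ι, inferInstance, Nw.ph C ι, κ + 1 + 1, Nw.newC C e he h hh hint htriv,
    Finsupp.single (Nw.gR C (C.N - 1)) 1, fun m => Tv (Nw.K1 C) m,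
    Nw.ext C e he h hh hint htriv, ?_, Nw.par_indep C, ?_⟩
  · exact Nw.sup_single (Nw.gR_used C e he h hh hint htriv hN (C.N - 1) le_rfl)
  · rw [Nw.lin_single]
    exact Nw.root_eq C e he h hh hint htriv hN

/-- **The new element** of a family of forms without scaled common zero. -/
theorem new_elt (hD : ∀ (K : Type u) [Field K] (κ : ℕ), DStep K κ) {K : Type u} [Field K]
    {n κ : ℕ} (C : Circ K n κ) (hN : 0 < C.N) (e : ℕ) (he : 0 < e) {ι : Type} [Fintype ι]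
    (h : ι → ℕ → MvPolynomial (Fin (κ + 2)) K) (hh : ∀ m g, (h m g).IsHomogeneous e)
    (hI : ∀ (Ω : Type u) [Field Ω] [IsAlgClosed Ω] [Algebra K Ω] (p : ℕ → Fin (κ + 2) → Ω),
      (∀ g < C.N, ∀ i, aeval (p g) ((C.β g).rel i) = 0) →
      (∀ m, ∑ g ∈ Finset.range C.N, aeval (p g) (h m g) = 0) → ∀ g < C.N, p g = 0) :
    ∃ (K' : Type u) (_ : Field K') (φ : K →+* K') (κ' : ℕ) (C' : Circ K' n κ') (ξ : Gen →₀ K')
      (Y : ι → K'), C.Ext φ C' ∧ C'.S ξ ∧ (∀ c : ι → K, ∑ m, φ (c m) * Y m = 0 → c = 0) ∧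
      lin K' ξ ^ e - ∑ m, MvPolynomial.C (Y m) *
        MvPolynomial.map φ (∑ g ∈ Finset.range C.N, C.ev g (h m g)) ∈ C'.I :=
  Nw.new_elt_of C hN e he h hh (Nt.hint C e he h hh hD hI) (Nt.htriv C e he h hh)

end Vale.Agent.P200F.V.Rig

end

section

namespace Vale.Agent.P200F.V.Rig

open MvPolynomial

universe u

/-- **The stage lemma** with the spanning hypothesis. -/
theorem stageBin (hD : ∀ (K : Type u) [Field K] (κ : ℕ), DStep K κ) (K : Type u) [Field K]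
    [Infinite K] : StageBin K := by
  intro n κ hn C e he r P E hE hBin hZ
  obtain ⟨C1, S, Y, hext, hEY, hR, hN⟩ := exists_rich hn C e E hE
  have hBl : ∀ l, C1.Bl e (P l) := fun l => bl_of_bin C C1 e E S Y hext hEY hR (P l) (hBin l)
  obtain ⟨t, h, hh, hP1, hk1, hspan⟩ := exists_family C1 e P hBl
  have hZ1 : C1.NoZ P := by
    have h0 := Circ.Ext.noZ (C := C) hext hZ
    have h1 : (fun l => MvPolynomial.map (RingHom.id K) (P l)) = P := by
      funext l
      exact map_id (P l)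
    rwa [h1] at h0
  obtain ⟨K', _, φ, κ', C', ξ, Yv, hext', hS', hli, hmem⟩ := new_elt hD C1 hN e he h hh (by
    intro Ω _ _ _ p hp hm
    refine core C1 C.N e he S Y hR P hZ1 Ω p hp ?_ ?_
    · intro Φ hΦ hΦI
      obtain ⟨a, ha⟩ := hspan Φ hΦ hΦI
      calc ∑ g ∈ Finset.range C1.N, aeval (p g) (Φ g)
          = ∑ g ∈ Finset.range C1.N, ∑ i, a i • aeval (p g) (h (Sum.inr i) g) := by
            refine Finset.sum_congr rfl fun g hg => ?_
            rw [ha g (Finset.mem_range.1 hg), map_sum]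
            exact Finset.sum_congr rfl fun i _ => map_smul _ _ _
        _ = ∑ i, a i • ∑ g ∈ Finset.range C1.N, aeval (p g) (h (Sum.inr i) g) := by
            rw [Finset.sum_comm]
            exact Finset.sum_congr rfl fun i _ => Finset.smul_sum.symm
        _ = 0 := Finset.sum_eq_zero fun i _ => by rw [hm (Sum.inr i), smul_zero]
    · intro l
      exact ⟨h (Sum.inl l), hh _, hP1 l, hm (Sum.inl l)⟩)
  have hE0 : C.Ext φ C' := by
    have h0 := Circ.Ext.trans (C := C) hext hext'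
    rwa [RingHom.comp_id] at h0
  refine ⟨K', inferInstance, φ, κ', C', ξ, fun l => Yv (Sum.inl l), hE0, hS', ?_, ?_⟩
  · intro c hc
    have h0 := hli (Sum.elim c fun _ => 0) (by
      rw [Fintype.sum_sum_type]
      simp only [Sum.elim_inl, Sum.elim_inr, map_zero, zero_mul, Finset.sum_const_zero, add_zero]
      exact hc)
    funext l
    exact congrFun h0 (Sum.inl l)
  · have h1 : ∑ i, MvPolynomial.C (Yv (Sum.inr i)) *
        MvPolynomial.map φ (∑ g ∈ Finset.range C1.N, C1.ev g (h (Sum.inr i) g)) ∈ C'.I :=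
      Ideal.sum_mem _ fun i _ => Ideal.mul_mem_left _ _ (hext'.I _ (hk1 i))
    have h2 : ∑ l, MvPolynomial.C (Yv (Sum.inl l)) * MvPolynomial.map φ
        (P l - ∑ g ∈ Finset.range C1.N, C1.ev g (h (Sum.inl l) g)) ∈ C'.I :=
      Ideal.sum_mem _ fun l _ => Ideal.mul_mem_left _ _ (hext'.I _ (hP1 l))
    have h3 := Ideal.sub_mem _ (Ideal.add_mem _ hmem h1) h2
    have h4 : lin K' ξ ^ e - ∑ m, MvPolynomial.C (Yv m) *
        MvPolynomial.map φ (∑ g ∈ Finset.range C1.N, C1.ev g (h m g)) +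
        ∑ i, MvPolynomial.C (Yv (Sum.inr i)) *
          MvPolynomial.map φ (∑ g ∈ Finset.range C1.N, C1.ev g (h (Sum.inr i) g)) -
        ∑ l, MvPolynomial.C (Yv (Sum.inl l)) * MvPolynomial.map φ
          (P l - ∑ g ∈ Finset.range C1.N, C1.ev g (h (Sum.inl l) g)) =
        lin K' ξ ^ e - ∑ l, MvPolynomial.C (Yv (Sum.inl l)) * MvPolynomial.map φ (P l) := by
      rw [Fintype.sum_sum_type]
      simp only [map_sub, mul_sub, Finset.sum_sub_distrib]
      ring
    rwa [h4] at h3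

end Vale.Agent.P200F.V.Rig

end
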