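import Vale.Agent.P200F.Ns
import Vale.Agent.P200F.F1

set_option linter.all false

section

namespace Vale.Agent.P200F.V

open MvPolynomial

universe u

namespace Rig

namespace Rec

section ext

variable {K K' K'' : Type u} [Field K] [Field K'] [Field K''] {n κ κ' κ'' : ℕ}
  {C : Circ K n κ} {C' : Circ K' n κ'} {C'' : Circ K'' n κ''}

theorem ext_refl (C : Circ K n κ) : C.Ext (RingHom.id K) C where
  le := le_rfl
  leκ := le_rfl
  I P hP := by
    rw [MvPolynomial.map_id]
    exact hP

theorem ext_trans {φ : K →+* K'} {ψ : K' →+* K''} (h : C.Ext φ C') (h' : C'.Ext ψ C'') :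
    C.Ext (ψ.comp φ) C'' where
  le := h.le.trans h'.le
  leκ := h.leκ.trans h'.leκ
  I P hP := by
    rw [← MvPolynomial.map_map]
    exact h'.I _ (h.I _ hP)

theorem noZ_ext {φ : K →+* K'} (h : C.Ext φ C') {r : ℕ} {P : Fin r → MvPolynomial Gen K}
    (hP : C.NoZ P) : C'.NoZ fun l => MvPolynomial.map φ (P l) := by
  intro Ω _ _ _ q hq h0 i hi
  let _ : Algebra K Ω := ((algebraMap K' Ω).comp φ).toAlgebra
  have key : ∀ Q : MvPolynomial Gen K, aeval q (MvPolynomial.map φ Q) = aeval q Q := by
    intro Q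
    rw [aeval_def, aeval_def, eval₂_map]
    rfl
  refine hP Ω q ?_ ?_ i hi
  · intro Q hQ
    rw [← key]
    exact hq _ (h.I _ hQ)
  · intro l
    rw [← key]
    exact h0 l

theorem used_mono {κ κ' N N' : ℕ} (hκ : κ ≤ κ') (hN : N ≤ N') {v : Gen} (h : Used n κ N v) :
    Used n κ' N' v := by
  rcases v with i | p
  · exact h
  · exact ⟨lt_of_lt_of_le h.1 hN, lt_of_lt_of_le h.2 hκ⟩

theorem hm_ext {φ : K →+* K'} (h : C.Ext φ C') {e : ℕ} {P : MvPolynomial Gen K} (hP : C.Hm e P) :
    C'.Hm e (MvPolynomial.map φ P) :=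
  ⟨hP.1.map φ, fun v hv => used_mono h.leκ h.le (hP.2 v (vars_map P φ hv))⟩

/-- the linear form transported to the bigger field -/
noncomputable def mp (φ : K →+* K') (t : Gen →₀ K) : Gen →₀ K' :=
  t.mapRange φ (map_zero φ)

theorem lin_mp (φ : K →+* K') (t : Gen →₀ K) : lin K' (mp φ t) = MvPolynomial.map φ (lin K t) := by
  rw [lin, lin, Finsupp.linearCombination_apply, Finsupp.linearCombination_apply, mp,
    Finsupp.sum_mapRange_index (fun i => by simp), Finsupp.sum, Finsupp.sum, map_sum]
  refine Finset.sum_congr rfl fun v _ => ?_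
  rw [MvPolynomial.smul_eq_C_mul, MvPolynomial.smul_eq_C_mul, map_mul, map_C, map_X]

theorem s_mp {φ : K →+* K'} (h : C.Ext φ C') {t : Gen →₀ K} (ht : C.S t) : C'.S (mp φ t) := by
  intro v hv
  refine used_mono h.leκ h.le (ht v ?_)
  rw [Finsupp.mem_support_iff] at hv ⊢
  intro h0
  apply hv
  rw [mp, Finsupp.mapRange_apply, h0, map_zero]

end ext

/-- the state after `m` stages -/
def Chain {K : Type u} [Field K] {n κ : ℕ} (C : Circ K n κ) (e : ℕ) {M : ℕ}
    (Q : Fin M → MvPolynomial Gen K) (m : ℕ) : Prop :=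
  ∃ (K' : Type u) (_ : Field K') (φ : K →+* K') (κ' : ℕ) (C' : Circ K' n κ')
    (ξ : Fin m → Gen →₀ K') (Y B : Fin m → Fin M → K'), C.Ext φ C' ∧ (∀ j, C'.S (ξ j)) ∧
    (∀ i j, ∑ l, Y i l * B j l = if i = j then 1 else 0) ∧
    ∀ j, lin K' (ξ j) ^ e - ∑ l, MvPolynomial.C (Y j l) * MvPolynomial.map φ (Q l) ∈ C'.I

theorem exists_ker {K : Type*} [Field K] {m M : ℕ} (h : m < M) (Y : Fin m → Fin M → K) :
    ∃ c : Fin M → K, c ≠ 0 ∧ ∀ i, ∑ l, Y i l * c l = 0 := by
  have h1 : Module.finrank K (Fin m → K) < Module.finrank K (Fin M → K) := by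
    rw [Module.finrank_fin_fun, Module.finrank_fin_fun]
    exact h
  obtain ⟨c, hc, hc0⟩ := Submodule.exists_mem_ne_zero_of_ne_bot
    (LinearMap.ker_ne_bot_of_finrank_lt (f := (Matrix.of Y).mulVecLin) h1)
  refine ⟨c, hc0, fun i => ?_⟩
  have := congrFun (LinearMap.mem_ker.1 hc) i
  exact this

theorem chain_zero {K : Type u} [Field K] {n κ : ℕ} (C : Circ K n κ) (e : ℕ) {M : ℕ}
    (Q : Fin M → MvPolynomial Gen K) : Chain C e Q 0 :=
  ⟨K, inferInstance, RingHom.id K, κ, C, Fin.elim0, Fin.elim0, Fin.elim0, ext_refl C,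
    fun j => j.elim0, fun i => i.elim0, fun j => j.elim0⟩

theorem chain_succ {K : Type u} [Field K] [Infinite K] {n κ : ℕ} (hn : 0 < n) (C : Circ K n κ)
    {e : ℕ} {M : ℕ} (Q : Fin M → MvPolynomial Gen K) (hQ : ∀ l, C.Hm e (Q l)) (hZ : C.NoZ Q)
    (IH : ∀ (K : Type u) [Field K] [Infinite K] (n κ : ℕ) (_ : 0 < n) (C : Circ K n κ)
      (r : ℕ) (P : Fin r → MvPolynomial Gen K), (∀ l, C.Hm e (P l)) → C.NoZ P → Out C e P)
    {m : ℕ} (hm : m < M) (h : Chain C e Q m) : Chain C e Q (m + 1) := by
  obtain ⟨K', _, φ, κ', C', ξ, Y, B, hE, hS, hYB, hξ⟩ := h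
  have : Infinite K' := Infinite.of_injective φ φ.injective
  obtain ⟨K'', _, ψ, κ'', C'', ζ, y, hE', hS', hy, hζ⟩ :=
    IH K' n κ' hn C' M (fun l => MvPolynomial.map φ (Q l)) (fun l => hm_ext hE (hQ l))
      (noZ_ext hE hZ)
  obtain ⟨c, hc0, hc⟩ := exists_ker hm Y
  have hδ : ∑ l, ψ (c l) * y l ≠ 0 := fun h0 => hc0 (hy c h0)
  set δ : K'' := ∑ l, ψ (c l) * y l with hδdef
  let b : Fin M → K'' := fun l => δ⁻¹ * ψ (c l)
  have hYb : ∀ i, ∑ l, ψ (Y i l) * b l = 0 := by
    intro i
    have h1 : ∑ l, ψ (Y i l) * b l = δ⁻¹ * ψ (∑ l, Y i l * c l) := by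
      rw [map_sum, Finset.mul_sum]
      refine Finset.sum_congr rfl fun l _ => ?_
      simp only [b, map_mul]
      ring
    rw [h1, hc, map_zero, mul_zero]
  have hyb : ∑ l, y l * b l = 1 := by
    have h1 : ∑ l, y l * b l = δ⁻¹ * δ := by
      rw [hδdef, Finset.mul_sum]
      refine Finset.sum_congr rfl fun l _ => ?_
      simp only [b]
      rw [← hδdef]
      ring
    rw [h1, inv_mul_cancel₀ hδ]
  refine ⟨K'', inferInstance, ψ.comp φ, κ'', C'',
    Fin.snoc (α := fun _ => Gen →₀ K'') (fun j => mp ψ (ξ j)) ζ,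
    Fin.snoc (α := fun _ => Fin M → K'') (fun j l => ψ (Y j l)) y,
    Fin.snoc (α := fun _ => Fin M → K'')
      (fun j l => ψ (B j l) - b l * ∑ l', y l' * ψ (B j l')) b, ext_trans hE hE', ?_, ?_, ?_⟩
  · intro j
    refine Fin.lastCases ?_ (fun j => ?_) j
    · rw [Fin.snoc_last]
      exact hS'
    · rw [Fin.snoc_castSucc]
      exact s_mp hE' (hS j)
  · intro i j
    refine Fin.lastCases ?_ (fun i => ?_) i
    · refine Fin.lastCases ?_ (fun j => ?_) j
      · rw [Fin.snoc_last, Fin.snoc_last, if_pos rfl]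
        exact hyb
      · rw [Fin.snoc_last, Fin.snoc_castSucc, if_neg (Fin.castSucc_lt_last j).ne']
        have h1 : ∑ l, y l * (ψ (B j l) - b l * ∑ l', y l' * ψ (B j l')) =
            ∑ l, y l * ψ (B j l) - (∑ l, y l * b l) * ∑ l', y l' * ψ (B j l') := by
          rw [Finset.sum_mul, ← Finset.sum_sub_distrib]
          exact Finset.sum_congr rfl fun l _ => by ring
        rw [h1, hyb, one_mul, sub_self]
    · refine Fin.lastCases ?_ (fun j => ?_) j
      · rw [Fin.snoc_last, Fin.snoc_castSucc, if_neg (Fin.castSucc_lt_last i).ne]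
        exact hYb i
      · rw [Fin.snoc_castSucc, Fin.snoc_castSucc]
        have h1 : ∑ l, ψ (Y i l) * (ψ (B j l) - b l * ∑ l', y l' * ψ (B j l')) =
            ψ (∑ l, Y i l * B j l) - (∑ l, ψ (Y i l) * b l) * ∑ l', y l' * ψ (B j l') := by
          rw [Finset.sum_mul, map_sum, ← Finset.sum_sub_distrib]
          exact Finset.sum_congr rfl fun l _ => by rw [map_mul]; ring
        rw [h1, hYb, zero_mul, sub_zero, hYB]
        by_cases hij : i = j
        · rw [if_pos hij, if_pos (congrArg Fin.castSucc hij), map_one]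
        · rw [if_neg hij, if_neg fun h => hij (Fin.castSucc_injective _ h), map_zero]
  · intro j
    refine Fin.lastCases ?_ (fun j => ?_) j
    · rw [Fin.snoc_last, Fin.snoc_last]
      have h1 : ∑ l, MvPolynomial.C (y l) * MvPolynomial.map (ψ.comp φ) (Q l) =
          ∑ l, MvPolynomial.C (y l) * MvPolynomial.map ψ (MvPolynomial.map φ (Q l)) :=
        Finset.sum_congr rfl fun l _ => by rw [MvPolynomial.map_map]
      rw [h1]
      exact hζ
    · rw [Fin.snoc_castSucc, Fin.snoc_castSucc]
      have h2 := hE'.I _ (hξ j)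
      rw [map_sub, map_pow, map_sum, ← lin_mp] at h2
      have h1 : ∑ l, MvPolynomial.C (ψ (Y j l)) * MvPolynomial.map (ψ.comp φ) (Q l) =
          ∑ l, MvPolynomial.map ψ (MvPolynomial.C (Y j l) * MvPolynomial.map φ (Q l)) :=
        Finset.sum_congr rfl fun l _ => by rw [map_mul, map_C, MvPolynomial.map_map]
      rw [h1]
      exact h2

theorem chain_all {K : Type u} [Field K] [Infinite K] {n κ : ℕ} (hn : 0 < n) (C : Circ K n κ)
    {e : ℕ} {M : ℕ} (Q : Fin M → MvPolynomial Gen K) (hQ : ∀ l, C.Hm e (Q l)) (hZ : C.NoZ Q)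
    (IH : ∀ (K : Type u) [Field K] [Infinite K] (n κ : ℕ) (_ : 0 < n) (C : Circ K n κ)
      (r : ℕ) (P : Fin r → MvPolynomial Gen K), (∀ l, C.Hm e (P l)) → C.NoZ P → Out C e P) :
    ∀ m ≤ M, Chain C e Q m
  | 0, _ => chain_zero C e Q
  | m + 1, h => chain_succ hn C Q hQ hZ IH h (chain_all hn C Q hQ hZ IH m (Nat.le_of_succ_le h))

/-- the used generators -/
noncomputable def us (n κ N : ℕ) : Finset Gen :=
  (Finset.range n).image Sum.inl ∪ (Finset.range N ×ˢ Finset.range κ).image Sum.inr

theorem mem_us {n κ N : ℕ} {v : Gen} : v ∈ us n κ N ↔ Used n κ N v := by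
  rcases v with i | p
  · simp [us, Used]
  · simp [us, Used]

theorem exists_prod {K : Type u} [Field K] {U : Gen → Prop} : ∀ (e : ℕ) (m : Gen →₀ ℕ),
    m.degree = e → (∀ v ∈ m.support, U v) →
    ∃ t : Fin e → {v // U v}, monomial m (1 : K) = ∏ i, X (t i : Gen)
  | 0, m, hm, _ => by
    refine ⟨Fin.elim0, ?_⟩
    rw [(Finsupp.degree_eq_zero_iff m).1 hm]
    simp
  | e + 1, m, hm, hU => by
    have hne : m ≠ 0 := by
      rintro rfl
      simp at hm
    obtain ⟨v, hv⟩ := Finsupp.support_nonempty_iff.2 hne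
    have hle : Finsupp.single v 1 ≤ m := by
      rw [Finsupp.single_le_iff]
      exact Nat.one_le_iff_ne_zero.2 (Finsupp.mem_support_iff.1 hv)
    have hsum : Finsupp.single v 1 + (m - Finsupp.single v 1) = m := add_tsub_cancel_of_le hle
    have hdeg : (m - Finsupp.single v 1).degree = e := by
      have h1 := congrArg Finsupp.degree hsum
      rw [map_add, Finsupp.degree_single, hm] at h1
      omega
    have hU' : ∀ w ∈ (m - Finsupp.single v 1).support, U w := by
      intro w hw
      refine hU w ?_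
      rw [Finsupp.mem_support_iff] at hw ⊢
      intro h0
      apply hw
      rw [Finsupp.tsub_apply, h0, Nat.zero_sub]
    obtain ⟨t, ht⟩ := exists_prod (K := K) e _ hdeg hU'
    refine ⟨Fin.cons ⟨v, hU v hv⟩ t, ?_⟩
    rw [Fin.prod_univ_succ, Fin.cons_zero]
    simp only [Fin.cons_succ]
    rw [← ht, X, monomial_mul, one_mul, hsum]

/-- the span (modulo the relations) of the binary forms as a submodule -/
noncomputable def binSub {K : Type u} [Field K] {n κ : ℕ} (C : Circ K n κ) (E : Finset (Gen →₀ K)) (e : ℕ) :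
    Submodule K (MvPolynomial Gen K) :=
  Submodule.span K {Q : MvPolynomial Gen K | ∃ y ∈ E, ∃ y' ∈ E, ∃ a b, a + b = e ∧
    Q = lin K y ^ a * lin K y' ^ b} ⊔ C.I.restrictScalars K

theorem bin_iff {K : Type u} [Field K] {n κ : ℕ} (C : Circ K n κ) (E : Finset (Gen →₀ K)) (e : ℕ)
    (P : MvPolynomial Gen K) : C.Bin E e P ↔ P ∈ binSub C E e := by
  rw [binSub, Submodule.mem_sup, Circ.Bin]
  constructor
  · rintro ⟨Q, hQ, h⟩
    exact ⟨Q, hQ, P - Q, h, by ring⟩
  · rintro ⟨Q, hQ, z, hz, rfl⟩
    refine ⟨Q, hQ, ?_⟩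
    rw [add_sub_cancel_left]
    exact hz

theorem lin_single {K : Type u} [Field K] (v : Gen) :
    lin K (Finsupp.single v 1) = (X v : MvPolynomial Gen K) := by
  rw [lin, Finsupp.linearCombination_single, one_smul]

/-- a form is a combination of products of `e` variables and a variable -/
theorem mem_span_prod {K : Type u} [Field K] {U : Gen → Prop} {e : ℕ} {P : MvPolynomial Gen K}
    (hP : P.IsHomogeneous (e + 1)) (hU : ∀ v ∈ P.vars, U v) :
    P ∈ Submodule.span K (Set.range fun t : (Fin e → {v // U v}) × {v // U v} =>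
      (∏ i, X (t.1 i : Gen)) * (X (t.2 : Gen) : MvPolynomial Gen K)) := by
  rw [P.as_sum]
  refine Submodule.sum_mem _ fun m hm => ?_
  have h1 : monomial m (coeff m P) = coeff m P • (monomial m (1 : K)) := by
    rw [smul_monomial, smul_eq_mul, mul_one]
  rw [h1]
  refine Submodule.smul_mem _ _ ?_
  have hdeg : m.degree = e + 1 := by
    have := hP (mem_support_iff.1 hm)
    rw [← this, Finsupp.degree_eq_weight_one]
    rfl
  obtain ⟨t, ht⟩ := exists_prod (K := K) (U := U) (e + 1) m hdeg fun v hv =>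
    hU v ((mem_vars_iff_mem_support v).2 ⟨m, hm, hv⟩)
  rw [ht, Fin.prod_univ_succ]
  refine Submodule.subset_span ⟨(fun i => t i.succ, t 0), ?_⟩
  exact mul_comm _ _

/-- a submodule which contains the degree `e` products times the variables contains the forms of
degree `e + 1` -/
theorem map_mem {K K' : Type u} [Field K] [Field K'] (φ : K →+* K') {U : Gen → Prop} {e : ℕ}
    {P : MvPolynomial Gen K} (hP : P.IsHomogeneous (e + 1)) (hU : ∀ v ∈ P.vars, U v)
    (W : Submodule K' (MvPolynomial Gen K'))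
    (hW : ∀ (t : Fin e → {v // U v}) (v : {v // U v}),
      MvPolynomial.map φ (∏ i, X (t i : Gen)) * (X (v : Gen) : MvPolynomial Gen K') ∈ W) :
    MvPolynomial.map φ P ∈ W := by
  have h := mem_span_prod hP hU
  clear hP hU
  induction h using Submodule.span_induction with
  | mem x hx =>
    obtain ⟨t, rfl⟩ := hx
    rw [map_mul, map_X]
    exact hW t.1 t.2
  | zero =>
    rw [map_zero]
    exact W.zero_mem
  | add x y _ _ hx hy =>
    rw [map_add]
    exact W.add_mem hx hy
  | smul a x _ hx =>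
    rw [MvPolynomial.smul_eq_C_mul, map_mul, map_C, ← MvPolynomial.smul_eq_C_mul]
    exact W.smul_mem _ hx

theorem hm_prod {K : Type u} [Field K] {n κ : ℕ} (C : Circ K n κ) {e : ℕ}
    (t : Fin e → {v // C.U v}) : C.Hm e (∏ i, X (t i : Gen)) := by
  classical
  constructor
  · have h := IsHomogeneous.prod Finset.univ (fun i => (X (t i : Gen) : MvPolynomial Gen K))
      (fun _ => 1) fun i _ => isHomogeneous_X K _
    simpa using h
  · intro v hv
    have h := vars_prod (s := Finset.univ) (fun i => (X (t i : Gen) : MvPolynomial Gen K)) hv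
    rw [Finset.mem_biUnion] at h
    obtain ⟨i, _, hi⟩ := h
    rw [vars_X, Finset.mem_singleton] at hi
    rw [hi]
    exact (t i).2

/-- the conclusion of the stage for an extension -/
theorem out_ext {K K' : Type u} [Field K] [Field K'] {n κ κ' : ℕ} {C : Circ K n κ}
    {C' : Circ K' n κ'} {φ : K →+* K'} (hE : C.Ext φ C') {e r : ℕ}
    {P : Fin r → MvPolynomial Gen K} (h : Out C' e fun l => MvPolynomial.map φ (P l)) :
    Out C e P := by
  obtain ⟨K'', _, ψ, κ'', C'', ξ, Y, hE', hS, hY, hξ⟩ := h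
  refine ⟨K'', inferInstance, ψ.comp φ, κ'', C'', ξ, Y, ext_trans hE hE', hS, ?_, ?_⟩
  · intro c hc
    have h1 := hY (fun l => φ (c l)) hc
    funext l
    have h2 := congrFun h1 l
    have h3 : φ (c l) = φ 0 := by
      rw [map_zero]
      exact h2
    exact φ.injective h3
  · have h1 : ∑ l, MvPolynomial.C (Y l) * MvPolynomial.map (ψ.comp φ) (P l) =
        ∑ l, MvPolynomial.C (Y l) * MvPolynomial.map ψ (MvPolynomial.map φ (P l)) :=
      Finset.sum_congr rfl fun l _ => by rw [MvPolynomial.map_map]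
    rw [h1]
    exact hξ

/-- the transposed identity of a left inverse -/
theorem left_inv {K : Type*} [Field K] {M : ℕ} {Y B : Fin M → Fin M → K}
    (h : ∀ i j, ∑ l, Y i l * B j l = if i = j then 1 else 0) (l l' : Fin M) :
    ∑ j, B j l * Y j l' = if l = l' then 1 else 0 := by
  have h1 : Matrix.of Y * (Matrix.of B).transpose = 1 := by
    ext i j
    rw [Matrix.mul_apply, Matrix.one_apply]
    exact h i j
  have h2 := mul_eq_one_comm.1 h1
  have h3 := congrFun (congrFun h2 l) l'
  rw [Matrix.mul_apply, Matrix.one_apply] at h3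
  exact h3

theorem q_mem {K K' : Type u} [Field K] [Field K'] {n κ' : ℕ} {C' : Circ K' n κ'} {φ : K →+* K'}
    {e M : ℕ} {Q : Fin M → MvPolynomial Gen K} {ξ : Fin M → Gen →₀ K'} {Y B : Fin M → Fin M → K'}
    (h : ∀ i j, ∑ l, Y i l * B j l = if i = j then 1 else 0)
    (hξ : ∀ j, lin K' (ξ j) ^ e - ∑ l, MvPolynomial.C (Y j l) * MvPolynomial.map φ (Q l) ∈ C'.I)
    (l : Fin M) :
    MvPolynomial.map φ (Q l) - ∑ j, MvPolynomial.C (B j l) * lin K' (ξ j) ^ e ∈ C'.I := by
  have h1 : ∑ j, MvPolynomial.C (B j l) *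
      (lin K' (ξ j) ^ e - ∑ l, MvPolynomial.C (Y j l) * MvPolynomial.map φ (Q l)) ∈ C'.I :=
    Ideal.sum_mem _ fun j _ => C'.I.mul_mem_left _ (hξ j)
  have h2 : ∑ j, MvPolynomial.C (B j l) *
      (lin K' (ξ j) ^ e - ∑ l, MvPolynomial.C (Y j l) * MvPolynomial.map φ (Q l)) =
      ∑ j, MvPolynomial.C (B j l) * lin K' (ξ j) ^ e - MvPolynomial.map φ (Q l) := by
    simp only [mul_sub, Finset.sum_sub_distrib]
    congr 1
    simp only [Finset.mul_sum]
    rw [Finset.sum_comm]
    have h3 : ∀ l', ∑ j, MvPolynomial.C (B j l) *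
        (MvPolynomial.C (Y j l') * MvPolynomial.map φ (Q l')) =
        MvPolynomial.C (if l = l' then (1 : K') else 0) * MvPolynomial.map φ (Q l') := by
      intro l'
      rw [← left_inv h l l', map_sum, Finset.sum_mul]
      refine Finset.sum_congr rfl fun j _ => ?_
      rw [map_mul]
      ring
    rw [Finset.sum_congr rfl fun l' _ => h3 l', Finset.sum_eq_single l]
    · rw [if_pos rfl, map_one, one_mul]
    · intro l' _ hl'
      rw [if_neg hl'.symm, map_zero, zero_mul]
    · intro hl
      exact absurd (Finset.mem_univ l) hl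
  rw [h2] at h1
  have h4 := C'.I.neg_mem h1
  rwa [neg_sub] at h4

end Rec

open Rec

/-- **The stage lemma for all families.** -/
theorem stageAll (h : ∀ (K : Type u) [Field K] [Infinite K], StageBin K) : StageAll.{u} := by
  classical
  intro e he
  induction e, he using Nat.le_induction with
  | base =>
    intro K _ _ n κ hn C r P hP hZ
    refine h K n κ hn C 1 one_pos r P ((us n κ C.N).image fun v => Finsupp.single v 1) ?_ ?_ hZ
    · intro y hy
      obtain ⟨v, hv, rfl⟩ := Finset.mem_image.1 hy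
      intro w hw
      rw [Finset.mem_singleton.1 (Finsupp.support_single_subset hw)]
      exact mem_us.1 hv
    · intro l
      rw [bin_iff, ← MvPolynomial.map_id (P l)]
      refine map_mem (e := 0) (RingHom.id K) (hP l).1 (hP l).2 _ fun t v => ?_
      rw [Finset.univ_eq_empty, Finset.prod_empty, map_one, one_mul]
      refine Submodule.mem_sup_left (Submodule.subset_span ?_)
      have hv : Finsupp.single (v : Gen) (1 : K) ∈
          (us n κ C.N).image fun v => Finsupp.single v (1 : K) :=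
        Finset.mem_image_of_mem _ (mem_us.2 v.2)
      refine ⟨_, hv, _, hv, 1, 0, rfl, ?_⟩
      rw [lin_single, pow_one, pow_zero, mul_one]
  | succ e he IH =>
    intro K _ _ n κ hn C r P hP hZ
    have hfin : Finite {v // C.U v} := by
      have h1 : {v | C.U v} = (us n κ C.N : Set Gen) := by
        ext v
        exact (mem_us (v := v)).symm
      have h2 : {v | C.U v}.Finite := by
        rw [h1]
        exact Finset.finite_toSet _
      exact h2.to_subtype
    have hfin2 : Finite (Fin e → {v // C.U v}) := inferInstance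
    obtain ⟨M, ⟨eq⟩⟩ := Finite.exists_equiv_fin (Fin e → {v // C.U v})
    let Q : Fin M → MvPolynomial Gen K := fun l => ∏ i, X (eq.symm l i : Gen)
    have hQ : ∀ l, C.Hm e (Q l) := fun l => hm_prod C _
    have hQZ : C.NoZ Q := by
      intro Ω _ _ _ q _ h0 i hi
      have h1 := h0 (eq fun _ => ⟨Sum.inl i, hi⟩)
      simp only [Q] at h1
      rw [Equiv.symm_apply_apply, map_prod] at h1
      simp only [aeval_X, Finset.prod_const, Finset.card_univ, Fintype.card_fin] at h1
      exact pow_eq_zero_iff (Nat.one_le_iff_ne_zero.1 he) |>.1 h1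
    obtain ⟨K', _, φ, κ', C', ξ, Y, B, hE, hS, hYB, hξ⟩ := chain_all hn C Q hQ hQZ IH M le_rfl
    have : Infinite K' := Infinite.of_injective φ φ.injective
    refine out_ext hE (h K' n κ' hn C' (e + 1) (Nat.succ_pos e) r _
      (Finset.univ.image ξ ∪ (us n κ C.N).image fun v => Finsupp.single v 1) ?_ ?_
      (noZ_ext hE hZ))
    · intro y hy
      rcases Finset.mem_union.1 hy with hy | hy
      · obtain ⟨j, _, rfl⟩ := Finset.mem_image.1 hy
        exact hS j
      · obtain ⟨v, hv, rfl⟩ := Finset.mem_image.1 hy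
        intro w hw
        rw [Finset.mem_singleton.1 (Finsupp.support_single_subset hw)]
        exact Rec.used_mono hE.leκ hE.le (mem_us.1 hv)
    · intro l
      rw [bin_iff]
      refine map_mem φ (hP l).1 (hP l).2 _ fun t v => ?_
      have h1 := q_mem hYB hξ (eq t)
      have h2 : MvPolynomial.map φ (Q (eq t)) = MvPolynomial.map φ (∏ i, X (t i : Gen)) := by
        simp only [Q]
        rw [Equiv.symm_apply_apply]
      rw [h2] at h1
      have h3 : MvPolynomial.map φ (∏ i, X (t i : Gen)) * (X (v : Gen) : MvPolynomial Gen K') =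
          ∑ j, (B j (eq t)) • (lin K' (ξ j) ^ e * lin K' (Finsupp.single (v : Gen) 1) ^ 1) +
          X (v : Gen) * (MvPolynomial.map φ (∏ i, X (t i : Gen)) -
            ∑ j, MvPolynomial.C (B j (eq t)) * lin K' (ξ j) ^ e) := by
        rw [lin_single, pow_one, mul_sub, Finset.mul_sum]
        have h4 : ∑ j, (B j (eq t)) • (lin K' (ξ j) ^ e * (X (v : Gen) : MvPolynomial Gen K')) =
            ∑ j, (X (v : Gen) : MvPolynomial Gen K') *
              (MvPolynomial.C (B j (eq t)) * lin K' (ξ j) ^ e) := by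
          refine Finset.sum_congr rfl fun j _ => ?_
          rw [MvPolynomial.smul_eq_C_mul]
          ring
        rw [h4]
        ring
      rw [h3]
      refine Submodule.add_mem _ (Submodule.mem_sup_left (Submodule.sum_mem _ fun j _ =>
        Submodule.smul_mem _ _ (Submodule.subset_span ?_))) (Submodule.mem_sup_right ?_)
      · exact ⟨ξ j, Finset.mem_union_left _ (Finset.mem_image_of_mem _ (Finset.mem_univ j)),
          Finsupp.single (v : Gen) 1, Finset.mem_union_right _
            (Finset.mem_image_of_mem (fun v => Finsupp.single v (1 : K')) (mem_us.2 v.2)), e, 1, rfl, rfl⟩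
      · exact C'.I.mul_mem_left _ h1

end Rig

end Vale.Agent.P200F.V

end

section

namespace Vale.Agent.P200F.V.Rig

open MvPolynomial

universe u

/-- the polynomials in `x_0, …, x_(n-1)` as elements of the ring of the circuits -/
noncomputable def xr (K : Type u) [Field K] (n : ℕ) : MvPolynomial (Fin n) K →ₐ[K] MvPolynomial Gen K :=
  rename fun i : Fin n => Sum.inl (i : ℕ)

namespace Mn

theorem map_xr {K K' : Type u} [Field K] [Field K'] (φ : K →+* K') (n : ℕ)
    (P : MvPolynomial (Fin n) K) :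
    MvPolynomial.map φ (xr K n P) = xr K' n (MvPolynomial.map φ P) := by
  rw [xr, xr, map_rename]

theorem xr_C_mul {K : Type u} [Field K] (n : ℕ) (z : K) (P : MvPolynomial (Fin n) K) :
    xr K n (MvPolynomial.C z * P) = MvPolynomial.C z * xr K n P := by
  rw [map_mul, xr, rename_C]

theorem aeval_xr {K : Type u} [Field K] {Ω : Type u} [Field Ω] [Algebra K Ω] (n : ℕ)
    (q : Gen → Ω) (P : MvPolynomial (Fin n) K) :
    aeval q (xr K n P) = aeval (fun i : Fin n => q (Sum.inl (i : ℕ))) P := by
  rw [xr, aeval_rename]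
  rfl

/-- the state of the recursion: the forms `G_i`, `i ≥ m`, have roots -/
structure St {k : Type u} [Field k] {n : ℕ} (d : Fin n → ℕ) (f : Fin n → MvPolynomial (Fin n) k)
    (m : ℕ) {K : Type u} [Field K] (φ : k →+* K) {κ : ℕ} (C : Circ K n κ)
    (ξ : Fin n → (Gen →₀ K)) (G : Fin n → MvPolynomial (Fin n) K) (L : Fin n → Fin n → K) :
    Prop where
  hom : ∀ j, (G j).IsHomogeneous (d j)
  span : Ideal.span (Set.range G) = Ideal.span (Set.range fun i => MvPolynomial.map φ (f i))
  s : ∀ j, C.S (ξ j)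
  rel : ∀ i : Fin n, m ≤ (i : ℕ) → lin K (ξ i) ^ d i - xr K n (G i) -
    ∑ j ∈ Finset.univ.filter (fun j => i < j), MvPolynomial.C (L i j) * lin K (ξ j) ^ d i ∈ C.I

/-- the family of the stage `i` -/
noncomputable def fam {K : Type u} [Field K] {n : ℕ} (d : Fin n → ℕ) (ξ : Fin n → (Gen →₀ K))
    (G : Fin n → MvPolynomial (Fin n) K) (i : Fin n) (p : Fin n × Fin n) : MvPolynomial Gen K :=
  if p.1 ≤ i then xr K n (X p.2 ^ (d i - d p.1) * G p.1) else lin K (ξ p.1) ^ d i

theorem isHomogeneous_lin {K : Type u} [Field K] (t : Gen →₀ K) : (lin K t).IsHomogeneous 1 := by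
  rw [lin, Finsupp.linearCombination_apply, Finsupp.sum]
  refine IsHomogeneous.sum _ _ _ fun v _ => ?_
  rw [smul_eq_C_mul]
  have h := (isHomogeneous_C Gen (t v)).mul (isHomogeneous_X K v)
  rwa [zero_add] at h

theorem vars_lin {K : Type u} [Field K] {n κ N : ℕ} {t : Gen →₀ K} (ht : Sup n κ N t) :
    ∀ v ∈ (lin K t).vars, Used n κ N v := by
  classical
  intro v hv
  rw [lin, Finsupp.linearCombination_apply, Finsupp.sum] at hv
  obtain ⟨w, hw, hvw⟩ := Finset.mem_biUnion.1 (vars_sum_subset _ _ hv)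
  rw [smul_eq_C_mul] at hvw
  rw [vars_C_mul _ (Finsupp.mem_support_iff.1 hw), vars_X, Finset.mem_singleton] at hvw
  rw [hvw]
  exact ht w hw

theorem vars_xr {K : Type u} [Field K] {n κ N : ℕ} (P : MvPolynomial (Fin n) K) :
    ∀ v ∈ (xr K n P).vars, Used n κ N v := by
  classical
  intro v hv
  rw [xr] at hv
  obtain ⟨j, -, rfl⟩ := Finset.mem_image.1 (vars_rename _ _ hv)
  exact j.2

theorem hm_fam {K : Type u} [Field K] {n κ : ℕ} (C : Circ K n κ) {d : Fin n → ℕ}
    (hmono : Monotone d) {ξ : Fin n → (Gen →₀ K)} {G : Fin n → MvPolynomial (Fin n) K}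
    (hG : ∀ j, (G j).IsHomogeneous (d j)) (hξ : ∀ j, C.S (ξ j)) (i : Fin n) (p : Fin n × Fin n) :
    C.Hm (d i) (fam d ξ G i p) := by
  classical
  unfold fam
  split_ifs with h
  · refine ⟨?_, vars_xr _⟩
    have h1 := ((isHomogeneous_X_pow (R := K) p.2 (d i - d p.1)).mul (hG p.1))
    rw [Nat.sub_add_cancel (hmono h)] at h1
    exact h1.rename_isHomogeneous
  · constructor
    · have h1 := (isHomogeneous_lin (ξ p.1)).pow (d i)
      rwa [one_mul] at h1
    · intro v hv
      exact vars_lin (hξ p.1) v (vars_pow _ _ hv)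

theorem noZ_fam {k : Type u} [Field k] {n : ℕ} {d : Fin n → ℕ} (hd : ∀ i, 0 < d i)
    {f : Fin n → MvPolynomial (Fin n) k}
    (hfin : ∃ m, ∀ P : MvPolynomial (Fin n) k, P.IsHomogeneous m → P ∈ Ideal.span (Set.range f))
    {K : Type u} [Field K] {φ : k →+* K} {κ : ℕ} {C : Circ K n κ}
    {ξ : Fin n → (Gen →₀ K)} {G : Fin n → MvPolynomial (Fin n) K} {L : Fin n → Fin n → K}
    (i : Fin n) (h : St d f (i + 1) φ C ξ G L) {Ω : Type u} [Field Ω] [Algebra K Ω]
    (q : Gen → Ω) (hq : C.Pt q) (hP : ∀ p, aeval q (fam d ξ G i p) = 0) :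
    ∀ t < n, q (Sum.inl t) = 0 := by
  intro t ht
  by_contra hne
  set lam : Fin n → Ω := fun j => q (Sum.inl (j : ℕ)) with hlam
  have hξ : ∀ j, i < j → aeval q (lin K (ξ j)) = 0 := by
    intro j hj
    have h1 := hP (j, j)
    unfold fam at h1
    rw [if_neg (not_le.2 hj), map_pow] at h1
    exact pow_eq_zero_iff (hd i).ne' |>.1 h1
  have hG : ∀ j, aeval lam (G j) = 0 := by
    intro j
    rcases le_or_gt j i with hj | hj
    · have h1 := hP (j, ⟨t, ht⟩)
      unfold fam at h1
      rw [if_pos hj, aeval_xr, map_mul, map_pow, aeval_X] at h1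
      rcases mul_eq_zero.1 h1 with h2 | h2
      · exact absurd (pow_eq_zero_iff (fun h3 => by
          rw [h3, pow_zero] at h2
          exact one_ne_zero h2) |>.1 h2) hne
      · exact h2
    · have h1 := hq _ (h.rel j hj)
      rw [map_sub, map_sub, map_pow, hξ j hj, zero_pow (hd j).ne', map_sum] at h1
      rw [Finset.sum_eq_zero, sub_zero, zero_sub, neg_eq_zero, aeval_xr] at h1
      · exact h1
      · intro l hl
        rw [map_mul, map_pow, hξ l (hj.trans (Finset.mem_filter.1 hl).2), zero_pow (hd j).ne',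
          mul_zero]
  have hI : ∀ P ∈ Ideal.span (Set.range G), aeval lam P = 0 := by
    intro P hP
    have h1 : Ideal.span (Set.range G) ≤ RingHom.ker (aeval lam : MvPolynomial (Fin n) K →ₐ[K] Ω) := by
      rw [Ideal.span_le]
      rintro _ ⟨j, rfl⟩
      exact hG j
    exact h1 hP
  obtain ⟨m, hm⟩ := hfin
  have h1 := hm (X ⟨t, ht⟩ ^ m) (isHomogeneous_X_pow _ _)
  have h2 : (X ⟨t, ht⟩ ^ m : MvPolynomial (Fin n) K) ∈ Ideal.span (Set.range G) := by
    rw [h.span]
    have h3 := Ideal.mem_map_of_mem (MvPolynomial.map φ) h1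
    rw [Ideal.map_span, map_pow, map_X] at h3
    rwa [← Set.range_comp] at h3
  have h3 := hI _ h2
  rw [map_pow, aeval_X] at h3
  rcases Nat.eq_zero_or_pos m with h4 | h4
  · rw [h4, pow_zero] at h3
    exact one_ne_zero h3
  · exact hne ((pow_eq_zero_iff h4.ne').1 h3)

/-- replacing one generator -/
theorem span_update {A : Type*} [CommRing A] {n : ℕ} (G : Fin n → A) (i : Fin n) (c : Fin n → A)
    (hc : IsUnit (c i)) :
    Ideal.span (Set.range (Function.update G i (∑ j, c j * G j))) = Ideal.span (Set.range G) := by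
  apply le_antisymm
  · rw [Ideal.span_le]
    rintro _ ⟨j, rfl⟩
    by_cases hj : j = i
    · subst hj
      rw [Function.update_self]
      exact Ideal.sum_mem _ fun l _ => Ideal.mul_mem_left _ _ (Ideal.subset_span ⟨l, rfl⟩)
    · rw [Function.update_of_ne hj]
      exact Ideal.subset_span ⟨j, rfl⟩
  · have hj : ∀ j, j ≠ i → G j ∈ Ideal.span (Set.range (Function.update G i (∑ j, c j * G j))) := by
      intro j hj
      exact Ideal.subset_span ⟨j, Function.update_of_ne hj _ _⟩
    rw [Ideal.span_le]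
    rintro _ ⟨j, rfl⟩
    by_cases hji : j = i
    · subst hji
      have h0 : (∑ l, c l * G l) ∈ Ideal.span (Set.range (Function.update G j (∑ j, c j * G j))) :=
        Ideal.subset_span ⟨j, Function.update_self _ _ _⟩
      have h1 : c j * G j + (∑ l ∈ Finset.univ.erase j, c l * G l) ∈
          Ideal.span (Set.range (Function.update G j (∑ j, c j * G j))) := by
        rwa [Finset.add_sum_erase _ (fun l => c l * G l) (Finset.mem_univ j)]
      have h2 : (∑ l ∈ Finset.univ.erase j, c l * G l) ∈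
          Ideal.span (Set.range (Function.update G j (∑ j, c j * G j))) :=
        Ideal.sum_mem _ fun l hl => Ideal.mul_mem_left _ _ (hj l (Finset.ne_of_mem_erase hl))
      have h3 := (Ideal.add_mem_iff_left _ h2).1 h1
      exact (Ideal.unit_mul_mem_iff_mem _ hc).1 h3
    · exact hj j hji

theorem s_mapL {K : Type u} [Field K] {n κ : ℕ} {C : Circ K n κ} {K' : Type u} [Field K']
    {κ' : ℕ} {φ : K →+* K'} {C' : Circ K' n κ'} (h : C.Ext φ C') {t : Gen →₀ K} (ht : C.S t) :
    C'.S (mapL φ t) := by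
  intro v hv
  have h1 := ht v (Finsupp.support_mapRange hv)
  rcases v with v | p
  · exact h1
  · exact ⟨lt_of_lt_of_le h1.1 h.le, lt_of_lt_of_le h1.2 h.leκ⟩

/-- the coefficients of the new form -/
noncomputable def cof {K : Type u} [Field K] {n : ℕ} (d : Fin n → ℕ) (i : Fin n)
    (Y : Fin n × Fin n → K) (j : Fin n) : MvPolynomial (Fin n) K :=
  if j ≤ i then ∑ t, C (Y (j, t)) * X t ^ (d i - d j) else 0

/-- one step of the recursion -/
theorem st_step (hS : StageAll.{u}) {k : Type u} [Field k] {n : ℕ}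
    {d : Fin n → ℕ} (hd : ∀ i, 0 < d i) (hmono : Monotone d) {f : Fin n → MvPolynomial (Fin n) k}
    (hfin : ∃ m, ∀ P : MvPolynomial (Fin n) k, P.IsHomogeneous m → P ∈ Ideal.span (Set.range f))
    {K : Type u} [Field K] [Infinite K] {φ : k →+* K} {κ : ℕ} {C : Circ K n κ}
    {ξ : Fin n → (Gen →₀ K)} {G : Fin n → MvPolynomial (Fin n) K} {L : Fin n → Fin n → K}
    (i : Fin n) (h : St d f (i + 1) φ C ξ G L) :
    ∃ (K' : Type u) (_ : Field K') (φ' : K →+* K') (κ' : ℕ) (C' : Circ K' n κ')
      (ξ' : Fin n → (Gen →₀ K')) (G' : Fin n → MvPolynomial (Fin n) K') (L' : Fin n → Fin n → K'),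
      St d f i (φ'.comp φ) C' ξ' G' L' := by
  have hn : 0 < n := i.pos
  obtain ⟨K', _, φ', κ', C', ξ', Y, hext, hs, hY, hrel⟩ := hS (d i) (hd i) K n κ hn C (n * n)
    (fun l => fam d ξ G i (finProdFinEquiv.symm l))
    (fun l => hm_fam C hmono h.hom h.s i _) (by
      intro Ω _ _ _ q hq hP
      refine noZ_fam hd hfin i h q hq fun p => ?_
      have h1 := hP (finProdFinEquiv p)
      simp only [Equiv.symm_apply_apply] at h1
      exact h1)
  set Z : Fin n × Fin n → K' := fun p => Y (finProdFinEquiv p) with hZ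
  have hrel' : lin K' ξ' ^ d i - ∑ p, MvPolynomial.C (Z p) *
      MvPolynomial.map φ' (fam d ξ G i p) ∈ C'.I := by
    rw [← Equiv.sum_comp finProdFinEquiv] at hrel
    simp only [Equiv.symm_apply_apply] at hrel
    exact hrel
  have hZ0 : ∑ t, Z (i, t) ≠ 0 := by
    intro h0
    have h1 := hY (fun l => if (finProdFinEquiv.symm l).1 = i then 1 else 0) (by
      rw [← Equiv.sum_comp finProdFinEquiv]
      simp only [Equiv.symm_apply_apply]
      rw [Fintype.sum_prod_type, Finset.sum_eq_single i]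
      · rw [← h0]
        refine Finset.sum_congr rfl fun t _ => ?_
        rw [if_pos rfl, map_one, one_mul]
      · intro j _ hj
        refine Finset.sum_eq_zero fun t _ => ?_
        rw [if_neg hj, map_zero, zero_mul]
      · intro hi
        exact absurd (Finset.mem_univ i) hi)
    have h2 := congrFun h1 (finProdFinEquiv (i, i))
    simp only [Equiv.symm_apply_apply, if_true, Pi.zero_apply] at h2
    exact one_ne_zero h2
  have hcof : cof d i Z i = MvPolynomial.C (∑ t, Z (i, t)) := by
    unfold cof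
    rw [if_pos le_rfl, map_sum]
    refine Finset.sum_congr rfl fun t _ => ?_
    rw [Nat.sub_self, pow_zero, mul_one]
  set G1 : Fin n → MvPolynomial (Fin n) K' := fun j => MvPolynomial.map φ' (G j) with hG1
  have hspan1 : Ideal.span (Set.range G1) =
      Ideal.span (Set.range fun i => MvPolynomial.map (φ'.comp φ) (f i)) := by
    have h1 := congrArg (Ideal.map (MvPolynomial.map (σ := Fin n) φ')) h.span
    rw [Ideal.map_span, Ideal.map_span, ← Set.range_comp, ← Set.range_comp] at h1
    have h2 : (fun i => MvPolynomial.map (φ'.comp φ) (f i)) =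
        ⇑(MvPolynomial.map (σ := Fin n) φ') ∘ fun i => MvPolynomial.map φ (f i) := by
      funext j
      rw [Function.comp_apply, map_map]
    rw [h2]
    exact h1
  refine ⟨K', inferInstance, φ', κ', C', Function.update (fun j => mapL φ' (ξ j)) i ξ',
    Function.update G1 i (∑ j, cof d i Z j * G1 j),
    Function.update (fun i j => φ' (L i j)) i (fun j => ∑ t, Z (j, t)), ?_, ?_, ?_, ?_⟩
  · intro j
    by_cases hj : j = i
    · subst hj
      rw [Function.update_self]
      refine IsHomogeneous.sum _ _ _ fun l _ => ?_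
      unfold cof
      split_ifs with hl
      · rw [Finset.sum_mul]
        refine IsHomogeneous.sum _ _ _ fun t _ => ?_
        have h1 := ((isHomogeneous_C (Fin n) (Z (l, t))).mul
          (isHomogeneous_X_pow (R := K') t (d j - d l))).mul ((h.hom l).map φ')
        rwa [zero_add, Nat.sub_add_cancel (hmono hl)] at h1
      · rw [zero_mul]
        exact isHomogeneous_zero _ _ _
    · rw [Function.update_of_ne hj]
      exact (h.hom j).map φ'
  · rw [span_update, hspan1]
    rw [hcof]
    exact (isUnit_iff_ne_zero.2 hZ0).map MvPolynomial.C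
  · intro j
    by_cases hj : j = i
    · subst hj
      rw [Function.update_self]
      exact hs
    · rw [Function.update_of_ne hj]
      exact s_mapL hext (h.s j)
  · intro j hj
    have hsum : ∀ c : Fin n → K', ∑ l ∈ Finset.univ.filter (fun l => j < l), MvPolynomial.C (c l) *
        lin K' (Function.update (fun j => mapL φ' (ξ j)) i ξ' l) ^ d j =
        ∑ l ∈ Finset.univ.filter (fun l => j < l), MvPolynomial.C (c l) *
          MvPolynomial.map φ' (lin K (ξ l)) ^ d j := by
      intro c
      refine Finset.sum_congr rfl fun l hl => ?_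
      have h1 : l ≠ i := by
        have h2 := (Finset.mem_filter.1 hl).2
        intro h3
        rw [h3] at h2
        exact absurd h2 (not_lt.2 hj)
      rw [Function.update_of_ne h1, lin_mapL]
    rw [hsum]
    by_cases hji : j = i
    · subst hji
      rw [Function.update_self, Function.update_self, Function.update_self]
      have h1 : ∑ p, MvPolynomial.C (Z p) * MvPolynomial.map φ' (fam d ξ G j p) =
          xr K' n (∑ l, cof d j Z l * G1 l) +
          ∑ l ∈ Finset.univ.filter (fun l => j < l), MvPolynomial.C (∑ t, Z (l, t)) *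
            MvPolynomial.map φ' (lin K (ξ l)) ^ d j := by
        rw [Fintype.sum_prod_type, Finset.sum_filter, map_sum, ← Finset.sum_add_distrib]
        refine Finset.sum_congr rfl fun l _ => ?_
        rcases le_or_gt l j with hl | hl
        · rw [if_neg (not_lt.2 hl), add_zero]
          unfold cof
          rw [if_pos hl, Finset.sum_mul, map_sum]
          refine Finset.sum_congr rfl fun t _ => ?_
          unfold fam
          rw [if_pos hl, map_xr, map_mul, map_pow, map_X, mul_assoc, xr_C_mul]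
        · rw [if_pos hl]
          unfold cof
          rw [if_neg (not_le.2 hl), zero_mul, map_zero, zero_add, map_sum, Finset.sum_mul]
          refine Finset.sum_congr rfl fun t _ => ?_
          unfold fam
          rw [if_neg (not_le.2 hl), map_pow]
      rw [h1, ← sub_sub] at hrel'
      exact hrel'
    · rw [Function.update_of_ne hji, Function.update_of_ne hji, Function.update_of_ne hji,
        lin_mapL]
      have hij : i < j := lt_of_le_of_ne hj (fun h1 => hji h1.symm)
      have h1 := hext.I _ (h.rel j hij)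
      rw [map_sub, map_sub, map_pow, map_xr, map_sum] at h1
      simp only [map_mul, map_pow, map_C] at h1
      exact h1

/-- the recursion -/
theorem st_exists (hS : StageAll.{u}) {k : Type u} [Field k] [Infinite k] {n : ℕ}
    (C0 : Circ k n 0) {d : Fin n → ℕ} (hd : ∀ i, 0 < d i) (hmono : Monotone d)
    {f : Fin n → MvPolynomial (Fin n) k} (hf : ∀ i, (f i).IsHomogeneous (d i))
    (hfin : ∃ m, ∀ P : MvPolynomial (Fin n) k, P.IsHomogeneous m → P ∈ Ideal.span (Set.range f))
    (m : ℕ) (hm : m ≤ n) :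
    ∃ (K : Type u) (_ : Field K) (φ : k →+* K) (κ : ℕ) (C : Circ K n κ)
      (ξ : Fin n → (Gen →₀ K)) (G : Fin n → MvPolynomial (Fin n) K) (L : Fin n → Fin n → K),
      St d f (n - m) φ C ξ G L := by
  induction m with
  | zero =>
    refine ⟨k, inferInstance, RingHom.id k, 0, C0, fun _ => 0, f, fun _ _ => 0, hf, ?_, ?_, ?_⟩
    · simp only [MvPolynomial.map_id]
    · intro j v hv
      rw [Finsupp.support_zero] at hv
      exact absurd hv (Finset.notMem_empty v)
    · intro i hi
      have := i.2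
      omega
  | succ m ih =>
    obtain ⟨K, _, φ, κ, C, ξ, G, L, h⟩ := ih (by omega)
    have hinf : Infinite K := Infinite.of_injective φ φ.injective
    have h1 : n - (m + 1) < n := by omega
    have h2 : n - m = ((⟨n - (m + 1), h1⟩ : Fin n) : ℕ) + 1 := by
      change n - m = n - (m + 1) + 1
      omega
    rw [h2] at h
    obtain ⟨K', _, φ', κ', C', ξ', G', L', h'⟩ := st_step hS hd hmono hfin _ h
    exact ⟨K', inferInstance, φ'.comp φ, κ', C', ξ', G', L', h'⟩

end Mn

/-- **The circuit of a complete intersection.** -/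
theorem exists_circ (hS : StageAll.{u}) {k : Type u} [Field k] [Infinite k] {n : ℕ} (_ : 0 < n)
    (C0 : Circ k n 0)
    (f : Fin n → MvPolynomial (Fin n) k) (d : Fin n → ℕ) (hd : ∀ i, 0 < d i) (hmono : Monotone d)
    (hf : ∀ i, (f i).IsHomogeneous (d i))
    (hfin : ∃ m, ∀ P : MvPolynomial (Fin n) k, P.IsHomogeneous m → P ∈ Ideal.span (Set.range f)) :
    ∃ (K : Type u) (_ : Field K) (φ : k →+* K) (κ : ℕ) (C : Circ K n κ) (ξ : Fin n → (Gen →₀ K))
      (G : Fin n → MvPolynomial (Fin n) K) (L : Fin n → Fin n → K),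
      (∀ i, C.S (ξ i)) ∧ (∀ i, (G i).IsHomogeneous (d i)) ∧
      (∀ i, G i ∈ Ideal.span (Set.range fun i => MvPolynomial.map φ (f i))) ∧
      Ideal.span (Set.range G) = Ideal.span (Set.range fun i => MvPolynomial.map φ (f i)) ∧
      ∀ i, lin K (ξ i) ^ d i - xr K n (G i) -
        ∑ j ∈ Finset.univ.filter (fun j => i < j), MvPolynomial.C (L i j) * lin K (ξ j) ^ d i ∈
          C.I := by
  obtain ⟨K, _, φ, κ, C, ξ, G, L, h⟩ := Mn.st_exists hS C0 hd hmono hf hfin n le_rfl
  refine ⟨K, inferInstance, φ, κ, C, ξ, G, L, h.s, h.hom, fun i => ?_, h.span, fun i => ?_⟩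
  · rw [← h.span]
    exact Ideal.subset_span ⟨i, rfl⟩
  · exact h.rel i (by omega)

end Vale.Agent.P200F.V.Rig

end
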