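import Vale.Agent.P200F.Ns
import Vale.Agent.P200F.D1

set_option linter.all false

section

namespace Vale.Agent.P200F.V

open Module MvPolynomial

universe u

section slice
variable {k : Type u} [Field k] {Z G : Type} [Fintype Z] [AddCommGroup G] {wt : Z → G × ℤ}

theorem dg_fst_slice (e : Z →₀ ℕ) : (dg wt e).1 = dg (fun z => (wt z).1) e := by
  classical
  unfold dg
  rw [Finsupp.sum, Finsupp.sum, Prod.fst_sum]
  exact Finset.sum_congr rfl fun z _ => rfl

theorem dg_snd_slice (e : Z →₀ ℕ) (h : ∀ z ∈ e.support, (wt z).2 = 0) : (dg wt e).2 = 0 := by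
  classical
  unfold dg
  rw [Finsupp.sum, Prod.snd_sum]
  refine Finset.sum_eq_zero fun z hz => ?_
  rw [Prod.smul_snd, h z hz, smul_zero]

/-- the part of a polynomial without the variables of nonzero `T`-degree -/
noncomputable def good (k : Type u) [Field k] (wt : Z → G × ℤ) (p : MvPolynomial Z k) :
    MvPolynomial Z k :=
  rename (Subtype.val : {z // (wt z).2 = 0} → Z)
    (killCompl (Subtype.val_injective : Function.Injective
      (Subtype.val : {z // (wt z).2 = 0} → Z)) p)

omit [Fintype Z] in
theorem coeff_good {p : MvPolynomial Z k} {e : Z →₀ ℕ} (h : coeff e (good k wt p) ≠ 0) :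
    coeff e p ≠ 0 ∧ ∀ z ∈ e.support, (wt z).2 = 0 := by
  classical
  unfold good at h
  obtain ⟨u, rfl, hu⟩ := coeff_rename_ne_zero _ _ e h
  refine ⟨?_, ?_⟩
  · rw [coeff_rename_mapDomain _ Subtype.val_injective] at h
    rwa [coeff_killCompl] at h
  · intro z hz
    have h1 := Finsupp.mapDomain_support hz
    obtain ⟨y, -, rfl⟩ := Finset.mem_image.1 h1
    exact y.2

omit [Fintype Z] in
theorem sub_good_mem (p : MvPolynomial Z k) :
    p - good k wt p ∈ Ideal.span (X '' {z | (wt z).2 ≠ 0} : Set (MvPolynomial Z k)) := by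
  have h := sub_killCompl_mem (k := k) (Subtype.val : {z // (wt z).2 = 0} → Z)
    Subtype.val_injective p
  have h2 : (Set.range (Subtype.val : {z // (wt z).2 = 0} → Z))ᶜ = {z | (wt z).2 ≠ 0} := by
    ext z
    rw [Subtype.range_coe_subtype]
    rfl
  rw [h2] at h
  exact h

end slice

/-- slices of graded modules on which the variables of nonzero `T`-degree act as zero -/
theorem Hil.slice {k : Type u} [Field k] {Z G : Type} [Fintype Z] [AddCommGroup G]
    {wt : Z → G × ℤ} (hwt : Pos wt) (hwt' : Pos fun z => (wt z).1)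
    {J0 : Set (MvPolynomial Z k)}
    (h0 : ∀ z, (wt z).2 ≠ 0 → (X z : MvPolynomial Z k) ∈ J0)
    {f : G × ℤ → ℤ} (hf : f ∈ Hil k wt J0) (t : ℤ) :
    (fun n => f (n, t)) ∈ Hil k (fun z => (wt z).1) J0 := by
  classical
  rw [Hil] at hf
  induction hf using AddSubgroup.closure_induction with
  | zero => exact zero_mem _
  | add f g _ _ h1 h2 => exact add_mem h1 h2
  | neg f _ h1 => exact neg_mem h1
  | mem f hf =>
    obtain ⟨s, sh, N, hN, hJ, hf⟩ := hf
    -- the generators of `T`-degree `t`
    let I := {i : Fin s // (sh i).2 = t}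
    let E : (I → MvPolynomial Z k) →ₗ[MvPolynomial Z k] (Fin s → MvPolynomial Z k) :=
      { toFun := fun g i => if h : (sh i).2 = t then g ⟨i, h⟩ else 0
        map_add' := by
          intro a b
          funext i
          rw [Pi.add_apply]
          by_cases h : (sh i).2 = t
          · simp only [dif_pos h, Pi.add_apply]
          · simp only [dif_neg h, add_zero]
        map_smul' := by
          intro c a
          funext i
          rw [Pi.smul_apply]
          by_cases h : (sh i).2 = t
          · simp only [dif_pos h, Pi.smul_apply, RingHom.id_apply]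
          · simp only [dif_neg h, smul_zero] }
    have hE1 : ∀ (g : I → MvPolynomial Z k) (i : I), E g i.1 = g i := fun g i => dif_pos i.2
    have hE0 : ∀ (g : I → MvPolynomial Z k) (i : Fin s), (sh i).2 ≠ t → E g i = 0 :=
      fun g i hi => dif_neg hi
    have hEi : Function.Injective E := by
      intro a b hab
      funext i
      rw [← hE1 a, ← hE1 b, hab]
    set N' : Submodule (MvPolynomial Z k) (I → MvPolynomial Z k) := N.comap E with hN'
    set sh' : I → G := fun i => (sh i.1).1 with hsh'
    have hbad : ∀ F : Fin s → MvPolynomial Z k, (F - fun i => good k wt (F i)) ∈ N := by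
      intro F
      have h4 : (F - fun i => good k wt (F i)) = ∑ j, Pi.single j (F j - good k wt (F j)) :=
        (Finset.univ_sum_single (F - fun i => good k wt (F i))).symm
      rw [h4]
      refine N.sum_mem fun j _ => ?_
      refine single_mem_of_ideal (I := X '' {z | (wt z).2 ≠ 0}) ?_ (sub_good_mem (F j)) j
      rintro _ ⟨z, hz, rfl⟩ j'
      exact hJ _ (h0 z hz) j'
    have hNh : HomS (fun z => (wt z).1) sh' N' := by
      intro g hg ν
      obtain ⟨S, hS1, hS2⟩ := exists_sum_cmp (wt := wt) (sh := sh) (E g)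
      have h1 : E (cmp (fun z => (wt z).1) sh' ν g) =
          ∑ μ ∈ S with μ.1 = ν, cmp wt sh μ (E g) := by
        funext i
        ext e
        rw [Finset.sum_apply, coeff_sum]
        simp only [coeff_cmp]
        by_cases hi : (sh i).2 = t
        · have h2 : E (cmp (fun z => (wt z).1) sh' ν g) i =
            cmp (fun z => (wt z).1) sh' ν g ⟨i, hi⟩ := hE1 _ ⟨i, hi⟩
          rw [h2, coeff_cmp]
          have h3 : E g i = g ⟨i, hi⟩ := hE1 _ ⟨i, hi⟩
          rw [h3]
          have h5 : (dg (fun z => (wt z).1) e + sh' ⟨i, hi⟩ = ν) ↔ (dg wt e + sh i).1 = ν := by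
            rw [Prod.fst_add, dg_fst_slice]
          by_cases h6 : (dg wt e + sh i).1 = ν
          · rw [if_pos (h5.2 h6)]
            by_cases h7 : dg wt e + sh i ∈ S
            · refine Eq.symm ((Finset.sum_eq_single (dg wt e + sh i) (fun b _ hb => ?_)
                (fun h => ?_)).trans ?_)
              · exact if_neg (Ne.symm hb)
              · exact absurd (Finset.mem_filter.2 ⟨h7, h6⟩) h
              · exact if_pos rfl
            · have h9 := congrArg (coeff e) (congrFun (hS2 _ h7) i)
              rw [coeff_cmp, if_pos rfl, Pi.zero_apply, coeff_zero, h3] at h9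
              rw [h9]
              refine (Finset.sum_eq_zero fun b _ => ?_).symm
              split_ifs <;> rfl
          · rw [if_neg (fun h => h6 (h5.1 h))]
            refine (Finset.sum_eq_zero fun b hb => ?_).symm
            refine if_neg fun h => h6 ?_
            rw [h]
            exact (Finset.mem_filter.1 hb).2
        · rw [hE0 _ i hi, hE0 _ i hi, coeff_zero]
          refine (Finset.sum_eq_zero fun μ _ => ?_).symm
          split_ifs <;> rfl
      change E _ ∈ N
      rw [h1]
      exact N.sum_mem fun μ _ => hN _ hg μ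
    have key : ∀ n, f (n, t) = (hd (fun z => (wt z).1) sh'
        (⊤ : Submodule (MvPolynomial Z k) (I → MvPolynomial Z k)) n : ℤ) -
        hd (fun z => (wt z).1) sh' N' n := by
      intro n
      rw [hf]
      set L : (I → MvPolynomial Z k) →ₗ[k] (Fin s → MvPolynomial Z k) := E.restrictScalars k
        with hL
      have hLi : Function.Injective L := hEi
      set V := gp k wt sh (n, t) with hV
      set V' := gp k (fun z => (wt z).1) sh' n with hV'
      set W := gpart wt sh N (n, t) with hW
      set W' := gpart (fun z => (wt z).1) sh' N' n with hW'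
      set U' : Submodule k (I → MvPolynomial Z k) := V' ⊓ V.comap L with hU'
      have top1 : gpart wt sh (⊤ : Submodule (MvPolynomial Z k) (Fin s → MvPolynomial Z k))
          (n, t) = V := by
        unfold gpart
        rw [Submodule.restrictScalars_top, top_inf_eq]
      have top2 : gpart (fun z => (wt z).1) sh'
          (⊤ : Submodule (MvPolynomial Z k) (I → MvPolynomial Z k)) n = V' := by
        unfold gpart
        rw [Submodule.restrictScalars_top, top_inf_eq]
      have fV : FiniteDimensional k V := finite_gp hwt (n, t)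
      have fV' : FiniteDimensional k V' := finite_gp hwt' n
      have hWV : W ≤ V := inf_le_right
      have hWV' : W' ≤ V' := inf_le_right
      have fW : FiniteDimensional k W := Submodule.finiteDimensional_of_le hWV
      have fW' : FiniteDimensional k W' := Submodule.finiteDimensional_of_le hWV'
      have fU : FiniteDimensional k U' := Submodule.finiteDimensional_of_le inf_le_left
      have e1 : U'.map L ⊔ W = V := by
        apply le_antisymm
        · rw [sup_le_iff]
          refine ⟨?_, hWV⟩
          rintro _ ⟨g, hg, rfl⟩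
          exact hg.2
        · intro F hF
          set g : I → MvPolynomial Z k := fun i => good k wt (F i.1) with hg
          have hEg : E g = fun i => good k wt (F i) := by
            funext i
            by_cases hi : (sh i).2 = t
            · exact hE1 g ⟨i, hi⟩
            · rw [hE0 g i hi]
              ext e
              rw [coeff_zero]
              by_contra hne
              obtain ⟨h2, h3⟩ := coeff_good (Ne.symm hne)
              have h4 := congrArg Prod.snd (hF i e h2)
              rw [Prod.snd_add, dg_snd_slice e h3, zero_add] at h4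
              exact hi h4
          have hgV : g ∈ V' := by
            intro i e he
            obtain ⟨h2, h3⟩ := coeff_good he
            have h4 := congrArg Prod.fst (hF i.1 e h2)
            rw [Prod.fst_add, dg_fst_slice] at h4
            exact h4
          have hgV2 : L g ∈ V := by
            change E g ∈ V
            rw [hEg]
            intro i e he
            exact hF i e (coeff_good he).1
          have h5 : F - L g ∈ W := by
            refine ⟨?_, V.sub_mem hF hgV2⟩
            change F - E g ∈ N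
            rw [hEg]
            exact hbad F
          have h6 : F = L g + (F - L g) := by abel
          rw [h6]
          exact Submodule.add_mem_sup ⟨g, ⟨hgV, hgV2⟩, rfl⟩ h5
      have e1' : U' ⊔ W' = V' := by
        apply le_antisymm
        · exact sup_le inf_le_left hWV'
        · intro g hg
          set u : I → MvPolynomial Z k := fun i => good k wt (g i) with hu
          have huV : u ∈ V' := by
            intro i e he
            exact hg i e (coeff_good he).1
          have huV2 : L u ∈ V := by
            intro i e he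
            change coeff e (E u i) ≠ 0 at he
            by_cases hi : (sh i).2 = t
            · have h2 : E u i = good k wt (g ⟨i, hi⟩) := hE1 u ⟨i, hi⟩
              rw [h2] at he
              obtain ⟨h3, h4⟩ := coeff_good he
              have h5 := hg ⟨i, hi⟩ e h3
              refine Prod.ext ?_ ?_
              · rw [Prod.fst_add, dg_fst_slice]
                exact h5
              · rw [Prod.snd_add, dg_snd_slice e h4, zero_add]
                exact hi
            · rw [hE0 u i hi, coeff_zero] at he
              exact absurd rfl he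
          have h5 : g - u ∈ W' := by
            refine ⟨?_, V'.sub_mem hg huV⟩
            change E (g - u) ∈ N
            have h6 : E (g - u) = E g - fun i => good k wt (E g i) := by
              funext i
              rw [map_sub, Pi.sub_apply, Pi.sub_apply]
              by_cases hi : (sh i).2 = t
              · have h2 : E u i = good k wt (g ⟨i, hi⟩) := hE1 u ⟨i, hi⟩
                have h3 : E g i = g ⟨i, hi⟩ := hE1 g ⟨i, hi⟩
                rw [h2, h3]
              · rw [hE0 u i hi, hE0 g i hi]
                unfold good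
                rw [map_zero, map_zero]
            rw [h6]
            exact hbad (E g)
          have h6 : g = u + (g - u) := by abel
          rw [h6]
          exact Submodule.add_mem_sup ⟨huV, huV2⟩ h5
      have e2 : U'.map L ⊓ W = (U' ⊓ W').map L := by
        ext v
        constructor
        · rintro ⟨⟨g, hg, rfl⟩, hgW⟩
          exact ⟨g, ⟨hg, hgW.1, hg.1⟩, rfl⟩
        · rintro ⟨g, ⟨hg1, hg2⟩, rfl⟩
          exact ⟨⟨g, hg1, rfl⟩, ⟨hg2.1, hg1.2⟩⟩
      have d1 : finrank k (U'.map L) = finrank k U' :=
        (Submodule.equivMapOfInjective L hLi U').finrank_eq.symm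
      have d2 : finrank k ((U' ⊓ W').map L) = finrank k (U' ⊓ W' : Submodule k _) :=
        (Submodule.equivMapOfInjective L hLi (U' ⊓ W')).finrank_eq.symm
      have d3 := Submodule.finrank_sup_add_finrank_inf_eq (U'.map L) W
      have d4 := Submodule.finrank_sup_add_finrank_inf_eq U' W'
      rw [e1, e2, d1, d2] at d3
      rw [e1'] at d4
      unfold hd
      rw [top1, top2]
      change (finrank k V : ℤ) - finrank k W = finrank k V' - finrank k W'
      have d5 : (finrank k V : ℤ) + finrank k (U' ⊓ W' : Submodule k _) =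
        finrank k U' + finrank k W := by exact_mod_cast d3
      have d6 : (finrank k V' : ℤ) + finrank k (U' ⊓ W' : Submodule k _) =
        finrank k U' + finrank k W' := by exact_mod_cast d4
      linarith
    have hfun : (fun n => f (n, t)) = fun n => (hd (fun z => (wt z).1) sh'
        (⊤ : Submodule (MvPolynomial Z k) (I → MvPolynomial Z k)) n : ℤ) -
        hd (fun z => (wt z).1) sh' N' n := funext key
    rw [hfun]
    refine hil_sub hwt' homS_top hNh le_top ?_
    intro p hp g _
    change E (p • g) ∈ N
    rw [map_smul]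
    refine d4_smul_mem (p := p) ?_ (E g)
    intro hD j
    have h0 := hJ p hp j
    have hE : hD = instDecidableEqFin s := Subsingleton.elim _ _
    subst hE
    exact h0

theorem lv_coeff {k : Type u} [Field k] {Z ι J : Type} [Fintype Z] [DecidableEq Z] [Fintype ι]
    [DecidableEq ι] [Fintype J] {blk : Z → ι} {C : Finset Z} {e : ℕ} (he : 0 < e)
    {G0 : Set (MvPolynomial Z k)} {J0 : Set (MvPolynomial (Z ⊕ J) k)}
    (hJ : ∀ j, X (Sum.inr j) ∈ J0) (hX : ∀ c ∈ C, X (Sum.inl c) ∈ J0)
    (hG : ∀ g ∈ G0, rename Sum.inl g ∈ J0)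
    {f : (ι → ℤ) × ℤ → ℤ} (hf : f ∈ Hil k (wT J blk C e) J0) (t : ℤ) :
    (fun n => f (n, t)) ∈ Hil k (wb blk) (G0 ∪ X '' (C : Set Z)) := by
  classical
  have hs : ∀ z, ∑ b, wb blk z b = 1 := by
    intro z
    unfold wb
    rw [Finset.sum_pi_single']
    simp
  let φ0 : (ι → ℤ) →+ ℤ :=
    { toFun := fun n => ∑ b, n b
      map_zero' := by simp
      map_add' := fun a b => by simp [Finset.sum_add_distrib] }
  have hφ0 : ∀ z, φ0 (wb blk z) = 1 := hs
  have hpos : Pos (wT J blk C e) := by
    refine ⟨φ0.comp (AddMonoidHom.fst _ _) + AddMonoidHom.snd _ _, ?_⟩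
    rintro (z | j)
    · change 0 < φ0 (wb blk z) + (if z ∈ C then (1 : ℤ) else 0)
      rw [hφ0]
      split_ifs <;> norm_num
    · change 0 < φ0 0 + (e : ℤ)
      rw [map_zero, zero_add]
      exact_mod_cast he
  have hf2 : f ∈ Hil k (fun z : Z => wT J blk C e (Sum.inl z)) (G0 ∪ X '' (C : Set Z)) := by
    refine Hil.drop hpos Sum.inl Sum.inl_injective ?_ ?_ hf
    · rintro (z | j) hz
      · exact absurd ⟨z, rfl⟩ hz
      · exact hJ j
    · rintro p (hp | ⟨c, hc, rfl⟩)
      · exact hG p hp
      · rw [rename_X]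
        exact hX c hc
  have hpos2 : Pos (fun z : Z => wT J blk C e (Sum.inl z)) := by
    obtain ⟨φ, hφ⟩ := hpos
    exact ⟨φ, fun z => hφ _⟩
  have hpos3 : Pos (fun z : Z => (wT J blk C e (Sum.inl z)).1) := by
    refine ⟨φ0, fun z => ?_⟩
    change 0 < φ0 (wb blk z)
    rw [hφ0]
    norm_num
  refine Hil.slice hpos2 hpos3 ?_ hf2 t
  intro z hz
  refine Or.inr ⟨z, ?_, rfl⟩
  by_contra hc
  refine hz ?_
  change (if z ∈ C then (1 : ℤ) else 0) = 0
  rw [if_neg (by simpa using hc)]

end Vale.Agent.P200F.V

end

section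

namespace Vale.Agent.P200F.V.SL

open Module MvPolynomial

universe u

section basic
variable {k : Type u} [Field k] {σ G S : Type} [AddCommGroup G] {wt : σ → G} {sh : S → G}

open scoped Classical in
theorem coeff_cmp (ν : G) (f : S → MvPolynomial σ k) (j : S) (m : σ →₀ ℕ) :
    coeff m (cmp wt sh ν f j) = if dg wt m + sh j = ν then coeff m (f j) else 0 := by
  unfold cmp
  rw [coeff_sum]
  simp only [coeff_monomial]
  rw [Finset.sum_ite_eq']
  by_cases h : dg wt m + sh j = ν
  · rw [if_pos h]
    by_cases h2 : coeff m (f j) = 0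
    · rw [h2, ite_self]
    · rw [if_pos]
      exact Finset.mem_filter.mpr ⟨mem_support_iff.mpr h2, h⟩
  · rw [if_neg h, if_neg]
    intro h2
    exact h (Finset.mem_filter.mp h2).2

theorem dg_add (m m' : σ →₀ ℕ) : dg wt (m + m') = dg wt m + dg wt m' := by
  classical
  unfold dg
  exact Finsupp.sum_add_index' (fun v => zero_smul ℕ (wt v)) (fun v a b => add_smul a b (wt v))

theorem dg_single (v : σ) : dg wt (Finsupp.single v 1) = wt v := by
  unfold dg
  rw [Finsupp.sum_single_index (zero_smul ℕ (wt v)), one_smul]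

/-- the component as a linear map -/
noncomputable def cmpL (wt : σ → G) (sh : S → G) (ν : G) :
    (S → MvPolynomial σ k) →ₗ[k] (S → MvPolynomial σ k) where
  toFun := cmp wt sh ν
  map_add' f g := by
    classical
    funext j
    refine MvPolynomial.ext _ _ fun m => ?_
    rw [Pi.add_apply, coeff_add, coeff_cmp, coeff_cmp, coeff_cmp, Pi.add_apply, coeff_add]
    split_ifs
    · rfl
    · rw [add_zero]
  map_smul' c f := by
    classical
    funext j
    refine MvPolynomial.ext _ _ fun m => ?_
    rw [RingHom.id_apply, Pi.smul_apply, coeff_smul, coeff_cmp, coeff_cmp, Pi.smul_apply,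
      coeff_smul]
    split_ifs
    · rfl
    · rw [smul_zero]

theorem cmp_of_mem {ν : G} {f : S → MvPolynomial σ k} (hf : f ∈ gp k wt sh ν) :
    cmp wt sh ν f = f := by
  classical
  funext j
  refine MvPolynomial.ext _ _ fun m => ?_
  rw [coeff_cmp]
  split_ifs with h
  · rfl
  · by_contra h2
    exact h (hf j m fun h3 => h2 h3.symm)

theorem cmp_of_mem_ne {ν ν' : G} (hne : ν' ≠ ν) {f : S → MvPolynomial σ k}
    (hf : f ∈ gp k wt sh ν) : cmp wt sh ν' f = 0 := by
  classical
  funext j
  refine MvPolynomial.ext _ _ fun m => ?_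
  rw [coeff_cmp, Pi.zero_apply, coeff_zero]
  split_ifs with h
  · by_contra h2
    exact hne (h.symm.trans (hf j m h2))
  · rfl

theorem cmp_gp (ν : G) (f : S → MvPolynomial σ k) : cmp wt sh ν f ∈ gp k wt sh ν := by
  classical
  intro j m hm
  rw [coeff_cmp] at hm
  by_contra h
  rw [if_neg h] at hm
  exact hm rfl

theorem X_smul_gp (v : σ) {ν : G} {f : S → MvPolynomial σ k} (hf : f ∈ gp k wt sh ν) :
    (X v : MvPolynomial σ k) • f ∈ gp k wt sh (ν + wt v) := by
  classical
  intro j m hm
  rw [Pi.smul_apply, smul_eq_mul, coeff_X_mul'] at hm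
  split_ifs at hm with h
  · have h1 := hf j _ hm
    have h2 : m = (m - Finsupp.single v 1) + Finsupp.single v 1 := by
      rw [tsub_add_cancel_of_le]
      exact Finsupp.single_le_iff.mpr (Nat.one_le_iff_ne_zero.mpr (Finsupp.mem_support_iff.mp h))
    rw [h2, dg_add, dg_single, ← h1]
    abel
  · exact absurd rfl hm

theorem cmp_X_smul (v : σ) (ν : G) (f : S → MvPolynomial σ k) :
    cmp wt sh ν ((X v : MvPolynomial σ k) • f) = (X v : MvPolynomial σ k) • cmp wt sh (ν - wt v) f := by
  classical
  funext j
  refine MvPolynomial.ext _ _ fun m => ?_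
  rw [coeff_cmp, Pi.smul_apply, Pi.smul_apply, smul_eq_mul, smul_eq_mul, coeff_X_mul',
    coeff_X_mul']
  by_cases h : v ∈ m.support
  · rw [if_pos h, if_pos h, coeff_cmp]
    have h2 : m = (m - Finsupp.single v 1) + Finsupp.single v 1 := by
      rw [tsub_add_cancel_of_le]
      exact Finsupp.single_le_iff.mpr (Nat.one_le_iff_ne_zero.mpr (Finsupp.mem_support_iff.mp h))
    have h3 : dg wt m = dg wt (m - Finsupp.single v 1) + wt v := by
      conv_lhs => rw [h2]
      rw [dg_add, dg_single]
    refine if_congr ?_ rfl rfl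
    rw [h3, eq_sub_iff_add_eq]
    constructor
    · intro h4
      rw [← h4]
      abel
    · intro h4
      rw [← h4]
      abel
  · rw [if_neg h, if_neg h, ite_self]

end basic

section lead
variable {k : Type u} [Field k] {σ G S : Type} [AddCommGroup G] {wt : σ → G × ℤ}
  {sh : S → G × ℤ}

/-- the vectors of first degree `n` and second degree at most `t` -/
def Flt (k : Type u) [Field k] (wt : σ → G × ℤ) (sh : S → G × ℤ) (n : G) (t : ℤ) :
    Submodule k (S → MvPolynomial σ k) where
  carrier := {f | ∀ j m, coeff m (f j) ≠ 0 →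
    (dg wt m + sh j).1 = n ∧ (dg wt m + sh j).2 ≤ t}
  add_mem' := by
    intro a b ha hb j m hm
    by_cases h : coeff m (a j) = 0
    · rw [Pi.add_apply, coeff_add, h, zero_add] at hm
      exact hb j m hm
    · exact ha j m h
  zero_mem' := by
    intro j m hm
    rw [Pi.zero_apply, coeff_zero] at hm
    exact absurd rfl hm
  smul_mem' := by
    intro c a ha j m hm
    rw [Pi.smul_apply, coeff_smul] at hm
    exact ha j m fun h => hm (by rw [h, smul_zero])

theorem gp_le_Flt (ν : G × ℤ) : gp k wt sh ν ≤ Flt k wt sh ν.1 ν.2 := by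
  intro f hf j m hm
  rw [hf j m hm]
  exact ⟨rfl, le_rfl⟩

theorem Flt_mono (n : G) {t t' : ℤ} (h : t ≤ t') : Flt k wt sh n t ≤ Flt k wt sh n t' := by
  intro f hf j m hm
  exact ⟨(hf j m hm).1, (hf j m hm).2.trans h⟩

/-- the leading forms of degree `ν` -/
def lead (wt : σ → G × ℤ) (sh : S → G × ℤ)
    (NA : Submodule (MvPolynomial σ k) (S → MvPolynomial σ k)) (ν : G × ℤ) :
    Submodule k (S → MvPolynomial σ k) where
  carrier := {f | f ∈ gp k wt sh ν ∧ ∃ r ∈ Flt k wt sh ν.1 (ν.2 - 1), f + r ∈ NA}
  add_mem' := by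
    rintro a b ⟨ha, r, hr, har⟩ ⟨hb, s, hs, hbs⟩
    refine ⟨Submodule.add_mem _ ha hb, r + s, Submodule.add_mem _ hr hs, ?_⟩
    have : a + b + (r + s) = (a + r) + (b + s) := by abel
    rw [this]
    exact NA.add_mem har hbs
  zero_mem' := ⟨Submodule.zero_mem _, 0, Submodule.zero_mem _, by
    rw [add_zero]
    exact NA.zero_mem⟩
  smul_mem' := by
    rintro c a ⟨ha, r, hr, har⟩
    refine ⟨Submodule.smul_mem _ c ha, c • r, Submodule.smul_mem _ c hr, ?_⟩
    rw [← smul_add]
    exact (NA.restrictScalars k).smul_mem c har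

theorem X_smul_lead {NA : Submodule (MvPolynomial σ k) (S → MvPolynomial σ k)} {ν : G × ℤ}
    (v : σ) {f : S → MvPolynomial σ k} (hf : f ∈ lead wt sh NA ν) :
    (X v : MvPolynomial σ k) • f ∈ lead wt sh NA (ν + wt v) := by
  classical
  obtain ⟨hf, r, hr, hfr⟩ := hf
  refine ⟨X_smul_gp v hf, (X v : MvPolynomial σ k) • r, ?_, ?_⟩
  · intro j m hm
    rw [Pi.smul_apply, smul_eq_mul, coeff_X_mul'] at hm
    split_ifs at hm with h
    · have h1 := hr j _ hm
      have h2 : m = (m - Finsupp.single v 1) + Finsupp.single v 1 := by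
        rw [tsub_add_cancel_of_le]
        exact Finsupp.single_le_iff.mpr (Nat.one_le_iff_ne_zero.mpr (Finsupp.mem_support_iff.mp h))
      rw [h2, dg_add, dg_single]
      constructor
      · have h3 := h1.1
        rw [Prod.fst_add] at h3
        rw [Prod.fst_add, Prod.fst_add, Prod.fst_add, ← h3]
        abel
      · have h3 := h1.2
        rw [Prod.snd_add] at h3
        rw [Prod.snd_add, Prod.snd_add, Prod.snd_add]
        linarith only [h3]
    · exact absurd rfl hm
  · rw [← smul_add]
    exact NA.smul_mem _ hfr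

/-- **The module of leading forms.** -/
def initM (wt : σ → G × ℤ) (sh : S → G × ℤ)
    (NA : Submodule (MvPolynomial σ k) (S → MvPolynomial σ k)) :
    Submodule (MvPolynomial σ k) (S → MvPolynomial σ k) where
  carrier := {f | ∀ ν, cmp wt sh ν f ∈ lead wt sh NA ν}
  add_mem' := by
    intro a b ha hb ν
    change cmpL wt sh ν (a + b) ∈ _
    rw [map_add]
    exact Submodule.add_mem _ (ha ν) (hb ν)
  zero_mem' := by
    intro ν
    change cmpL wt sh ν 0 ∈ _
    rw [map_zero]
    exact Submodule.zero_mem _
  smul_mem' := by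
    intro p f hf
    induction p using MvPolynomial.induction_on with
    | C c =>
      intro ν
      have h : (C c : MvPolynomial σ k) • f = c • f := by
        funext j
        rw [Pi.smul_apply, Pi.smul_apply, smul_eq_mul, C_mul']
      rw [h]
      change cmpL wt sh ν (c • f) ∈ _
      rw [map_smul]
      exact Submodule.smul_mem _ c (hf ν)
    | add p q hp hq =>
      intro ν
      rw [add_smul]
      change cmpL wt sh ν (p • f + q • f) ∈ _
      rw [map_add]
      exact Submodule.add_mem _ (hp ν) (hq ν)
    | mul_X p v hp =>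
      intro ν
      have h : (p * X v) • f = (X v : MvPolynomial σ k) • p • f := by
        rw [smul_smul, mul_comm]
      rw [h, cmp_X_smul]
      have h2 := X_smul_lead v (hp (ν - wt v))
      rw [sub_add_cancel] at h2
      exact h2

variable {NA : Submodule (MvPolynomial σ k) (S → MvPolynomial σ k)}

theorem homS_initM : HomS wt sh (initM wt sh NA) := by
  intro f hf ν ν'
  by_cases h : ν' = ν
  · rw [h, cmp_of_mem (cmp_gp ν f)]
    exact hf ν
  · rw [cmp_of_mem_ne h (cmp_gp ν f)]
    exact Submodule.zero_mem _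

theorem mem_initM_of_lead {ν : G × ℤ} {f : S → MvPolynomial σ k} (hf : f ∈ lead wt sh NA ν) :
    f ∈ initM wt sh NA := by
  intro ν'
  by_cases h : ν' = ν
  · rw [h, cmp_of_mem hf.1]
    exact hf
  · rw [cmp_of_mem_ne h hf.1]
    exact Submodule.zero_mem _

theorem gpart_initM (ν : G × ℤ) : gpart wt sh (initM wt sh NA) ν = lead wt sh NA ν := by
  refine le_antisymm ?_ ?_
  · rintro f ⟨hf, hg⟩
    have := hf ν
    rw [cmp_of_mem hg] at this
    exact this
  · intro f hf
    exact ⟨mem_initM_of_lead hf, hf.1⟩

/-- homogeneous elements of `NA` are leading forms -/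
theorem mem_initM_of_hom {ν : G × ℤ} {f : S → MvPolynomial σ k} (hf : f ∈ gp k wt sh ν)
    (hN : f ∈ NA) : f ∈ initM wt sh NA :=
  mem_initM_of_lead ⟨hf, 0, Submodule.zero_mem _, by rwa [add_zero]⟩

end lead

end Vale.Agent.P200F.V.SL

end

section

namespace Vale.Agent.P200F.V.SL

open PowerSeries

/-- if `(1 - X)^(k+1) * g = r` and `r(1) < 0` then the coefficients of `g` are eventually negative -/
theorem coeff_neg_of_eval (k : ℕ) : ∀ (r : Polynomial ℤ) (g : PowerSeries ℤ),
    (1 - X) ^ (k + 1) * g = (r : PowerSeries ℤ) → r.eval 1 < 0 →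
    ∃ n0 : ℕ, ∀ n, n0 ≤ n → coeff n g ≤ -1 := by
  induction k with
  | zero =>
    intro r g h hr
    rw [zero_add, pow_one] at h
    have hc : ∀ n, coeff n g = ∑ s ∈ Finset.range (n + 1), r.coeff s := by
      intro n
      induction n with
      | zero =>
        have h0 := congrArg (coeff 0) h
        rw [sub_mul, one_mul, map_sub, coeff_zero_X_mul, sub_zero, Polynomial.coeff_coe] at h0
        rw [h0, zero_add, Finset.range_one, Finset.sum_singleton]
      | succ n ih =>
        have h0 := congrArg (coeff (n + 1)) h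
        rw [sub_mul, one_mul, map_sub, coeff_succ_X_mul, Polynomial.coeff_coe] at h0
        rw [Finset.sum_range_succ, ← ih, ← h0]
        ring
    refine ⟨r.natDegree, fun n hn => ?_⟩
    rw [hc n]
    rw [Polynomial.eval_eq_sum_range' (Nat.lt_succ_of_le hn)] at hr
    simp only [one_pow, mul_one] at hr
    have : (∑ s ∈ Finset.range (n + 1), r.coeff s) < 0 := hr
    omega
  | succ k ih =>
    intro r g h hr
    have h' : (1 - X) ^ (k + 1) * ((1 - X) * g) = (r : PowerSeries ℤ) := by
      rw [← h]
      ring
    obtain ⟨n0, hn0⟩ := ih r ((1 - X) * g) h' hr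
    have hstep : ∀ n, n0 ≤ n → coeff (n + 1) g ≤ coeff n g - 1 := by
      intro n hn
      have h1 := hn0 (n + 1) (by omega)
      rw [sub_mul, one_mul, map_sub, coeff_succ_X_mul] at h1
      omega
    have hj : ∀ j : ℕ, coeff (n0 + j) g ≤ coeff n0 g - j := by
      intro j
      induction j with
      | zero => simp
      | succ j ihj =>
        have := hstep (n0 + j) (by omega)
        rw [← add_assoc]
        push_cast
        omega
    refine ⟨n0 + (coeff n0 g).natAbs + 1, fun n hn => ?_⟩
    obtain ⟨j, rfl⟩ := Nat.exists_eq_add_of_le (show n0 ≤ n by omega)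
    have := hj j
    omega

/-- positivity at `1` -/
theorem eval_one_nonneg (k : ℕ) (r : Polynomial ℤ) (g : PowerSeries ℤ)
    (h : (1 - X) ^ (k + 1) * g = (r : PowerSeries ℤ)) (hg : ∀ n, 0 ≤ coeff n g) :
    0 ≤ r.eval 1 := by
  by_contra hr
  obtain ⟨n0, hn0⟩ := coeff_neg_of_eval k r g h (not_le.mp hr)
  have h1 := hn0 n0 le_rfl
  have h2 := hg n0
  omega

theorem coeff_mul_nonneg {f g : PowerSeries ℤ} (hf : ∀ n, 0 ≤ coeff n f)
    (hg : ∀ n, 0 ≤ coeff n g) (n : ℕ) : 0 ≤ coeff n (f * g) := by
  rw [coeff_mul]
  exact Finset.sum_nonneg fun p _ => mul_nonneg (hf _) (hg _)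

theorem coeff_pow_nonneg {f : PowerSeries ℤ} (hf : ∀ n, 0 ≤ coeff n f) (m : ℕ) :
    ∀ n, 0 ≤ coeff n (f ^ m) := by
  induction m with
  | zero =>
    intro n
    rw [pow_zero, coeff_one]
    split_ifs <;> norm_num
  | succ m ih =>
    rw [pow_succ]
    exact coeff_mul_nonneg ih hf

/-- positivity at `1`, with the factor `(1 - X) * (1 - X^e)^m` -/
theorem eval_one_nonneg' {e : ℕ} (m : ℕ) (r : Polynomial ℤ) (g : PowerSeries ℤ)
    (h : (1 - X ^ e) ^ m * ((1 - X) * g) = (r : PowerSeries ℤ)) (hg : ∀ n, 0 ≤ coeff n g) :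
    0 ≤ r.eval 1 := by
  have hΦ : (1 - X ^ e : PowerSeries ℤ) = (1 - X) * ∑ i ∈ Finset.range e, X ^ i := by
    rw [mul_comm]
    exact (geom_sum_mul_neg (X : PowerSeries ℤ) e).symm
  refine eval_one_nonneg m r ((∑ i ∈ Finset.range e, X ^ i) ^ m * g) ?_ ?_
  · rw [← h, hΦ, mul_pow]
    ring
  · refine coeff_mul_nonneg (coeff_pow_nonneg ?_ m) hg
    intro n
    rw [map_sum]
    refine Finset.sum_nonneg fun i _ => ?_
    rw [coeff_X_pow]
    split_ifs <;> norm_num

/-- the number of monomials of weighted degree at most `t` -/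
noncomputable def cnt (J : Type*) [Fintype J] (e t : ℕ) : ℕ :=
  Nat.card {f : J → ℕ // e * ∑ j, f j ≤ t}

theorem finite_cnt (J : Type*) [Fintype J] {e : ℕ} (he : 0 < e) (t : ℕ) :
    Finite {f : J → ℕ // e * ∑ j, f j ≤ t} := by
  have h : {f : J → ℕ | e * ∑ j, f j ≤ t} ⊆ {f | ∀ j, f j ∈ Set.Iic t} := by
    intro f hf j
    have h1 : f j ≤ ∑ j, f j := Finset.single_le_sum (fun _ _ => Nat.zero_le _) (Finset.mem_univ j)
    have h2 : ∑ j, f j ≤ e * ∑ j, f j := Nat.le_mul_of_pos_left _ he
    exact h1.trans (h2.trans hf)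
  exact ((Set.Finite.pi' fun _ => Set.finite_Iic t).subset h).to_subtype

theorem cnt_congr {J J' : Type*} [Fintype J] [Fintype J'] (σ : J ≃ J') (e t : ℕ) :
    cnt J e t = cnt J' e t := by
  refine Nat.card_congr ((Equiv.arrowCongr σ (Equiv.refl ℕ)).subtypeEquiv fun f => ?_)
  have h : ∑ j', (Equiv.arrowCongr σ (Equiv.refl ℕ) f) j' = ∑ j, f j := by
    rw [← σ.sum_comp]
    refine Finset.sum_congr rfl fun j _ => ?_
    rw [Equiv.arrowCongr_apply, Function.comp_apply, Function.comp_apply, Equiv.symm_apply_apply]
    rfl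
  rw [h]

theorem cnt_empty (e t : ℕ) : cnt PEmpty e t = 1 := by
  rw [cnt, Nat.card_eq_one_iff_unique]
  refine ⟨⟨fun a b => Subtype.ext (Subsingleton.elim _ _)⟩, ⟨⟨fun j => j.elim, ?_⟩⟩⟩
  simp

theorem cnt_option {J : Type*} [Fintype J] {e : ℕ} (he : 0 < e) (t : ℕ) :
    cnt (Option J) e t = cnt J e t + if e ≤ t then cnt (Option J) e (t - e) else 0 := by
  classical
  have := finite_cnt (Option J) he t
  have := finite_cnt J he t
  have hsp : cnt (Option J) e t = Nat.card {f : {f : Option J → ℕ // e * ∑ j, f j ≤ t} // f.1 none = 0}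
      + Nat.card {f : {f : Option J → ℕ // e * ∑ j, f j ≤ t} // ¬ f.1 none = 0} := by
    rw [cnt, ← Nat.card_sum]
    exact Nat.card_congr (Equiv.sumCompl _).symm
  rw [hsp]
  congr 1
  · refine Nat.card_congr ⟨fun f => ⟨fun j => f.1.1 (some j), ?_⟩,
      fun f => ⟨⟨fun o => o.elim 0 f.1, ?_⟩, rfl⟩, ?_, ?_⟩
    · have h := f.1.2
      rw [Fintype.sum_option, f.2, zero_add] at h
      exact h
    · rw [Fintype.sum_option]
      change e * (0 + ∑ j, f.1 j) ≤ t
      rw [zero_add]
      exact f.2
    · rintro ⟨⟨f, hf⟩, hf0⟩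
      refine Subtype.ext (Subtype.ext (funext fun o => ?_))
      cases o with
      | none => exact hf0.symm
      | some j => rfl
    · rintro ⟨f, hf⟩
      rfl
  · split_ifs with het
    · refine Nat.card_congr ⟨fun f => ⟨fun o => o.elim (f.1.1 none - 1) fun j => f.1.1 (some j), ?_⟩,
        fun f => ⟨⟨fun o => o.elim (f.1 none + 1) fun j => f.1 (some j), ?_⟩, ?_⟩, ?_, ?_⟩
      · have h := f.1.2
        have h0 : f.1.1 none ≠ 0 := f.2
        rw [Fintype.sum_option] at h ⊢
        change e * ((f.1.1 none - 1) + ∑ j, f.1.1 (some j)) ≤ t - e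
        obtain ⟨a, ha⟩ := Nat.exists_eq_succ_of_ne_zero h0
        rw [ha] at h ⊢
        rw [Nat.succ_sub_one]
        rw [Nat.succ_eq_add_one] at h
        have h3 : e * (a + 1 + ∑ j, f.1.1 (some j)) = e * (a + ∑ j, f.1.1 (some j)) + e := by ring
        rw [h3] at h
        omega
      · have h := f.2
        rw [Fintype.sum_option] at h ⊢
        change e * ((f.1 none + 1) + ∑ j, f.1 (some j)) ≤ t
        have h3 : e * (f.1 none + 1 + ∑ j, f.1 (some j)) = e * (f.1 none + ∑ j, f.1 (some j)) + e := by
          ring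
        rw [h3]
        omega
      · exact Nat.succ_ne_zero _
      · rintro ⟨⟨f, hf⟩, hf0⟩
        refine Subtype.ext (Subtype.ext (funext fun o => ?_))
        cases o with
        | none => exact Nat.succ_pred_eq_of_ne_zero hf0
        | some j => rfl
      · rintro ⟨f, hf⟩
        refine Subtype.ext (funext fun o => ?_)
        cases o with
        | none => rfl
        | some j => rfl
    · rw [Nat.card_eq_zero]
      left
      refine ⟨fun f => ?_⟩
      have h := f.1.2
      have h0 : f.1.1 none ≠ 0 := f.2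
      have h1 : f.1.1 none ≤ ∑ j, f.1.1 j :=
        Finset.single_le_sum (fun _ _ => Nat.zero_le _) (Finset.mem_univ none)
      have h2 : 1 ≤ ∑ j, f.1.1 j := by omega
      have h3 : e * 1 ≤ e * ∑ j, f.1.1 j := Nat.mul_le_mul_left e h2
      omega

/-- the generating function of `cnt` -/
theorem cnt_series {e : ℕ} (he : 0 < e) (J : Type*) [Fintype J] :
    (1 - X ^ e) ^ Fintype.card J * ((1 - X) * PowerSeries.mk fun t => (cnt J e t : ℤ)) = 1 := by
  refine Fintype.induction_empty_option (P := fun J _ =>
    (1 - X ^ e) ^ Fintype.card J * ((1 - X) * PowerSeries.mk fun t => (cnt J e t : ℤ)) = 1)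
    ?_ ?_ ?_ J
  · intro α β _ σ h
    have h2 : (PowerSeries.mk fun t => (cnt β e t : ℤ)) =
        PowerSeries.mk fun t => (@cnt α (Fintype.ofEquiv β σ.symm) e t : ℤ) := by
      refine PowerSeries.ext fun n => ?_
      rw [coeff_mk, coeff_mk]
      congr 1
      exact (@cnt_congr α β (Fintype.ofEquiv β σ.symm) _ σ e n).symm
    rw [h2, ← @Fintype.card_congr α β (Fintype.ofEquiv β σ.symm) _ σ]
    exact h
  · rw [Fintype.card_eq_zero, pow_zero, one_mul]
    refine PowerSeries.ext fun n => ?_
    cases n with
    | zero => simp [sub_mul, cnt_empty]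
    | succ n => simp [sub_mul, cnt_empty, coeff_succ_X_mul, coeff_one]
  · intro α _ h
    have h1 : (1 - X ^ e) * PowerSeries.mk (fun t => (cnt (Option α) e t : ℤ))
        = PowerSeries.mk fun t => (cnt α e t : ℤ) := by
      refine PowerSeries.ext fun n => ?_
      rw [sub_mul, one_mul, map_sub, coeff_mk, coeff_mk, coeff_X_pow_mul', cnt_option he n]
      split_ifs with hn
      · rw [coeff_mk]
        push_cast
        ring
      · push_cast
        ring
    rw [Fintype.card_option, pow_succ]
    calc (1 - X ^ e) ^ Fintype.card α * (1 - X ^ e) *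
          ((1 - X) * PowerSeries.mk fun t => (cnt (Option α) e t : ℤ))
        = (1 - X ^ e) ^ Fintype.card α * ((1 - X) * ((1 - X ^ e) *
          PowerSeries.mk fun t => (cnt (Option α) e t : ℤ))) := by ring
      _ = 1 := by rw [h1, h]

end Vale.Agent.P200F.V.SL

end

section

namespace Vale.Agent.P200F.V.SL

open PowerSeries Module

/-- the vectors of weighted degree at most `t` -/
def Fil (k : Type*) [Field k] (J : Type*) {κ : Type*} (e : ℕ) (w : κ → ℕ) (t : ℕ) :
    Submodule k (κ → MvPolynomial J k) where
  carrier := {v | ∀ i, v i ∈ MvPolynomial.restrictSupport k {m : J →₀ ℕ | e * m.degree + w i ≤ t}}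
  add_mem' ha hb i := Submodule.add_mem _ (ha i) (hb i)
  zero_mem' _ := Submodule.zero_mem _
  smul_mem' c _ ha i := Submodule.smul_mem _ c (ha i)

theorem mem_Fil {k : Type*} [Field k] {J : Type*} {κ : Type*} {e : ℕ} {w : κ → ℕ} {t : ℕ}
    {v : κ → MvPolynomial J k} :
    v ∈ Fil k J e w t ↔ ∀ i, ∀ m ∈ (v i).support, e * m.degree + w i ≤ t := by
  refine forall_congr' fun i => ?_
  rw [MvPolynomial.mem_restrictSupport_iff]
  rfl

section fil
variable {k : Type*} [Field k] {J : Type*} [Fintype J] {κ : Type*}

theorem finite_set {e : ℕ} (he : 0 < e) (w t : ℕ) :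
    Finite {m : J →₀ ℕ | e * m.degree + w ≤ t} := by
  have := finite_cnt J he t
  have h : Function.Injective fun m : {m : J →₀ ℕ | e * m.degree + w ≤ t} =>
      (⟨m.1, by
        have := m.2
        rw [Set.mem_ofPred_eq, Finsupp.degree_eq_sum] at this
        omega⟩ : {f : J → ℕ // e * ∑ j, f j ≤ t}) := by
    intro a b hab
    refine Subtype.ext (DFunLike.coe_injective ?_)
    exact congrArg Subtype.val hab
  exact Finite.of_injective _ h

theorem ncard_set {e : ℕ} (w t : ℕ) :
    Nat.card {m : J →₀ ℕ | e * m.degree + w ≤ t} = if w ≤ t then cnt J e (t - w) else 0 := by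
  split_ifs with h
  · rw [cnt]
    refine Nat.card_congr (Finsupp.equivFunOnFinite.subtypeEquiv fun m => ?_)
    rw [Set.mem_ofPred_eq, Finsupp.degree_eq_sum]
    change _ ↔ e * ∑ j, m j ≤ t - w
    omega
  · rw [Nat.card_eq_zero]
    left
    refine ⟨fun m => ?_⟩
    have := m.2
    rw [Set.mem_ofPred_eq] at this
    omega

/-- the vectors of bounded degree are a product -/
def filEquiv (k : Type*) [Field k] (J : Type*) {κ : Type*} (e : ℕ) (w : κ → ℕ) (t : ℕ) :
    Fil k J e w t ≃ₗ[k]
      ((i : κ) → MvPolynomial.restrictSupport k {m : J →₀ ℕ | e * m.degree + w i ≤ t}) where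
  toFun v i := ⟨v.1 i, v.2 i⟩
  invFun v := ⟨fun i => (v i).1, fun i => (v i).2⟩
  map_add' _ _ := rfl
  map_smul' _ _ := rfl
  left_inv _ := rfl
  right_inv _ := rfl

theorem finite_restrict {e : ℕ} (he : 0 < e) (w t : ℕ) : Module.Finite k
    (MvPolynomial.restrictSupport k {m : J →₀ ℕ | e * m.degree + w ≤ t}) := by
  have := finite_set (J := J) he w t
  exact Module.Finite.of_basis (MvPolynomial.basisRestrictSupport k _)

theorem finite_Fil [Finite κ] {e : ℕ} (he : 0 < e) (w : κ → ℕ) (t : ℕ) :
    Module.Finite k (Fil k J e w t) := by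
  have := fun i => finite_restrict (k := k) (J := J) he (w i) t
  exact Module.Finite.equiv (filEquiv k J e w t).symm

theorem finrank_restrict {e : ℕ} (he : 0 < e) (w t : ℕ) : finrank k
    (MvPolynomial.restrictSupport k {m : J →₀ ℕ | e * m.degree + w ≤ t}) =
      if w ≤ t then cnt J e (t - w) else 0 := by
  have := finite_set (J := J) he w t
  rw [finrank_eq_nat_card_basis (MvPolynomial.basisRestrictSupport k _), ncard_set]

theorem finrank_Fil [Fintype κ] {e : ℕ} (he : 0 < e) (w : κ → ℕ) (t : ℕ) :
    finrank k (Fil k J e w t) = ∑ i, if w i ≤ t then cnt J e (t - w i) else 0 := by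
  have := fun i => finite_restrict (k := k) (J := J) he (w i) t
  rw [(filEquiv k J e w t).finrank_eq, finrank_pi_fintype]
  exact Finset.sum_congr rfl fun i _ => finrank_restrict he (w i) t

end fil

section sat
variable {A : Type*} [CommRing A] {K2 : Type*} [Field K2] [Algebra A K2] {κ : Type*}

/-- extension of scalars of vectors -/
def incl (A : Type*) [CommRing A] (K2 : Type*) [Field K2] [Algebra A K2] (κ : Type*) :
    (κ → A) →ₗ[A] (κ → K2) where
  toFun v i := algebraMap A K2 (v i)
  map_add' _ _ := funext fun _ => map_add _ _ _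
  map_smul' a v := funext fun i => by
    rw [RingHom.id_apply, Pi.smul_apply, Pi.smul_apply, smul_eq_mul, map_mul, Algebra.smul_def]

theorem incl_injective [IsFractionRing A K2] : Function.Injective (incl A K2 κ) := by
  intro v v' h
  funext i
  exact IsFractionRing.injective A K2 (congrFun h i)

/-- the extension of a submodule -/
def ext2 (K2 : Type*) [Field K2] [Algebra A K2] {κ : Type*} (N : Submodule A (κ → A)) :
    Submodule K2 (κ → K2) :=
  Submodule.span K2 (incl A K2 κ '' N)

theorem exists_denom [IsDomain A] [IsFractionRing A K2] {N : Submodule A (κ → A)} {x : κ → K2} (hx : x ∈ ext2 K2 N) :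
    ∃ a : A, a ≠ 0 ∧ ∃ n ∈ N, a • x = incl A K2 κ n := by
  induction hx using Submodule.span_induction with
  | mem x hx =>
    obtain ⟨n, hn, rfl⟩ := hx
    exact ⟨1, one_ne_zero, n, hn, one_smul _ _⟩
  | zero => exact ⟨1, one_ne_zero, 0, N.zero_mem, by rw [smul_zero, map_zero]⟩
  | add x y _ _ hx hy =>
    obtain ⟨a, ha, n, hn, h⟩ := hx
    obtain ⟨b, hb, m, hm, h'⟩ := hy
    refine ⟨a * b, mul_ne_zero ha hb, b • n + a • m,
      N.add_mem (N.smul_mem b hn) (N.smul_mem a hm), ?_⟩
    rw [smul_add, map_add, map_smul, map_smul, ← h, ← h', smul_smul, smul_smul, mul_comm b a]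
  | smul c x _ hx =>
    obtain ⟨a, ha, n, hn, h⟩ := hx
    obtain ⟨p, q, hq, rfl⟩ := IsFractionRing.div_surjective (A := A) c
    refine ⟨q * a, mul_ne_zero (nonZeroDivisors.ne_zero hq) ha, p • n, N.smul_mem p hn, ?_⟩
    rw [map_smul, ← h]
    funext i
    have hq0 : algebraMap A K2 q ≠ 0 := by
      rw [Ne, FaithfulSMul.algebraMap_eq_zero_iff]
      exact nonZeroDivisors.ne_zero hq
    change (q * a) • ((algebraMap A K2 p / algebraMap A K2 q) * x i) = p • a • x i
    rw [Algebra.smul_def, Algebra.smul_def, Algebra.smul_def, map_mul]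
    field_simp

theorem mem_of_incl_mem [IsDomain A] [IsFractionRing A K2] {N : Submodule A (κ → A)}
    (hN : ∀ (a : A) (v : κ → A), a ≠ 0 → a • v ∈ N → v ∈ N) {v : κ → A}
    (hv : incl A K2 κ v ∈ ext2 K2 N) : v ∈ N := by
  obtain ⟨a, ha, n, hn, h⟩ := exists_denom hv
  rw [← map_smul] at h
  refine hN a v ha ?_
  rw [incl_injective h]
  exact hn

theorem incl_mem {N : Submodule A (κ → A)} {v : κ → A} (hv : v ∈ N) :
    incl A K2 κ v ∈ ext2 K2 N :=
  Submodule.subset_span ⟨v, hv, rfl⟩

/-- a basis of the quotient made of standard vectors, with a common denominator -/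
theorem exists_frame [IsDomain A] [IsFractionRing A K2] [Fintype κ] [DecidableEq κ] {N : Submodule A (κ → A)}
    (hN : ∀ (a : A) (v : κ → A), a ≠ 0 → a • v ∈ N → v ∈ N) :
    ∃ (S : Type) (_ : Fintype S) (a : S → κ) (b : κ → S → A),
      Fintype.card S = finrank K2 ((κ → K2) ⧸ ext2 K2 N) ∧
      Function.Injective a ∧
      (∀ f : S → A, (∑ s, f s • Pi.single (a s) (1 : A)) ∈ N → f = 0) ∧
      ∀ v : κ → A, v ∈ N ↔ ∀ s, ∑ i, v i * b i s = 0 := by
  set v : κ → (κ → K2) ⧸ ext2 K2 N := fun i => (ext2 K2 N).mkQ (Pi.single i 1) with hv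
  obtain ⟨S0, a0, ha0, hsp, hli⟩ := exists_linearIndependent' K2 v
  have : Finite S0 := Finite.of_injective a0 ha0
  obtain ⟨n, ⟨σ⟩⟩ := Finite.exists_equiv_fin S0
  have htop : Submodule.span K2 (Set.range v) = ⊤ := by
    rw [eq_top_iff]
    rintro x -
    obtain ⟨y, rfl⟩ := (ext2 K2 N).mkQ_surjective x
    have : y = ∑ i, y i • (Pi.single i (1 : K2) : κ → K2) := by
      funext j
      rw [Finset.sum_apply]
      simp [Pi.single_apply]
    rw [this, map_sum]
    refine Submodule.sum_mem _ fun i _ => ?_
    rw [map_smul]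
    exact Submodule.smul_mem _ _ (Submodule.subset_span ⟨i, rfl⟩)
  set a : Fin n → κ := a0 ∘ σ.symm with hadef
  have ha : Function.Injective a := ha0.comp σ.symm.injective
  have hli' : LinearIndependent K2 (v ∘ a) := by
    have := hli.comp σ.symm σ.symm.injective
    exact this
  have hsp' : Submodule.span K2 (Set.range (v ∘ a)) = ⊤ := by
    rw [← htop, ← hsp, hadef, ← Function.comp_assoc, σ.symm.surjective.range_comp]
  have hcard : Fintype.card (Fin n) = finrank K2 ((κ → K2) ⧸ ext2 K2 N) := by
    rw [finrank_eq_card_basis (Basis.mk hli' (by rw [hsp']))]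
  have hc : ∀ i, ∃ c : Fin n → K2, v i = ∑ s, c s • v (a s) := by
    intro i
    have : v i ∈ Submodule.span K2 (Set.range (v ∘ a)) := by
      rw [hsp']
      exact Submodule.mem_top
    obtain ⟨c, hc⟩ := (Submodule.mem_span_range_iff_exists_fun K2).mp this
    exact ⟨c, hc.symm⟩
  choose c hc using hc
  obtain ⟨d, hd⟩ := IsLocalization.exist_integer_multiples_of_finite (nonZeroDivisors A)
    (fun p : κ × Fin n => c p.1 p.2)
  choose b hb using hd
  have hd0 : algebraMap A K2 d ≠ 0 := by
    rw [Ne, FaithfulSMul.algebraMap_eq_zero_iff]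
    exact nonZeroDivisors.ne_zero d.2
  have hmk : ∀ u : κ → A, (ext2 K2 N).mkQ (incl A K2 κ u) = ∑ i, algebraMap A K2 (u i) • v i := by
    intro u
    have : incl A K2 κ u = ∑ i, algebraMap A K2 (u i) • (Pi.single i (1 : K2) : κ → K2) := by
      funext j
      rw [Finset.sum_apply]
      simp [Pi.single_apply, incl]
    rw [this, map_sum]
    rfl
  have hmem : ∀ u : κ → A, u ∈ N ↔ (ext2 K2 N).mkQ (incl A K2 κ u) = 0 := by
    intro u
    rw [Submodule.mkQ_apply, Submodule.Quotient.mk_eq_zero]
    exact ⟨fun h => incl_mem h, fun h => mem_of_incl_mem hN h⟩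
  refine ⟨Fin n, inferInstance, a, fun i s => b (i, s), hcard, ha, ?_, ?_⟩
  · intro f hf
    rw [hmem, hmk] at hf
    have h1 : ∑ i, algebraMap A K2 ((∑ s, f s • Pi.single (a s) (1 : A) : κ → A) i) • v i
        = ∑ s, algebraMap A K2 (f s) • (v ∘ a) s := by
      have h2 : ∀ i, algebraMap A K2 ((∑ s, f s • Pi.single (a s) (1 : A) : κ → A) i) • v i
          = ∑ s, if i = a s then algebraMap A K2 (f s) • v (a s) else 0 := by
        intro i
        rw [Finset.sum_apply, map_sum, Finset.sum_smul]
        refine Finset.sum_congr rfl fun s _ => ?_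
        rw [Pi.smul_apply, smul_eq_mul, Pi.single_apply]
        split_ifs with h
        · rw [mul_one, h]
        · rw [mul_zero, map_zero, zero_smul]
      rw [Finset.sum_congr rfl fun i _ => h2 i, Finset.sum_comm]
      refine Finset.sum_congr rfl fun s _ => ?_
      rw [Finset.sum_ite_eq' Finset.univ (a s), if_pos (Finset.mem_univ _)]
      rfl
    rw [h1] at hf
    funext s
    have := Fintype.linearIndependent_iff.mp hli' _ hf s
    rw [FaithfulSMul.algebraMap_eq_zero_iff] at this
    exact this
  · intro u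
    rw [hmem, hmk]
    have h1 : algebraMap A K2 d • ∑ i, algebraMap A K2 (u i) • v i
        = ∑ s, algebraMap A K2 (∑ i, u i * b (i, s)) • (v ∘ a) s := by
      rw [Finset.smul_sum]
      have h2 : ∀ i, algebraMap A K2 d • algebraMap A K2 (u i) • v i
          = ∑ s, algebraMap A K2 (u i * b (i, s)) • v (a s) := by
        intro i
        rw [hc i, Finset.smul_sum, Finset.smul_sum]
        refine Finset.sum_congr rfl fun s _ => ?_
        rw [map_mul, hb (i, s), smul_smul, smul_smul]
        congr 1
        change algebraMap A K2 d * algebraMap A K2 (u i) * c i s =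
          algebraMap A K2 (u i) * ((d : A) • c i s)
        rw [Algebra.smul_def]
        ring
      rw [Finset.sum_congr rfl fun i _ => h2 i, Finset.sum_comm]
      refine Finset.sum_congr rfl fun s _ => ?_
      rw [map_sum, Finset.sum_smul]
      rfl
    constructor
    · intro h s
      rw [h, smul_zero] at h1
      have := Fintype.linearIndependent_iff.mp hli' _ h1.symm s
      rw [FaithfulSMul.algebraMap_eq_zero_iff] at this
      exact this
    · intro h
      have h3 : algebraMap A K2 d • ∑ i, algebraMap A K2 (u i) • v i = 0 := by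
        rw [h1]
        refine Finset.sum_eq_zero fun s _ => ?_
        rw [h s, map_zero, zero_smul]
      exact (smul_eq_zero.mp h3).resolve_left hd0

end sat

end Vale.Agent.P200F.V.SL

end

section

namespace Vale.Agent.P200F.V.SL

open PowerSeries Module

theorem finrank_inf_ker_add {k V W : Type*} [Field k] [AddCommGroup V] [Module k V]
    [AddCommGroup W] [Module k W] (F : Submodule k V) [Module.Finite k F] (ψ : V →ₗ[k] W) :
    finrank k (F ⊓ LinearMap.ker ψ : Submodule k V) + finrank k (F.map ψ) = finrank k F := by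
  have h := LinearMap.finrank_range_add_finrank_ker (ψ.domRestrict F)
  rw [LinearMap.range_domRestrict] at h
  rw [← h, add_comm]
  congr 1
  have h2 : (LinearMap.ker (ψ.domRestrict F)).map F.subtype = F ⊓ LinearMap.ker ψ := by
    rw [LinearMap.ker_domRestrict, Submodule.map_comap_subtype]
  rw [← h2, Submodule.finrank_map_subtype_eq]

section
variable {k : Type*} [Field k] {J : Type*} [Fintype J] {κ : Type*} [Fintype κ]
  {K2 : Type*} [Field K2] [Algebra (MvPolynomial J k) K2] [IsFractionRing (MvPolynomial J k) K2]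

/-- the dimension of the filtration of the quotient -/
noncomputable def aD (k : Type*) [Field k] (J : Type*) {κ : Type*} (e : ℕ) (w : κ → ℕ)
    (N : Submodule (MvPolynomial J k) (κ → MvPolynomial J k)) (t : ℕ) : ℤ :=
  finrank k (Fil k J e w t) - finrank k (Fil k J e w t ⊓ N.restrictScalars k : Submodule k _)

theorem lower [DecidableEq κ] {e : ℕ} (he : 0 < e) (w : κ → ℕ)
    (N : Submodule (MvPolynomial J k) (κ → MvPolynomial J k)) {S : Type} [Fintype S] (a : S → κ)
    (hS : ∀ f : S → MvPolynomial J k,
      (fun i => ∑ s, if i = a s then f s else 0) ∈ N → f = 0) (t : ℕ) :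
    (∑ s, if w (a s) ≤ t then (cnt J e (t - w (a s)) : ℤ) else 0) ≤ aD k J e w N t := by
  have hfin := finite_Fil (k := k) (J := J) (κ := κ) he w t
  have hfinS := finite_Fil (k := k) (J := J) (κ := S) he (w ∘ a) t
  let j : (S → MvPolynomial J k) →ₗ[k] (κ → MvPolynomial J k) :=
    { toFun := fun f i => ∑ s, if i = a s then f s else 0
      map_add' := fun f g => funext fun i => by
        rw [Pi.add_apply, ← Finset.sum_add_distrib]
        refine Finset.sum_congr rfl fun s _ => ?_
        split_ifs
        · rfl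
        · rw [add_zero]
      map_smul' := fun c f => funext fun i => by
        rw [RingHom.id_apply, Pi.smul_apply, Finset.smul_sum]
        refine Finset.sum_congr rfl fun s _ => ?_
        split_ifs
        · rfl
        · rw [smul_zero] }
  have hj : Function.Injective j := by
    rw [← LinearMap.ker_eq_bot, LinearMap.ker_eq_bot']
    intro f hf
    refine hS f ?_
    change j f ∈ N
    rw [hf]
    exact N.zero_mem
  have hU : (Fil k J e (w ∘ a) t).map j ≤ Fil k J e w t := by
    rintro _ ⟨f, hf, rfl⟩ i
    refine Submodule.sum_mem _ fun s _ => ?_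
    split_ifs with h
    · rw [h]
      exact hf s
    · exact Submodule.zero_mem _
  have hdis : (Fil k J e (w ∘ a) t).map j ⊓ (Fil k J e w t ⊓ N.restrictScalars k) = ⊥ := by
    rw [eq_bot_iff]
    rintro _ ⟨⟨f, hf, rfl⟩, -, hN⟩
    rw [hS f hN, map_zero]
    exact Submodule.zero_mem _
  have hle : (Fil k J e (w ∘ a) t).map j ⊔ (Fil k J e w t ⊓ N.restrictScalars k)
      ≤ Fil k J e w t := sup_le hU inf_le_left
  have hF1 : Module.Finite k ((Fil k J e (w ∘ a) t).map j) := Module.Finite.map _ _
  have hF2 : Module.Finite k (Fil k J e w t ⊓ N.restrictScalars k : Submodule k _) :=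
    Submodule.finiteDimensional_of_le inf_le_left
  have h1 := Submodule.finrank_sup_add_finrank_inf_eq ((Fil k J e (w ∘ a) t).map j)
    (Fil k J e w t ⊓ N.restrictScalars k)
  rw [hdis, finrank_bot, add_zero] at h1
  have h2 := Submodule.finrank_mono hle
  rw [h1] at h2
  have h3 : finrank k ((Fil k J e (w ∘ a) t).map j) = finrank k (Fil k J e (w ∘ a) t) :=
    (Submodule.equivMapOfInjective j hj _).finrank_eq.symm
  rw [h3, finrank_Fil he] at h2
  rw [aD]
  have h4 : (∑ s, if w (a s) ≤ t then (cnt J e (t - w (a s)) : ℤ) else 0)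
      = ((∑ s, if (w ∘ a) s ≤ t then cnt J e (t - (w ∘ a) s) else 0 : ℕ) : ℤ) := by
    push_cast
    refine Finset.sum_congr rfl fun s _ => ?_
    simp only [Function.comp_apply]
  rw [h4]
  omega

/-- multiplication of a vector by a matrix -/
def mulMat {A : Type*} [CommRing A] {κ S : Type*} [Fintype κ] (b : κ → S → A) :
    (κ → A) →ₗ[A] (S → A) where
  toFun v s := ∑ i, v i * b i s
  map_add' f g := funext fun s => by
    rw [Pi.add_apply, ← Finset.sum_add_distrib]
    exact Finset.sum_congr rfl fun i _ => add_mul _ _ _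
  map_smul' c f := funext fun s => by
    rw [RingHom.id_apply, Pi.smul_apply, smul_eq_mul, Finset.mul_sum]
    exact Finset.sum_congr rfl fun i _ => mul_assoc _ _ _

theorem upper {e : ℕ} (he : 0 < e) (w : κ → ℕ)
    (N : Submodule (MvPolynomial J k) (κ → MvPolynomial J k)) {S : Type} [Fintype S]
    (b : κ → S → MvPolynomial J k)
    (hb : ∀ v : κ → MvPolynomial J k, v ∈ N ↔ ∀ s, ∑ i, v i * b i s = 0) :
    ∃ B : ℕ, ∀ t, aD k J e w N t ≤ Fintype.card S * cnt J e (t + B) := by
  classical
  refine ⟨∑ i, ∑ s, e * (b i s).totalDegree, fun t => ?_⟩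
  set B := ∑ i, ∑ s, e * (b i s).totalDegree with hB
  have hfin := finite_Fil (k := k) (J := J) (κ := κ) he w t
  have hfinS := finite_Fil (k := k) (J := J) (κ := S) he (fun _ => 0) (t + B)
  let ψ : (κ → MvPolynomial J k) →ₗ[k] (S → MvPolynomial J k) := (mulMat b).restrictScalars k
  have hker : (Fil k J e w t ⊓ N.restrictScalars k : Submodule k _) =
      Fil k J e w t ⊓ LinearMap.ker ψ := by
    congr 1
    refine Submodule.ext fun v => ?_
    rw [Submodule.restrictScalars_mem, hb v, LinearMap.mem_ker]
    exact ⟨fun h => funext h, fun h => congrFun h⟩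
  have h1 := finrank_inf_ker_add (Fil k J e w t) ψ
  have h2 : (Fil k J e w t).map ψ ≤ Fil k J e (fun _ : S => 0) (t + B) := by
    rintro _ ⟨v, hv, rfl⟩ s
    refine Submodule.sum_mem _ fun i _ => ?_
    rw [MvPolynomial.mem_restrictSupport_iff]
    intro m hm
    obtain ⟨m1, h1, m2, h2, rfl⟩ := Finset.mem_add.mp (MvPolynomial.support_mul _ _ hm)
    have h3 := mem_Fil.mp hv i m1 h1
    have h4 : m2.degree ≤ (b i s).totalDegree := by
      have := MvPolynomial.le_totalDegree h2
      rwa [Finsupp.degree_apply]
    have h5 : e * (b i s).totalDegree ≤ B := by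
      rw [hB]
      exact (Finset.single_le_sum (f := fun s => e * (b i s).totalDegree)
        (fun _ _ => Nat.zero_le _) (Finset.mem_univ s)).trans
        (Finset.single_le_sum (f := fun i => ∑ s, e * (b i s).totalDegree)
        (fun _ _ => Nat.zero_le _) (Finset.mem_univ i))
    have h6 : e * m2.degree ≤ e * (b i s).totalDegree := Nat.mul_le_mul_left e h4
    change e * (m1 + m2).degree + 0 ≤ t + B
    rw [map_add, mul_add]
    omega
  have h3 := Submodule.finrank_mono h2
  rw [finrank_Fil he] at h3
  simp only [Nat.zero_le, if_true, Nat.sub_zero, Finset.sum_const, Finset.card_univ,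
    smul_eq_mul] at h3
  rw [aD, hker]
  have h4 : ((Fintype.card S * cnt J e (t + B) : ℕ) : ℤ) = Fintype.card S * cnt J e (t + B) := by
    push_cast
    rfl
  rw [← h4]
  omega

/-- **Rank from the generating function.** -/
theorem rank_eval {e : ℕ} (he : 0 < e) (w : κ → ℕ)
    (N : Submodule (MvPolynomial J k) (κ → MvPolynomial J k))
    (hN : ∀ (a : MvPolynomial J k) (v : κ → MvPolynomial J k), a ≠ 0 → a • v ∈ N → v ∈ N)
    (q : Polynomial ℤ)
    (hq : (1 - X ^ e) ^ Fintype.card J * ((1 - X) * PowerSeries.mk fun t => aD k J e w N t)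
      = (q : PowerSeries ℤ)) :
    q.eval 1 = finrank K2 ((κ → K2) ⧸ ext2 K2 N) := by
  classical
  obtain ⟨S, _, a, b, hcard, ha, hS, hb⟩ := exists_frame (K2 := K2) hN
  have hc := cnt_series he J
  have hS' : ∀ f : S → MvPolynomial J k,
      (fun i => ∑ s, if i = a s then f s else 0) ∈ N → f = 0 := by
    intro f hf
    refine hS f ?_
    have h : (∑ s, f s • Pi.single (a s) (1 : MvPolynomial J k)) =
        fun i => ∑ s, if i = a s then f s else 0 := by
      funext i
      rw [Finset.sum_apply]
      refine Finset.sum_congr rfl fun s _ => ?_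
      rw [Pi.smul_apply, Pi.single_apply, smul_eq_mul]
      split_ifs
      · rw [mul_one]
      · rw [mul_zero]
    rw [h]
    exact hf
  obtain ⟨B, hB⟩ := upper he w N b hb
  rw [← hcard]
  apply le_antisymm
  · have h := eval_one_nonneg' (e := e) (Fintype.card J)
      (Polynomial.C (Fintype.card S : ℤ) - Polynomial.X ^ B * q)
      (PowerSeries.C (Fintype.card S : ℤ) * (PowerSeries.mk fun t => (cnt J e t : ℤ)) -
        X ^ B * PowerSeries.mk fun t => aD k J e w N t) ?_ ?_
    · rw [Polynomial.eval_sub, Polynomial.eval_C, Polynomial.eval_mul, Polynomial.eval_pow,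
        Polynomial.eval_X, one_pow, one_mul] at h
      linarith only [h]
    · rw [Polynomial.coe_sub, Polynomial.coe_C, Polynomial.coe_mul, Polynomial.coe_pow,
        Polynomial.coe_X, ← hq]
      calc _ = PowerSeries.C (Fintype.card S : ℤ) * ((1 - X ^ e) ^ Fintype.card J *
              ((1 - X) * PowerSeries.mk fun t => (cnt J e t : ℤ))) -
            X ^ B * ((1 - X ^ e) ^ Fintype.card J *
              ((1 - X) * PowerSeries.mk fun t => aD k J e w N t)) := by ring
        _ = _ := by rw [hc, mul_one]
    · intro n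
      rw [map_sub, coeff_C_mul, coeff_mk, coeff_X_pow_mul']
      split_ifs with hn
      · rw [coeff_mk]
        have := hB (n - B)
        rw [Nat.sub_add_cancel hn] at this
        linarith only [this]
      · rw [sub_zero]
        exact mul_nonneg (Int.natCast_nonneg _) (Int.natCast_nonneg _)
  · have h := eval_one_nonneg' (e := e) (Fintype.card J)
      (q - ∑ s : S, Polynomial.X ^ w (a s))
      ((PowerSeries.mk fun t => aD k J e w N t) -
        (∑ s : S, X ^ w (a s)) * PowerSeries.mk fun t => (cnt J e t : ℤ)) ?_ ?_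
    · rw [Polynomial.eval_sub, Polynomial.eval_finsetSum] at h
      simp only [Polynomial.eval_pow, Polynomial.eval_X, one_pow, Finset.sum_const,
        Finset.card_univ, nsmul_eq_mul, mul_one] at h
      linarith
    · have hs : ((∑ s : S, Polynomial.X ^ w (a s) : Polynomial ℤ) : PowerSeries ℤ)
          = ∑ s : S, X ^ w (a s) := by
        rw [← Polynomial.coeToPowerSeries.ringHom_apply, map_sum]
        refine Finset.sum_congr rfl fun s _ => ?_
        rw [Polynomial.coeToPowerSeries.ringHom_apply, Polynomial.coe_pow, Polynomial.coe_X]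
      rw [Polynomial.coe_sub, hs, ← hq]
      calc _ = (1 - X ^ e) ^ Fintype.card J *
              ((1 - X) * PowerSeries.mk fun t => aD k J e w N t) -
            (∑ s : S, X ^ w (a s)) * ((1 - X ^ e) ^ Fintype.card J *
              ((1 - X) * PowerSeries.mk fun t => (cnt J e t : ℤ))) := by ring
        _ = _ := by rw [hc, mul_one]
    · intro n
      rw [map_sub, coeff_mk, Finset.sum_mul, map_sum, sub_nonneg]
      refine le_trans (le_of_eq ?_) (lower he w N a hS' n)
      refine Finset.sum_congr rfl fun s _ => ?_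
      rw [coeff_X_pow_mul']
      split_ifs
      · rw [coeff_mk]
      · rfl

end

end Vale.Agent.P200F.V.SL

end
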