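import Vale.Agent.P200F.Ns
import Vale.Agent.P200F.D1

set_option linter.all false

section

namespace Vale.Agent.P200F.S

universe u

/-- linearly independent rows: some maximal minor does not vanish -/
theorem exists_minor_ne_zero {Ω : Type*} [Field Ω] {C J : Type*} [Fintype C] [DecidableEq C]
    [Fintype J] (A : C → J → Ω) (hA : LinearIndependent Ω A) :
    ∃ g : C → J, Function.Injective g ∧ (Matrix.of fun a b => A a (g b)).det ≠ 0 := by
  classical
  -- the columns span
  have hr : (Matrix.of A).rank = Fintype.card C := by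
    have := LinearIndependent.rank_matrix (M := Matrix.of A) hA
    exact this
  have hcol : Module.finrank Ω (Submodule.span Ω (Set.range fun (j : J) (c : C) => A c j)) =
      Fintype.card C := by
    rw [← hr, Matrix.rank_eq_finrank_span_cols]
    rfl
  have htop : Submodule.span Ω (Set.range fun (j : J) (c : C) => A c j) = ⊤ := by
    apply Submodule.eq_top_of_finrank_eq
    rw [hcol, Module.finrank_fintype_fun_eq_card]
  obtain ⟨b, hb1, hb2, hb3⟩ := exists_linearIndependent Ω (Set.range fun (j : J) (c : C) => A c j)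
  rw [htop] at hb2
  let B : Module.Basis b Ω (C → Ω) := Module.Basis.mk hb3 (by rw [Subtype.range_coe]; exact hb2.ge)
  have : Fintype b := Set.Finite.fintype (Set.Finite.subset (Set.finite_range _) hb1)
  have hcard : Fintype.card b = Fintype.card C := by
    rw [← Module.finrank_eq_card_basis B, Module.finrank_fintype_fun_eq_card]
  obtain ⟨eqv⟩ := Fintype.card_eq.1 hcard
  have hg : ∀ c : C, ∃ j : J, (fun c' => A c' j) = (eqv.symm c : C → Ω) := by
    intro c
    exact hb1 (eqv.symm c).2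
  choose g hg using hg
  refine ⟨g, ?_, ?_⟩
  · intro c c' h
    have h1 := hg c
    rw [h, hg c'] at h1
    exact (eqv.symm.injective (Subtype.ext h1)).symm
  · have hli : LinearIndependent Ω fun c : C => (fun c' => A c' (g c)) := by
      have h1 : (fun c : C => (fun c' => A c' (g c))) = (fun x : b => (x : C → Ω)) ∘ eqv.symm := by
        funext c
        exact hg c
      rw [h1]
      exact hb3.comp _ eqv.symm.injective
    have h2 : LinearIndependent Ω (Matrix.of fun a b => A a (g b)).transpose.row := hli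
    have h3 := Matrix.linearIndependent_rows_iff_isUnit.1 h2
    rw [Matrix.isUnit_transpose, Matrix.isUnit_iff_isUnit_det] at h3
    exact h3.ne_zero

/-- **(IND) implies that the products of coordinates are in the radical of the ideal of the
maximal minors.** -/
theorem ind_radical {k : Type*} [Field k] {P : Type u} [CommRing P] [Algebra k P] (I : Ideal P)
    {C J : Type*} [Fintype C] [DecidableEq C] [Fintype J] (h : C → J → P) {B : Type*} [Fintype B]
    (v : B → P) 
    (hind : ∀ (Ω : Type u) [Field Ω] [Algebra k Ω] (φ : P →ₐ[k] Ω), (∀ p ∈ I, φ p = 0) →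
      (∀ b, φ (v b) ≠ 0) → LinearIndependent Ω fun c j => φ (h c j)) :
    ∏ b, v b ∈ (I ⊔ Ideal.span {d | ∃ g : C → J, Function.Injective g ∧
      d = (Matrix.of fun a b => h a (g b)).det}).radical := by
  classical
  by_contra hcon
  rw [Ideal.radical_eq_sInf, Submodule.mem_sInf] at hcon
  push Not at hcon
  obtain ⟨p, ⟨hp1, hp2⟩, hp3⟩ := hcon
  have := hp2
  let Ω := FractionRing (P ⧸ p)
  let φ : P →ₐ[k] Ω := (IsScalarTower.toAlgHom k (P ⧸ p) Ω).comp (Ideal.Quotient.mkₐ k p)
  have hφ : ∀ x, φ x = 0 ↔ x ∈ p := by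
    intro x
    have h1 : φ x = algebraMap (P ⧸ p) Ω (Ideal.Quotient.mk p x) := rfl
    rw [h1, FaithfulSMul.algebraMap_eq_zero_iff, Ideal.Quotient.eq_zero_iff_mem]
  have h1 := hind Ω φ (fun q hq => (hφ q).2 (hp1 (Ideal.mem_sup_left hq))) (fun b hb => by
    apply hp3
    exact Ideal.mem_of_dvd p (Finset.dvd_prod_of_mem v (Finset.mem_univ b)) ((hφ _).1 hb))
  obtain ⟨g, hg1, hg2⟩ := exists_minor_ne_zero _ h1
  apply hg2
  have h2 : (Matrix.of fun a b => φ (h a (g b))).det = φ (Matrix.of fun a b => h a (g b)).det := by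
    rw [AlgHom.map_det]
    rfl
  rw [h2, hφ]
  exact hp1 (Ideal.mem_sup_right (Ideal.subset_span ⟨g, hg1, rfl⟩))

end Vale.Agent.P200F.S

end

section

namespace Vale.Agent.P200F.V

open Module MvPolynomial

universe u

/-- independent rows at all points over algebraically closed fields -/
theorem ind_radical_closed {k : Type u} [Field k] {σ : Type} (J0 : Set (MvPolynomial σ k))
    {C N : Type} [Fintype C] [DecidableEq C] [Fintype N] (h : C → N → MvPolynomial σ k) {B : Type}
    [Fintype B] (v : B → σ)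
    (hind : ∀ (Ω : Type u) [Field Ω] [IsAlgClosed Ω] [Algebra k Ω] (p : σ → Ω),
      (∀ q ∈ J0, aeval p q = 0) → (∀ b, p (v b) ≠ 0) →
        LinearIndependent Ω fun c m => aeval p (h c m)) :
    ∏ b, (X (v b) : MvPolynomial σ k) ∈ (Ideal.span (J0 ∪ {q | ∃ g : C → N,
      q = (Matrix.of fun a b => h a (g b)).det}) : Ideal (MvPolynomial σ k)).radical := by
  have h1 := S.ind_radical (k := k) (Ideal.span J0 : Ideal (MvPolynomial σ k)) h
    (fun b => (X (v b) : MvPolynomial σ k)) ?_
  · refine Ideal.radical_mono ?_ h1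
    rw [Ideal.span_union]
    refine sup_le_sup le_rfl (Ideal.span_mono ?_)
    rintro q ⟨g, -, rfl⟩
    exact ⟨g, rfl⟩
  · intro Ω _ _ φ hφ hv
    let Ω' := AlgebraicClosure Ω
    let ψ : MvPolynomial σ k →ₐ[k] Ω' := (IsScalarTower.toAlgHom k Ω Ω').comp φ
    have hψ : ∀ q, aeval (fun s => ψ (X s)) q = algebraMap Ω Ω' (φ q) := by
      intro q
      have h2 : aeval (fun s => ψ (X s)) = ψ := by
        apply MvPolynomial.algHom_ext
        intro s
        rw [aeval_X]
      rw [h2]
      rfl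
    have h3 := hind Ω' (fun s => ψ (X s)) (fun q hq => by
      rw [hψ, hφ q (Ideal.subset_span hq), map_zero]) (fun b hb => by
      have h4 := hψ (X (v b))
      rw [aeval_X, hb] at h4
      exact hv b ((map_eq_zero _).1 h4.symm))
    rw [Fintype.linearIndependent_iff] at h3 ⊢
    intro l hl c
    have h5 := h3 (fun c => algebraMap Ω Ω' (l c)) (by
      funext m
      have h6 := congrFun hl m
      rw [Finset.sum_apply] at h6 ⊢
      have h7 := congrArg (algebraMap Ω Ω') h6
      rw [map_sum] at h7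
      rw [Pi.zero_apply, map_zero] at h7
      rw [Pi.zero_apply, ← h7]
      apply Finset.sum_congr rfl
      intro c _
      rw [Pi.smul_apply, Pi.smul_apply, smul_eq_mul, smul_eq_mul, map_mul, hψ]) c
    exact (map_eq_zero _).1 h5

/-- monomials of large degree -/
theorem monomials_mem {k : Type u} [Field k] {σ ι : Type} [Fintype σ] [Fintype ι]
    (blk : σ → Option ι) (I : Ideal (MvPolynomial σ k))
    (hI : ∀ v : ι → σ, (∀ b, blk (v b) = some b) →
      ∏ b, (X (v b) : MvPolynomial σ k) ∈ I.radical) :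
    ∃ d : ℕ, ∀ mon : σ →₀ ℕ, (∀ b, d ≤ bdeg blk mon b) → monomial mon (1 : k) ∈ I := by
  classical
  have h1 : ∀ v : ι → σ, ∃ n : ℕ, (∀ b, blk (v b) = some b) →
      (∏ b, (X (v b) : MvPolynomial σ k)) ^ n ∈ I := by
    intro v
    by_cases hv : ∀ b, blk (v b) = some b
    · obtain ⟨n, hn⟩ := hI v hv
      exact ⟨n, fun _ => hn⟩
    · exact ⟨0, fun h => absurd h hv⟩
  choose n hn using h1
  obtain ⟨M, hM⟩ : ∃ M : ℕ, ∀ v, n v ≤ M :=
    ⟨Finset.univ.sup n, fun v => Finset.le_sup (f := n) (Finset.mem_univ v)⟩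
  refine ⟨M * Fintype.card σ + 1, fun mon hmon => ?_⟩
  have h2 : ∀ b, ∃ v, blk v = some b ∧ M ≤ mon v := by
    intro b
    by_contra hcon
    push Not at hcon
    have h3 := hmon b
    unfold bdeg at h3
    have h4 : ∑ v ∈ Finset.univ.filter (fun v => blk v = some b), mon v ≤
        ∑ v ∈ Finset.univ.filter (fun v => blk v = some b), M := by
      apply Finset.sum_le_sum
      intro v hv
      exact (hcon v (Finset.mem_filter.1 hv).2).le
    rw [Finset.sum_const, smul_eq_mul] at h4
    have h5 : (Finset.univ.filter (fun v => blk v = some b)).card ≤ Fintype.card σ :=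
      Finset.card_le_univ _
    have h6 : (Finset.univ.filter (fun v => blk v = some b)).card * M ≤
        M * Fintype.card σ := by
      rw [mul_comm M]
      exact Nat.mul_le_mul_right M h5
    have h7 : (∑ v ∈ Finset.univ.filter (fun v => blk v = some b), mon v) =
        ∑ v with blk v = some b, mon v := rfl
    omega
  choose v hv1 hv2 using h2
  have hinj : Function.Injective v := by
    intro b b' h
    have h3 := hv1 b
    rw [h, hv1 b'] at h3
    exact (Option.some.inj h3).symm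
  -- the product divides the monomial
  have hle : (∑ b, Finsupp.single (v b) M : σ →₀ ℕ) ≤ mon := by
    intro s
    rw [Finsupp.finsetSum_apply]
    by_cases hs : ∃ b, v b = s
    · obtain ⟨b, rfl⟩ := hs
      rw [Finset.sum_eq_single b]
      · rw [Finsupp.single_eq_same]
        exact hv2 b
      · intro b' _ hb'
        rw [Finsupp.single_eq_of_ne (fun h => hb' (hinj h).symm)]
      · intro h
        exact absurd (Finset.mem_univ b) h
    · push Not at hs
      rw [Finset.sum_eq_zero fun b _ => Finsupp.single_eq_of_ne (hs b).symm]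
      exact Nat.zero_le _
  have h8 : monomial mon (1 : k) = monomial (mon - ∑ b, Finsupp.single (v b) M) (1 : k) *
      (∏ b, (X (v b) : MvPolynomial σ k)) ^ M := by
    have h9 : (∏ b, (X (v b) : MvPolynomial σ k)) ^ M =
        monomial (∑ b, Finsupp.single (v b) M) (1 : k) := by
      rw [← Finset.prod_pow, monomial_sum_one]
      exact Finset.prod_congr rfl fun b _ => X_pow_eq_monomial
    rw [h9, monomial_mul, mul_one, tsub_add_cancel_of_le hle]
  rw [h8]
  refine I.mul_mem_left _ ?_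
  have h10 := hn v hv1
  rw [← Nat.add_sub_of_le (hM v), pow_add]
  exact I.mul_mem_right _ h10

/-- **The hypothesis on the minors of the Koszul lemma.** -/
theorem hmin_of_ind {k : Type u} [Field k] {σ ι : Type} [Fintype σ] [Fintype ι]
    (blk : σ → Option ι) (J0 : Set (MvPolynomial σ k)) {N r : ℕ}
    (h : Fin r → Fin N → MvPolynomial σ k)
    (hind : ∀ (Ω : Type u) [Field Ω] [IsAlgClosed Ω] [Algebra k Ω] (p : σ → Ω),
      (∀ q ∈ J0, aeval p q = 0) → (∀ b, ∃ v, blk v = some b ∧ p v ≠ 0) →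
        LinearIndependent Ω fun c m => aeval p (h c m)) (j : Fin r) :
    ∃ d : ℕ, ∀ mon : σ →₀ ℕ, (∀ b, d ≤ bdeg blk mon b) →
      monomial mon (1 : k) ∈ (Ideal.span (J0 ∪ {q | ∃ g : Fin (j + 1) → Fin N,
        q = (Matrix.of fun (a b : Fin (j + 1)) => h (Fin.castLE j.2 a) (g b)).det}) :
        Ideal (MvPolynomial σ k)) := by
  refine monomials_mem blk _ fun v hv => ?_
  refine ind_radical_closed J0 (fun a : Fin (j + 1) => h (Fin.castLE j.2 a)) v
    fun Ω _ _ _ p hp hpv => ?_
  have h1 := hind Ω p hp fun b => ⟨v b, hv b, hpv b⟩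
  exact h1.comp (fun a : Fin (j + 1) => Fin.castLE j.2 a) (Fin.castLE_injective j.2)

/-- the level lemma: monomials of large degree are in the ideal of the minors -/
theorem lv_min {k : Type u} [Field k] {Z ι J : Type} [Fintype Z] [Fintype ι] [Fintype J]
    {blk : Z → ι} {C : Finset Z} {G0 : Set (MvPolynomial Z k)} {h : Z → J → MvPolynomial Z k}
    (hind : LvInd blk C G0 h) {r N : ℕ} {cc : Fin r → Z} (hcc : Function.Injective cc)
    (hC : ∀ i, cc i ∈ C) {θ : Fin N → J} (hθ : Function.Surjective θ)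
    {J0 : Set (MvPolynomial (Z ⊕ J) k)} (hG : ∀ g ∈ G0, rename Sum.inl g ∈ J0)
    (hX : ∀ c ∈ C, X (Sum.inl c) ∈ J0) (j : Fin r) :
    ∃ d : ℕ, ∀ mon : Z ⊕ J →₀ ℕ, (∀ b, d ≤ bdeg (tblk J blk) mon b) →
      monomial mon (1 : k) ∈ Ideal.span (J0 ∪
        mins (fun i m => rename (Sum.inl : Z → Z ⊕ J) (h (cc i) (θ m))) j) := by
  classical
  refine hmin_of_ind (tblk J blk) J0
    (fun i m => rename (Sum.inl : Z → Z ⊕ J) (h (cc i) (θ m))) (fun Ω _ _ _ p hp hpv => ?_) j
  have hren : ∀ q : MvPolynomial Z k, aeval p (rename (Sum.inl : Z → Z ⊕ J) q) =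
      aeval (fun z => p (Sum.inl z)) q := by
    intro q
    rw [aeval_rename]
    rfl
  have h1 := hind Ω (fun z => p (Sum.inl z)) (fun g hg => by
      rw [← hren]
      exact hp _ (hG g hg)) (fun c hc => by
      have h2 := hp _ (hX c hc)
      rw [aeval_X] at h2
      exact h2) (fun b => by
      obtain ⟨v, hv, hpv⟩ := hpv b
      rcases v with z | z
      · exact ⟨z, Option.some.inj hv, hpv⟩
      · exact absurd hv (by simp [tblk]))
  rw [Fintype.linearIndependent_iff]
  intro l hl i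
  have h3 := h1 (fun z => if hz : ∃ i, cc i = z then l hz.choose else 0) (fun jj => by
    obtain ⟨m, rfl⟩ := hθ jj
    have h4 := congrFun hl m
    rw [Finset.sum_apply, Pi.zero_apply] at h4
    refine Eq.trans ?_ h4
    symm
    have h5 : ∑ i, (l i • fun m => aeval p (rename (Sum.inl : Z → Z ⊕ J) (h (cc i) (θ m)))) m =
        ∑ z ∈ Finset.univ.image cc, (if hz : ∃ i, cc i = z then l hz.choose else 0) *
          aeval (fun z => p (Sum.inl z)) (h z (θ m)) := by
      rw [Finset.sum_image fun a _ b _ hab => hcc hab]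
      apply Finset.sum_congr rfl
      intro i _
      have hz : ∃ i', cc i' = cc i := ⟨i, rfl⟩
      rw [dif_pos hz, hcc hz.choose_spec, Pi.smul_apply, smul_eq_mul, hren]
    rw [h5]
    apply Finset.sum_subset
    · intro z hz
      obtain ⟨i, -, rfl⟩ := Finset.mem_image.1 hz
      exact hC i
    · intro z _ hz
      rw [dif_neg, zero_mul]
      rintro ⟨i, rfl⟩
      exact hz (Finset.mem_image_of_mem _ (Finset.mem_univ i))) (cc i) (hC i)
  have hz : ∃ i', cc i' = cc i := ⟨i, rfl⟩
  rw [dif_pos hz, hcc hz.choose_spec] at h3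
  exact h3

end Vale.Agent.P200F.V

end

section

namespace Vale.Agent.P200F.S

section ops
variable {P : Type*} [CommRing P] {M : Type*} [AddCommGroup M] [Module P M] {N : ℕ}

/-- the sign of a bit -/
def sg (P : Type*) [CommRing P] (b : Bool) : P := if b then -1 else 1

/-- the sign in front of the position `m` -/
def sgn (P : Type*) [CommRing P] {N : ℕ} (m : Fin N) (S : Fin N → Bool) : P :=
  ∏ i ∈ Finset.Iio m, sg P (S i)

theorem sg_mul_self (b : Bool) : sg P b * sg P b = 1 := by
  cases b <;> simp [sg]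

theorem sg_not (b : Bool) : sg P (!b) = - sg P b := by
  cases b <;> simp [sg]

theorem sgn_mul_self (m : Fin N) (S : Fin N → Bool) : sgn P m S * sgn P m S = 1 := by
  rw [sgn, ← Finset.prod_mul_distrib]
  exact Finset.prod_eq_one fun i _ => sg_mul_self _

theorem sgn_update_of_le (m l : Fin N) (h : m ≤ l) (S : Fin N → Bool) (b : Bool) :
    sgn P m (Function.update S l b) = sgn P m S := by
  apply Finset.prod_congr rfl
  intro i hi
  rw [Finset.mem_Iio] at hi
  rw [Function.update_of_ne (lt_of_lt_of_le hi h).ne]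

theorem sgn_update_of_lt (m l : Fin N) (h : l < m) (S : Fin N → Bool) :
    sgn P m (Function.update S l (!(S l))) = - sgn P m S := by
  classical
  have hl : l ∈ Finset.Iio m := Finset.mem_Iio.2 h
  rw [sgn, sgn, ← Finset.mul_prod_erase _ _ hl, ← Finset.mul_prod_erase _ _ hl,
    Function.update_self, sg_not, neg_mul]
  congr 2
  apply Finset.prod_congr rfl
  intro i hi
  rw [Function.update_of_ne (Finset.ne_of_mem_erase hi)]

/-- `op m true`: multiplication by the basis vector; `op m false`: contraction -/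
def op (P : Type*) [CommRing P] {M : Type*} [AddCommGroup M] [Module P M] {N : ℕ}
    (m : Fin N) (b : Bool) : ((Fin N → Bool) → M) →ₗ[P] ((Fin N → Bool) → M) where
  toFun f S := if S m = b then sgn P m S • f (Function.update S m (!b)) else 0
  map_add' f g := by
    funext S
    by_cases h : S m = b <;> simp [h]
  map_smul' c f := by
    funext S
    by_cases h : S m = b <;> simp [h, smul_smul, mul_comm]

theorem op_apply (m : Fin N) (b : Bool) (f : (Fin N → Bool) → M) (S : Fin N → Bool) :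
    op P m b f S = if S m = b then sgn P m S • f (Function.update S m (!b)) else 0 := rfl

theorem op_op_self (m : Fin N) (b : Bool) (f : (Fin N → Bool) → M) : op P m b (op P m b f) = 0 := by
  funext S
  rw [op_apply, op_apply, Function.update_self]
  by_cases h : S m = b
  · rw [if_pos h, if_neg (by cases b <;> simp), smul_zero]
    rfl
  · rw [if_neg h]
    rfl

theorem op_op_not (m : Fin N) (b : Bool) (f : (Fin N → Bool) → M) :
    op P m b (op P m (!b) f) = fun S => if S m = b then f S else 0 := by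
  funext S
  rw [op_apply, op_apply, Function.update_self]
  by_cases h : S m = b
  · rw [if_pos h, if_pos h, if_pos rfl, sgn_update_of_le m m le_rfl, smul_smul, sgn_mul_self,
      one_smul, Function.update_idem, Bool.not_not, ← h, Function.update_eq_self]
  · rw [if_neg h, if_neg h]

theorem op_anti_same (m : Fin N) (b : Bool) (f : (Fin N → Bool) → M) :
    op P m b (op P m (!b) f) + op P m (!b) (op P m b f) = f := by
  have h1 := op_op_not (P := P) m b f
  have h2 := op_op_not (P := P) m (!b) f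
  rw [Bool.not_not] at h2
  rw [h1, h2]
  funext S
  rw [Pi.add_apply]
  by_cases h : S m = b
  · rw [if_pos h, if_neg (by rw [h]; cases b <;> simp), add_zero]
  · rw [if_neg h, if_pos (by revert h; cases b <;> cases S m <;> simp), zero_add]

theorem op_anti_lt (m l : Fin N) (hml : m < l) (b b' : Bool) (f : (Fin N → Bool) → M) :
    op P m b (op P l b' f) + op P l b' (op P m b f) = 0 := by
  funext S
  rw [Pi.add_apply, op_apply, op_apply, op_apply, op_apply, Function.update_of_ne hml.ne',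
    Function.update_of_ne hml.ne]
  by_cases h : S m = b
  · by_cases h' : S l = b'
    · rw [if_pos h, if_pos h', if_pos h', if_pos h, ← h, sgn_update_of_lt l m hml,
        sgn_update_of_le m l hml.le, Function.update_comm hml.ne, smul_smul, smul_smul, mul_neg,
        neg_smul, mul_comm, neg_add_cancel]
      rfl
    · rw [if_neg h', if_neg h', smul_zero, ite_self, add_zero]
      rfl
  · rw [if_neg h, if_neg h, smul_zero, ite_self, add_zero]
    rfl

theorem op_anti (m l : Fin N) (b b' : Bool) (h : m ≠ l ∨ b = b') (f : (Fin N → Bool) → M) :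
    op P m b (op P l b' f) + op P l b' (op P m b f) = 0 := by
  rcases lt_trichotomy m l with h1 | h1 | h1
  · exact op_anti_lt m l h1 b b' f
  · subst h1
    rcases h with h | h
    · exact absurd rfl h
    · subst h
      rw [op_op_self, add_zero]
  · rw [add_comm]
    exact op_anti_lt l m h1 b' b f

/-- the operator `∑ a_m op m b` -/
def Op (b : Bool) (a : Fin N → P) : ((Fin N → Bool) → M) →ₗ[P] ((Fin N → Bool) → M) :=
  ∑ m, a m • op P m b

theorem Op_apply (b : Bool) (a : Fin N → P) (f : (Fin N → Bool) → M) :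
    Op b a f = ∑ m, a m • op P m b f := by
  rw [Op, LinearMap.sum_apply]
  rfl

theorem Op_Op (b b' : Bool) (a a' : Fin N → P) (f : (Fin N → Bool) → M) :
    Op b a (Op b' a' f) = ∑ m, ∑ l, (a m * a' l) • op P m b (op P l b' f) := by
  rw [Op_apply]
  apply Finset.sum_congr rfl
  intro m _
  rw [Op_apply, map_sum, Finset.smul_sum]
  apply Finset.sum_congr rfl
  intro l _
  rw [map_smul, smul_smul]

theorem Op_anti (b : Bool) (a a' : Fin N → P) (f : (Fin N → Bool) → M) :
    Op b a (Op b a' f) + Op b a' (Op b a f) = 0 := by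
  rw [Op_Op, Op_Op]
  nth_rw 2 [Finset.sum_comm]
  rw [← Finset.sum_add_distrib]
  apply Finset.sum_eq_zero
  intro m _
  rw [← Finset.sum_add_distrib]
  apply Finset.sum_eq_zero
  intro l _
  rw [mul_comm (a' l), ← smul_add, op_anti m l b b (Or.inr rfl), smul_zero]

theorem Op_self (b : Bool) (a : Fin N → P) (f : (Fin N → Bool) → M) :
    Op b a (Op b a f) = 0 := by
  classical
  rw [Op_Op, ← Finset.sum_product']
  have h := Finset.sum_involution (s := (Finset.univ : Finset (Fin N × Fin N)))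
    (f := fun p : Fin N × Fin N => (a p.1 * a p.2) • op P p.1 b (op P p.2 b f))
    (fun p _ => p.swap) ?_ ?_ (fun p _ => Finset.mem_univ _) (fun p _ => Prod.swap_swap p)
  · exact h
  · intro p _
    simp only [Prod.fst_swap, Prod.snd_swap]
    rw [mul_comm (a p.2), ← smul_add, op_anti p.1 p.2 b b (Or.inr rfl), smul_zero]
  · intro p _ hp h'
    apply hp
    have : p.1 = p.2 := by
      have := congrArg Prod.fst h'
      exact this.symm
    rw [this, op_op_self, smul_zero]

theorem Op_contr (b : Bool) (a a' : Fin N → P) (f : (Fin N → Bool) → M) :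
    Op b a (Op (!b) a' f) + Op (!b) a' (Op b a f) = (∑ m, a m * a' m) • f := by
  rw [Op_Op, Op_Op]
  nth_rw 2 [Finset.sum_comm]
  rw [← Finset.sum_add_distrib, Finset.sum_smul]
  apply Finset.sum_congr rfl
  intro m _
  rw [← Finset.sum_add_distrib, Finset.sum_eq_single m]
  · rw [mul_comm (a' m), ← smul_add, op_anti_same]
  · intro l _ hl
    rw [mul_comm (a' l), ← smul_add, op_anti m l b (!b) (Or.inl hl.symm), smul_zero]
  · intro h
    exact absurd (Finset.mem_univ _) h

end ops

end Vale.Agent.P200F.S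

end

section

namespace Vale.Agent.P200F.S

section par
variable {N : ℕ}

/-- the parity of a subset -/
def pr (S : Fin N → Bool) : ℤˣ := ∏ i, if S i then -1 else 1

theorem pr_update (S : Fin N → Bool) (m : Fin N) :
    pr (Function.update S m (!(S m))) = - pr S := by
  classical
  rw [pr, pr, ← Finset.mul_prod_erase _ _ (Finset.mem_univ m),
    ← Finset.mul_prod_erase _ _ (Finset.mem_univ m), Function.update_self]
  have h1 : ∏ x ∈ Finset.univ.erase m,
      (if Function.update S m (!(S m)) x = true then (-1 : ℤˣ) else 1) =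
      ∏ x ∈ Finset.univ.erase m, if S x = true then (-1 : ℤˣ) else 1 := by
    apply Finset.prod_congr rfl
    intro i hi
    rw [Function.update_of_ne (Finset.ne_of_mem_erase hi)]
  rw [h1]
  cases S m <;> simp

end par

section ops
variable {P : Type*} [CommRing P] {J : Type*} {N : ℕ}

/-- currying -/
def cu (P : Type*) [CommRing P] (N : ℕ) (J : Type*) :
    ((Fin N → Bool) × J → P) ≃ₗ[P] ((Fin N → Bool) → J → P) :=
  LinearEquiv.curry P P (Fin N → Bool) J

/-- the operator on families indexed by pairs -/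
def OpU (b : Bool) (a : Fin N → P) : ((Fin N → Bool) × J → P) →ₗ[P] ((Fin N → Bool) × J → P) :=
  (cu P N J).symm.toLinearMap ∘ₗ (Op b a) ∘ₗ (cu P N J).toLinearMap

theorem cu_OpU (b : Bool) (a : Fin N → P) (f : (Fin N → Bool) × J → P) :
    cu P N J (OpU b a f) = Op b a (cu P N J f) := rfl

theorem OpU_apply (b : Bool) (a : Fin N → P) (f : (Fin N → Bool) × J → P) (S : Fin N → Bool)
    (j : J) : OpU b a f (S, j) =
      ∑ m, a m * (if S m = b then sgn P m S * f (Function.update S m (!b), j) else 0) := by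
  have h1 : OpU b a f (S, j) = Op b a (cu P N J f) S j := rfl
  rw [h1, Op_apply, Finset.sum_apply, Finset.sum_apply]
  apply Finset.sum_congr rfl
  intro m _
  rw [Pi.smul_apply, op_apply]
  by_cases h : S m = b
  · rw [if_pos h, if_pos h]
    rfl
  · rw [if_neg h, if_neg h]
    rfl

theorem OpU_self (b : Bool) (a : Fin N → P) (f : (Fin N → Bool) × J → P) :
    OpU b a (OpU b a f) = 0 := by
  apply (cu P N J).injective
  rw [cu_OpU, cu_OpU, Op_self, map_zero]

theorem OpU_anti (b : Bool) (a a' : Fin N → P) (f : (Fin N → Bool) × J → P) :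
    OpU b a (OpU b a' f) + OpU b a' (OpU b a f) = 0 := by
  apply (cu P N J).injective
  rw [map_add, cu_OpU, cu_OpU, cu_OpU, cu_OpU, Op_anti, map_zero]

theorem OpU_contr (b : Bool) (a a' : Fin N → P) (f : (Fin N → Bool) × J → P) :
    OpU b a (OpU (!b) a' f) + OpU (!b) a' (OpU b a f) = (∑ m, a m * a' m) • f := by
  apply (cu P N J).injective
  rw [map_add, cu_OpU, cu_OpU, cu_OpU, cu_OpU, Op_contr, map_smul]

/-- the families with values in given submodules -/
def pwf (X : (Fin N → Bool) → Submodule P (J → P)) : Submodule P ((Fin N → Bool) × J → P) where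
  carrier := {f | ∀ S, (fun j => f (S, j)) ∈ X S}
  add_mem' ha hb S := (X S).add_mem (ha S) (hb S)
  zero_mem' S := (X S).zero_mem
  smul_mem' c _ ha S := (X S).smul_mem c (ha S)

/-- the values on subsets of parity `p` -/
def px (X : Submodule P (J → P)) (p : ℤˣ) (S : Fin N → Bool) : Submodule P (J → P) :=
  if pr S = p then X else ⊥

/-- the families of parity `p` with values in a submodule -/
def pwp (N : ℕ) (X : Submodule P (J → P)) (p : ℤˣ) : Submodule P ((Fin N → Bool) × J → P) :=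
  pwf (px X p)

theorem px_mono {X Y : Submodule P (J → P)} (h : Y ≤ X) (p : ℤˣ) (S : Fin N → Bool) :
    px Y p S ≤ px X p S := by
  unfold px
  split_ifs
  · exact h
  · exact le_rfl

theorem pwp_mono {X Y : Submodule P (J → P)} (h : Y ≤ X) (p : ℤˣ) : pwp N Y p ≤ pwp N X p :=
  fun _ hf S => px_mono h p S (hf S)

theorem px_update (X : Submodule P (J → P)) (p : ℤˣ) (S : Fin N → Bool) (m : Fin N) :
    px X p (Function.update S m (!(S m))) = px X (-p) S := by
  unfold px
  rw [pr_update]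
  congr 1
  exact propext neg_eq_iff_eq_neg

theorem OpU_mem {X : Submodule P (J → P)} {p : ℤˣ} {f : (Fin N → Bool) × J → P}
    (hf : f ∈ pwp N X p) (b : Bool) (a : Fin N → P) : OpU b a f ∈ pwp N X (-p) := by
  intro S
  have h1 : (fun j => OpU b a f (S, j)) = ∑ m, a m •
      (if S m = b then sgn P m S • (fun j => f (Function.update S m (!b), j)) else 0) := by
    funext j
    rw [OpU_apply, Finset.sum_apply]
    apply Finset.sum_congr rfl
    intro m _
    rw [Pi.smul_apply]
    by_cases h : S m = b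
    · rw [if_pos h, if_pos h]
      rfl
    · rw [if_neg h, if_neg h]
      rfl
  rw [h1]
  refine Submodule.sum_mem _ fun m _ => Submodule.smul_mem _ _ ?_
  by_cases h : S m = b
  · rw [if_pos h]
    refine Submodule.smul_mem _ _ ?_
    have h2 := hf (Function.update S m (!b))
    rw [← h] at h2 ⊢
    rw [px_update] at h2
    exact h2
  · rw [if_neg h]
    exact Submodule.zero_mem _

/-- multiples of families of parity `p` -/
theorem smul_mem_pwp {X Y : Submodule P (J → P)} {q : P} (h : ∀ f ∈ X, q • f ∈ Y) {p : ℤˣ}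
    {f : (Fin N → Bool) × J → P} (hf : f ∈ pwp N X p) : q • f ∈ pwp N Y p := by
  intro S
  have h1 := hf S
  have h2 : (fun j => (q • f) (S, j)) = q • fun j => f (S, j) := rfl
  rw [h2]
  unfold px at h1 ⊢
  split_ifs at h1 ⊢ with h3
  · exact h _ h1
  · rw [Submodule.mem_bot] at h1 ⊢
    rw [h1, smul_zero]

/-- the submodule `Y + ∑_{i < j} η_i X` in parity `p` -/
def Nn {r : ℕ} (h : Fin r → Fin N → P) (X Y : Submodule P (J → P)) (j : ℕ) (p : ℤˣ) :
    Submodule P ((Fin N → Bool) × J → P) :=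
  pwp N Y p ⊔ ⨆ (i : Fin r) (_ : (i : ℕ) < j), (pwp N X (-p)).map (OpU true (h i))

theorem Nn_zero {r : ℕ} (h : Fin r → Fin N → P) (X Y : Submodule P (J → P)) (p : ℤˣ) :
    Nn h X Y 0 p = pwp N Y p := by
  rw [Nn]
  apply le_antisymm
  · refine sup_le le_rfl (iSup_le fun i => iSup_le fun hi => ?_)
    exact absurd hi (Nat.not_lt_zero _)
  · exact le_sup_left

theorem Nn_succ {r : ℕ} (h : Fin r → Fin N → P) (X Y : Submodule P (J → P)) (j : Fin r)
    (p : ℤˣ) : Nn h X Y (j + 1) p = Nn h X Y j p ⊔ (pwp N X (-p)).map (OpU true (h j)) := by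
  rw [Nn, Nn]
  apply le_antisymm
  · refine sup_le (le_sup_of_le_left le_sup_left) (iSup_le fun i => iSup_le fun hi => ?_)
    rcases Nat.lt_succ_iff_lt_or_eq.1 hi with h1 | h1
    · exact le_sup_of_le_left (le_sup_of_le_right (le_iSup₂_of_le i h1 le_rfl))
    · have : i = j := Fin.ext h1
      subst this
      exact le_sup_right
  · refine sup_le (sup_le le_sup_left (iSup_le fun i => iSup_le fun hi => ?_)) ?_
    · exact le_sup_of_le_right (le_iSup₂_of_le i (Nat.lt_succ_of_lt hi) le_rfl)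
    · exact le_sup_of_le_right (le_iSup₂_of_le j (Nat.lt_succ_self _) le_rfl)

theorem Nn_le {r : ℕ} (h : Fin r → Fin N → P) {X Y : Submodule P (J → P)} (hYX : Y ≤ X) (j : ℕ)
    (p : ℤˣ) : Nn h X Y j p ≤ pwp N X p := by
  refine sup_le (pwp_mono hYX p) (iSup_le fun i => iSup_le fun _ => ?_)
  rintro _ ⟨f, hf, rfl⟩
  have := OpU_mem hf true (h i)
  rwa [neg_neg] at this

/-- an operator which anticommutes with the `η_i` modulo `Y` preserves `N_j` -/
theorem Nn_stable {r : ℕ} (h : Fin r → Fin N → P) {X Y : Submodule P (J → P)} (j : ℕ)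
    (b : Bool) (a : Fin N → P)
    (hD : ∀ i : Fin r, (i : ℕ) < j → ∀ p, ∀ f ∈ pwp N X p,
      OpU b a (OpU true (h i) f) + OpU true (h i) (OpU b a f) ∈ pwp N Y p) (p : ℤˣ) :
    ∀ f ∈ Nn h X Y j p, OpU b a f ∈ Nn h X Y j (-p) := by
  intro f hf
  have hle : Nn h X Y j p ≤ (Nn h X Y j (-p)).comap (OpU b a) := by
    refine sup_le (fun f hf => Submodule.mem_sup_left (OpU_mem hf b a))
      (iSup_le fun i => iSup_le fun hi => ?_)
    rintro _ ⟨g, hg, rfl⟩
    rw [Submodule.mem_comap]
    have h1 : OpU b a (OpU true (h i) g) = (OpU b a (OpU true (h i) g) +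
        OpU true (h i) (OpU b a g)) - OpU true (h i) (OpU b a g) :=
      (add_sub_cancel_right _ _).symm
    rw [h1]
    refine Submodule.sub_mem _ (Submodule.mem_sup_left (hD i hi _ g hg)) ?_
    exact Submodule.mem_sup_right (Submodule.mem_iSup_of_mem i (Submodule.mem_iSup_of_mem hi
      ⟨OpU b a g, OpU_mem hg b a, rfl⟩))
  exact hle hf

/-- `η_j` maps `N_(j+1)` into `N_j` -/
theorem eta_mem {r : ℕ} (h : Fin r → Fin N → P) {X Y : Submodule P (J → P)} (j : Fin r) (p : ℤˣ)
    {x : (Fin N → Bool) × J → P} (hx : x ∈ Nn h X Y (j + 1) p) :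
    OpU true (h j) x ∈ Nn h X Y j (-p) := by
  rw [Nn_succ] at hx
  obtain ⟨y, hy, _, ⟨z, _, rfl⟩, rfl⟩ := Submodule.mem_sup.1 hx
  rw [map_add, OpU_self, add_zero]
  exact Nn_stable h (j : ℕ) true (h j) (fun i _ p f _ => by
    rw [OpU_anti]
    exact Submodule.zero_mem _) p y hy

/-- **The minors of the first `j + 1` rows kill the kernel of `η_j` on `𝒦 / N_j`.** -/
theorem minor_smul_mem_Nn {r : ℕ} (h : Fin r → Fin N → P) {X Y : Submodule P (J → P)} (j : Fin r)
    (g : Fin (j + 1) → Fin N) (p : ℤˣ) {x : (Fin N → Bool) × J → P} (hx : x ∈ pwp N X p)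
    (hjx : OpU true (h j) x ∈ Nn h X Y j (-p)) :
    (Matrix.of fun (a b : Fin (j + 1)) => h (Fin.castLE j.2 a) (g b)).det • x ∈
      Nn h X Y (j + 1) p := by
  classical
  set A : Matrix (Fin (j + 1)) (Fin (j + 1)) P :=
    Matrix.of fun (a b : Fin (j + 1)) => h (Fin.castLE j.2 a) (g b) with hA
  let c : Fin N → P := fun m => ∑ b, if g b = m then A.adjugate b (Fin.last j) else 0
  have hc : ∀ i : Fin (j + 1), ∑ m, c m * h (Fin.castLE j.2 i) m =
      if i = Fin.last j then A.det else 0 := by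
    intro i
    have h1 : ∑ m, c m * h (Fin.castLE j.2 i) m = ∑ b, A i b * A.adjugate b (Fin.last j) := by
      simp only [c, Finset.sum_mul]
      rw [Finset.sum_comm]
      apply Finset.sum_congr rfl
      intro b _
      rw [Finset.sum_eq_single (g b)]
      · rw [if_pos rfl, mul_comm]
        rfl
      · intro m _ hm
        rw [if_neg hm.symm, zero_mul]
      · intro h'
        exact absurd (Finset.mem_univ _) h'
    rw [h1, ← Matrix.mul_apply, Matrix.mul_adjugate, Matrix.smul_apply, Matrix.one_apply,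
      smul_eq_mul, mul_ite, mul_one, mul_zero]
  have hlast : Fin.castLE j.2 (Fin.last j) = j := Fin.ext rfl
  have hI : ∀ f : (Fin N → Bool) × J → P, OpU false c (OpU true (h j) f) +
      OpU true (h j) (OpU false c f) = A.det • f := by
    intro f
    have h1 := OpU_contr false c (h j) f
    have h2 := hc (Fin.last j)
    rw [hlast, if_pos rfl] at h2
    rw [h2] at h1
    exact h1
  have hI0 : ∀ i : Fin r, (i : ℕ) < j → ∀ f : (Fin N → Bool) × J → P,
      OpU false c (OpU true (h i) f) + OpU true (h i) (OpU false c f) = 0 := by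
    intro i hi f
    have h1 := OpU_contr false c (h i) f
    have h2 := hc ⟨i, Nat.lt_succ_of_lt hi⟩
    have h3 : Fin.castLE j.2 ⟨i, Nat.lt_succ_of_lt hi⟩ = i := Fin.ext rfl
    rw [h3, if_neg (by
      intro h'
      have := congrArg Fin.val h'
      simp only [Fin.val_last] at this
      omega)] at h2
    rw [h2, zero_smul] at h1
    exact h1
  have hst : OpU false c (OpU true (h j) x) ∈ Nn h X Y j p := by
    have := Nn_stable h (X := X) (Y := Y) (j : ℕ) false c
      (fun i hi p f _ => by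
        rw [hI0 i hi f]
        exact Submodule.zero_mem _) (-p) _ hjx
    rwa [neg_neg] at this
  rw [← hI x, Nn_succ]
  exact Submodule.add_mem_sup hst ⟨_, OpU_mem hx false c, rfl⟩

end ops

end Vale.Agent.P200F.S

end

section

namespace Vale.Agent.P200F.V

open Module MvPolynomial Vale.Agent.P200F.S

universe u

section cnt
variable {N : ℕ}

/-- the cardinality of a subset -/
def cnt (S : Fin N → Bool) : ℕ := ∑ i, if S i then 1 else 0

theorem cnt_update_true (S : Fin N → Bool) (m : Fin N) (h : S m = true) :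
    cnt (Function.update S m false) + 1 = cnt S := by
  classical
  rw [cnt, cnt, ← Finset.add_sum_erase _ _ (Finset.mem_univ m),
    ← Finset.add_sum_erase (f := fun i => if S i = true then 1 else 0) _ (Finset.mem_univ m),
    Function.update_self, h]
  have h1 : ∑ x ∈ Finset.univ.erase m,
      (if Function.update S m false x = true then 1 else 0) =
      ∑ x ∈ Finset.univ.erase m, if S x = true then 1 else 0 := by
    apply Finset.sum_congr rfl
    intro i hi
    rw [Function.update_of_ne (Finset.ne_of_mem_erase hi)]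
  rw [h1]
  simp [add_comm]

theorem cnt_update_false (S : Fin N → Bool) (m : Fin N) (h : S m = false) :
    cnt (Function.update S m true) = cnt S + 1 := by
  have h1 := cnt_update_true (Function.update S m true) m (by rw [Function.update_self])
  rw [Function.update_idem] at h1
  have h2 : Function.update S m false = S := by rw [← h, Function.update_eq_self]
  rw [h2] at h1
  exact h1.symm

/-- the degrees of the basis vectors -/
def shK {J ι : Type} [AddCommGroup ι] (N : ℕ) (δ : ι) (sh : J → ι) (q : (Fin N → Bool) × J) : ι :=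
  sh q.2 + cnt q.1 • δ

end cnt

section hom
variable {k : Type u} [Field k] {σ ι J : Type} [AddCommGroup ι] {wt : σ → ι} {sh : J → ι}

theorem dg_add' (wt : σ → ι) (e e' : σ →₀ ℕ) : dg wt (e + e') = dg wt e + dg wt e' := by
  classical
  unfold dg
  exact Finsupp.sum_add_index' (fun v => zero_smul _ _) (fun v m m' => add_smul _ _ _)

theorem mul_hom {p f : MvPolynomial σ k} {α s ν : ι} (hp : ∀ e, coeff e p ≠ 0 → dg wt e = α)
    (hf : ∀ e, coeff e f ≠ 0 → dg wt e + s = ν) :
    ∀ e, coeff e (p * f) ≠ 0 → dg wt e + s = ν + α := by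
  classical
  intro e he
  rw [coeff_mul] at he
  obtain ⟨x, hx, hx'⟩ := Finset.exists_ne_zero_of_sum_ne_zero he
  have hx := Finset.HasAntidiagonal.mem_antidiagonal.1 hx
  have h1 := hp x.1 (left_ne_zero_of_mul hx')
  have h2 := hf x.2 (right_ne_zero_of_mul hx')
  rw [← hx, dg_add', h1, ← h2]
  abel

theorem sgn_eq (P : Type*) [CommRing P] {N : ℕ} (m : Fin N) (S : Fin N → Bool) :
    sgn P m S = 1 ∨ sgn P m S = -1 := by
  classical
  unfold sgn
  refine Finset.prod_induction _ (fun x => x = 1 ∨ x = -1) ?_ (Or.inl rfl) ?_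
  · rintro a b (rfl | rfl) (rfl | rfl) <;> simp
  · intro i _
    cases S i
    · exact Or.inl rfl
    · exact Or.inr rfl

theorem sgn_mul_hom {N : ℕ} (m : Fin N) (S : Fin N → Bool) {f : MvPolynomial σ k} {s ν : ι}
    (hf : ∀ e, coeff e f ≠ 0 → dg wt e + s = ν) :
    ∀ e, coeff e (sgn (MvPolynomial σ k) m S * f) ≠ 0 → dg wt e + s = ν := by
  intro e he
  rcases sgn_eq (MvPolynomial σ k) m S with h | h
  · rw [h, one_mul] at he
    exact hf e he
  · rw [h, neg_one_mul, coeff_neg, neg_ne_zero] at he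
    exact hf e he

theorem sum_hom {κ : Type*} (s : Finset κ) {f : κ → MvPolynomial σ k} {a ν : ι}
    (hf : ∀ m ∈ s, ∀ e, coeff e (f m) ≠ 0 → dg wt e + a = ν) :
    ∀ e, coeff e (∑ m ∈ s, f m) ≠ 0 → dg wt e + a = ν := by
  intro e he
  rw [coeff_sum] at he
  obtain ⟨m, hm, hm'⟩ := Finset.exists_ne_zero_of_sum_ne_zero he
  exact hf m hm e hm'

/-- multiplication by homogeneous elements of the exterior algebra -/
theorem isDeg_true {N : ℕ} (δ : ι) {a : Fin N → MvPolynomial σ k} {α : ι}
    (ha : ∀ m e, coeff e (a m) ≠ 0 → dg wt e = α) :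
    IsDeg wt (shK N δ sh) (shK N δ sh) (α + δ) (OpU true a) := by
  intro ν f hf q
  obtain ⟨S, j⟩ := q
  rw [OpU_apply]
  refine sum_hom _ fun m _ => ?_
  by_cases h : S m = true
  · rw [if_pos h]
    have h1 : ∀ e, coeff e (f (Function.update S m (!true), j)) ≠ 0 →
        dg wt e + shK N δ sh (S, j) = ν + δ := by
      intro e he
      have h2 := hf (Function.update S m (!true), j) e he
      rw [← h2]
      have h3 := cnt_update_true S m h
      unfold shK
      rw [← h3]
      change dg wt e + (sh j + (cnt (Function.update S m false) + 1) • δ) =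
        dg wt e + (sh j + cnt (Function.update S m false) • δ) + δ
      rw [succ_nsmul]
      abel
    have h4 := mul_hom (ha m) (sgn_mul_hom m S h1)
    rw [show ν + (α + δ) = ν + δ + α by abel]
    exact h4
  · rw [if_neg h, mul_zero]
    intro e he
    exact absurd (coeff_zero e) he

/-- contraction by homogeneous elements -/
theorem isDeg_false {N : ℕ} (δ : ι) {a : Fin N → MvPolynomial σ k}
    (ha : ∀ m e, coeff e (a m) ≠ 0 → dg wt e = δ) :
    IsDeg wt (shK N δ sh) (shK N δ sh) 0 (OpU false a) := by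
  intro ν f hf q
  obtain ⟨S, j⟩ := q
  rw [OpU_apply]
  refine sum_hom _ fun m _ => ?_
  by_cases h : S m = false
  · rw [if_pos h]
    have h1 : ∀ e, coeff e (f (Function.update S m (!false), j)) ≠ 0 →
        dg wt e + shK N δ sh (S, j) = ν - δ := by
      intro e he
      have h2 := hf (Function.update S m (!false), j) e he
      rw [← h2]
      have h3 := cnt_update_false S m h
      unfold shK
      change dg wt e + (sh j + cnt S • δ) =
        dg wt e + (sh j + cnt (Function.update S m true) • δ) - δ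
      rw [h3, succ_nsmul]
      abel
    have h4 := mul_hom (ha m) (sgn_mul_hom m S h1)
    rw [show ν + 0 = ν - δ + δ by abel]
    exact h4
  · rw [if_neg h, mul_zero]
    intro e he
    exact absurd (coeff_zero e) he

theorem cmp_shK {N : ℕ} (δ ν : ι) (f : (Fin N → Bool) × J → MvPolynomial σ k)
    (S : Fin N → Bool) :
    (fun j => cmp wt (shK N δ sh) ν f (S, j)) =
      cmp wt sh (ν - cnt S • δ) (fun j => f (S, j)) := by
  funext j
  have h1 : ∀ e : σ →₀ ℕ, dg wt e + shK N δ sh (S, j) = ν ↔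
      dg wt e + sh j = ν - cnt S • δ := by
    intro e
    unfold shK
    change dg wt e + (sh j + cnt S • δ) = ν ↔ _
    rw [← add_assoc, eq_sub_iff_add_eq]
  unfold cmp
  rw [Finset.sum_filter, Finset.sum_filter]
  apply Finset.sum_congr rfl
  intro e _
  by_cases h : dg wt e + shK N δ sh (S, j) = ν
  · rw [if_pos h, if_pos ((h1 e).1 h)]
  · rw [if_neg h, if_neg fun h' => h ((h1 e).2 h')]

theorem HomS.pwf {N : ℕ} (δ : ι)
    {X : (Fin N → Bool) → Submodule (MvPolynomial σ k) (J → MvPolynomial σ k)}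
    (hX : ∀ S, HomS wt sh (X S)) : HomS wt (shK N δ sh) (S.pwf X) := by
  intro f hf ν S
  rw [cmp_shK]
  exact hX S _ (hf S) _

theorem homS_px {N : ℕ} [Fintype σ] [Fintype J]
    {X : Submodule (MvPolynomial σ k) (J → MvPolynomial σ k)} (hX : HomS wt sh X) (p : ℤˣ)
    (S : Fin N → Bool) : HomS wt sh (px X p S) := by
  unfold px
  split_ifs
  · exact hX
  · exact homS_bot

theorem HomS.pwp {N : ℕ} [Fintype σ] [Fintype J] (δ : ι)
    {X : Submodule (MvPolynomial σ k) (J → MvPolynomial σ k)} (hX : HomS wt sh X) (p : ℤˣ) :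
    HomS wt (shK N δ sh) (pwp N X p) :=
  HomS.pwf δ fun S => homS_px hX p S

end hom

section dim
variable {k : Type u} [Field k] {σ ι J : Type} [Fintype σ] [Fintype J] [AddCommGroup ι]
  {wt : σ → ι} {sh : J → ι}

/-- the components of degree `ν` of the families -/
noncomputable def gpartEquiv {N : ℕ} (δ ν : ι)
    (X : (Fin N → Bool) → Submodule (MvPolynomial σ k) (J → MvPolynomial σ k)) :
    gpart wt (shK N δ sh) (pwf X) ν ≃ₗ[k] ∀ S, gpart wt sh (X S) (ν - cnt S • δ) where
  toFun f S := ⟨fun j => f.1 (S, j), f.2.1 S, fun j e he => by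
    have h1 := f.2.2 (S, j) e he
    unfold shK at h1
    change dg wt e + (sh j + cnt S • δ) = ν at h1
    rw [← add_assoc] at h1
    exact eq_sub_of_add_eq h1⟩
  map_add' _ _ := rfl
  map_smul' _ _ := rfl
  invFun g := ⟨fun q => (g q.1).1 q.2, fun S => (g S).2.1, fun q e he => by
    have h1 := (g q.1).2.2 q.2 e he
    unfold shK
    rw [← add_assoc]
    exact add_eq_of_eq_sub h1⟩
  left_inv _ := rfl
  right_inv _ := rfl

theorem hd_pwf (hwt : Pos wt) {N : ℕ} (δ ν : ι)
    (X : (Fin N → Bool) → Submodule (MvPolynomial σ k) (J → MvPolynomial σ k)) :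
    hd wt (shK N δ sh) (pwf X) ν = ∑ S, hd wt sh (X S) (ν - cnt S • δ) := by
  unfold hd
  have : ∀ S, FiniteDimensional k (gpart wt sh (X S) (ν - cnt S • δ)) :=
    fun S => finite_gpart hwt _ _
  rw [LinearEquiv.finrank_eq (gpartEquiv δ ν X), Module.finrank_pi_fintype]

omit [Fintype σ] [Fintype J] in
theorem hd_bot (ν : ι) :
    hd wt sh (⊥ : Submodule (MvPolynomial σ k) (J → MvPolynomial σ k)) ν = 0 := by
  unfold hd
  have h1 : gpart wt sh (⊥ : Submodule (MvPolynomial σ k) (J → MvPolynomial σ k)) ν = ⊥ := by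
    rw [eq_bot_iff]
    intro f hf
    exact hf.1
  rw [h1, finrank_bot]

theorem act_single (c : ℤ) (δ : ι) (f : ι → ℤ) (ν : ι) :
    act ι (AddMonoidAlgebra.single δ c) f ν = c * f (ν - δ) := by
  have h1 : AddMonoidAlgebra.single δ c = c • el δ := by
    rw [el, AddMonoidAlgebra.smul_single, smul_eq_mul, mul_one]
  rw [h1, map_smul, LinearMap.smul_apply, Pi.smul_apply, act_el, smul_eq_mul]

/-- the Euler characteristic of the exterior algebra -/
theorem sum_pr {N : ℕ} (δ : ι) :
    ∑ S : Fin N → Bool, ((pr S : ℤˣ) : ℤ) • el (cnt S • δ) = (1 - el δ) ^ N := by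
  classical
  have h1 : ∀ S : Fin N → Bool, ((pr S : ℤˣ) : ℤ) • el (cnt S • δ) =
      ∏ i, if S i then - el δ else 1 := by
    intro S
    have h2 : ∀ i, (if S i = true then - el δ else 1) =
        ((if S i then -1 else 1 : ℤ) : AddMonoidAlgebra ℤ ι) * (el δ) ^ (if S i then 1 else 0) := by
      intro i
      cases S i <;> simp
    rw [Finset.prod_congr rfl fun i _ => h2 i, Finset.prod_mul_distrib, Finset.prod_pow_eq_pow_sum,
      el_nsmul, ← Int.cast_prod, zsmul_eq_mul]
    congr 2
    rw [pr, Units.coe_prod]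
    apply Finset.prod_congr rfl
    intro i _
    cases S i <;> simp
  rw [Finset.sum_congr rfl fun S _ => h1 S]
  have h3 := (Finset.prod_univ_sum (fun _ : Fin N => (Finset.univ : Finset Bool))
    (fun _ b => if b = true then - el δ else 1)).symm
  rw [Fintype.piFinset_univ] at h3
  rw [h3, Finset.prod_const, Finset.card_univ, Fintype.card_fin, Fintype.sum_bool, if_pos rfl,
    if_neg Bool.false_ne_true]
  congr 1
  ring

theorem sum_pr_act {N : ℕ} (δ : ι) (f : ι → ℤ) (ν : ι) :
    ∑ S : Fin N → Bool, ((pr S : ℤˣ) : ℤ) * f (ν - cnt S • δ) =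
      act ι ((1 - el δ) ^ N) f ν := by
  rw [← sum_pr, map_sum, LinearMap.sum_apply, Finset.sum_apply]
  apply Finset.sum_congr rfl
  intro S _
  rw [map_smul, LinearMap.smul_apply, Pi.smul_apply, act_el, smul_eq_mul]

theorem hd_pwp_sub (hwt : Pos wt) {N : ℕ} (δ ν : ι)
    (X : Submodule (MvPolynomial σ k) (J → MvPolynomial σ k)) :
    (hd wt (shK N δ sh) (pwp N X 1) ν : ℤ) - hd wt (shK N δ sh) (pwp N X (-1)) ν =
      act ι ((1 - el δ) ^ N) (fun ν => (hd wt sh X ν : ℤ)) ν := by
  unfold pwp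
  rw [hd_pwf hwt, hd_pwf hwt, ← sum_pr_act, Nat.cast_sum, Nat.cast_sum,
    ← Finset.sum_sub_distrib]
  apply Finset.sum_congr rfl
  intro S _
  unfold px
  rcases Int.units_eq_one_or (pr S) with h | h
  · rw [h, if_pos rfl, if_neg (by decide), hd_bot]
    simp
  · rw [h, if_pos rfl, if_neg (by decide), hd_bot]
    simp

end dim

end Vale.Agent.P200F.V

end

section

namespace Vale.Agent.P200F.V

open Module MvPolynomial Vale.Agent.P200F.S

universe u

section ev
variable {ι : Type}

theorem EvEq2.add_k {f g f' g' : (ι → ℤ) × ℤ → ℤ} (h : EvEq2 f g) (h' : EvEq2 f' g') :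
    EvEq2 (f + f') (g + g') := by
  obtain ⟨n0, h⟩ := h
  obtain ⟨n1, h'⟩ := h'
  exact ⟨max n0 n1, fun n t hn => congrArg₂ (· + ·)
    (h n t fun i => (le_max_left _ _).trans (hn i)) (h' n t fun i => (le_max_right _ _).trans (hn i))⟩

theorem EvEq2.act_k [Fintype ι] {f g : (ι → ℤ) × ℤ → ℤ} (h : EvEq2 f g)
    (a : AddMonoidAlgebra ℤ ((ι → ℤ) × ℤ)) : EvEq2 (act _ a f) (act _ a g) := by
  classical
  induction a using AddMonoidAlgebra.induction_linear with
  | zero =>
    rw [map_zero]
    exact ⟨0, fun _ _ _ => rfl⟩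
  | add a b ha hb =>
    rw [map_add]
    exact ha.add_k hb
  | single δ c =>
    obtain ⟨n0, h⟩ := h
    refine ⟨n0 + ∑ i, |δ.1 i|, fun n t hn => ?_⟩
    rw [act_single, act_single]
    have h1 : f ((n, t) - δ) = g ((n, t) - δ) := by
      apply h
      intro i
      have h2 := hn i
      have h3 : |δ.1 i| ≤ ∑ i, |δ.1 i| :=
        Finset.single_le_sum (f := fun i => |δ.1 i|) (fun i _ => abs_nonneg _)
          (Finset.mem_univ i)
      have h4 := le_abs_self (δ.1 i)
      change n0 ≤ n i - δ.1 i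
      linarith
    rw [h1]

end ev

section kos
variable {k : Type u} [Field k] {σ ι J : Type} [Fintype σ] [Fintype J] [Fintype ι]
  {wt : σ → (ι → ℤ) × ℤ} {sh : J → (ι → ℤ) × ℤ} {N r : ℕ}

/-- the Euler characteristic of `𝒦 / N_j` -/
noncomputable def chiK (wt : σ → (ι → ℤ) × ℤ) (sh : J → (ι → ℤ) × ℤ) (δ : (ι → ℤ) × ℤ)
    (h : Fin r → Fin N → MvPolynomial σ k)
    (X Y : Submodule (MvPolynomial σ k) (J → MvPolynomial σ k)) (j : ℕ)
    (ν : (ι → ℤ) × ℤ) : ℤ :=
  ((hd wt (shK N δ sh) (pwp N X 1) ν : ℤ) - hd wt (shK N δ sh) (Nn h X Y j 1) ν) -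
    ((hd wt (shK N δ sh) (pwp N X (-1)) ν : ℤ) - hd wt (shK N δ sh) (Nn h X Y j (-1)) ν)

variable {δ : (ι → ℤ) × ℤ} {α : Fin r → (ι → ℤ) × ℤ} {h : Fin r → Fin N → MvPolynomial σ k}
  {X Y : Submodule (MvPolynomial σ k) (J → MvPolynomial σ k)} {J0 : Set (MvPolynomial σ k)}

omit [Fintype ι] in
theorem homS_Nn (hh : ∀ c m e, coeff e (h c m) ≠ 0 → dg wt e = α c) (hX : HomS wt sh X)
    (hY : HomS wt sh Y) :
    ∀ (j : ℕ), j ≤ r → ∀ (p : ℤˣ), HomS wt (shK N δ sh) (Nn h X Y j p) := by
  intro j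
  induction j with
  | zero =>
    intro _ p
    rw [Nn_zero]
    exact hY.pwp δ p
  | succ j ih =>
    intro hj p
    have h1 := Nn_succ h X Y ⟨j, hj⟩ p
    change Nn h X Y (j + 1) p = _ at h1
    rw [h1]
    exact (ih (Nat.le_of_succ_le hj) p).sup ((hX.pwp δ (-p)).map (isDeg_true δ (hh ⟨j, hj⟩)))

omit [Fintype σ] [Fintype J] [Fintype ι] in
/-- the ideal generated by `J0` maps `X` into `Y` -/
theorem span_smul_mem (h0 : ∀ q ∈ J0, ∀ f ∈ X, q • f ∈ Y) {q : MvPolynomial σ k}
    (hq : q ∈ (Ideal.span J0 : Ideal (MvPolynomial σ k))) {f : J → MvPolynomial σ k}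
    (hf : f ∈ X) : q • f ∈ Y := by
  induction hq using Submodule.span_induction with
  | mem q hq => exact h0 q hq f hf
  | zero =>
    rw [zero_smul]
    exact Y.zero_mem
  | add a b _ _ ha hb =>
    rw [add_smul]
    exact Y.add_mem ha hb
  | smul c a _ ha =>
    rw [smul_eq_mul, mul_smul]
    exact Y.smul_mem c ha

/-- the kernel of `η_j` on `𝒦 / N_j` is eventually `N_(j+1)` -/
theorem ker_eta (hwt : Pos wt) (blk : σ → Option ι)
    (hblk : ∀ v i, (wt v).1 i = open scoped Classical in if blk v = some i then 1 else 0)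
    (hh : ∀ c m e, coeff e (h c m) ≠ 0 → dg wt e = α c) (hX : HomS wt sh X) (hY : HomS wt sh Y)
    (hYX : Y ≤ X) (h0 : ∀ q ∈ J0, ∀ f ∈ X, q • f ∈ Y) (j : Fin r)
    (hmin : ∃ d : ℕ, ∀ mon : σ →₀ ℕ, (∀ b, d ≤ bdeg blk mon b) →
      monomial mon (1 : k) ∈ (Ideal.span (J0 ∪ {q | ∃ g : Fin (j + 1) → Fin N,
        q = (Matrix.of fun (a b : Fin (j + 1)) => h (Fin.castLE j.2 a) (g b)).det}) :
        Ideal (MvPolynomial σ k))) (p : ℤˣ) :
    ∃ n0 : ℤ, ∀ (n : ι → ℤ) (t : ℤ), (∀ i, n0 ≤ n i) →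
      hd wt (shK N δ sh) (kerIn (OpU true (h j)) (pwp N X p) (Nn h X Y j (-p))) (n, t) =
        hd wt (shK N δ sh) (Nn h X Y (j + 1) p) (n, t) := by
  obtain ⟨d, hd'⟩ := hmin
  refine hd_eq_of_killed hwt blk hblk
    (HomS.kerIn (isDeg_true δ (hh j)) (hX.pwp δ p) (homS_Nn hh hX hY j j.2.le (-p)))
    (homS_Nn hh hX hY (j + 1) j.2 p) ?_ d ?_
  · intro x hx
    exact ⟨Nn_le h hYX _ _ hx, eta_mem h j p hx⟩
  · intro e he f hf
    have h1 : ∀ q ∈ (Ideal.span (J0 ∪ {q | ∃ g : Fin (j + 1) → Fin N,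
        q = (Matrix.of fun (a b : Fin (j + 1)) => h (Fin.castLE j.2 a) (g b)).det}) :
        Ideal (MvPolynomial σ k)), q • f ∈ Nn h X Y (j + 1) p := by
      intro q hq
      induction hq using Submodule.span_induction with
      | mem q hq =>
        rcases hq with hq | ⟨g, rfl⟩
        · exact Submodule.mem_sup_left (smul_mem_pwp (h0 q hq) hf.1)
        · exact minor_smul_mem_Nn h j g p hf.1 hf.2
      | zero =>
        rw [zero_smul]
        exact Submodule.zero_mem _
      | add a b _ _ ha hb =>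
        rw [add_smul]
        exact Submodule.add_mem _ ha hb
      | smul c a _ ha =>
        rw [smul_eq_mul, mul_smul]
        exact Submodule.smul_mem _ c ha
    exact h1 _ (hd' e he)

/-- one step -/
theorem chiK_step (hwt : Pos wt) (blk : σ → Option ι)
    (hblk : ∀ v i, (wt v).1 i = open scoped Classical in if blk v = some i then 1 else 0)
    (hh : ∀ c m e, coeff e (h c m) ≠ 0 → dg wt e = α c) (hX : HomS wt sh X) (hY : HomS wt sh Y)
    (hYX : Y ≤ X) (h0 : ∀ q ∈ J0, ∀ f ∈ X, q • f ∈ Y) (j : Fin r)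
    (hmin : ∃ d : ℕ, ∀ mon : σ →₀ ℕ, (∀ b, d ≤ bdeg blk mon b) →
      monomial mon (1 : k) ∈ (Ideal.span (J0 ∪ {q | ∃ g : Fin (j + 1) → Fin N,
        q = (Matrix.of fun (a b : Fin (j + 1)) => h (Fin.castLE j.2 a) (g b)).det}) :
        Ideal (MvPolynomial σ k))) :
    EvEq2 (chiK wt sh δ h X Y j) (act _ (1 - el (α j + δ)) (chiK wt sh δ h X Y (j + 1))) := by
  obtain ⟨n0, hn0⟩ := ker_eta (δ := δ) hwt blk hblk hh hX hY hYX h0 j hmin 1
  obtain ⟨n1, hn1⟩ := ker_eta (δ := δ) hwt blk hblk hh hX hY hYX h0 j hmin (-1)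
  refine ⟨max n0 n1 + ∑ i, |(α j + δ).1 i|, fun n t hn => ?_⟩
  have hsub : ((n, t) : (ι → ℤ) × ℤ) - (α j + δ) = (n - (α j + δ).1, t - (α j + δ).2) := rfl
  have hle : ∀ i, max n0 n1 ≤ (n - (α j + δ).1) i := by
    intro i
    have h2 := hn i
    have h3 : |(α j + δ).1 i| ≤ ∑ i, |(α j + δ).1 i| :=
      Finset.single_le_sum (f := fun i => |(α j + δ).1 i|) (fun i _ => abs_nonneg _)
        (Finset.mem_univ i)
    have h4 := le_abs_self ((α j + δ).1 i)
    change max n0 n1 ≤ n i - (α j + δ).1 i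
    linarith
  have e0 := hn0 _ (t - (α j + δ).2) fun i => (le_max_left _ _).trans (hle i)
  have e1 := hn1 _ (t - (α j + δ).2) fun i => (le_max_right _ _).trans (hle i)
  have key : ∀ p : ℤˣ, hd wt (shK N δ sh) (pwp N X p) ((n, t) - (α j + δ)) +
      hd wt (shK N δ sh) (Nn h X Y j (-p)) (n, t) =
      hd wt (shK N δ sh) (kerIn (OpU true (h j)) (pwp N X p) (Nn h X Y j (-p)))
        ((n, t) - (α j + δ)) + hd wt (shK N δ sh) (Nn h X Y (j + 1) (-p)) (n, t) := by
    intro p
    have h1 := hd_kerIn hwt (isDeg_true (sh := sh) δ (hh j)) (hX.pwp δ p)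
      (homS_Nn (δ := δ) hh hX hY j j.2.le (-p)) ((n, t) - (α j + δ))
    rw [sub_add_cancel] at h1
    rw [Nn_succ, neg_neg]
    exact h1
  have k0 := key 1
  have k1 := key (-1)
  rw [hsub, e0] at k0
  rw [neg_neg, hsub] at k1
  rw [neg_neg] at e1
  rw [e1] at k1
  rw [map_sub, map_one, LinearMap.sub_apply, Pi.sub_apply, Module.End.one_apply, act_el, hsub]
  unfold chiK
  zify at k0 k1
  linarith

/-- all steps -/
theorem chiK_prod (hwt : Pos wt) (blk : σ → Option ι)
    (hblk : ∀ v i, (wt v).1 i = open scoped Classical in if blk v = some i then 1 else 0)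
    (hh : ∀ c m e, coeff e (h c m) ≠ 0 → dg wt e = α c) (hX : HomS wt sh X) (hY : HomS wt sh Y)
    (hYX : Y ≤ X) (h0 : ∀ q ∈ J0, ∀ f ∈ X, q • f ∈ Y)
    (hmin : ∀ j : Fin r, ∃ d : ℕ, ∀ mon : σ →₀ ℕ, (∀ b, d ≤ bdeg blk mon b) →
      monomial mon (1 : k) ∈ (Ideal.span (J0 ∪ {q | ∃ g : Fin (j + 1) → Fin N,
        q = (Matrix.of fun (a b : Fin (j + 1)) => h (Fin.castLE j.2 a) (g b)).det}) :
        Ideal (MvPolynomial σ k))) :
    EvEq2 (chiK wt sh δ h X Y 0)
      (act _ (∏ j : Fin r, (1 - el (α j + δ))) (chiK wt sh δ h X Y r)) := by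
  have h1 : ∀ j ≤ r, EvEq2 (chiK wt sh δ h X Y 0)
      (act _ (∏ i ∈ Finset.range j, if hi : i < r then (1 - el (α ⟨i, hi⟩ + δ)) else 1)
        (chiK wt sh δ h X Y j)) := by
    intro j
    induction j with
    | zero =>
      intro _
      rw [Finset.prod_range_zero, map_one]
      exact ⟨0, fun _ _ _ => rfl⟩
    | succ j ih =>
      intro hj
      have h2 := (chiK_step (δ := δ) hwt blk hblk hh hX hY hYX h0 ⟨j, hj⟩ (hmin ⟨j, hj⟩)).act_k
        (∏ i ∈ Finset.range j, if hi : i < r then (1 - el (α ⟨i, hi⟩ + δ)) else 1)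
      refine (ih (Nat.le_of_succ_le hj)).trans (h2.trans ?_)
      rw [Finset.prod_range_succ, dif_pos (Nat.lt_of_succ_le hj), map_mul, Module.End.mul_apply]
      exact ⟨0, fun _ _ _ => rfl⟩
  have h3 := h1 r le_rfl
  rw [Finset.prod_range] at h3
  have h4 : (∏ i : Fin r, if hi : (i : ℕ) < r then (1 - el (α ⟨i, hi⟩ + δ)) else 1) =
      ∏ j : Fin r, (1 - el (α j + δ)) := by
    apply Finset.prod_congr rfl
    intro i _
    rw [dif_pos i.2]
  rw [h4] at h3
  exact h3

omit [Fintype ι] in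
/-- the homology of `𝒦 / N_r` is killed by the `Y_m` -/
theorem chiK_mem (hwt : Pos wt) (hh : ∀ c m e, coeff e (h c m) ≠ 0 → dg wt e = α c)
    (hX : HomS wt sh X) (hY : HomS wt sh Y) (hYX : Y ≤ X)
    (h0 : ∀ q ∈ J0, ∀ f ∈ X, q • f ∈ Y) (y : Fin N → MvPolynomial σ k)
    (hy : ∀ m e, coeff e (y m) ≠ 0 → dg wt e = δ)
    (hF : ∀ c, ∑ m, y m * h c m ∈ (Ideal.span J0 : Ideal (MvPolynomial σ k))) :
    chiK wt sh δ h X Y r ∈ Hil k wt (J0 ∪ Set.range y) := by
  -- `d` preserves `N_r`
  have hd1 : ∀ p, ∀ f ∈ Nn h X Y r p, OpU false y f ∈ Nn h X Y r (-p) :=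
    Nn_stable h r false y fun i _ p f hf => by
      have h1 := OpU_contr false y (h i) f
      change OpU false y (OpU true (h i) f) + OpU true (h i) (OpU false y f) = _ at h1
      rw [h1]
      exact smul_mem_pwp (fun g hg => span_smul_mem h0 (hF i) hg) hf
  have hN : ∀ p, HomS wt (shK N δ sh) (Nn h X Y r p) := homS_Nn hh hX hY r le_rfl
  have hdeg : IsDeg wt (shK N δ sh) (shK N δ sh) 0 (OpU false y) := isDeg_false δ hy
  have hZ : ∀ p, HomS wt (shK N δ sh) (kerIn (OpU false y) (pwp N X p) (Nn h X Y r (-p))) :=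
    fun p => HomS.kerIn hdeg (hX.pwp δ p) (hN (-p))
  have hB : ∀ p, HomS wt (shK N δ sh) (Nn h X Y r p ⊔ (pwp N X (-p)).map (OpU false y)) :=
    fun p => (hN p).sup (HomS.map hdeg (hX.pwp δ (-p)))
  have hBZ : ∀ p, Nn h X Y r p ⊔ (pwp N X (-p)).map (OpU false y) ≤
      kerIn (OpU false y) (pwp N X p) (Nn h X Y r (-p)) := by
    intro p
    refine sup_le (fun f hf => ⟨Nn_le h hYX _ _ hf, hd1 p f hf⟩) ?_
    rintro _ ⟨f, hf, rfl⟩
    refine ⟨?_, ?_⟩
    · have := OpU_mem hf false y
      rwa [neg_neg] at this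
    · rw [SetLike.mem_coe, Submodule.mem_comap, OpU_self]
      exact Submodule.zero_mem _
  have hkill : ∀ p, ∀ q ∈ J0 ∪ Set.range y,
      ∀ f ∈ kerIn (OpU false y) (pwp N X p) (Nn h X Y r (-p)),
        q • f ∈ Nn h X Y r p ⊔ (pwp N X (-p)).map (OpU false y) := by
    rintro p q (hq | ⟨m, rfl⟩) f hf
    · exact Submodule.mem_sup_left (Submodule.mem_sup_left (smul_mem_pwp (h0 q hq) hf.1))
    · classical
      have h1 := OpU_contr false y (Pi.single m 1) f
      change OpU false y (OpU true (Pi.single m 1) f) +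
        OpU true (Pi.single m 1) (OpU false y f) = _ at h1
      have h2 : ∑ m', y m' * (Pi.single m 1 : Fin N → MvPolynomial σ k) m' = y m := by
        rw [Finset.sum_eq_single m]
        · rw [Pi.single_eq_same, mul_one]
        · intro m' _ hm'
          rw [Pi.single_eq_of_ne hm', mul_zero]
        · intro h'
          exact absurd (Finset.mem_univ _) h'
      rw [h2] at h1
      rw [← h1]
      refine Submodule.add_mem _ (Submodule.mem_sup_right ⟨_, OpU_mem hf.1 true _, rfl⟩)
        (Submodule.mem_sup_left ?_)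
      have h3 := Nn_stable h (X := X) (Y := Y) r true (Pi.single m 1) (fun i _ p f _ => by
        rw [OpU_anti]
        exact Submodule.zero_mem _) (-p) _ hf.2
      rwa [neg_neg] at h3
  have hmem := fun p => hil_sub hwt (hZ p) (hB p) (hBZ p) (hkill p)
  have heq : chiK wt sh δ h X Y r =
      (fun ν => (hd wt (shK N δ sh) (kerIn (OpU false y) (pwp N X 1) (Nn h X Y r (-1))) ν : ℤ) -
        hd wt (shK N δ sh) (Nn h X Y r 1 ⊔ (pwp N X (-1)).map (OpU false y)) ν) -
      (fun ν => (hd wt (shK N δ sh)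
        (kerIn (OpU false y) (pwp N X (-1)) (Nn h X Y r (- (-1)))) ν : ℤ) -
        hd wt (shK N δ sh) (Nn h X Y r (-1) ⊔ (pwp N X (- (-1))).map (OpU false y)) ν) := by
    funext ν
    have k0 := hd_kerIn hwt hdeg (hX.pwp δ 1) (hN (-1)) ν
    have k1 := hd_kerIn hwt hdeg (hX.pwp δ (-1)) (hN 1) ν
    rw [add_zero] at k0 k1
    rw [Pi.sub_apply, neg_neg]
    unfold chiK
    zify at k0 k1
    linarith
  rw [heq]
  exact sub_mem (hmem 1) (hmem (-1))

omit [Fintype ι] in
theorem chiK_zero (hwt : Pos wt) : chiK wt sh δ h X Y 0 =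
    act _ ((1 - el δ) ^ N) (fun ν => (hd wt sh X ν : ℤ) - hd wt sh Y ν) := by
  have h1 : (fun ν => (hd wt sh X ν : ℤ) - hd wt sh Y ν) =
      (fun ν => (hd wt sh X ν : ℤ)) - fun ν => (hd wt sh Y ν : ℤ) := rfl
  funext ν
  rw [h1, map_sub, Pi.sub_apply, ← hd_pwp_sub hwt, ← hd_pwp_sub hwt]
  unfold chiK
  rw [Nn_zero, Nn_zero]
  ring

end kos

section final
variable {k : Type u} [Field k] {σ ι : Type} [Fintype σ] [Fintype ι]
  {wt : σ → (ι → ℤ) × ℤ} {N r : ℕ}

/-- the Koszul lemma, general degrees -/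
theorem koszul_gen (hwt : Pos wt) (blk : σ → Option ι)
    (hblk : ∀ v i, (wt v).1 i = open scoped Classical in if blk v = some i then 1 else 0)
    {δ : (ι → ℤ) × ℤ} {α : Fin r → (ι → ℤ) × ℤ} (h : Fin r → Fin N → MvPolynomial σ k)
    (hh : ∀ c m e, coeff e (h c m) ≠ 0 → dg wt e = α c)
    (y : Fin N → MvPolynomial σ k) (hy : ∀ m e, coeff e (y m) ≠ 0 → dg wt e = δ)
    (J0 : Set (MvPolynomial σ k))
    (hF : ∀ c, ∑ m, y m * h c m ∈ (Ideal.span J0 : Ideal (MvPolynomial σ k)))
    (hmin : ∀ j : Fin r, ∃ d : ℕ, ∀ mon : σ →₀ ℕ, (∀ b, d ≤ bdeg blk mon b) →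
      monomial mon (1 : k) ∈ (Ideal.span (J0 ∪ {q | ∃ g : Fin (j + 1) → Fin N,
        q = (Matrix.of fun (a b : Fin (j + 1)) => h (Fin.castLE j.2 a) (g b)).det}) :
        Ideal (MvPolynomial σ k))) {f : (ι → ℤ) × ℤ → ℤ} (hf : f ∈ Hil k wt J0) :
    ∃ g ∈ Hil k wt (J0 ∪ Set.range y),
      EvEq2 (act _ ((1 - el δ) ^ N) f) (act _ (∏ c : Fin r, (1 - el (α c + δ))) g) := by
  unfold Hil at hf
  induction hf using AddSubgroup.closure_induction with
  | mem f hf =>
    obtain ⟨s, sh, M, hM, hM0, hfM⟩ := hf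
    have h0 : ∀ q ∈ J0, ∀ f ∈ (⊤ : Submodule (MvPolynomial σ k) (Fin s → MvPolynomial σ k)),
        q • f ∈ M := by
      intro q hq f _
      have h1 : q • f = ∑ j, f j • (Pi.single j q : Fin s → MvPolynomial σ k) := by
        funext i
        rw [Finset.sum_apply, Finset.sum_eq_single i]
        · rw [Pi.smul_apply, Pi.smul_apply, Pi.single_eq_same, smul_eq_mul, smul_eq_mul, mul_comm]
        · intro j _ hj
          rw [Pi.smul_apply, Pi.single_eq_of_ne hj.symm, smul_zero]
        · intro h'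
          exact absurd (Finset.mem_univ _) h'
      rw [h1]
      exact Submodule.sum_mem _ fun j _ => M.smul_mem _ (hM0 q hq j)
    have hf' : f = fun ν => (hd wt sh
        (⊤ : Submodule (MvPolynomial σ k) (Fin s → MvPolynomial σ k)) ν : ℤ) -
        hd wt sh M ν := funext hfM
    refine ⟨chiK wt sh δ h ⊤ M r, chiK_mem hwt hh homS_top hM le_top h0 y hy hF, ?_⟩
    rw [hf', ← chiK_zero (h := h) hwt]
    exact chiK_prod hwt blk hblk hh homS_top hM le_top h0 hmin
  | zero =>
    refine ⟨0, AddSubgroup.zero_mem _, ?_⟩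
    rw [map_zero, map_zero]
    exact ⟨0, fun _ _ _ => rfl⟩
  | add f f' _ _ hf hf' =>
    obtain ⟨g, hg, h1⟩ := hf
    obtain ⟨g', hg', h2⟩ := hf'
    refine ⟨g + g', AddSubgroup.add_mem _ hg hg', ?_⟩
    rw [map_add, map_add]
    exact h1.add_k h2
  | neg f _ hf =>
    obtain ⟨g, hg, n0, h1⟩ := hf
    refine ⟨-g, AddSubgroup.neg_mem _ hg, n0, ?_⟩
    intro n t hn
    rw [map_neg, map_neg, Pi.neg_apply, Pi.neg_apply, h1 n t hn]

end final

end Vale.Agent.P200F.V

end

section

namespace Vale.Agent.P200F.V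

section canc
variable {ι : Type}

/-- functions which are zero outside of a bounded interval for the last degree -/
def TB (F : (ι → ℤ) × ℤ → ℤ) : Prop := ∃ t0 t1 : ℤ, ∀ n t, t < t0 ∨ t1 < t → F (n, t) = 0

theorem TB.add {F G : (ι → ℤ) × ℤ → ℤ} (hF : TB F) (hG : TB G) : TB (F + G) := by
  obtain ⟨a, b, hF⟩ := hF
  obtain ⟨c, d, hG⟩ := hG
  refine ⟨min a c, max b d, fun n t ht => ?_⟩
  rw [Pi.add_apply, hF n t, hG n t, add_zero]
  · rcases ht with h | h
    · exact Or.inl (lt_of_lt_of_le h (min_le_right _ _))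
    · exact Or.inr (lt_of_le_of_lt (le_max_right _ _) h)
  · rcases ht with h | h
    · exact Or.inl (lt_of_lt_of_le h (min_le_left _ _))
    · exact Or.inr (lt_of_le_of_lt (le_max_left _ _) h)

theorem TB.smul {F : (ι → ℤ) × ℤ → ℤ} (hF : TB F) (c : ℤ) : TB (c • F) := by
  obtain ⟨a, b, hF⟩ := hF
  refine ⟨a, b, fun n t ht => ?_⟩
  rw [Pi.smul_apply, hF n t ht, smul_zero]

theorem act_add_apply {G : Type} [AddCommGroup G] (p q : AddMonoidAlgebra ℤ G) (f : G → ℤ) :
    act G (p + q) f = act G p f + act G q f := by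
  rw [map_add, LinearMap.add_apply]

theorem act_mul_apply {G : Type} [AddCommGroup G] (p q : AddMonoidAlgebra ℤ G) (f : G → ℤ) :
    act G (p * q) f = act G p (act G q f) := by
  rw [map_mul, Module.End.mul_apply]

theorem act_smul_apply {G : Type} [AddCommGroup G] (c : ℤ) (p : AddMonoidAlgebra ℤ G)
    (f : G → ℤ) : act G (c • p) f = c • act G p f := by
  rw [map_smul, LinearMap.smul_apply]

/-- induction over the group ring -/
theorem grp_induction {G : Type} [AddCommGroup G] {M : AddMonoidAlgebra ℤ G → Prop}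
    (h1 : ∀ δ, M (el δ)) (h2 : ∀ p q, M p → M q → M (p + q)) (h3 : ∀ (c : ℤ) p, M p → M (c • p))
    (p : AddMonoidAlgebra ℤ G) : M p := by
  refine AddMonoidAlgebra.induction_on (motive := M) p (fun g => h1 _)
    (fun f g hf hg => h2 f g hf hg) (fun r f hf => h3 r f hf)

theorem TB.act {F : (ι → ℤ) × ℤ → ℤ} (hF : TB F) (p : AddMonoidAlgebra ℤ ((ι → ℤ) × ℤ)) :
    TB (V.act ((ι → ℤ) × ℤ) p F) := by
  induction p using grp_induction with
  | h1 δ =>
    obtain ⟨a, b, hF⟩ := hF
    refine ⟨a + δ.2, b + δ.2, fun n t ht => ?_⟩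
    rw [act_el]
    refine hF (n - δ.1) (t - δ.2) ?_
    rcases ht with h | h
    · exact Or.inl (by linarith)
    · exact Or.inr (by linarith)
  | h2 p q hp hq =>
    rw [act_add_apply]
    exact hp.add hq
  | h3 c p hp =>
    rw [act_smul_apply]
    exact hp.smul c

/-- cancellation of `1 - L T` -/
theorem canc_one [Fintype ι] (β : ι → ℤ) {X : (ι → ℤ) × ℤ → ℤ} (hX : TB X)
    (h : EvEq2 (act ((ι → ℤ) × ℤ) (1 - el (β, (1 : ℤ))) X) 0) : EvEq2 X 0 := by
  obtain ⟨t0, t1, hX⟩ := hX
  obtain ⟨n0, h⟩ := h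
  set B : ℤ := ∑ i, |β i| with hB
  have hB0 : 0 ≤ B := Finset.sum_nonneg fun i _ => abs_nonneg _
  have hBi : ∀ i, β i ≤ B := fun i => (le_abs_self _).trans
    (Finset.single_le_sum (f := fun i => |β i|) (fun j _ => abs_nonneg _) (Finset.mem_univ i))
  have key : ∀ (m : ℕ) (n : ι → ℤ) (t : ℤ), (∀ i, n0 + m * B ≤ n i) → t ≤ t0 - 1 + m →
      X (n, t) = 0 := by
    intro m
    induction m with
    | zero =>
      intro n t _ ht
      exact hX n t (Or.inl (by push_cast at ht; linarith))
    | succ m ih =>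
      intro n t hn ht
      have h1 := h n t fun i => by
        have h2 := hn i
        have h3 : (0 : ℤ) ≤ ((m + 1 : ℕ) : ℤ) * B := mul_nonneg (Int.natCast_nonneg _) hB0
        linarith
      rw [map_sub, map_one, LinearMap.sub_apply, Pi.sub_apply, Module.End.one_apply, act_el,
        Pi.zero_apply] at h1
      have h4 : X ((n, t) - (β, (1 : ℤ))) = 0 := by
        refine ih (n - β) (t - 1) (fun i => ?_) (by push_cast at ht; linarith)
        have h5 := hn i
        have h6 := hBi i
        push_cast at h5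
        rw [Pi.sub_apply]
        linarith
      rw [h4, sub_zero] at h1
      exact h1
  refine ⟨n0 + (t1 - t0 + 1).toNat * B, fun n t hn => ?_⟩
  rw [Pi.zero_apply]
  by_cases ht : t1 < t
  · exact hX n t (Or.inr ht)
  · refine key _ n t hn ?_
    have := Int.self_le_toNat (t1 - t0 + 1)
    push Not at ht
    linarith

/-- cancellation of a product -/
theorem canc_prod {κ : Type} [Fintype ι] (C : Finset κ) (b : κ → ι → ℤ)
    {X : (ι → ℤ) × ℤ → ℤ} (hX : TB X)
    (h : EvEq2 (act ((ι → ℤ) × ℤ) (∏ c ∈ C, (1 - el (b c, (1 : ℤ)))) X) 0) : EvEq2 X 0 := by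
  classical
  induction C using Finset.induction_on with
  | empty =>
    rw [Finset.prod_empty, map_one, Module.End.one_apply] at h
    exact h
  | insert a s ha ih =>
    rw [Finset.prod_insert ha, act_mul_apply] at h
    exact ih (canc_one (b a) (hX.act _) h)

/-- the sum over the last degree -/
noncomputable def tsm (F : (ι → ℤ) × ℤ → ℤ) (n : ι → ℤ) : ℤ := ∑ᶠ t, F (n, t)

theorem TB.fin {F : (ι → ℤ) × ℤ → ℤ} (hF : TB F) (n : ι → ℤ) :
    (Function.support fun t => F (n, t)).Finite := by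
  obtain ⟨t0, t1, hF⟩ := hF
  refine (Set.finite_Icc t0 t1).subset fun t ht => ?_
  rw [Function.mem_support] at ht
  rw [Set.mem_Icc]
  by_contra hno
  refine ht (hF n t ?_)
  rw [not_and_or, not_le, not_le] at hno
  exact hno

theorem tsm_act {F : (ι → ℤ) × ℤ → ℤ} (hF : TB F) (p : AddMonoidAlgebra ℤ ((ι → ℤ) × ℤ)) :
    tsm (act ((ι → ℤ) × ℤ) p F) = act (ι → ℤ)
      (AddMonoidAlgebra.mapDomainAlgHom ℤ ℤ (AddMonoidHom.fst (ι → ℤ) ℤ) p) (tsm F) := by
  induction p using grp_induction with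
  | h1 δ =>
    have e1 : AddMonoidAlgebra.mapDomainAlgHom ℤ ℤ (AddMonoidHom.fst (ι → ℤ) ℤ) (el δ) =
        el δ.1 := by
      unfold el
      exact AddMonoidAlgebra.mapDomain_single
    rw [e1]
    funext n
    rw [act_el]
    unfold tsm
    have e2 : (fun t => act ((ι → ℤ) × ℤ) (el δ) F (n, t)) =
        fun t => F (n - δ.1, (Equiv.subRight δ.2) t) := by
      funext t
      rw [act_el]
      rfl
    rw [e2]
    exact finsum_comp_equiv (Equiv.subRight δ.2) (f := fun t => F (n - δ.1, t))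
  | h2 p q hp hq =>
    rw [act_add_apply, map_add, act_add_apply, ← hp, ← hq]
    funext n
    rw [Pi.add_apply]
    unfold tsm
    rw [← finsum_add_distrib ((hF.act p).fin n) ((hF.act q).fin n)]
    rfl
  | h3 c p hp =>
    rw [act_smul_apply, map_smul, act_smul_apply, ← hp]
    funext n
    rw [Pi.smul_apply]
    unfold tsm
    rw [smul_finsum]
    rfl

theorem tsm_eq {F : (ι → ℤ) × ℤ → ℤ} {t0 t1 : ℤ} (hF : ∀ n t, t < t0 ∨ t1 < t → F (n, t) = 0) :
    tsm F = fun n => ∑ t ∈ Finset.Icc t0 t1, F (n, t) := by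
  funext n
  unfold tsm
  refine finsum_eq_sum_of_support_subset _ fun t ht => ?_
  rw [Function.mem_support] at ht
  rw [Finset.coe_Icc, Set.mem_Icc]
  by_contra hno
  refine ht (hF n t ?_)
  rw [not_and_or, not_le, not_le] at hno
  exact hno

theorem map_ph {G G' : Type} [AddCommGroup G] [AddCommGroup G'] (φ : G →+ G') (e : ℕ) (δ : G) :
    AddMonoidAlgebra.mapDomainAlgHom ℤ ℤ φ (ph e δ) = ph e (φ δ) := by
  unfold ph
  rw [map_sum]
  refine Finset.sum_congr rfl fun i _ => ?_
  rw [map_pow]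
  congr 1
  unfold el
  exact AddMonoidAlgebra.mapDomain_single

end canc

/-- cancellation of `1 - L T` and `T = 1` -/
theorem lv_num {ι κ : Type} [Fintype ι] (C : Finset κ) (b : κ → ι → ℤ) (e : ℕ)
    {Q A : (ι → ℤ) × ℤ → ℤ} {t0 t1 : ℤ} (hQ : ∀ n t, t < t0 ∨ t1 < t → Q (n, t) = 0)
    (hA : ∀ n t, t < t0 ∨ t1 < t → A (n, t) = 0)
    (h : EvEq2 (act ((ι → ℤ) × ℤ) (∏ c ∈ C, (1 - el (b c, (1 : ℤ)))) Q)
      (act ((ι → ℤ) × ℤ) (∏ c ∈ C, (1 - el (e • b c, (e : ℤ)))) A)) :
    EvEq (fun n => ∑ t ∈ Finset.Icc t0 t1, Q (n, t))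
      (act (ι → ℤ) (∏ c ∈ C, ph e (b c)) fun n => ∑ t ∈ Finset.Icc t0 t1, A (n, t)) := by
  have tQ : TB Q := ⟨t0, t1, hQ⟩
  have tA : TB A := ⟨t0, t1, hA⟩
  have e1 : (∏ c ∈ C, (1 - el (e • b c, (e : ℤ)))) =
      (∏ c ∈ C, (1 - el (b c, (1 : ℤ)))) * ∏ c ∈ C, ph e (b c, (1 : ℤ)) := by
    rw [← Finset.prod_mul_distrib]
    refine Finset.prod_congr rfl fun c _ => ?_
    rw [ph_mul]
    congr 2
    rw [Prod.smul_mk, nsmul_one]
  rw [e1, act_mul_apply] at h
  set Φ : AddMonoidAlgebra ℤ ((ι → ℤ) × ℤ) := ∏ c ∈ C, ph e (b c, (1 : ℤ)) with hΦ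
  have tX : TB (Q + (-1 : ℤ) • act ((ι → ℤ) × ℤ) Φ A) := tQ.add ((tA.act Φ).smul _)
  have h1 : EvEq2 (act ((ι → ℤ) × ℤ) (∏ c ∈ C, (1 - el (b c, (1 : ℤ))))
      (Q + (-1 : ℤ) • act ((ι → ℤ) × ℤ) Φ A)) 0 := by
    obtain ⟨n0, h⟩ := h
    refine ⟨n0, fun n t hn => ?_⟩
    rw [map_add, map_smul, Pi.add_apply, Pi.smul_apply, h n t hn, Pi.zero_apply, neg_one_smul,
      add_neg_cancel]
  obtain ⟨n0, h2⟩ := canc_prod C b tX h1
  refine ⟨n0, fun n hn => ?_⟩
  have h3 : tsm Q n = tsm (act ((ι → ℤ) × ℤ) Φ A) n := by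
    unfold tsm
    refine finsum_congr fun t => ?_
    have h4 := h2 n t hn
    rw [Pi.add_apply, Pi.smul_apply, Pi.zero_apply, neg_one_smul] at h4
    linarith
  rw [tsm_act tA, tsm_eq hQ, tsm_eq hA, hΦ, map_prod] at h3
  rw [h3]
  have h5 : ∏ c ∈ C, (AddMonoidAlgebra.mapDomainAlgHom ℤ ℤ (AddMonoidHom.fst (ι → ℤ) ℤ))
      (ph e (b c, (1 : ℤ))) = ∏ c ∈ C, ph e (b c) := Finset.prod_congr rfl fun c _ =>
    map_ph (AddMonoidHom.fst (ι → ℤ) ℤ) e (b c, (1 : ℤ))
  rw [h5]

end Vale.Agent.P200F.V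

end

section

namespace Vale.Agent.P200F.V

open Module MvPolynomial

universe u

section lvt
variable {k : Type u} [Field k] {σ ι : Type} [Fintype σ] {wt : σ → (ι → ℤ) × ℤ}

/-- the last degree of a monomial -/
theorem lvt_dg_snd (e : σ →₀ ℕ) : (dg wt e).2 = ∑ v, (e v : ℤ) * (wt v).2 := by
  rw [dg, Finsupp.sum_fintype e (fun v m => m • wt v) (fun _ => zero_nsmul _), Prod.snd_sum]
  refine Finset.sum_congr rfl fun v _ => ?_
  rw [Prod.smul_snd, nsmul_eq_mul]

/-- a bound for finitely many integers -/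
theorem lvt_bound {s : ℕ} (a : Fin s → ℤ) : ∃ B : ℤ, ∀ j, |a j| ≤ B :=
  ⟨∑ j, |a j|, fun j => Finset.single_le_sum (f := fun j => |a j|) (fun _ _ => abs_nonneg _)
    (Finset.mem_univ j)⟩

theorem lv_below (h0 : ∀ v, 0 ≤ (wt v).2) {J0 : Set (MvPolynomial σ k)} {f : (ι → ℤ) × ℤ → ℤ}
    (hf : f ∈ Hil k wt J0) : ∃ t0 : ℤ, ∀ n t, t < t0 → f (n, t) = 0 := by
  unfold Hil at hf
  induction hf using AddSubgroup.closure_induction with
  | mem f hf =>
    obtain ⟨s, sh, N, hN, hJ, hfe⟩ := hf
    obtain ⟨B, hB⟩ := lvt_bound fun j => (sh j).2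
    refine ⟨-B, fun n t ht => ?_⟩
    have h1 : ∀ A : Submodule (MvPolynomial σ k) (Fin s → MvPolynomial σ k),
        hd wt sh A (n, t) = 0 := by
      intro A
      have h2 : gpart wt sh A (n, t) = ⊥ := by
        rw [eq_bot_iff]
        rintro g ⟨-, hg⟩
        rw [Submodule.mem_bot]
        funext j
        ext e
        rw [Pi.zero_apply, coeff_zero]
        by_contra hne
        have h3 := hg j e hne
        have h4 : (dg wt e).2 + (sh j).2 = t := by
          have := congrArg Prod.snd h3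
          rwa [Prod.snd_add] at this
        have h5 : 0 ≤ (dg wt e).2 := by
          rw [lvt_dg_snd]
          exact Finset.sum_nonneg fun v _ => mul_nonneg (Int.natCast_nonneg _) (h0 v)
        have h6 := neg_abs_le (sh j).2
        have h7 := hB j
        linarith
      rw [hd, h2, finrank_bot]
    rw [hfe, h1, h1, sub_self]
  | zero => exact ⟨0, fun _ _ _ => rfl⟩
  | add f g _ _ hf hg =>
    obtain ⟨t0, h1⟩ := hf
    obtain ⟨t1, h2⟩ := hg
    refine ⟨min t0 t1, fun n t ht => ?_⟩
    rw [Pi.add_apply, h1 n t (ht.trans_le (min_le_left _ _)),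
      h2 n t (ht.trans_le (min_le_right _ _)), add_zero]
  | neg f _ hf =>
    obtain ⟨t0, h1⟩ := hf
    refine ⟨t0, fun n t ht => ?_⟩
    rw [Pi.neg_apply, h1 n t ht, neg_zero]

theorem lv_above {J0 : Set (MvPolynomial σ k)}
    (h0 : ∀ v, (wt v).2 ≠ 0 → (X v : MvPolynomial σ k) ∈ J0)
    {f : (ι → ℤ) × ℤ → ℤ} (hf : f ∈ Hil k wt J0) : ∃ t1 : ℤ, ∀ n t, t1 < t → f (n, t) = 0 := by
  classical
  unfold Hil at hf
  induction hf using AddSubgroup.closure_induction with
  | mem f hf =>
    obtain ⟨s, sh, N, hN, hJ, hfe⟩ := hf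
    obtain ⟨B, hB⟩ := lvt_bound fun j => (sh j).2
    refine ⟨B, fun n t ht => ?_⟩
    -- the monomials with a variable of nonzero last degree
    have hmon : ∀ (e : σ →₀ ℕ) (c : k) (j : Fin s), (∃ v, e v ≠ 0 ∧ (wt v).2 ≠ 0) →
        (Pi.single j (monomial e c) : Fin s → MvPolynomial σ k) ∈ N := by
      rintro e c j ⟨v, hv, hw⟩
      have h1 : (monomial e c : MvPolynomial σ k) =
          monomial (e - Finsupp.single v 1) c * X v := by
        rw [X, monomial_mul, mul_one, tsub_add_cancel_of_le]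
        rw [Finsupp.single_le_iff]
        exact Nat.one_le_iff_ne_zero.2 hv
      have h2 : (Pi.single j (monomial e c) : Fin s → MvPolynomial σ k) =
          monomial (e - Finsupp.single v 1) c •
            (Pi.single j (X v) : Fin s → MvPolynomial σ k) := by
        rw [← Pi.single_smul, smul_eq_mul, h1]
      rw [h2]
      exact N.smul_mem _ (hJ _ (h0 v hw) j)
    have h1 : gpart wt sh (⊤ : Submodule (MvPolynomial σ k) (Fin s → MvPolynomial σ k)) (n, t) =
        gpart wt sh N (n, t) := by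
      apply le_antisymm
      · rintro g ⟨-, hg⟩
        refine ⟨?_, hg⟩
        change g ∈ N
        have h2 : g = ∑ j, ∑ e ∈ (g j).support,
            (Pi.single j (monomial e (coeff e (g j))) : Fin s → MvPolynomial σ k) := by
          have h3 : g = ∑ j, (Pi.single j (g j) : Fin s → MvPolynomial σ k) :=
            (Finset.univ_sum_single g).symm
          conv_lhs => rw [h3]
          refine Finset.sum_congr rfl fun j _ => ?_
          conv_lhs => rw [(g j).as_sum]
          exact map_sum (AddMonoidHom.single (fun _ : Fin s => MvPolynomial σ k) j) _ _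
        rw [h2]
        refine Submodule.sum_mem _ fun j _ => Submodule.sum_mem _ fun e he => hmon e _ j ?_
        by_contra hno
        push Not at hno
        have h4 : (dg wt e).2 + (sh j).2 = t := by
          have := congrArg Prod.snd (hg j e (mem_support_iff.1 he))
          rwa [Prod.snd_add] at this
        have h5 : (dg wt e).2 = 0 := by
          rw [lvt_dg_snd]
          refine Finset.sum_eq_zero fun v _ => ?_
          by_cases hv : e v = 0
          · rw [hv]
            simp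
          · rw [hno v hv, mul_zero]
        have h6 := le_abs_self (sh j).2
        have h7 := hB j
        linarith
      · exact inf_le_inf_right _ fun g _ => trivial
    have h2 : hd wt sh (⊤ : Submodule (MvPolynomial σ k) (Fin s → MvPolynomial σ k)) (n, t) =
        hd wt sh N (n, t) := by
      rw [hd, hd, h1]
    rw [hfe, h2, sub_self]
  | zero => exact ⟨0, fun _ _ _ => rfl⟩
  | add f g _ _ hf hg =>
    obtain ⟨t0, h1⟩ := hf
    obtain ⟨t1, h2⟩ := hg
    refine ⟨max t0 t1, fun n t ht => ?_⟩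
    rw [Pi.add_apply, h1 n t ((le_max_left _ _).trans_lt ht),
      h2 n t ((le_max_right _ _).trans_lt ht), add_zero]
  | neg f _ hf =>
    obtain ⟨t0, h1⟩ := hf
    refine ⟨t0, fun n t ht => ?_⟩
    rw [Pi.neg_apply, h1 n t ht, neg_zero]

end lvt

end Vale.Agent.P200F.V

end
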