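import Vale.Agent.P200F.Ns
import Vale.Agent.P200F.H1

set_option linter.all false

section

namespace Vale.Agent.P200F.V.SL

open Module MvPolynomial

universe u

section lead
variable {k : Type u} [Field k] {σ G S : Type} [AddCommGroup G] {wt : σ → G × ℤ}
  {sh : S → G × ℤ}

theorem cmp_Flt_eq_zero {n : G} {t : ℤ} {f : S → MvPolynomial σ k}
    (hf : f ∈ Flt k wt sh n (t - 1)) : cmp wt sh (n, t) f = 0 := by
  funext j
  refine MvPolynomial.ext _ _ fun m => ?_
  rw [coeff_cmp, Pi.zero_apply, coeff_zero]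
  split_ifs with h
  · by_contra h2
    have h3 := (hf j m h2).2
    rw [h] at h3
    exact absurd h3 (by simp)
  · rfl

theorem sub_cmp_mem_Flt {n : G} {t : ℤ} {f : S → MvPolynomial σ k}
    (hf : f ∈ Flt k wt sh n t) : f - cmp wt sh (n, t) f ∈ Flt k wt sh n (t - 1) := by
  intro j m hm
  rw [Pi.sub_apply, coeff_sub, coeff_cmp] at hm
  split_ifs at hm with h
  · exact absurd (sub_self _) hm
  · rw [sub_zero] at hm
    obtain ⟨h1, h2⟩ := hf j m hm
    refine ⟨h1, ?_⟩
    by_contra h3
    exact h (Prod.ext h1 (by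
      change (dg wt m + sh j).2 = t
      omega))

theorem finrank_lead (NA : Submodule (MvPolynomial σ k) (S → MvPolynomial σ k)) (n : G) (t : ℤ)
    [FiniteDimensional k (Flt k wt sh n t)] :
    finrank k (Flt k wt sh n t ⊓ NA.restrictScalars k : Submodule k _) =
      finrank k (Flt k wt sh n (t - 1) ⊓ NA.restrictScalars k : Submodule k _) +
        finrank k (lead wt sh NA (n, t)) := by
  have hfin : Module.Finite k (Flt k wt sh n t ⊓ NA.restrictScalars k : Submodule k _) :=
    Submodule.finiteDimensional_of_le inf_le_left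
  rw [← finrank_inf_ker_add (Flt k wt sh n t ⊓ NA.restrictScalars k) (cmpL wt sh (n, t))]
  have h1 : Flt k wt sh n t ⊓ NA.restrictScalars k ⊓ LinearMap.ker (cmpL wt sh (n, t)) =
      Flt k wt sh n (t - 1) ⊓ NA.restrictScalars k := by
    refine le_antisymm ?_ ?_
    · rintro f ⟨⟨hf, hN⟩, hk⟩
      refine ⟨?_, hN⟩
      have h2 := sub_cmp_mem_Flt hf
      have h3 : cmp wt sh (n, t) f = 0 := hk
      rw [h3, sub_zero] at h2
      exact h2
    · rintro f ⟨hf, hN⟩
      exact ⟨⟨Flt_mono n (by omega) hf, hN⟩, cmp_Flt_eq_zero hf⟩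
  have h2 : (Flt k wt sh n t ⊓ NA.restrictScalars k).map (cmpL wt sh (n, t)) =
      lead wt sh NA (n, t) := by
    refine le_antisymm ?_ ?_
    · rintro _ ⟨f, ⟨hf, hN⟩, rfl⟩
      refine ⟨cmp_gp _ f, f - cmp wt sh (n, t) f, sub_cmp_mem_Flt hf, ?_⟩
      change cmp wt sh (n, t) f + (f - cmp wt sh (n, t) f) ∈ NA
      rw [add_sub_cancel]
      exact hN
    · rintro f ⟨hf, r, hr, hfr⟩
      refine ⟨f + r, ⟨Submodule.add_mem _ (gp_le_Flt _ hf) (Flt_mono n (by omega) hr), hfr⟩, ?_⟩
      rw [map_add]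
      change cmp wt sh (n, t) f + cmp wt sh (n, t) r = f
      rw [cmp_of_mem hf, cmp_Flt_eq_zero hr, add_zero]
  rw [h1, h2]

theorem lead_top (ν : G × ℤ) :
    lead wt sh (⊤ : Submodule (MvPolynomial σ k) (S → MvPolynomial σ k)) ν = gp k wt sh ν := by
  refine le_antisymm (fun f hf => hf.1) fun f hf => ?_
  exact ⟨hf, 0, Submodule.zero_mem _, Submodule.mem_top⟩

/-- the dimension of the filtration of the quotient -/
noncomputable def aF (wt : σ → G × ℤ) (sh : S → G × ℤ)
    (NA : Submodule (MvPolynomial σ k) (S → MvPolynomial σ k)) (n : G) (t : ℤ) : ℤ :=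
  finrank k (Flt k wt sh n t) - finrank k (Flt k wt sh n t ⊓ NA.restrictScalars k : Submodule k _)

theorem hd_initM (NA : Submodule (MvPolynomial σ k) (S → MvPolynomial σ k)) (n : G) (t : ℤ)
    [FiniteDimensional k (Flt k wt sh n t)] :
    (hd wt sh (⊤ : Submodule (MvPolynomial σ k) (S → MvPolynomial σ k)) (n, t) : ℤ) -
      hd wt sh (initM wt sh NA) (n, t) = aF wt sh NA n t - aF wt sh NA n (t - 1) := by
  have h1 := finrank_lead (wt := wt) (sh := sh) NA n t
  have h2 := finrank_lead (wt := wt) (sh := sh) (⊤ : Submodule (MvPolynomial σ k) _) n t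
  rw [lead_top, Submodule.restrictScalars_top, inf_top_eq, inf_top_eq] at h2
  have h3 : hd wt sh (⊤ : Submodule (MvPolynomial σ k) (S → MvPolynomial σ k)) (n, t) =
      finrank k (gp k wt sh (n, t)) := by
    rw [hd, gpart, Submodule.restrictScalars_top, top_inf_eq]
  rw [h3, hd, gpart_initM, aF, aF]
  omega

end lead

section coef
variable {k : Type u} [Field k] {Z J : Type}

theorem sumAlg_monomial (m : Z ⊕ J →₀ ℕ) (c : k) :
    sumAlgEquiv k Z J (monomial m c) =
      monomial (Finsupp.sumFinsuppEquivProdFinsupp m).1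
        (monomial (Finsupp.sumFinsuppEquivProdFinsupp m).2 c) := by
  simp [sumAlgEquiv, monomial]

theorem coeff_sumAlg (p : MvPolynomial (Z ⊕ J) k) (a : Z →₀ ℕ) (y : J →₀ ℕ) :
    coeff y (coeff a (sumAlgEquiv k Z J p)) = coeff (Finsupp.sumElim a y) p := by
  classical
  induction p using MvPolynomial.induction_on' with
  | monomial m c =>
    rw [sumAlg_monomial, coeff_monomial, coeff_monomial]
    have h : m = Finsupp.sumElim a y ↔ (Finsupp.sumFinsuppEquivProdFinsupp m).1 = a ∧
        (Finsupp.sumFinsuppEquivProdFinsupp m).2 = y := by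
      have h0 : m = Finsupp.sumFinsuppEquivProdFinsupp.symm (a, y) ↔
          Finsupp.sumFinsuppEquivProdFinsupp m = (a, y) :=
        Equiv.eq_symm_apply _
      exact h0.trans Prod.ext_iff
    by_cases h1 : (Finsupp.sumFinsuppEquivProdFinsupp m).1 = a
    · rw [if_pos h1, coeff_monomial]
      by_cases h2 : (Finsupp.sumFinsuppEquivProdFinsupp m).2 = y
      · rw [if_pos h2, if_pos (h.mpr ⟨h1, h2⟩)]
      · rw [if_neg h2, if_neg fun h3 => h2 (h.mp h3).2]
    · rw [if_neg h1, coeff_zero, if_neg fun h3 => h1 (h.mp h3).1]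
  | add p q hp hq => rw [map_add, coeff_add, coeff_add, coeff_add, hp, hq]

end coef

end Vale.Agent.P200F.V.SL

end

section

namespace Vale.Agent.P200F.V.SL

open Module MvPolynomial

universe u

/-- the passage to the field of rational functions in the parameters -/
noncomputable def toK (k : Type u) [Field k] (Z J : Type) :
    MvPolynomial (Z ⊕ J) k →+* MvPolynomial Z (KF k J) :=
  (MvPolynomial.map (algebraMap (MvPolynomial J k) (KF k J))).comp
    (sumAlgEquiv k Z J).toRingEquiv.toRingHom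

theorem toK_apply {k : Type u} [Field k] {Z J : Type} (p : MvPolynomial (Z ⊕ J) k) :
    toK k Z J p = MvPolynomial.map (algebraMap (MvPolynomial J k) (KF k J))
      (sumAlgEquiv k Z J p) := rfl

theorem coeff_toK {k : Type u} [Field k] {Z J : Type} (p : MvPolynomial (Z ⊕ J) k) (a : Z →₀ ℕ) :
    coeff a (toK k Z J p) = algebraMap (MvPolynomial J k) (KF k J)
      (coeff a (sumAlgEquiv k Z J p)) := by
  rw [toK_apply, coeff_map]

section coord
variable {Z ι J S : Type} [Fintype Z] [DecidableEq Z] [Fintype ι] [DecidableEq ι] [Fintype J]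
  [Fintype S] [DecidableEq S] (blk : Z → ι) (C : Finset Z) (e : ℕ) (sh : S → ι → ℤ)

/-- the basis vectors of degree `n` -/
abbrev Kn (blk : Z → ι) (sh : S → ι → ℤ) (n : ι → ℤ) : Type :=
  {p : S × (Z →₀ ℕ) // dg (wb blk) p.2 + sh p.1 = n}

theorem dg_eq_sum {V G : Type} [Fintype V] [AddCommGroup G] (wt : V → G) (a : V →₀ ℕ) :
    dg wt a = ∑ v, a v • wt v :=
  Finsupp.sum_fintype a (fun v m => m • wt v) fun v => zero_smul ℕ (wt v)

theorem sum_dg_wb (a : Z →₀ ℕ) : ∑ i, dg (wb blk) a i = (a.degree : ℤ) := by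
  rw [dg_eq_sum, Finsupp.degree_eq_sum]
  simp only [Finset.sum_apply, wb, Pi.smul_apply, Pi.single_apply]
  rw [Finset.sum_comm]
  push_cast
  refine Finset.sum_congr rfl fun z _ => ?_
  rw [← Finset.smul_sum, Finset.sum_ite_eq' Finset.univ (blk z), if_pos (Finset.mem_univ _)]
  simp

instance finite_Kn (n : ι → ℤ) : Finite (Kn blk sh n) := by
  have h : ∀ j : S, ({a : Z →₀ ℕ | dg (wb blk) a + sh j = n}).Finite := by
    intro j
    refine (Finsupp.finite_of_degree_le (σ := Z) (∑ i, (n i - sh j i)).toNat).subset ?_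
    intro a ha
    have h1 : ∑ i, dg (wb blk) a i = ∑ i, (n i - sh j i) := by
      refine Finset.sum_congr rfl fun i _ => ?_
      rw [← show (dg (wb blk) a + sh j) i = n i from congrFun ha i, Pi.add_apply]
      ring
    rw [sum_dg_wb] at h1
    change a.degree ≤ _
    omega
  have h2 := fun j : S => (h j).to_subtype
  refine Finite.of_injective (β := Σ j : S, {a : Z →₀ ℕ | dg (wb blk) a + sh j = n})
    (fun p => ⟨p.1.1, p.1.2, p.2⟩) ?_
  rintro ⟨⟨j, a⟩, h⟩ ⟨⟨j', a'⟩, h'⟩ heq
  simp only [Sigma.mk.injEq] at heq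
  obtain ⟨rfl, h3⟩ := heq
  have h4 := congrArg Subtype.val (eq_of_heq h3)
  simp only at h4
  subst h4
  rfl

theorem dg_wT (a : Z →₀ ℕ) (y : J →₀ ℕ) : dg (wT J blk C e) (Finsupp.sumElim a y) =
    (dg (wb blk) a, (∑ c ∈ C, (a c : ℤ)) + e * (y.degree : ℤ)) := by
  rw [dg_eq_sum, dg_eq_sum, Fintype.sum_sum_type, Finsupp.degree_eq_sum]
  simp only [Finsupp.sumElim_apply, Sum.elim_inl, Sum.elim_inr, wT]
  refine Prod.ext ?_ ?_
  · rw [Prod.fst_add, Prod.fst_sum, Prod.fst_sum]
    simp
  · rw [Prod.snd_add, Prod.snd_sum, Prod.snd_sum]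
    have h1 : ∀ z, (a z • ((wb blk z, if z ∈ C then (1 : ℤ) else 0) : (ι → ℤ) × ℤ)).2 =
        if z ∈ C then (a z : ℤ) else 0 := by
      intro z
      rw [Prod.smul_snd]
      split_ifs
      · rw [nsmul_eq_mul, mul_one]
      · rw [smul_zero]
    have h2 : ∀ j, (y j • ((0, (e : ℤ)) : (ι → ℤ) × ℤ)).2 = (y j : ℤ) * e := by
      intro j
      rw [Prod.smul_snd, nsmul_eq_mul]
    rw [Finset.sum_congr rfl fun z _ => h1 z, Finset.sum_congr rfl fun j _ => h2 j,
      Finset.sum_ite_mem, Finset.univ_inter, ← Finset.sum_mul]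
    push_cast
    ring

/-- the weight of a basis vector -/
def wn {n : ι → ℤ} (p : Kn blk sh n) : ℕ := ∑ c ∈ C, p.1.2 c

open scoped Classical in
/-- the vector with given coordinates -/
noncomputable def Th (B : Type*) [CommRing B] (blk : Z → ι) (sh : S → ι → ℤ) (n : ι → ℤ) :
    (Kn blk sh n → B) →ₗ[B] (S → MvPolynomial Z B) :=
  letI := Fintype.ofFinite (Kn blk sh n)
  { toFun := fun x j => ∑ p : Kn blk sh n, if p.1.1 = j then monomial p.1.2 (x p) else 0
    map_add' := fun x y => by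
      funext j
      rw [Pi.add_apply, ← Finset.sum_add_distrib]
      refine Finset.sum_congr rfl fun p _ => ?_
      split_ifs
      · rw [Pi.add_apply, map_add]
      · rw [add_zero]
    map_smul' := fun b x => by
      funext j
      rw [RingHom.id_apply, Pi.smul_apply, Finset.smul_sum]
      refine Finset.sum_congr rfl fun p _ => ?_
      split_ifs
      · rw [Pi.smul_apply, map_smul]
      · rw [smul_zero] }

open scoped Classical in
theorem coeff_Th (B : Type*) [CommRing B] {n : ι → ℤ} (x : Kn blk sh n → B) (j : S)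
    (a : Z →₀ ℕ) : coeff a (Th B blk sh n x j) =
      if h : dg (wb blk) a + sh j = n then x ⟨(j, a), h⟩ else 0 := by
  let i0 := Fintype.ofFinite (Kn blk sh n)
  change coeff a (∑ p : Kn blk sh n, if p.1.1 = j then monomial p.1.2 (x p) else 0) = _
  rw [coeff_sum]
  split_ifs with h
  · rw [Finset.sum_eq_single (⟨(j, a), h⟩ : Kn blk sh n)]
    · rw [if_pos rfl, coeff_monomial, if_pos rfl]
    · intro p _ hp
      split_ifs with h1
      · rw [coeff_monomial, if_neg]
        intro h2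
        exact hp (Subtype.ext (Prod.ext h1 h2))
      · exact coeff_zero _
    · intro h1
      exact absurd (Finset.mem_univ _) h1
  · refine Finset.sum_eq_zero fun p _ => ?_
    split_ifs with h1
    · rw [coeff_monomial, if_neg]
      intro h2
      refine h ?_
      rw [← h1, ← h2]
      exact p.2
    · exact coeff_zero _

end coord

end Vale.Agent.P200F.V.SL

end

section

namespace Vale.Agent.P200F.V.SL

open Module MvPolynomial

universe u

section corr
variable {k : Type u} [Field k] {Z ι J S : Type} [Fintype Z] [DecidableEq Z] [Fintype ι]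
  [DecidableEq ι] [Fintype J] [Fintype S] [DecidableEq S] (blk : Z → ι) (C : Finset Z) (e : ℕ)
  (sh : S → ι → ℤ)

/-- the shifts, with last component zero -/
def sh0 {S ι : Type} (sh : S → ι → ℤ) : S → (ι → ℤ) × ℤ := fun j => (sh j, 0)

/-- the coordinates of degree `n` -/
noncomputable def rho (k : Type u) [Field k] {Z ι : Type} [DecidableEq ι] (J : Type) {S : Type}
    (blk : Z → ι) (sh : S → ι → ℤ) (n : ι → ℤ) :
    (S → MvPolynomial (Z ⊕ J) k) →ₗ[k] (Kn blk sh n → MvPolynomial J k) where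
  toFun f p := coeff p.1.2 (sumAlgEquiv k Z J (f p.1.1))
  map_add' f g := by
    funext p
    rw [Pi.add_apply, Pi.add_apply, map_add, coeff_add]
  map_smul' c f := by
    funext p
    rw [RingHom.id_apply, Pi.smul_apply, Pi.smul_apply, map_smul, coeff_smul]

theorem coeff_rho {n : ι → ℤ} (f : S → MvPolynomial (Z ⊕ J) k) (p : Kn blk sh n) (y : J →₀ ℕ) :
    coeff y (rho k J blk sh n f p) = coeff (Finsupp.sumElim p.1.2 y) (f p.1.1) :=
  coeff_sumAlg _ _ _

theorem exists_sumElim (m : Z ⊕ J →₀ ℕ) : ∃ (a : Z →₀ ℕ) (y : J →₀ ℕ), m = Finsupp.sumElim a y :=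
  ⟨_, _, (Finsupp.sumFinsuppEquivProdFinsupp.symm_apply_apply m).symm⟩

theorem mem_Flt_iff {n : ι → ℤ} {t : ℤ} {f : S → MvPolynomial (Z ⊕ J) k} :
    f ∈ Flt k (wT J blk C e) (sh0 sh) n t ↔ ∀ j (a : Z →₀ ℕ) (y : J →₀ ℕ),
      coeff (Finsupp.sumElim a y) (f j) ≠ 0 → dg (wb blk) a + sh j = n ∧
        (∑ c ∈ C, (a c : ℤ)) + e * (y.degree : ℤ) ≤ t := by
  constructor
  · intro hf j a y h
    have := hf j _ h
    rw [dg_wT] at this
    simpa [sh0] using this
  · intro hf j m hm
    obtain ⟨a, y, rfl⟩ := exists_sumElim m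
    have := hf j a y hm
    rw [dg_wT]
    simpa [sh0] using this

theorem Flt_neg {n : ι → ℤ} {t : ℤ} (ht : t < 0) :
    Flt k (wT J blk C e) (sh0 sh) n t = ⊥ := by
  rw [eq_bot_iff]
  intro f hf
  rw [mem_Flt_iff] at hf
  rw [Submodule.mem_bot]
  funext j
  refine MvPolynomial.ext _ _ fun m => ?_
  obtain ⟨a, y, rfl⟩ := exists_sumElim m
  rw [Pi.zero_apply, coeff_zero]
  by_contra h
  have h1 := (hf j a y h).2
  have h2 : 0 ≤ ∑ c ∈ C, (a c : ℤ) := Finset.sum_nonneg fun _ _ => Int.natCast_nonneg _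
  have h3 : 0 ≤ (e : ℤ) * (y.degree : ℤ) := mul_nonneg (Int.natCast_nonneg _) (Int.natCast_nonneg _)
  omega

theorem rho_injOn {n : ι → ℤ} {t : ℤ} {f : S → MvPolynomial (Z ⊕ J) k}
    (hf : f ∈ Flt k (wT J blk C e) (sh0 sh) n t) (h0 : rho k J blk sh n f = 0) : f = 0 := by
  rw [mem_Flt_iff] at hf
  funext j
  refine MvPolynomial.ext _ _ fun m => ?_
  obtain ⟨a, y, rfl⟩ := exists_sumElim m
  rw [Pi.zero_apply, coeff_zero]
  by_contra h
  have h1 := (hf j a y h).1
  refine h ?_
  have h2 := coeff_rho (k := k) (J := J) blk sh f ⟨(j, a), h1⟩ y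
  rw [h0, Pi.zero_apply, coeff_zero] at h2
  exact h2.symm

/-- the vector with given coordinates -/
noncomputable def TA {n : ι → ℤ} (v : Kn blk sh n → MvPolynomial J k) :
    S → MvPolynomial (Z ⊕ J) k :=
  fun j => (sumAlgEquiv k Z J).symm (Th (MvPolynomial J k) blk sh n v j)

open scoped Classical in
theorem coeff_TA {n : ι → ℤ} (v : Kn blk sh n → MvPolynomial J k) (j : S) (a : Z →₀ ℕ)
    (y : J →₀ ℕ) : coeff (Finsupp.sumElim a y) (TA blk sh v j) =
      if h : dg (wb blk) a + sh j = n then coeff y (v ⟨(j, a), h⟩) else 0 := by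
  rw [← coeff_sumAlg, TA, AlgEquiv.apply_symm_apply, coeff_Th]
  split_ifs
  · rfl
  · rw [coeff_zero]

theorem rho_TA {n : ι → ℤ} (v : Kn blk sh n → MvPolynomial J k) :
    rho k J blk sh n (TA blk sh v) = v := by
  funext p
  refine MvPolynomial.ext _ _ fun y => ?_
  rw [coeff_rho, coeff_TA, dif_pos p.2]

theorem TA_mem {n : ι → ℤ} {t : ℕ} {v : Kn blk sh n → MvPolynomial J k}
    (hv : v ∈ Fil k J e (wn blk C sh) t) :
    TA blk sh v ∈ Flt k (wT J blk C e) (sh0 sh) n t := by
  rw [mem_Flt_iff]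
  rw [mem_Fil] at hv
  intro j a y h
  rw [coeff_TA] at h
  split_ifs at h with h1
  · refine ⟨h1, ?_⟩
    have h2 := hv _ y (MvPolynomial.mem_support_iff.mpr h)
    rw [wn] at h2
    zify at h2
    linarith
  · exact absurd rfl h

theorem rho_mem {n : ι → ℤ} {t : ℕ} {f : S → MvPolynomial (Z ⊕ J) k}
    (hf : f ∈ Flt k (wT J blk C e) (sh0 sh) n t) :
    rho k J blk sh n f ∈ Fil k J e (wn blk C sh) t := by
  rw [mem_Flt_iff] at hf
  rw [mem_Fil]
  intro p y hy
  rw [MvPolynomial.mem_support_iff, coeff_rho] at hy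
  have h := (hf p.1.1 p.1.2 y hy).2
  rw [wn]
  zify
  linarith

theorem finite_Flt (he : 0 < e) (n : ι → ℤ) (t : ℤ) :
    FiniteDimensional k (Flt k (wT J blk C e) (sh0 sh) n t) := by
  rcases lt_or_ge t 0 with ht | ht
  · rw [Flt_neg blk C e sh ht]
    infer_instance
  · lift t to ℕ using ht
    have := finite_Fil (k := k) (J := J) he (wn blk C sh (n := n)) t
    refine Module.Finite.of_injective
      (LinearMap.restrict (rho k J blk sh n) (p := Flt k (wT J blk C e) (sh0 sh) n t)
        (q := Fil k J e (wn blk C sh) t) fun f hf => rho_mem blk C e sh hf) ?_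
    rw [← LinearMap.ker_eq_bot, LinearMap.ker_eq_bot']
    rintro ⟨f, hf⟩ h
    exact Subtype.ext (rho_injOn blk C e sh hf (congrArg Subtype.val h))

end corr

end Vale.Agent.P200F.V.SL

end

section

namespace Vale.Agent.P200F.V.SL

open Module MvPolynomial

universe u

section corr
variable {k : Type u} [Field k] {Z ι J S : Type} [Fintype Z] [DecidableEq Z] [Fintype ι]
  [DecidableEq ι] [Fintype J] [Fintype S] [DecidableEq S] (blk : Z → ι) (C : Finset Z) (e : ℕ)
  (sh : S → ι → ℤ)

/-- the vectors which belong to `N` over the field of rational functions -/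
noncomputable def NAo (k : Type u) [Field k] {Z J S : Type}
    (N : Submodule (MvPolynomial Z (KF k J)) (S → MvPolynomial Z (KF k J))) :
    Submodule (MvPolynomial (Z ⊕ J) k) (S → MvPolynomial (Z ⊕ J) k) where
  carrier := {f | (fun j => toK k Z J (f j)) ∈ N}
  add_mem' := by
    intro f g hf hg
    have h : (fun j => toK k Z J ((f + g) j)) = (fun j => toK k Z J (f j)) +
        fun j => toK k Z J (g j) := funext fun j => map_add _ _ _
    change (fun j => toK k Z J ((f + g) j)) ∈ N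
    rw [h]
    exact N.add_mem hf hg
  zero_mem' := by
    have h : (fun j => toK k Z J ((0 : S → MvPolynomial (Z ⊕ J) k) j)) = 0 :=
      funext fun j => map_zero _
    change (fun j => toK k Z J ((0 : S → MvPolynomial (Z ⊕ J) k) j)) ∈ N
    rw [h]
    exact N.zero_mem
  smul_mem' := by
    intro p f hf
    have h : (fun j => toK k Z J ((p • f) j)) = toK k Z J p • fun j => toK k Z J (f j) :=
      funext fun j => map_mul _ _ _
    change (fun j => toK k Z J ((p • f) j)) ∈ N
    rw [h]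
    exact N.smul_mem _ hf

/-- the same in coordinates -/
noncomputable def NK {n : ι → ℤ}
    (N : Submodule (MvPolynomial Z (KF k J)) (S → MvPolynomial Z (KF k J))) :
    Submodule (MvPolynomial J k) (Kn blk sh n → MvPolynomial J k) where
  carrier := {v | Th (KF k J) blk sh n (incl (MvPolynomial J k) (KF k J) _ v) ∈ N}
  add_mem' := by
    intro v w hv hw
    change Th (KF k J) blk sh n (incl (MvPolynomial J k) (KF k J) _ (v + w)) ∈ N
    rw [map_add, map_add]
    exact N.add_mem hv hw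
  zero_mem' := by
    change Th (KF k J) blk sh n (incl (MvPolynomial J k) (KF k J) _ 0) ∈ N
    rw [map_zero, map_zero]
    exact N.zero_mem
  smul_mem' := by
    intro a v hv
    change Th (KF k J) blk sh n (incl (MvPolynomial J k) (KF k J) _ (a • v)) ∈ N
    have h : incl (MvPolynomial J k) (KF k J) (Kn blk sh n) (a • v) =
        algebraMap (MvPolynomial J k) (KF k J) a • incl (MvPolynomial J k) (KF k J) _ v := by
      rw [map_smul, algebraMap_smul]
    rw [h, map_smul]
    exact (N.restrictScalars (KF k J)).smul_mem _ hv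

theorem NK_sat {n : ι → ℤ}
    (N : Submodule (MvPolynomial Z (KF k J)) (S → MvPolynomial Z (KF k J)))
    (a : MvPolynomial J k) (v : Kn blk sh n → MvPolynomial J k) (ha : a ≠ 0)
    (h : a • v ∈ NK blk sh N) : v ∈ NK blk sh N := by
  have h1 : Th (KF k J) blk sh n (incl (MvPolynomial J k) (KF k J) _ (a • v)) ∈ N := h
  have h2 : incl (MvPolynomial J k) (KF k J) (Kn blk sh n) (a • v) =
      algebraMap (MvPolynomial J k) (KF k J) a • incl (MvPolynomial J k) (KF k J) _ v := by
    rw [map_smul, algebraMap_smul]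
  rw [h2, map_smul] at h1
  have h3 : algebraMap (MvPolynomial J k) (KF k J) a ≠ 0 := by
    rw [Ne, FaithfulSMul.algebraMap_eq_zero_iff]
    exact ha
  have h4 := (N.restrictScalars (KF k J)).smul_mem (algebraMap (MvPolynomial J k) (KF k J) a)⁻¹ h1
  rw [inv_smul_smul₀ h3] at h4
  exact h4

theorem Th_rho {n : ι → ℤ} {t : ℤ} {f : S → MvPolynomial (Z ⊕ J) k}
    (hf : f ∈ Flt k (wT J blk C e) (sh0 sh) n t) :
    Th (KF k J) blk sh n (incl (MvPolynomial J k) (KF k J) _ (rho k J blk sh n f)) =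
      fun j => toK k Z J (f j) := by
  rw [mem_Flt_iff] at hf
  funext j
  refine MvPolynomial.ext _ _ fun a => ?_
  rw [coeff_Th, coeff_toK]
  split_ifs with h
  · rfl
  · symm
    rw [FaithfulSMul.algebraMap_eq_zero_iff]
    refine MvPolynomial.ext _ _ fun y => ?_
    rw [coeff_sumAlg, coeff_zero]
    by_contra h2
    exact h (hf j a y h2).1

theorem mem_NK_iff {n : ι → ℤ} {t : ℤ}
    (N : Submodule (MvPolynomial Z (KF k J)) (S → MvPolynomial Z (KF k J)))
    {f : S → MvPolynomial (Z ⊕ J) k} (hf : f ∈ Flt k (wT J blk C e) (sh0 sh) n t) :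
    rho k J blk sh n f ∈ NK blk sh N ↔ f ∈ NAo k N := by
  change Th (KF k J) blk sh n (incl (MvPolynomial J k) (KF k J) _ (rho k J blk sh n f)) ∈ N ↔
    (fun j => toK k Z J (f j)) ∈ N
  rw [Th_rho blk C e sh hf]

theorem finrank_Flt_eq (he : 0 < e) (n : ι → ℤ) (t : ℕ)
    (N : Submodule (MvPolynomial Z (KF k J)) (S → MvPolynomial Z (KF k J))) :
    finrank k (Flt k (wT J blk C e) (sh0 sh) n t ⊓ (NAo k N).restrictScalars k : Submodule k _) =
      finrank k (Fil k J e (wn blk C sh (n := n)) t ⊓ (NK blk sh N).restrictScalars k :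
        Submodule k _) := by
  have h0 := finite_Flt (k := k) (J := J) blk C e sh he n t
  have hfin : Module.Finite k (Flt k (wT J blk C e) (sh0 sh) n t ⊓ (NAo k N).restrictScalars k :
      Submodule k _) := Submodule.finiteDimensional_of_le inf_le_left
  rw [← finrank_inf_ker_add _ (rho k J blk sh n)]
  have h1 : Flt k (wT J blk C e) (sh0 sh) n t ⊓ (NAo k N).restrictScalars k ⊓
      LinearMap.ker (rho k J blk sh n) = ⊥ := by
    rw [eq_bot_iff]
    rintro f ⟨⟨hf, -⟩, hk⟩
    exact rho_injOn blk C e sh hf hk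
  have h2 : (Flt k (wT J blk C e) (sh0 sh) n t ⊓ (NAo k N).restrictScalars k).map
      (rho k J blk sh n) = Fil k J e (wn blk C sh (n := n)) t ⊓
        (NK blk sh N).restrictScalars k := by
    refine le_antisymm ?_ ?_
    · rintro _ ⟨f, ⟨hf, hN⟩, rfl⟩
      exact ⟨rho_mem blk C e sh hf, (mem_NK_iff blk C e sh N hf).mpr hN⟩
    · rintro v ⟨hv, hN⟩
      have h3 := TA_mem blk C e sh hv
      refine ⟨TA blk sh v, ⟨h3, ?_⟩, rho_TA blk sh v⟩
      refine (mem_NK_iff blk C e sh N h3).mp ?_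
      rw [rho_TA]
      exact hN
  rw [h1, h2, finrank_bot, zero_add]

theorem NAo_top : NAo k (⊤ : Submodule (MvPolynomial Z (KF k J)) (S → MvPolynomial Z (KF k J)))
    = ⊤ := by
  rw [eq_top_iff]
  intro f _
  exact Submodule.mem_top

theorem NK_top {n : ι → ℤ} : NK blk sh
    (⊤ : Submodule (MvPolynomial Z (KF k J)) (S → MvPolynomial Z (KF k J))) (n := n) = ⊤ := by
  rw [eq_top_iff]
  intro f _
  exact Submodule.mem_top

theorem aD_eq_aF (he : 0 < e) (n : ι → ℤ) (t : ℕ)
    (N : Submodule (MvPolynomial Z (KF k J)) (S → MvPolynomial Z (KF k J))) :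
    aD k J e (wn blk C sh (n := n)) (NK blk sh N) t =
      aF (wT J blk C e) (sh0 sh) (NAo k N) n t := by
  have h1 := finrank_Flt_eq blk C e sh he n t N
  have h2 := finrank_Flt_eq (k := k) (J := J) blk C e sh he n t ⊤
  rw [NAo_top, NK_top, Submodule.restrictScalars_top, Submodule.restrictScalars_top, inf_top_eq,
    inf_top_eq] at h2
  rw [aD, aF, h1, h2]

theorem Th_injective {n : ι → ℤ} : Function.Injective (Th (KF k J) blk sh n) := by
  rw [← LinearMap.ker_eq_bot, LinearMap.ker_eq_bot']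
  intro x hx
  funext p
  have h := coeff_Th blk sh (KF k J) x p.1.1 p.1.2
  rw [hx, Pi.zero_apply, coeff_zero, dif_pos p.2] at h
  exact h.symm

theorem Th_mem_gp {n : ι → ℤ} (x : Kn blk sh n → KF k J) :
    Th (KF k J) blk sh n x ∈ gp (KF k J) (wb blk) sh n := by
  intro j a h
  rw [coeff_Th] at h
  split_ifs at h with h1
  · exact h1
  · exact absurd rfl h

theorem exists_Th {n : ι → ℤ} {f : S → MvPolynomial Z (KF k J)}
    (hf : f ∈ gp (KF k J) (wb blk) sh n) : ∃ x, Th (KF k J) blk sh n x = f := by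
  refine ⟨fun p => coeff p.1.2 (f p.1.1), ?_⟩
  funext j
  refine MvPolynomial.ext _ _ fun a => ?_
  rw [coeff_Th]
  split_ifs with h
  · rfl
  · by_contra h2
    exact h (hf j a fun h3 => h2 h3.symm)

theorem map_ext2 {n : ι → ℤ}
    (N : Submodule (MvPolynomial Z (KF k J)) (S → MvPolynomial Z (KF k J))) :
    (ext2 (KF k J) (NK blk sh N (n := n))).map (Th (KF k J) blk sh n) =
      gpart (wb blk) sh N n := by
  refine le_antisymm ?_ ?_
  · rw [ext2, Submodule.map_span, Submodule.span_le]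
    rintro _ ⟨_, ⟨v, hv, rfl⟩, rfl⟩
    exact ⟨hv, Th_mem_gp blk sh _⟩
  · rintro f ⟨hf, hg⟩
    obtain ⟨x, rfl⟩ := exists_Th blk sh hg
    refine ⟨x, ?_, rfl⟩
    obtain ⟨d, hd⟩ := IsLocalization.exist_integer_multiples_of_finite
      (nonZeroDivisors (MvPolynomial J k)) x
    choose b hb using hd
    have hd0 : algebraMap (MvPolynomial J k) (KF k J) d ≠ 0 := by
      rw [Ne, FaithfulSMul.algebraMap_eq_zero_iff]
      exact nonZeroDivisors.ne_zero d.2
    have h1 : incl (MvPolynomial J k) (KF k J) _ b =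
        algebraMap (MvPolynomial J k) (KF k J) d • x := by
      funext p
      change algebraMap (MvPolynomial J k) (KF k J) (b p) = _
      rw [hb p, Pi.smul_apply, smul_eq_mul]
      change (d : MvPolynomial J k) • x p = _
      rw [Algebra.smul_def]
    have h2 : b ∈ NK blk sh N (n := n) := by
      change Th (KF k J) blk sh n (incl (MvPolynomial J k) (KF k J) _ b) ∈ N
      rw [h1, map_smul]
      exact (N.restrictScalars (KF k J)).smul_mem _ hf
    have h3 : x = (algebraMap (MvPolynomial J k) (KF k J) d)⁻¹ •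
        incl (MvPolynomial J k) (KF k J) _ b := by
      rw [h1, inv_smul_smul₀ hd0]
    rw [h3]
    exact Submodule.smul_mem _ _ (incl_mem h2)

/-- **The rank is the dimension over the field of rational functions.** -/
theorem rank_eq_hd {n : ι → ℤ}
    (N : Submodule (MvPolynomial Z (KF k J)) (S → MvPolynomial Z (KF k J))) :
    (finrank (KF k J) ((Kn blk sh n → KF k J) ⧸ ext2 (KF k J) (NK blk sh N (n := n))) : ℤ) =
      hd (wb blk) sh (⊤ : Submodule (MvPolynomial Z (KF k J)) (S → MvPolynomial Z (KF k J))) n -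
        hd (wb blk) sh N n := by
  let i0 := Fintype.ofFinite (Kn blk sh n)
  have h1 := Submodule.finrank_quotient_add_finrank (ext2 (KF k J) (NK blk sh N (n := n)))
  have h2 : hd (wb blk) sh N n = finrank (KF k J) (ext2 (KF k J) (NK blk sh N (n := n))) := by
    rw [hd, ← map_ext2]
    exact (Submodule.equivMapOfInjective _ (Th_injective blk sh) _).finrank_eq.symm
  have h3 : hd (wb blk) sh
      (⊤ : Submodule (MvPolynomial Z (KF k J)) (S → MvPolynomial Z (KF k J))) n =
      finrank (KF k J) (Kn blk sh n → KF k J) := by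
    have h4 : gpart (wb blk) sh
        (⊤ : Submodule (MvPolynomial Z (KF k J)) (S → MvPolynomial Z (KF k J))) n =
        (⊤ : Submodule (KF k J) (Kn blk sh n → KF k J)).map (Th (KF k J) blk sh n) := by
      refine le_antisymm ?_ ?_
      · rintro f ⟨-, hg⟩
        obtain ⟨x, rfl⟩ := exists_Th blk sh hg
        exact ⟨x, Submodule.mem_top, rfl⟩
      · rintro _ ⟨x, -, rfl⟩
        exact ⟨Submodule.mem_top, Th_mem_gp blk sh x⟩
    rw [hd, h4]
    rw [← (Submodule.equivMapOfInjective _ (Th_injective blk sh) _).finrank_eq, finrank_top]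
  rw [h2, h3, ← h1]
  push_cast
  ring

end corr

end Vale.Agent.P200F.V.SL

end

section

namespace Vale.Agent.P200F.V.SL

open Module

universe u

section ps
variable {ι : Type}

/-- the power series of a function in the last degree -/
noncomputable def PS (g : (ι → ℤ) × ℤ → ℤ) (n : ι → ℤ) : PowerSeries ℤ :=
  PowerSeries.mk fun t => g (n, (t : ℤ))

theorem act_one_sub (e : ℕ) (g : (ι → ℤ) × ℤ → ℤ) (n : ι → ℤ) (t : ℤ) :
    act ((ι → ℤ) × ℤ) (1 - el ((0 : ι → ℤ), (e : ℤ))) g (n, t) = g (n, t) - g (n, t - e) := by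
  rw [map_sub, map_one, LinearMap.sub_apply, Pi.sub_apply, act_el]
  change g (n, t) - g ((n, t) - (0, (e : ℤ))) = _
  rw [Prod.mk_sub_mk, sub_zero]

theorem neg_act (e m : ℕ) {g : (ι → ℤ) × ℤ → ℤ} {n : ι → ℤ} (hg : ∀ t, t < 0 → g (n, t) = 0)
    (t : ℤ) (ht : t < 0) :
    act ((ι → ℤ) × ℤ) ((1 - el ((0 : ι → ℤ), (e : ℤ))) ^ m) g (n, t) = 0 := by
  induction m generalizing t with
  | zero =>
    rw [pow_zero, map_one]
    exact hg t ht
  | succ m ih =>
    rw [pow_succ', map_mul, Module.End.mul_apply, act_one_sub, ih t ht, ih (t - e) (by omega),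
      sub_zero]

theorem PS_act_one (e : ℕ) {g : (ι → ℤ) × ℤ → ℤ} {n : ι → ℤ} (hg : ∀ t, t < 0 → g (n, t) = 0) :
    PS (act ((ι → ℤ) × ℤ) (1 - el ((0 : ι → ℤ), (e : ℤ))) g) n =
      (1 - PowerSeries.X ^ e) * PS g n := by
  refine PowerSeries.ext fun t => ?_
  rw [PS, PowerSeries.coeff_mk, act_one_sub, sub_mul, one_mul, map_sub,
    PowerSeries.coeff_X_pow_mul', PS, PowerSeries.coeff_mk]
  split_ifs with h
  · rw [PowerSeries.coeff_mk, Nat.cast_sub h]
  · rw [hg ((t : ℤ) - e) (by omega)]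

theorem PS_act (e m : ℕ) {g : (ι → ℤ) × ℤ → ℤ} {n : ι → ℤ} (hg : ∀ t, t < 0 → g (n, t) = 0) :
    PS (act ((ι → ℤ) × ℤ) ((1 - el ((0 : ι → ℤ), (e : ℤ))) ^ m) g) n =
      (1 - PowerSeries.X ^ e) ^ m * PS g n := by
  induction m with
  | zero => rw [pow_zero, map_one, pow_zero, one_mul]; rfl
  | succ m ih =>
    rw [pow_succ', map_mul, Module.End.mul_apply, PS_act_one e (neg_act e m hg), ih, pow_succ',
      mul_assoc]

/-- a function of the last degree with bounded support as a polynomial -/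
theorem exists_poly {g : (ι → ℤ) × ℤ → ℤ} {n : ι → ℤ} {t1 : ℤ}
    (hg : ∀ t, t1 < t → g (n, t) = 0) : ∃ q : Polynomial ℤ,
      (q : PowerSeries ℤ) = PS g n ∧ q.eval 1 = ∑ t ∈ Finset.Icc 0 t1, g (n, t) := by
  refine ⟨∑ t ∈ Finset.range (t1 + 1).toNat, Polynomial.monomial t (g (n, (t : ℤ))), ?_, ?_⟩
  · refine PowerSeries.ext fun t => ?_
    rw [Polynomial.coeff_coe, Polynomial.finsetSum_coeff, PS, PowerSeries.coeff_mk]
    simp only [Polynomial.coeff_monomial]
    rw [Finset.sum_ite_eq']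
    split_ifs with h
    · rfl
    · rw [Finset.mem_range] at h
      exact (hg t (by omega)).symm
  · rw [Polynomial.eval_finsetSum]
    simp only [Polynomial.eval_monomial, one_pow, mul_one]
    refine Finset.sum_bij (fun t _ => (t : ℤ)) ?_ ?_ ?_ ?_
    · intro t ht
      rw [Finset.mem_range] at ht
      rw [Finset.mem_Icc]
      omega
    · intro a _ b _ h
      exact_mod_cast h
    · intro t ht
      rw [Finset.mem_Icc] at ht
      refine ⟨t.toNat, ?_, ?_⟩
      · rw [Finset.mem_range]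
        omega
      · omega
    · intro t _
      rfl

end ps

section gen
variable {k : Type u} [Field k] {Z ι J S : Type} [Fintype Z] [DecidableEq Z] [Fintype ι]
  [DecidableEq ι] [Fintype J] [Fintype S] [DecidableEq S] (blk : Z → ι) (C : Finset Z) (e : ℕ)
  (sh : S → ι → ℤ)

/-- the Hilbert function of the leading forms -/
noncomputable def fg (N : Submodule (MvPolynomial Z (KF k J)) (S → MvPolynomial Z (KF k J))) :
    (ι → ℤ) × ℤ → ℤ := fun ν =>
  (hd (wT J blk C e) (sh0 sh)
    (⊤ : Submodule (MvPolynomial (Z ⊕ J) k) (S → MvPolynomial (Z ⊕ J) k)) ν : ℤ) -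
    hd (wT J blk C e) (sh0 sh) (initM (wT J blk C e) (sh0 sh) (NAo k N)) ν

theorem fg_eq (he : 0 < e)
    (N : Submodule (MvPolynomial Z (KF k J)) (S → MvPolynomial Z (KF k J))) (n : ι → ℤ) (t : ℤ) :
    fg blk C e sh N (n, t) = aF (wT J blk C e) (sh0 sh) (NAo k N) n t -
      aF (wT J blk C e) (sh0 sh) (NAo k N) n (t - 1) := by
  have := finite_Flt (k := k) (J := J) blk C e sh he n t
  exact hd_initM (NAo k N) n t

theorem aF_neg (N : Submodule (MvPolynomial Z (KF k J)) (S → MvPolynomial Z (KF k J)))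
    (n : ι → ℤ) {t : ℤ} (ht : t < 0) : aF (wT J blk C e) (sh0 sh) (NAo k N) n t = 0 := by
  rw [aF, Flt_neg blk C e sh ht, bot_inf_eq, sub_self]

theorem fg_neg (he : 0 < e)
    (N : Submodule (MvPolynomial Z (KF k J)) (S → MvPolynomial Z (KF k J))) (n : ι → ℤ) (t : ℤ)
    (ht : t < 0) : fg blk C e sh N (n, t) = 0 := by
  rw [fg_eq blk C e sh he, aF_neg blk C e sh N n ht, aF_neg blk C e sh N n (by omega), sub_self]

/-- **The generators.** -/
theorem fg_sum (he : 0 < e)
    (N : Submodule (MvPolynomial Z (KF k J)) (S → MvPolynomial Z (KF k J))) (n : ι → ℤ) (t1 : ℤ)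
    (h1 : ∀ t, t1 < t → act ((ι → ℤ) × ℤ) ((1 - el ((0 : ι → ℤ), (e : ℤ))) ^ Fintype.card J)
      (fg blk C e sh N) (n, t) = 0) :
    (hd (wb blk) sh (⊤ : Submodule (MvPolynomial Z (KF k J)) (S → MvPolynomial Z (KF k J))) n : ℤ)
      - hd (wb blk) sh N n = ∑ t ∈ Finset.Icc 0 t1, act ((ι → ℤ) × ℤ)
          ((1 - el ((0 : ι → ℤ), (e : ℤ))) ^ Fintype.card J) (fg blk C e sh N) (n, t) := by
  obtain ⟨q, hq, hq1⟩ := exists_poly h1
  rw [← hq1, ← rank_eq_hd]
  let i0 := Fintype.ofFinite (Kn blk sh n)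
  refine (rank_eval he (wn blk C sh (n := n)) (NK blk sh N)
    (fun a v ha h => NK_sat blk sh N a v ha h) q ?_).symm
  rw [hq, PS_act e (Fintype.card J) (fg_neg blk C e sh he N n)]
  congr 1
  refine PowerSeries.ext fun t => ?_
  rw [sub_mul, one_mul, map_sub, PowerSeries.coeff_mk, PS, PowerSeries.coeff_mk,
    fg_eq blk C e sh he, aD_eq_aF blk C e sh he]
  cases t with
  | zero =>
    rw [PowerSeries.coeff_zero_X_mul, aF_neg blk C e sh N n (by norm_num : ((0 : ℕ) : ℤ) - 1 < 0)]
  | succ t =>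
    rw [PowerSeries.coeff_succ_X_mul, PowerSeries.coeff_mk, aD_eq_aF blk C e sh he]
    congr 2
    push_cast
    ring

end gen

end Vale.Agent.P200F.V.SL

end

section

namespace Vale.Agent.P200F.V.SL

open Module MvPolynomial

universe u

section hom
variable {k : Type u} [Field k] {σ G : Type} [AddCommGroup G] {wt : σ → G}

/-- homogeneous polynomials -/
def HomD (wt : σ → G) (p : MvPolynomial σ k) (δ : G) : Prop :=
  ∀ m, coeff m p ≠ 0 → dg wt m = δ

theorem homD_mul {p q : MvPolynomial σ k} {δ ε : G} (hp : HomD wt p δ) (hq : HomD wt q ε) :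
    HomD wt (p * q) (δ + ε) := by
  classical
  intro m hm
  rw [coeff_mul] at hm
  obtain ⟨x, hx, hne⟩ := Finset.exists_ne_zero_of_sum_ne_zero hm
  rw [Finset.HasAntidiagonal.mem_antidiagonal] at hx
  rw [← hx, dg_add, hp _ (left_ne_zero_of_mul hne), hq _ (right_ne_zero_of_mul hne)]

theorem homD_one : HomD wt (1 : MvPolynomial σ k) 0 := by
  classical
  intro m hm
  rw [coeff_one] at hm
  split_ifs at hm with h
  · rw [← h]
    exact Finsupp.sum_zero_index
  · exact absurd rfl hm

theorem homD_pow {p : MvPolynomial σ k} {δ : G} (hp : HomD wt p δ) (n : ℕ) :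
    HomD wt (p ^ n) (n • δ) := by
  induction n with
  | zero =>
    rw [pow_zero, zero_smul]
    exact homD_one
  | succ n ih =>
    rw [pow_succ, succ_nsmul]
    exact homD_mul ih hp

theorem homD_sub {p q : MvPolynomial σ k} {δ : G} (hp : HomD wt p δ) (hq : HomD wt q δ) :
    HomD wt (p - q) δ := by
  intro m hm
  by_cases h : coeff m p = 0
  · refine hq m fun h2 => hm ?_
    rw [coeff_sub, h, h2, sub_zero]
  · exact hp m h

theorem homD_sum {α : Type} (T : Finset α) {p : α → MvPolynomial σ k} {δ : G}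
    (hp : ∀ a ∈ T, HomD wt (p a) δ) : HomD wt (∑ a ∈ T, p a) δ := by
  intro m hm
  rw [coeff_sum] at hm
  obtain ⟨x, hx, hne⟩ := Finset.exists_ne_zero_of_sum_ne_zero hm
  exact hp x hx m hne

theorem homD_X (v : σ) : HomD wt (X v : MvPolynomial σ k) (wt v) := by
  classical
  intro m hm
  rw [coeff_X] at hm
  split_ifs at hm with h
  · rw [← h, dg_single]
  · exact absurd rfl hm

theorem single_mem_gp {S : Type} [DecidableEq S] {sh : S → G} {p : MvPolynomial σ k} {δ : G}
    (hp : HomD wt p δ) (j : S) :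
    (Pi.single j p : S → MvPolynomial σ k) ∈ gp k wt sh (δ + sh j) := by
  intro i m hm
  by_cases h : i = j
  · subst h
    rw [Pi.single_eq_same] at hm
    rw [hp m hm]
  · rw [Pi.single_eq_of_ne h, coeff_zero] at hm
    exact absurd rfl hm

end hom

section rel
variable {k : Type u} [Field k] {Z ι J : Type} [Fintype Z] [DecidableEq Z] [Fintype ι]
  [DecidableEq ι] [Fintype J] {blk : Z → ι} {C : Finset Z} {e : ℕ}

theorem mapDomain_inl (m : Z →₀ ℕ) :
    Finsupp.mapDomain (Sum.inl : Z → Z ⊕ J) m = Finsupp.sumElim m 0 := by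
  refine Finsupp.ext fun v => ?_
  rw [Finsupp.sumElim_apply]
  cases v with
  | inl z => exact Finsupp.mapDomain_apply Sum.inl_injective m z
  | inr j =>
    rw [Finsupp.mapDomain_of_notMem_range _ _ (by rintro ⟨z, hz⟩; exact absurd hz (by simp))]
    rfl

theorem homD_rename {g : MvPolynomial Z k} {δ : ι → ℤ}
    (hg : ∀ m, coeff m g ≠ 0 → dg (wb blk) m = δ)
    (hg2 : ∀ m, coeff m g ≠ 0 → ∀ c ∈ C, m c = 0) :
    HomD (wT J blk C e) (rename (Sum.inl : Z → Z ⊕ J) g) (δ, 0) := by
  intro m hm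
  obtain ⟨u, hu, hne⟩ := coeff_rename_ne_zero _ _ _ hm
  rw [← hu, mapDomain_inl, dg_wT, hg u hne, Finset.sum_eq_zero, zero_add]
  · rw [map_zero]
    simp
  · intro c hc
    rw [hg2 u hne c hc]
    rfl

theorem homD_trelT {h : Z → J → MvPolynomial Z k}
    (hh : ∀ c ∈ C, ∀ j m, coeff m (h c j) ≠ 0 →
      dg (wb blk) m = Pi.single (blk c) (e : ℤ) ∧ ∀ c' ∈ C, m c' = 0) {c : Z} (hc : c ∈ C) :
    HomD (wT J blk C e) (trelT e h c) (Pi.single (blk c) (e : ℤ), (e : ℤ)) := by
  refine homD_sub ?_ (homD_sum _ fun j _ => ?_)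
  · have h1 := homD_pow (homD_X (k := k) (wt := wT J blk C e) (Sum.inl c)) e
    have h2 : e • wT J blk C e (Sum.inl c) = (Pi.single (blk c) (e : ℤ), (e : ℤ)) := by
      change e • ((wb blk c, if c ∈ C then 1 else 0) : (ι → ℤ) × ℤ) = _
      rw [if_pos hc]
      refine Prod.ext ?_ ?_
      · rw [Prod.smul_fst, wb]
        funext i
        change e • (Pi.single (blk c) (1 : ℤ) : ι → ℤ) i =
          (Pi.single (blk c) (e : ℤ) : ι → ℤ) i
        rw [Pi.single_apply, Pi.single_apply]
        split_ifs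
        · rw [nsmul_eq_mul, mul_one]
        · rw [smul_zero]
      · rw [Prod.smul_snd]
        simp
    rw [h2] at h1
    exact h1
  · have h1 := homD_mul (homD_X (k := k) (wt := wT J blk C e) (Sum.inr j))
      (homD_rename (J := J) (e := e) (fun m hm => (hh c hc j m hm).1)
        (fun m hm => (hh c hc j m hm).2))
    have h2 : wT J blk C e (Sum.inr j) + ((Pi.single (blk c) (e : ℤ), 0) : (ι → ℤ) × ℤ) =
        (Pi.single (blk c) (e : ℤ), (e : ℤ)) := by
      change ((0, (e : ℤ)) : (ι → ℤ) × ℤ) + _ = _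
      rw [Prod.mk_add_mk, zero_add, add_zero]
    rw [h2] at h1
    exact h1

theorem toK_rename (g : MvPolynomial Z k) : toK k Z J (rename Sum.inl g) =
    MvPolynomial.map (algebraMap k (KF k J)) g := by
  induction g using MvPolynomial.induction_on with
  | C a =>
    rw [rename_C, toK_apply, sumAlgEquiv_C_inl, map_C, map_C]
    rfl
  | add p q hp hq => rw [map_add, map_add, map_add, hp, hq]
  | mul_X p v hp =>
    rw [map_mul, map_mul, map_mul, hp, rename_X, toK_apply, sumAlgEquiv_X_inl, map_X, map_X]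

theorem toK_inr (j : J) : toK k Z J (X (Sum.inr j)) = MvPolynomial.C (Tv k j) := by
  rw [toK_apply, sumAlgEquiv_X_inr, map_C]
  rfl

theorem toK_inl (z : Z) : toK k Z J (X (Sum.inl z)) = X z := by
  rw [toK_apply, sumAlgEquiv_X_inl, map_X]

theorem toK_trelT (h : Z → J → MvPolynomial Z k) (c : Z) :
    toK k Z J (trelT e h c) = lrel e h c := by
  rw [trelT, lrel, map_sub, map_pow, toK_inl, map_sum]
  congr 1
  refine Finset.sum_congr rfl fun j _ => ?_
  rw [map_mul, toK_inr, toK_rename]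

theorem pos_wT (he : 0 < e) : Pos (wT J blk C e) := by
  refine ⟨{ toFun := fun x => (∑ i, x.1 i) + x.2
            map_zero' := by simp
            map_add' := by
              intro x y
              rw [Prod.fst_add, Prod.snd_add]
              simp only [Pi.add_apply]
              rw [Finset.sum_add_distrib]
              ring }, ?_⟩
  intro v
  change 0 < (∑ i, (wT J blk C e v).1 i) + (wT J blk C e v).2
  cases v with
  | inl z =>
    change 0 < (∑ i, wb blk z i) + (if z ∈ C then 1 else 0)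
    have h1 : ∑ i, wb blk z i = 1 := by
      rw [wb]
      simp only [Pi.single_apply]
      rw [Finset.sum_ite_eq' Finset.univ, if_pos (Finset.mem_univ _)]
    rw [h1]
    split_ifs <;> norm_num
  | inr j =>
    change 0 < (∑ i, (0 : ι → ℤ) i) + (e : ℤ)
    simp only [Pi.zero_apply, Finset.sum_const_zero, zero_add]
    exact_mod_cast he

/-- modules killed by the parameters have bounded support in the last degree -/
theorem fin_supp {J0 : Set (MvPolynomial (Z ⊕ J) k)} (hJ : ∀ j, X (Sum.inr j) ∈ J0)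
    {f : (ι → ℤ) × ℤ → ℤ} (hf : f ∈ Hil k (wT J blk C e) J0) (n : ι → ℤ) :
    ∃ t1 : ℤ, ∀ t, t1 < t → f (n, t) = 0 := by
  classical
  induction hf using AddSubgroup.closure_induction with
  | mem f hf =>
    obtain ⟨s, sh, N, hN, hrel, hfν⟩ := hf
    refine ⟨∑ j, (|∑ i, (n i - (sh j).1 i)| + |(sh j).2|), fun t ht => ?_⟩
    rw [hfν, sub_eq_zero]
    have h : gpart (wT J blk C e) sh
        (⊤ : Submodule (MvPolynomial (Z ⊕ J) k) (Fin s → MvPolynomial (Z ⊕ J) k)) (n, t) =
        gpart (wT J blk C e) sh N (n, t) := by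
      refine le_antisymm ?_ ?_
      · rintro f ⟨-, hf⟩
        refine ⟨?_, hf⟩
        change f ∈ N
        have h1 : f = ∑ j, ∑ m ∈ (f j).support,
            (Pi.single j (monomial m (coeff m (f j))) : Fin s → MvPolynomial (Z ⊕ J) k) := by
          funext i
          rw [Finset.sum_apply, Finset.sum_eq_single i]
          · rw [Finset.sum_apply]
            simp only [Pi.single_eq_same]
            exact (support_sum_monomial_coeff (f i)).symm
          · intro j _ hj
            rw [Finset.sum_apply]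
            refine Finset.sum_eq_zero fun m _ => ?_
            rw [Pi.single_eq_of_ne hj.symm]
          · intro h
            exact absurd (Finset.mem_univ _) h
        rw [h1]
        refine Submodule.sum_mem _ fun j _ => Submodule.sum_mem _ fun m hm => ?_
        rw [MvPolynomial.mem_support_iff] at hm
        have h2 := hf j m hm
        obtain ⟨a, y, rfl⟩ := exists_sumElim m
        rw [dg_wT] at h2
        have h3 : y ≠ 0 := by
          rintro rfl
          have h4 := congrArg Prod.snd h2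
          have h5 : dg (wb blk) a + (sh j).1 = n := congrArg Prod.fst h2
          have h6 : ∑ i, dg (wb blk) a i = ∑ i, (n i - (sh j).1 i) := by
            refine Finset.sum_congr rfl fun i _ => ?_
            rw [← congrFun h5 i, Pi.add_apply]
            ring
          rw [sum_dg_wb, Finsupp.degree_eq_sum] at h6
          have h7 : (∑ c ∈ C, (a c : ℤ)) ≤ ∑ c, (a c : ℤ) :=
            Finset.sum_le_sum_of_subset_of_nonneg (Finset.subset_univ _)
              fun _ _ _ => Int.natCast_nonneg _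
          have h8 : |∑ i, (n i - (sh j).1 i)| + |(sh j).2| ≤
              ∑ j, (|∑ i, (n i - (sh j).1 i)| + |(sh j).2|) :=
            Finset.single_le_sum (f := fun j => |∑ i, (n i - (sh j).1 i)| + |(sh j).2|)
              (fun _ _ => add_nonneg (abs_nonneg _) (abs_nonneg _)) (Finset.mem_univ j)
          have h9 := le_abs_self (∑ i, (n i - (sh j).1 i))
          have h10 := le_abs_self (sh j).2
          change (∑ c ∈ C, (a c : ℤ)) + (e : ℤ) * (((0 : J →₀ ℕ).degree : ℕ) : ℤ) + (sh j).2 = t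
            at h4
          rw [map_zero, Nat.cast_zero, mul_zero, add_zero] at h4
          push_cast at h6
          linarith
        obtain ⟨j', hj'⟩ := Finsupp.ne_iff.mp h3
        rw [Finsupp.coe_zero, Pi.zero_apply] at hj'
        have h4 : (Pi.single j (monomial (Finsupp.sumElim a y) (coeff (Finsupp.sumElim a y) (f j))) :
            Fin s → MvPolynomial (Z ⊕ J) k) =
            (monomial (Finsupp.sumElim a y - Finsupp.single (Sum.inr j') 1)
              (coeff (Finsupp.sumElim a y) (f j)) : MvPolynomial (Z ⊕ J) k) •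
              (Pi.single j (X (Sum.inr j')) : Fin s → MvPolynomial (Z ⊕ J) k) := by
          rw [← Pi.single_smul, smul_eq_mul]
          congr 1
          rw [X, monomial_mul, mul_one, tsub_add_cancel_of_le]
          exact Finsupp.single_le_iff.mpr (Nat.one_le_iff_ne_zero.mpr hj')
        rw [h4]
        exact N.smul_mem _ (hrel _ (hJ j') j)
      · rintro f ⟨-, hf⟩
        exact ⟨Submodule.mem_top, hf⟩
    rw [hd, hd, h]
  | zero => exact ⟨0, fun _ _ => rfl⟩
  | add f g _ _ hf hg =>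
    obtain ⟨t1, h1⟩ := hf
    obtain ⟨t2, h2⟩ := hg
    refine ⟨max t1 t2, fun t ht => ?_⟩
    rw [Pi.add_apply, h1 t (lt_of_le_of_lt (le_max_left _ _) ht),
      h2 t (lt_of_le_of_lt (le_max_right _ _) ht), add_zero]
  | neg f _ hf =>
    obtain ⟨t1, h1⟩ := hf
    refine ⟨t1, fun t ht => ?_⟩
    rw [Pi.neg_apply, h1 t ht, neg_zero]

end rel

end Vale.Agent.P200F.V.SL

end

section

namespace Vale.Agent.P200F.V

open Module MvPolynomial

universe u

/-- the property proved by induction -/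
def SL.PP {k : Type u} [Field k] {Z ι J : Type} [Fintype Z] [DecidableEq Z] [Fintype ι]
    [DecidableEq ι] [Fintype J] (blk : Z → ι) (C : Finset Z) (e : ℕ)
    (R : Set (MvPolynomial (Z ⊕ J) k)) (f : (ι → ℤ) → ℤ) : Prop :=
  ∃ f' ∈ Hil k (wT J blk C e) R,
    (∀ n t, t < 0 → f' (n, t) = 0) ∧ ∀ n (t1 : ℤ), (∀ t, t1 < t → act ((ι → ℤ) × ℤ)
      ((1 - el ((0 : ι → ℤ), (e : ℤ))) ^ Fintype.card J) f' (n, t) = 0) →
      f n = ∑ t ∈ Finset.Icc 0 t1, act ((ι → ℤ) × ℤ)
        ((1 - el ((0 : ι → ℤ), (e : ℤ))) ^ Fintype.card J) f' (n, t)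

section
variable {k : Type u} [Field k] {Z ι J : Type} [Fintype Z] [DecidableEq Z] [Fintype ι]
  [DecidableEq ι] [Fintype J] {blk : Z → ι} {C : Finset Z} {e : ℕ}

theorem SL.bdd (he : 0 < e) {R : Set (MvPolynomial (Z ⊕ J) k)} {f : (ι → ℤ) × ℤ → ℤ}
    (hf : f ∈ Hil k (wT J blk C e) R) (n : ι → ℤ) : ∃ t1 : ℤ, ∀ t, t1 < t →
      act ((ι → ℤ) × ℤ) ((1 - el ((0 : ι → ℤ), (e : ℤ))) ^ Fintype.card J) f (n, t) = 0 := by
  classical
  have h := Hil.dev_fam (SL.pos_wT (J := J) (blk := blk) (C := C) he) (Finset.univ : Finset J)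
    (fun j => (X (Sum.inr j) : MvPolynomial (Z ⊕ J) k)) (fun _ => ((0 : ι → ℤ), (e : ℤ)))
    (fun j _ => SL.homD_X (k := k) (wt := wT J blk C e) (Sum.inr j)) hf
  rw [Finset.prod_const, Finset.card_univ] at h
  exact SL.fin_supp (fun j => Or.inr ⟨j, Finset.mem_coe.mpr (Finset.mem_univ _), rfl⟩) h n

/-- the sum does not depend on the bound -/
theorem SL.sum_ext {g : ℤ → ℤ} {a b : ℤ} (hab : a ≤ b) (h : ∀ t, a < t → g t = 0) :
    ∑ t ∈ Finset.Icc 0 b, g t = ∑ t ∈ Finset.Icc 0 a, g t := by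
  symm
  refine Finset.sum_subset (Finset.Icc_subset_Icc_right hab) fun t _ ht => ?_
  refine h t ?_
  by_contra h2
  exact ht (Finset.mem_Icc.mpr ⟨(Finset.mem_Icc.mp ‹_›).1, not_lt.mp h2⟩)

theorem SL.PP_add (he : 0 < e) {R : Set (MvPolynomial (Z ⊕ J) k)} {f g : (ι → ℤ) → ℤ}
    (hf : SL.PP blk C e R f) (hg : SL.PP blk C e R g) : SL.PP blk C e R (f + g) := by
  obtain ⟨f', hf', hf0, hf1⟩ := hf
  obtain ⟨g', hg', hg0, hg1⟩ := hg
  refine ⟨f' + g', AddSubgroup.add_mem _ hf' hg', fun n t ht => ?_, fun n t1 h1 => ?_⟩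
  · rw [Pi.add_apply, hf0 n t ht, hg0 n t ht, add_zero]
  · obtain ⟨a, ha⟩ := SL.bdd he hf' n
    obtain ⟨b, hb⟩ := SL.bdd he hg' n
    set T := max t1 (max a b) with hT
    have hf2 := hf1 n T fun t ht =>
      ha t (lt_of_le_of_lt ((le_max_left a b).trans (le_max_right t1 _)) ht)
    have hg2 := hg1 n T fun t ht =>
      hb t (lt_of_le_of_lt ((le_max_right a b).trans (le_max_right t1 _)) ht)
    rw [Pi.add_apply, hf2, hg2, ← Finset.sum_add_distrib]
    rw [← SL.sum_ext (le_max_left t1 (max a b)) h1]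
    refine Finset.sum_congr rfl fun t _ => ?_
    rw [map_add, Pi.add_apply]

theorem SL.PP_neg {R : Set (MvPolynomial (Z ⊕ J) k)} {f : (ι → ℤ) → ℤ}
    (hf : SL.PP blk C e R f) : SL.PP blk C e R (-f) := by
  obtain ⟨f', hf', hf0, hf1⟩ := hf
  refine ⟨-f', AddSubgroup.neg_mem _ hf', fun n t ht => ?_, fun n t1 h1 => ?_⟩
  · rw [Pi.neg_apply, hf0 n t ht, neg_zero]
  · rw [Pi.neg_apply, hf1 n t1 fun t ht => by
      have := h1 t ht
      rw [map_neg, Pi.neg_apply, neg_eq_zero] at this
      exact this, ← Finset.sum_neg_distrib]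
    refine Finset.sum_congr rfl fun t _ => ?_
    rw [map_neg, Pi.neg_apply]

theorem SL.PP_zero {R : Set (MvPolynomial (Z ⊕ J) k)} :
    SL.PP blk C e R (0 : (ι → ℤ) → ℤ) := by
  refine ⟨0, AddSubgroup.zero_mem _, fun n t ht => rfl, fun n t1 _ => ?_⟩
  rw [map_zero]
  simp

/-- **From the field of rational functions to the ring of parameters.** -/
theorem sl1 (he : 0 < e)
    (G0 : Set (MvPolynomial Z k)) (h : Z → J → MvPolynomial Z k)
    (hG0 : ∀ p ∈ G0, (∃ δ : ι → ℤ, ∀ m, coeff m p ≠ 0 → dg (wb blk) m = δ) ∧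
      ∀ m, coeff m p ≠ 0 → ∀ c ∈ C, m c = 0)
    (hh : ∀ c ∈ C, ∀ j m, coeff m (h c j) ≠ 0 →
      dg (wb blk) m = Pi.single (blk c) (e : ℤ) ∧ ∀ c' ∈ C, m c' = 0)
    {f : (ι → ℤ) → ℤ} (hf : f ∈ Hil (KF k J) (wb blk)
      ((MvPolynomial.map (algebraMap k (KF k J)) '' G0) ∪ (lrel e h '' (C : Set Z)))) :
    ∃ f' ∈ Hil k (wT J blk C e) ((rename Sum.inl '' G0) ∪ (trelT e h '' (C : Set Z))),
      (∀ n t, t < 0 → f' (n, t) = 0) ∧ ∀ n (t1 : ℤ), (∀ t, t1 < t → act ((ι → ℤ) × ℤ)
        ((1 - el ((0 : ι → ℤ), (e : ℤ))) ^ Fintype.card J) f' (n, t) = 0) →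
        f n = ∑ t ∈ Finset.Icc 0 t1, act ((ι → ℤ) × ℤ)
          ((1 - el ((0 : ι → ℤ), (e : ℤ))) ^ Fintype.card J) f' (n, t) := by
  change SL.PP blk C e _ f
  induction hf using AddSubgroup.closure_induction with
  | mem f hf =>
    obtain ⟨s, sh, N, hN, hrel, hfν⟩ := hf
    refine ⟨SL.fg blk C e sh N, AddSubgroup.subset_closure ⟨s, SL.sh0 sh,
      SL.initM (wT J blk C e) (SL.sh0 sh) (SL.NAo k N), SL.homS_initM, ?_, fun ν => rfl⟩,
      SL.fg_neg blk C e sh he N, fun n t1 h1 => ?_⟩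
    · intro p hp j
      have hmem : ∀ q : MvPolynomial Z (KF k J), SL.toK k Z J p = q →
          (Pi.single j q : Fin s → MvPolynomial Z (KF k J)) ∈ N →
          (Pi.single j p : Fin s → MvPolynomial (Z ⊕ J) k) ∈ SL.NAo k N := by
        intro q hq hqN
        have h1 : (fun i => SL.toK k Z J ((Pi.single j p : Fin s → MvPolynomial (Z ⊕ J) k) i)) =
            Pi.single j q := by
          funext i
          by_cases hi : i = j
          · subst hi
            rw [Pi.single_eq_same, Pi.single_eq_same, hq]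
          · rw [Pi.single_eq_of_ne hi, Pi.single_eq_of_ne hi, map_zero]
        change (fun i => SL.toK k Z J ((Pi.single j p : Fin s → MvPolynomial (Z ⊕ J) k) i)) ∈ N
        rw [h1]
        exact hqN
      rcases hp with ⟨g, hg, rfl⟩ | ⟨c, hc, rfl⟩
      · obtain ⟨⟨δ, h1⟩, h2⟩ := hG0 g hg
        exact SL.mem_initM_of_hom (SL.single_mem_gp (SL.homD_rename h1 h2) j)
          (hmem _ (SL.toK_rename g) (hrel _ (Or.inl ⟨g, hg, rfl⟩) j))
      · exact SL.mem_initM_of_hom (SL.single_mem_gp (SL.homD_trelT hh hc) j)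
          (hmem _ (SL.toK_trelT h c) (hrel _ (Or.inr ⟨c, hc, rfl⟩) j))
    · rw [hfν]
      exact SL.fg_sum blk C e sh he N n t1 h1
  | zero => exact SL.PP_zero
  | add f g _ _ hf hg => exact SL.PP_add he hf hg
  | neg f _ hf => exact SL.PP_neg hf

end

end Vale.Agent.P200F.V

end
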