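import Vale.Agent.P200F.Ns
import Vale.Agent.P200F.B.Tor
import Vale.Agent.P200F.A3

set_option linter.all false

namespace AFastd24029x6a
@[reducible] noncomputable def a0.{u1} {x1 : ℕ} {x2 : Type u1} [x3 : Field x2] {x4 : Ideal (MvPolynomial (Fin x1) x2)} : AddCommMonoid (MvPolynomial (Fin x1) x2 ⧸ x4) := inferInstance
@[reducible] noncomputable def a1.{u1} {x1 : ℕ} {x2 : Type u1} [x3 : Field x2] {x4 : Ideal (MvPolynomial (Fin x1) x2)} : AddCommMonoid (Finset (Fin x1) → MvPolynomial (Fin x1) x2 ⧸ x4) := inferInstance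
@[reducible] noncomputable def a2.{u1} {x1 : ℕ} {x2 : Type u1} [x3 : Field x2] {x4 : Ideal (MvPolynomial (Fin x1) x2)} : Semiring (MvPolynomial (Fin x1) x2 ⧸ x4) := inferInstance
@[reducible] noncomputable def a3.{u1} {x1 : ℕ} {x2 : Type u1} [x3 : Field x2] {x4 : Ideal (MvPolynomial (Fin x1) x2)} : Ring (MvPolynomial (Fin x1) x2 ⧸ x4) := inferInstance
@[reducible] noncomputable def a4.{u1} {x1 : ℕ} {x2 : Type u1} [x3 : Field x2] {x4 : Ideal (MvPolynomial (Fin x1) x2)} : Zero (MvPolynomial (Fin x1) x2 ⧸ x4) := inferInstance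
@[reducible] noncomputable def a5.{u1} {x1 : Type u1} {x2 : ℕ} [x3 : Field x1] {x4 : Ideal (MvPolynomial (Fin x2) x1)} : SetLike (Submodule x1 (MvPolynomial (Fin x2) x1 ⧸ x4)) (MvPolynomial (Fin x2) x1 ⧸ x4) := inferInstance
@[reducible] noncomputable def a6.{u1} {x1 : ℕ} {x2 : Type u1} [x3 : Field x2] {x4 : Ideal (MvPolynomial (Fin x1) x2)} : NonAssocSemiring (MvPolynomial (Fin x1) x2 ⧸ x4) := inferInstance
@[reducible] noncomputable def a7.{u1} {x1 : Type u1} {x2 : ℕ} [x3 : Field x1] {x4 : Ideal (MvPolynomial (Fin x2) x1)} : Bot (Submodule x1 (MvPolynomial (Fin x2) x1 ⧸ x4)) := inferInstance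
@[reducible] noncomputable def a8.{u1} {x1 : ℕ} {x2 : Type u1} [x3 : Field x2] {x4 : Ideal (MvPolynomial (Fin x1) x2)} : Mul (MvPolynomial (Fin x1) x2 ⧸ x4) := inferInstance
@[reducible] noncomputable def a9.{u1} {x1 : ℕ} {x2 : Type u1} [x3 : Field x2] {x4 : Ideal (MvPolynomial (Fin x1) x2)} : Distrib (MvPolynomial (Fin x1) x2 ⧸ x4) := inferInstance
@[reducible] noncomputable def a10.{u1} {x1 : ℕ} {x2 : Type u1} [x3 : Field x2] {x4 : Ideal (MvPolynomial (Fin x1) x2)} : AddCommGroup (Finset (Fin x1) → MvPolynomial (Fin x1) x2 ⧸ x4) := inferInstance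
@[reducible] noncomputable def a11.{u1} {x1 : ℕ} {x2 : Type u1} [x3 : Field x2] : Max (Ideal (MvPolynomial (Fin x1) x2)) := inferInstance
@[reducible] noncomputable def a12.{u1} {x1 : ℕ} {x2 : Type u1} [x3 : Field x2] : SemilatticeSup (Ideal (MvPolynomial (Fin x1) x2)) := inferInstance
@[reducible] noncomputable def a13.{u1} {x1 : ℕ} {x2 : Type u1} [x3 : Field x2] {x4 : Ideal (MvPolynomial (Fin x1) x2)} : Pow (MvPolynomial (Fin x1) x2 ⧸ x4) ℕ := inferInstance
@[reducible] noncomputable def a14.{u1} {x1 : ℕ} {x2 : Type u1} [x3 : Field x2] {x4 : Ideal (MvPolynomial (Fin x1) x2)} : NPow (MvPolynomial (Fin x1) x2 ⧸ x4) := inferInstance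
@[reducible] noncomputable def a15.{u1} {x1 : ℕ} {x2 : Type u1} [x3 : Field x2] {x4 : Ideal (MvPolynomial (Fin x1) x2)} : AddMonoid (Finset (Fin x1) → MvPolynomial (Fin x1) x2 ⧸ x4) := inferInstance
@[reducible] noncomputable def a16.{u1} {x1 : ℕ} {x2 : Type u1} [x3 : Field x2] {x4 : Ideal (MvPolynomial (Fin x1) x2)} : Zero (Finset (Fin x1) → MvPolynomial (Fin x1) x2 ⧸ x4) := inferInstance
@[reducible] noncomputable def a17.{u1} {x1 : ℕ} {x2 : Type u1} [x3 : Field x2] {x4 : Ideal (MvPolynomial (Fin x1) x2)} : Monoid (MvPolynomial (Fin x1) x2 ⧸ x4) := inferInstance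
@[reducible] noncomputable def a18.{u1} {x1 : ℕ} {x2 : Type u1} [x3 : Field x2] {x4 : Ideal (MvPolynomial (Fin x1) x2)} : Neg (MvPolynomial (Fin x1) x2 ⧸ x4) := inferInstance
@[reducible] noncomputable def a19.{u1} {x1 : ℕ} {x2 : Type u1} [x3 : Field x2] {x4 : Ideal (MvPolynomial (Fin x1) x2)} : SubtractionMonoid (MvPolynomial (Fin x1) x2 ⧸ x4) := inferInstance
@[reducible] noncomputable def a20.{u1} {x1 : ℕ} {x2 : Type u1} [x3 : Field x2] {x4 : Ideal (MvPolynomial (Fin x1) x2)} : SubtractionCommMonoid (MvPolynomial (Fin x1) x2 ⧸ x4) := inferInstance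
@[reducible] noncomputable def a21.{u1} {x1 : ℕ} {x2 : Type u1} [x3 : Field x2] {x4 : Ideal (MvPolynomial (Fin x1) x2)} : AddMonoid (MvPolynomial (Fin x1) x2 ⧸ x4) := inferInstance
@[reducible] noncomputable def a22.{u1} {x1 : ℕ} {x2 : Type u1} [x3 : Field x2] {x4 : Ideal (MvPolynomial (Fin x1) x2)} : NegZeroClass (MvPolynomial (Fin x1) x2 ⧸ x4) := inferInstance
@[reducible] noncomputable def a23.{u1} {x1 : ℕ} {x2 : Type u1} [x3 : Field x2] {x4 : Ideal (MvPolynomial (Fin x1) x2)} : SubNegZeroMonoid (MvPolynomial (Fin x1) x2 ⧸ x4) := inferInstance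
@[reducible] noncomputable def a24.{u1} {x1 : ℕ} {x2 : Type u1} [x3 : Field x2] {x4 : Ideal (MvPolynomial (Fin x1) x2)} : AddZero (Finset (Fin x1) → MvPolynomial (Fin x1) x2 ⧸ x4) := inferInstance
@[reducible] noncomputable def a25.{u1} {x1 : ℕ} {x2 : Type u1} [x3 : Field x2] {x4 : Ideal (MvPolynomial (Fin x1) x2)} : AddZeroClass (Finset (Fin x1) → MvPolynomial (Fin x1) x2 ⧸ x4) := inferInstance
@[reducible] noncomputable def a26.{u1} {x1 : ℕ} {x2 : Type u1} [x3 : Field x2] {x4 : Ideal (MvPolynomial (Fin x1) x2)} : AddZeroClass (MvPolynomial (Fin x1) x2 ⧸ x4) := inferInstance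
@[reducible] noncomputable def a27.{u1} {x1 : ℕ} {x2 : Type u1} [x3 : Field x2] {x4 : Ideal (MvPolynomial (Fin x1) x2)} : AddCommGroup (MvPolynomial (Fin x1) x2 ⧸ x4) := inferInstance
@[reducible] noncomputable def a28.{u1} {x1 : Type u1} {x2 : ℕ} [x3 : Field x1] : Max (Submodule x1 (MvPolynomial (Fin x2) x1)) := inferInstance
@[reducible] noncomputable def a29.{u1} {x1 : Type u1} {x2 : ℕ} [x3 : Field x1] : SemilatticeSup (Submodule x1 (MvPolynomial (Fin x2) x1)) := inferInstance
@[reducible] noncomputable def a30.{u1} {x1 : ℕ} {x2 : Type u1} [x3 : Field x2] {x4 : Ideal (MvPolynomial (Fin x1) x2)} : AddZero (MvPolynomial (Fin x1) x2 ⧸ x4) := inferInstance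
@[reducible] noncomputable def a31.{u1} {x1 : ℕ} {x2 : Type u1} [x3 : Field x2] {x4 : Ideal (MvPolynomial (Fin x1) x2)} : Add (Finset (Fin x1) → MvPolynomial (Fin x1) x2 ⧸ x4) := inferInstance
@[reducible] noncomputable def a32.{u1} {x1 : ℕ} {x2 : Type u1} [x3 : Field x2] {x4 : Ideal (MvPolynomial (Fin x1) x2)} : CommRing (MvPolynomial (Fin x1) x2 ⧸ x4) := inferInstance
@[reducible] noncomputable def a33.{u1} {x1 : ℕ} {x2 : Type u1} [x3 : Field x2] : IdemSemiring (Submodule (MvPolynomial (Fin x1) x2) (MvPolynomial (Fin x1) x2)) := inferInstance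
theorem a34.{u1} {x1 : Type u1} {x2 : ℕ} [x3 : Field x1] : RingHomClass (MvPolynomial (Fin (x2 + 1)) x1 →ₐ[x1] MvPolynomial (Fin x2) x1) (MvPolynomial (Fin (x2 + 1)) x1) (MvPolynomial (Fin x2) x1) := inferInstance
end AFastd24029x6a
attribute [local instance] AFastd24029x6a.a0 AFastd24029x6a.a1 AFastd24029x6a.a2 AFastd24029x6a.a3
  AFastd24029x6a.a4 AFastd24029x6a.a5 AFastd24029x6a.a6 AFastd24029x6a.a7 AFastd24029x6a.a8
  AFastd24029x6a.a9 AFastd24029x6a.a10 AFastd24029x6a.a11 AFastd24029x6a.a12 AFastd24029x6a.a13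
  AFastd24029x6a.a14 AFastd24029x6a.a15 AFastd24029x6a.a16 AFastd24029x6a.a17 AFastd24029x6a.a18
  AFastd24029x6a.a19 AFastd24029x6a.a20 AFastd24029x6a.a21 AFastd24029x6a.a22 AFastd24029x6a.a23
  AFastd24029x6a.a24 AFastd24029x6a.a25 AFastd24029x6a.a26 AFastd24029x6a.a27 AFastd24029x6a.a28
  AFastd24029x6a.a29 AFastd24029x6a.a30 AFastd24029x6a.a31 AFastd24029x6a.a32 AFastd24029x6a.a33
  AFastd24029x6a.a34
namespace AFastd24029x6b
theorem a0.{u1} {x1 : ℕ} {x2 : Type u1} [x3 : Field x2] {x4 : Ideal (MvPolynomial (Fin x1) x2)} : MulHomClass (MvPolynomial (Fin x1) x2 →+* MvPolynomial (Fin x1) x2 ⧸ x4) (MvPolynomial (Fin x1) x2) (MvPolynomial (Fin x1) x2 ⧸ x4) := inferInstance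
theorem a1.{u1} {x1 : ℕ} {x2 : Type u1} [x3 : Field x2] {x4 : Ideal (MvPolynomial (Fin x1) x2)} : NonUnitalRingHomClass (MvPolynomial (Fin x1) x2 →+* MvPolynomial (Fin x1) x2 ⧸ x4) (MvPolynomial (Fin x1) x2) (MvPolynomial (Fin x1) x2 ⧸ x4) := inferInstance
end AFastd24029x6b
attribute [local instance] AFastd24029x6b.a0 AFastd24029x6b.a1
section

namespace Vale.Agent.P200F

open MvPolynomial Module

variable {K : Type*} [Field K] {n : ℕ}

/-- the degree `d` piece of `S / I` -/
noncomputable def quotPiece (I : Ideal (MvPolynomial (Fin n) K)) (d : ℕ) :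
    Submodule K (MvPolynomial (Fin n) K ⧸ I) :=
  (homogeneousSubmodule (Fin n) K d).map (Ideal.Quotient.mkₐ K I).toLinearMap

/-- The part of internal degree `j` of the `p`-th term `⋀^p S^n(-p) ⊗ S / I` of the Koszul
complex: families of elements of `(S / I)_(j - p)` indexed by the `p`-element subsets. -/
noncomputable def koszulChain (I : Ideal (MvPolynomial (Fin n) K)) (p j : ℕ) :
    Submodule K (Finset (Fin n) → MvPolynomial (Fin n) K ⧸ I) where
  carrier := {c | (∀ s, s.card ≠ p → c s = 0) ∧ (∀ s, c s ∈ if p ≤ j then quotPiece I (j - p)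
    else ⊥)}
  add_mem' := by
    rintro a b ⟨ha, ha'⟩ ⟨hb, hb'⟩
    exact ⟨fun s hs => by simp [ha s hs, hb s hs], fun s => Submodule.add_mem _ (ha' s) (hb' s)⟩
  zero_mem' := ⟨fun _ _ => rfl, fun _ => Submodule.zero_mem _⟩
  smul_mem' := by
    rintro k a ⟨ha, ha'⟩
    exact ⟨fun s hs => by simp [ha s hs], fun s => Submodule.smul_mem _ _ (ha' s)⟩

/-- The Koszul differential: `(∂ c)_t = ∑_{i ∉ t} (-1)^{#{k ∈ t : k < i}} x_i c_{t ∪ i}`. -/
noncomputable def koszulD (I : Ideal (MvPolynomial (Fin n) K)) :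
    (Finset (Fin n) → MvPolynomial (Fin n) K ⧸ I) →ₗ[K]
      (Finset (Fin n) → MvPolynomial (Fin n) K ⧸ I) where
  toFun c := fun t => ∑ i ∈ tᶜ, (-1 : MvPolynomial (Fin n) K ⧸ I) ^ (t.filter fun k => k < i).card *
    (Ideal.Quotient.mk I (X i) * c (insert i t))
  map_add' := by
    intro a b
    funext t
    simp [mul_add, Finset.sum_add_distrib]
  map_smul' := by
    intro k a
    funext t
    simp [Finset.smul_sum, mul_smul_comm]

/-- The graded Betti number `β_{p,j}(S / I) = dim Tor_p(S / I, K)_j`, i.e. the dimension of the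
part of degree `j` of the `p`-th homology of the Koszul complex of `x_1, …, x_n` on `S / I`. -/
noncomputable def betti (I : Ideal (MvPolynomial (Fin n) K)) (p j : ℕ) : ℕ :=
  finrank K (↥(koszulChain I p j ⊓ LinearMap.ker (koszulD I)) ⧸
    ((koszulChain I (p + 1) j).map (koszulD I)).comap
      (koszulChain I p j ⊓ LinearMap.ker (koszulD I)).subtype)

end Vale.Agent.P200F

end
namespace AFastd24029x58a
@[reducible] noncomputable def a0.{u1} {x1 : ℕ} {x2 : Type u1} [x3 : Field x2] {x4 : Ideal (MvPolynomial (Fin x1) x2)} {x5 : ℕ} {x6 : ℕ} : HasQuotient (↥(Vale.Agent.P200F.koszulChain x4 x5 x6 ⊓ (Vale.Agent.P200F.koszulD x4).ker)) (Submodule x2 ↥(Vale.Agent.P200F.koszulChain x4 x5 x6 ⊓ (Vale.Agent.P200F.koszulD x4).ker)) := inferInstance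
@[reducible] noncomputable def a1.{u1} {x1 : ℕ} {x2 : Type u1} [x3 : Field x2] {x4 : Ideal (MvPolynomial (Fin x1) x2)} {x5 : ℕ} {x6 : ℕ} : AddCommMonoid (↥(Vale.Agent.P200F.koszulChain x4 x5 x6 ⊓ (Vale.Agent.P200F.koszulD x4).ker) ⧸ Submodule.comap (Vale.Agent.P200F.koszulChain x4 x5 x6 ⊓ (Vale.Agent.P200F.koszulD x4).ker).subtype (Submodule.map (Vale.Agent.P200F.koszulD x4) (Vale.Agent.P200F.koszulChain x4 (x5 + 1) x6))) := inferInstance
@[reducible] noncomputable def a2.{u1} {x1 : ℕ} {x2 : Type u1} [x3 : Field x2] {x4 : Ideal (MvPolynomial (Fin x1) x2)} {x5 : ℕ} {x6 : ℕ} : AddCommGroup ↥(Vale.Agent.P200F.koszulChain x4 x5 x6 ⊓ (Vale.Agent.P200F.koszulD x4).ker) := inferInstance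
@[reducible] noncomputable def a3.{u1} {x1 : ℕ} {x2 : Type u1} [x3 : Field x2] {x4 : Ideal (MvPolynomial (Fin x1) x2)} {x5 : ℕ} {x6 : ℕ} : AddCommMagma ↥(Vale.Agent.P200F.koszulChain x4 x5 x6) := inferInstance
@[reducible] noncomputable def a4.{u1} {x1 : ℕ} {x2 : Type u1} [x3 : Field x2] {x4 : Ideal (MvPolynomial (Fin x1) x2)} {x5 : ℕ} {x6 : ℕ} : AddCommSemigroup ↥(Vale.Agent.P200F.koszulChain x4 x5 x6) := inferInstance
end AFastd24029x58a
attribute [local instance] AFastd24029x58a.a0 AFastd24029x58a.a1 AFastd24029x58a.a2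
  AFastd24029x58a.a3 AFastd24029x58a.a4
namespace AFastd24029x58b
@[reducible] noncomputable def a0.{u1} {x1 : ℕ} {x2 : Type u1} [x3 : Field x2] {x4 : Ideal (MvPolynomial (Fin x1) x2)} {x5 : ℕ} {x6 : ℕ} : AddZero ↥(Vale.Agent.P200F.koszulChain x4 x5 x6) := inferInstance
@[reducible] noncomputable def a1.{u1} {x1 : ℕ} {x2 : Type u1} [x3 : Field x2] {x4 : Ideal (MvPolynomial (Fin x1) x2)} {x5 : ℕ} {x6 : ℕ} : AddZeroClass ↥(Vale.Agent.P200F.koszulChain x4 x5 x6) := inferInstance
@[reducible] noncomputable def a2.{u1} {x1 : ℕ} {x2 : Type u1} [x3 : Field x2] {x4 : Ideal (MvPolynomial (Fin x1) x2)} {x5 : ℕ} {x6 : ℕ} : AddMonoid ↥(Vale.Agent.P200F.koszulChain x4 x5 x6) := inferInstance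
end AFastd24029x58b
attribute [local instance] AFastd24029x58b.a0 AFastd24029x58b.a1 AFastd24029x58b.a2

section

namespace Vale.Agent.P200F.G

open MvPolynomial

variable {K : Type*} [Field K] {n : ℕ}

attribute [local instance] MvPolynomial.gradedAlgebra

/-- `(I : l)` -/
def colonBy {R : Type*} [CommRing R] (I : Ideal R) (l : R) : Ideal R where
  carrier := {g | l * g ∈ I}
  add_mem' := by
    intro a b ha hb
    simpa [mul_add] using I.add_mem ha hb
  zero_mem' := by simp
  smul_mem' := by
    intro c x hx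
    have := I.mul_mem_left c hx
    simpa [mul_left_comm, smul_eq_mul] using this

theorem mem_colonBy {R : Type*} [CommRing R] {I : Ideal R} {l g : R} :
    g ∈ colonBy I l ↔ l * g ∈ I := Iff.rfl

theorem piece_mono {I J : Ideal (MvPolynomial (Fin n) K)} (h : I ≤ J) (d : ℕ) :
    piece I d ≤ piece J d := fun _ hg => ⟨h hg.1, hg.2⟩

theorem hilb_eq_zero_iff {I : Ideal (MvPolynomial (Fin n) K)} {d : ℕ} :
    hilb I d = 0 ↔ ∀ g : MvPolynomial (Fin n) K, g.IsHomogeneous d → g ∈ I := by
  constructor
  · intro h g hg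
    have h1 := finrank_piece_add_hilb I d
    rw [h, add_zero] at h1
    have h2 := Submodule.eq_of_le_of_finrank_eq (piece_le I d) h1
    have h3 : g ∈ piece I d := by
      rw [h2]
      exact hg
    exact h3.1
  · intro h
    have h1 : piece I d = homogeneousSubmodule (Fin n) K d :=
      le_antisymm (piece_le I d) fun g hg => ⟨h g hg, hg⟩
    rw [hilb, h1, Nat.sub_self]

theorem homIdeal_colonBy {I : Ideal (MvPolynomial (Fin n) K)} (hI : HomIdeal I)
    {l : MvPolynomial (Fin n) K} {e : ℕ} (hl : l.IsHomogeneous e) :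
    HomIdeal (colonBy I l) := by
  intro f hf d
  rw [mem_colonBy] at hf ⊢
  rw [← comp_mul_add hl]
  exact hI _ hf _

/-- homogeneous elements of `I + (l)` -/
theorem exists_of_mem_sup_span {I : Ideal (MvPolynomial (Fin n) K)} (hI : HomIdeal I)
    {l g : MvPolynomial (Fin n) K} {d e : ℕ} (hl : l.IsHomogeneous e)
    (hg : g.IsHomogeneous (d + e)) (h : g ∈ I ⊔ Ideal.span {l}) :
    ∃ u : MvPolynomial (Fin n) K, u.IsHomogeneous d ∧ g - l * u ∈ I := by
  obtain ⟨i, hi, j, hj, rfl⟩ := Submodule.mem_sup.1 h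
  obtain ⟨u, rfl⟩ := Ideal.mem_span_singleton'.1 hj
  refine ⟨homogeneousComponent d u, homogeneousComponent_isHomogeneous _ _, ?_⟩
  have h1 : i + u * l = homogeneousComponent (d + e) i + l * homogeneousComponent d u := by
    rw [← comp_mul_add hl, mul_comm l u, ← map_add, comp_self hg]
  rw [h1, add_sub_cancel_right]
  exact hI _ hi _

private theorem piece_sup_span {I : Ideal (MvPolynomial (Fin n) K)} (hI : HomIdeal I)
    {l : MvPolynomial (Fin n) K} {e : ℕ} (hl : l.IsHomogeneous e) (d : ℕ) :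
    piece (I ⊔ Ideal.span {l}) (d + e) =
      piece I (d + e) ⊔ (homogeneousSubmodule (Fin n) K d).map (LinearMap.mulLeft K l) := by
  apply le_antisymm
  · intro g hg
    obtain ⟨u, hu, hgu⟩ := exists_of_mem_sup_span hI hl hg.2 hg.1
    have hlu : (l * u).IsHomogeneous (d + e) := by
      rw [add_comm]
      exact hl.mul hu
    rw [← sub_add_cancel g (l * u)]
    exact Submodule.add_mem_sup ⟨hgu, IsHomogeneous.sub hg.2 hlu⟩ ⟨u, hu, rfl⟩
  · refine sup_le (piece_mono le_sup_left _) ?_
    rintro _ ⟨u, hu, rfl⟩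
    refine ⟨?_, ?_⟩
    · exact Ideal.mul_mem_right _ _ (Ideal.mem_sup_right (Ideal.mem_span_singleton_self l))
    · rw [add_comm]
      exact hl.mul hu

private theorem piece_inf_map {I : Ideal (MvPolynomial (Fin n) K)}
    {l : MvPolynomial (Fin n) K} {e : ℕ} (hl : l.IsHomogeneous e) (d : ℕ) :
    piece I (d + e) ⊓ (homogeneousSubmodule (Fin n) K d).map (LinearMap.mulLeft K l) =
      (piece (colonBy I l) d).map (LinearMap.mulLeft K l) := by
  apply le_antisymm
  · rintro _ ⟨h1, ⟨u, hu, rfl⟩⟩
    exact ⟨u, ⟨h1.1, hu⟩, rfl⟩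
  · rintro _ ⟨u, hu, rfl⟩
    refine ⟨⟨hu.1, ?_⟩, ⟨u, hu.2, rfl⟩⟩
    rw [add_comm]
    exact hl.mul hu.2

/-- the exact sequence `0 → (S / (I : l))(-e) → S / I → S / (I + l) → 0` in degrees `≥ e` -/
theorem hilb_exact {I : Ideal (MvPolynomial (Fin n) K)} (hI : HomIdeal I)
    {l : MvPolynomial (Fin n) K} {e : ℕ} (hl : l.IsHomogeneous e) (d : ℕ) :
    hilb I (d + e) = hilb (I ⊔ Ideal.span {l}) (d + e) + hilb (colonBy I l) d := by
  by_cases hl0 : l = 0
  · subst hl0
    have h1 : hilb (colonBy I 0) d = 0 :=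
      hilb_eq_zero_iff.2 fun g _ => by
        rw [mem_colonBy, zero_mul]
        exact I.zero_mem
    have h2 : I ⊔ Ideal.span {(0 : MvPolynomial (Fin n) K)} = I := by simp
    rw [h1, h2, add_zero]
  · have hinj : Function.Injective (LinearMap.mulLeft K l) := by
      intro u v huv
      exact mul_left_cancel₀ hl0 huv
    have h1 := finrank_piece_add_hilb I (d + e)
    have h2 := finrank_piece_add_hilb (I ⊔ Ideal.span {l}) (d + e)
    have h3 := finrank_piece_add_hilb (colonBy I l) d
    have h4 := Submodule.finrank_sup_add_finrank_inf_eq (piece I (d + e))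
      ((homogeneousSubmodule (Fin n) K d).map (LinearMap.mulLeft K l))
    rw [← piece_sup_span hI hl, piece_inf_map hl,
      ← (Submodule.equivMapOfInjective _ hinj (piece (colonBy I l) d)).finrank_eq,
      ← (Submodule.equivMapOfInjective _ hinj (homogeneousSubmodule (Fin n) K d)).finrank_eq] at h4
    omega

theorem hilb_sup_span_of_lt {I : Ideal (MvPolynomial (Fin n) K)} (hI : HomIdeal I)
    {l : MvPolynomial (Fin n) K} {e : ℕ} (hl : l.IsHomogeneous e) {d : ℕ} (hd : d < e) :
    hilb (I ⊔ Ideal.span {l}) d = hilb I d := by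
  refine hilb_congr fun g hg => ⟨fun h => ?_, fun h => Ideal.mem_sup_left h⟩
  obtain ⟨i, hi, j, hj, rfl⟩ := Submodule.mem_sup.1 h
  obtain ⟨u, rfl⟩ := Ideal.mem_span_singleton'.1 hj
  rw [← comp_self hg, map_add, mul_comm u l, comp_mul_of_lt hl u hd, add_zero]
  exact hI _ hi _

theorem mem_of_hilb_eq {I J : Ideal (MvPolynomial (Fin n) K)}
    (h : I ≤ J) {d : ℕ} (hh : hilb I d = hilb J d) {g : MvPolynomial (Fin n) K}
    (hg : g.IsHomogeneous d) (hgJ : g ∈ J) : g ∈ I := by
  have h1 := finrank_piece_add_hilb I d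
  have h2 := finrank_piece_add_hilb J d
  have h3 := Submodule.eq_of_le_of_finrank_eq (piece_mono h d) (by omega)
  have h4 : g ∈ piece I d := by
    rw [h3]
    exact ⟨hgJ, hg⟩
  exact h4.1

end Vale.Agent.P200F.G

end

section

namespace Vale.Agent.P200F.B

open MvPolynomial Module

variable {K : Type*} [Field K] {n : ℕ}

theorem koszulD_apply (I : Ideal (MvPolynomial (Fin n) K))
    (c : Finset (Fin n) → MvPolynomial (Fin n) K ⧸ I) (t : Finset (Fin n)) :
    koszulD I c t = ∑ i ∈ tᶜ, (-1 : MvPolynomial (Fin n) K ⧸ I) ^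
      (t.filter fun k => k < i).card * (Ideal.Quotient.mk I (X i) * c (insert i t)) := rfl

/-- the Koszul differential over any commutative ring -/
def kd {R : Type*} [CommRing R] (x : Fin n → R) (c : Finset (Fin n) → R) :
    Finset (Fin n) → R := fun t => ∑ i ∈ tᶜ, (-1 : R) ^ (t.filter fun k => k < i).card *
      (x i * c (insert i t))

theorem kd_apply {R : Type*} [CommRing R] (x : Fin n → R) (c : Finset (Fin n) → R)
    (t : Finset (Fin n)) : kd x c t = ∑ i ∈ tᶜ, (-1 : R) ^ (t.filter fun k => k < i).card *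
      (x i * c (insert i t)) := rfl

theorem koszulD_eq_kd (I : Ideal (MvPolynomial (Fin n) K))
    (c : Finset (Fin n) → MvPolynomial (Fin n) K ⧸ I) :
    koszulD I c = kd (fun i => Ideal.Quotient.mk I (X i)) c := rfl

theorem kd_map {R R' : Type*} [CommRing R] [CommRing R'] (f : R →+* R') (x : Fin n → R)
    (c : Finset (Fin n) → R) (t : Finset (Fin n)) :
    f (kd x c t) = kd (fun i => f (x i)) (fun s => f (c s)) t := by
  rw [kd_apply, kd_apply, map_sum]
  refine Finset.sum_congr rfl fun i _ => ?_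
  simp

theorem kd_sq {R : Type*} [CommRing R] (x : Fin n → R) (c : Finset (Fin n) → R) :
    kd x (kd x c) = 0 := by
  classical
  funext t
  rw [kd_apply, Pi.zero_apply]
  have h1 : ∀ i ∈ tᶜ, (-1 : R) ^ (t.filter fun k => k < i).card *
      (x i * kd x c (insert i t)) =
      ∑ j ∈ (insert i t)ᶜ, (-1 : R) ^
        ((t.filter fun k => k < i).card + ((insert i t).filter fun k => k < j).card) *
        (x i * x j * c (insert j (insert i t))) := by
    intro i _
    rw [kd_apply, Finset.mul_sum, Finset.mul_sum]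
    refine Finset.sum_congr rfl fun j _ => ?_
    rw [pow_add]
    ring
  rw [Finset.sum_congr rfl h1, Finset.sum_sigma']
  refine Finset.sum_involution (fun a _ => ⟨a.2, a.1⟩) ?_ ?_ ?_ ?_
  · rintro ⟨i, j⟩ h
    simp only [Finset.mem_sigma, Finset.mem_compl, Finset.mem_insert, not_or] at h
    obtain ⟨hi, hji, hj⟩ := h
    have h2 : insert i (insert j t) = insert j (insert i t) := Finset.insert_comm _ _ _
    simp only [h2]
    rw [mul_comm (x j) (x i), ← add_mul]
    have h3 : ∀ a b : Fin n, a ∉ t → a < b → ((insert a t).filter fun k => k < b).card =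
        (t.filter fun k => k < b).card + 1 := by
      intro a b ha hab
      rw [Finset.filter_insert, if_pos hab, Finset.card_insert_of_notMem]
      simp [ha]
    have h4 : ∀ a b : Fin n, ¬ a < b → ((insert a t).filter fun k => k < b).card =
        (t.filter fun k => k < b).card := by
      intro a b hab
      rw [Finset.filter_insert, if_neg hab]
    rcases lt_or_gt_of_ne hji with hlt | hlt
    · rw [h3 j i hj hlt, h4 i j (not_lt.2 hlt.le)]
      ring
    · rw [h3 i j hi hlt, h4 j i (not_lt.2 hlt.le)]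
      ring
  · rintro ⟨i, j⟩ h _ heq
    simp only [Finset.mem_sigma, Finset.mem_compl, Finset.mem_insert, not_or] at h
    simp only [Sigma.mk.injEq] at heq
    exact h.2.1 heq.1
  · rintro ⟨i, j⟩ h
    simp only [Finset.mem_sigma, Finset.mem_compl, Finset.mem_insert, not_or] at h ⊢
    exact ⟨h.2.2, fun hh => h.2.1 hh.symm, h.1⟩
  · rintro ⟨i, j⟩ h
    rfl

theorem koszulD_sq' (I : Ideal (MvPolynomial (Fin n) K))
    (c : Finset (Fin n) → MvPolynomial (Fin n) K ⧸ I) : koszulD I (koszulD I c) = 0 := by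
  rw [koszulD_eq_kd, koszulD_eq_kd]
  exact kd_sq _ _

theorem mem_koszulChain {I : Ideal (MvPolynomial (Fin n) K)} {p j : ℕ}
    {c : Finset (Fin n) → MvPolynomial (Fin n) K ⧸ I} :
    c ∈ koszulChain I p j ↔ (∀ s, s.card ≠ p → c s = 0) ∧
      (∀ s, c s ∈ if p ≤ j then quotPiece I (j - p) else ⊥) := Iff.rfl

theorem mem_quotPiece {I : Ideal (MvPolynomial (Fin n) K)} {d : ℕ}
    {x : MvPolynomial (Fin n) K ⧸ I} :
    x ∈ quotPiece I d ↔ ∃ u : MvPolynomial (Fin n) K, u.IsHomogeneous d ∧
      Ideal.Quotient.mk I u = x := Iff.rfl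

theorem X_mul_mem_quotPiece {I : Ideal (MvPolynomial (Fin n) K)} {d : ℕ} (i : Fin n)
    {x : MvPolynomial (Fin n) K ⧸ I} (hx : x ∈ quotPiece I d) :
    Ideal.Quotient.mk I (X i) * x ∈ quotPiece I (d + 1) := by
  obtain ⟨u, hu, rfl⟩ := mem_quotPiece.1 hx
  refine mem_quotPiece.2 ⟨X i * u, ?_, map_mul _ _ _⟩
  rw [add_comm]
  exact (isHomogeneous_X K i).mul hu

theorem sign_mul_mem {I : Ideal (MvPolynomial (Fin n) K)}
    (W : Submodule K (MvPolynomial (Fin n) K ⧸ I)) (m : ℕ)
    {x : MvPolynomial (Fin n) K ⧸ I} (hx : x ∈ W) :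
    (-1 : MvPolynomial (Fin n) K ⧸ I) ^ m * x ∈ W := by
  rcases neg_one_pow_eq_or (MvPolynomial (Fin n) K ⧸ I) m with h | h
  · rw [h, one_mul]
    exact hx
  · rw [h, neg_one_mul]
    exact W.neg_mem hx

theorem map_koszulD_le' (I : Ideal (MvPolynomial (Fin n) K)) (p j : ℕ) :
    (koszulChain I (p + 1) j).map (koszulD I) ≤
      koszulChain I p j ⊓ LinearMap.ker (koszulD I) := by
  classical
  rintro _ ⟨c, hc, rfl⟩
  obtain ⟨hc1, hc2⟩ := mem_koszulChain.1 hc
  refine ⟨⟨?_, ?_⟩, koszulD_sq' I c⟩
  · intro s hs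
    rw [koszulD_apply]
    refine Finset.sum_eq_zero fun i hi => ?_
    rw [hc1, mul_zero, mul_zero]
    rw [Finset.card_insert_of_notMem (Finset.mem_compl.1 hi)]
    omega
  · intro s
    rw [koszulD_apply]
    refine Submodule.sum_mem _ fun i hi => sign_mul_mem _ _ ?_
    have h := hc2 (insert i s)
    by_cases h1 : p + 1 ≤ j
    · rw [if_pos h1] at h
      rw [if_pos (by omega)]
      have h2 := X_mul_mem_quotPiece i h
      rwa [show j - (p + 1) + 1 = j - p by omega] at h2
    · rw [if_neg h1, Submodule.mem_bot] at h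
      rw [h, mul_zero]
      exact Submodule.zero_mem _

instance finite_quotPiece (I : Ideal (MvPolynomial (Fin n) K)) (d : ℕ) :
    Module.Finite K (quotPiece I d) :=
  Module.Finite.map _ _

theorem finrank_quotPiece (I : Ideal (MvPolynomial (Fin n) K)) (d : ℕ) :
    finrank K (quotPiece I d) = hilb I d := by
  set f : homogeneousSubmodule (Fin n) K d →ₗ[K] MvPolynomial (Fin n) K ⧸ I :=
    (Ideal.Quotient.mkₐ K I).toLinearMap ∘ₗ (homogeneousSubmodule (Fin n) K d).subtype with hf
  have h1 : LinearMap.range f = quotPiece I d := by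
    rw [hf, LinearMap.range_comp, Submodule.range_subtype]
    rfl
  have h2 : LinearMap.ker f = (piece I d).comap (homogeneousSubmodule (Fin n) K d).subtype := by
    ext u
    rw [LinearMap.mem_ker, Submodule.mem_comap]
    constructor
    · intro h
      exact ⟨Ideal.Quotient.eq_zero_iff_mem.1 h, u.2⟩
    · intro h
      exact Ideal.Quotient.eq_zero_iff_mem.2 h.1
  have h3 := LinearMap.finrank_range_add_finrank_ker f
  rw [h1, h2] at h3
  have h4 : finrank K ((piece I d).comap (homogeneousSubmodule (Fin n) K d).subtype) =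
      finrank K (piece I d) :=
    (Submodule.comapSubtypeEquivOfLe (G.piece_le I d)).finrank_eq
  have h5 := G.finrank_piece_add_hilb I d
  omega

/-- the entries allowed in the Koszul chains -/
noncomputable def entry (I : Ideal (MvPolynomial (Fin n) K)) (p j : ℕ) :
    Submodule K (MvPolynomial (Fin n) K ⧸ I) :=
  if p ≤ j then quotPiece I (j - p) else ⊥

theorem entry_pos (I : Ideal (MvPolynomial (Fin n) K)) {p j : ℕ} (h : p ≤ j) :
    entry I p j = quotPiece I (j - p) := if_pos h

theorem entry_neg (I : Ideal (MvPolynomial (Fin n) K)) {p j : ℕ} (h : ¬ p ≤ j) :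
    entry I p j = ⊥ := if_neg h

instance finite_entry (I : Ideal (MvPolynomial (Fin n) K)) (p j : ℕ) :
    Module.Finite K (entry I p j) := by
  by_cases h : p ≤ j
  · rw [entry_pos I h]
    infer_instance
  · rw [entry_neg I h]
    infer_instance

theorem finrank_entry (I : Ideal (MvPolynomial (Fin n) K)) (p j : ℕ) :
    finrank K (entry I p j) = if p ≤ j then hilb I (j - p) else 0 := by
  by_cases h : p ≤ j
  · rw [entry_pos I h, if_pos h]
    exact finrank_quotPiece I _
  · rw [entry_neg I h, if_neg h]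
    exact finrank_bot K _

/-- chains as families indexed by the `p`-element subsets -/
noncomputable def chainEquiv (I : Ideal (MvPolynomial (Fin n) K)) (p j : ℕ) :
    koszulChain I p j ≃ₗ[K] ({s : Finset (Fin n) // s.card = p} → entry I p j) where
  toFun c := fun s => ⟨c.1 s.1, c.2.2 s.1⟩
  map_add' := by
    intro a b
    rfl
  map_smul' := by
    intro k a
    rfl
  invFun c := ⟨fun s => if h : s.card = p then (c ⟨s, h⟩ : MvPolynomial (Fin n) K ⧸ I) else 0,
    by
      refine ⟨fun s hs => dif_neg hs, fun s => ?_⟩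
      by_cases h : s.card = p
      · simp only [h, dif_pos]
        exact (c ⟨s, h⟩).2
      · simp only [h]
        exact Submodule.zero_mem _⟩
  left_inv := by
    intro c
    apply Subtype.ext
    funext s
    by_cases h : s.card = p
    · simp only [h, dif_pos]
    · simp only [h]
      exact (c.2.1 s h).symm
  right_inv := by
    intro c
    funext s
    apply Subtype.ext
    simp only [s.2, dif_pos]

instance finite_koszulChain (I : Ideal (MvPolynomial (Fin n) K)) (p j : ℕ) :
    Module.Finite K (koszulChain I p j) :=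
  Module.Finite.equiv (chainEquiv I p j).symm

theorem finrank_koszulChain (I : Ideal (MvPolynomial (Fin n) K)) (p j : ℕ) :
    finrank K (koszulChain I p j) = n.choose p * if p ≤ j then hilb I (j - p) else 0 := by
  classical
  rw [(chainEquiv I p j).finrank_eq, Module.finrank_pi_fintype]
  rw [Finset.sum_const, finrank_entry, Finset.card_univ, smul_eq_mul]
  congr 1
  rw [Fintype.card_finset_len, Fintype.card_fin]

instance finite_cycles (I : Ideal (MvPolynomial (Fin n) K)) (p j : ℕ) :
    Module.Finite K ↥(koszulChain I p j ⊓ LinearMap.ker (koszulD I)) :=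
  Submodule.finiteDimensional_of_le inf_le_left

instance finite_bd (I : Ideal (MvPolynomial (Fin n) K)) (p j : ℕ) :
    Module.Finite K ((koszulChain I p j).map (koszulD I)) :=
  Module.Finite.map _ _

/-- betti + boundaries = cycles -/
theorem betti_add (I : Ideal (MvPolynomial (Fin n) K)) (p j : ℕ) :
    betti I p j + finrank K ((koszulChain I (p + 1) j).map (koszulD I)) =
      finrank K ↥(koszulChain I p j ⊓ LinearMap.ker (koszulD I)) := by
  have h1 := Submodule.finrank_quotient_add_finrank
    (((koszulChain I (p + 1) j).map (koszulD I)).comap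
      (koszulChain I p j ⊓ LinearMap.ker (koszulD I)).subtype)
  rw [(Submodule.comapSubtypeEquivOfLe (map_koszulD_le' I p j)).finrank_eq] at h1
  exact h1

/-- rank-nullity for the restriction to a submodule -/
theorem finrank_map_add {V V' : Type*} [AddCommGroup V] [Module K V] [AddCommGroup V']
    [Module K V'] (f : V →ₗ[K] V') (W : Submodule K V) [Module.Finite K W] :
    finrank K (W.map f) + finrank K ↥(W ⊓ LinearMap.ker f) = finrank K W := by
  set g := f.domRestrict W with hg
  have h1 : LinearMap.range g = W.map f := by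
    rw [hg, LinearMap.range_domRestrict]
  have h2 : LinearMap.ker g = (W ⊓ LinearMap.ker f).comap W.subtype := by
    ext c
    rw [LinearMap.mem_ker, Submodule.mem_comap]
    constructor
    · intro h
      exact ⟨c.2, h⟩
    · intro h
      exact h.2
  have h3 := LinearMap.finrank_range_add_finrank_ker g
  rw [h1, h2, (Submodule.comapSubtypeEquivOfLe inf_le_left).finrank_eq] at h3
  exact h3

theorem finrank_map_of_inj {V V' : Type*} [AddCommGroup V] [Module K V] [AddCommGroup V']
    [Module K V'] (f : V →ₗ[K] V') (W : Submodule K V) [Module.Finite K W]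
    (h : ∀ w ∈ W, f w = 0 → w = 0) : finrank K (W.map f) = finrank K W := by
  have h1 := finrank_map_add f W
  have h2 : W ⊓ LinearMap.ker f = ⊥ := by
    rw [eq_bot_iff]
    rintro w ⟨h3, h4⟩
    exact (Submodule.mem_bot K).2 (h w h3 h4)
  rw [h2, finrank_bot, add_zero] at h1
  exact h1

end Vale.Agent.P200F.B

end
namespace AFastd24029x492a
@[reducible] noncomputable def a0.{u1} {x1 : ℕ} {x2 : Type u1} [x3 : Field x2] {x4 : Ideal (MvPolynomial (Fin x1) x2)} {x5 : ℕ} {x6 : ℕ} : AddCommMonoid ↥(Vale.Agent.P200F.B.entry x4 x5 x6) := inferInstance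
end AFastd24029x492a
attribute [local instance] AFastd24029x492a.a0

section

namespace Vale.Agent.P200F.B

open MvPolynomial Module

variable {K : Type*} [Field K] {n : ℕ}

theorem koszulChain_eq_bot (I : Ideal (MvPolynomial (Fin n) K)) {p j : ℕ} (h : n < p ∨ j < p) :
    koszulChain I p j = ⊥ := by
  classical
  have h1 := finrank_koszulChain I p j
  have h2 : (n.choose p * if p ≤ j then hilb I (j - p) else 0) = 0 := by
    rcases h with h | h
    · rw [Nat.choose_eq_zero_of_lt h, zero_mul]
    · rw [if_neg (by omega), mul_zero]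
  rw [h2] at h1
  exact Submodule.finrank_eq_zero.1 h1

theorem betti_of_lt' (I : Ideal (MvPolynomial (Fin n) K)) {p j : ℕ} (h : n < p ∨ j < p) :
    betti I p j = 0 := by
  have h1 := betti_add I p j
  have h2 : finrank K ↥(koszulChain I p j ⊓ LinearMap.ker (koszulD I)) = 0 := by
    rw [koszulChain_eq_bot I h, bot_inf_eq]
    exact finrank_bot K _
  omega

end Vale.Agent.P200F.B

end

section

namespace Vale.Agent.P200F.B

open MvPolynomial Module

variable {K : Type*} [Field K] {n : ℕ}

/-- `S_1 W` -/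
noncomputable def shd (W : Submodule K (MvPolynomial (Fin n) K)) :
    Submodule K (MvPolynomial (Fin n) K) :=
  ⨆ i : Fin n, W.map (LinearMap.mulLeft K (X i : MvPolynomial (Fin n) K))

theorem map_koszulD_le (I : Ideal (MvPolynomial (Fin n) K)) (p j : ℕ) :
    (koszulChain I (p + 1) j).map (koszulD I) ≤
      koszulChain I p j ⊓ LinearMap.ker (koszulD I) :=
  map_koszulD_le' I p j

theorem betti_of_lt (I : Ideal (MvPolynomial (Fin n) K)) {p j : ℕ} (h : n < p ∨ j < p) :
    betti I p j = 0 :=
  betti_of_lt' I h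

end Vale.Agent.P200F.B

end

section

namespace Vale.Agent.P200F.G

open MvPolynomial

variable {K : Type*} [Field K] {n : ℕ}

attribute [local instance] MvPolynomial.gradedAlgebra

theorem mem_irr_of_isHomogeneous {f : MvPolynomial (Fin n) K} {d : ℕ} (hd : 1 ≤ d)
    (hf : f.IsHomogeneous d) : f ∈ irr K n := by
  rw [mem_irr_iff]
  by_contra hc
  have h1 := hf (d := 0) hc
  simp at h1
  omega

/-- the irrelevant ideal is minimal over an m-primary ideal generated by forms of positive degree -/
theorem irr_mem_minimalPrimes {I : Ideal (MvPolynomial (Fin n) K)} (hle : I ≤ irr K n)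
    (h : IsMPrimary I) : irr K n ∈ I.minimalPrimes := by
  refine ⟨⟨irr_isMaximal.isPrime, hle⟩, fun q hq _ => ?_⟩
  rw [isMPrimary_iff_radical] at h
  rw [irr, Ideal.span_le]
  rintro _ ⟨i, rfl⟩
  exact (hq.1.radical_le_iff.mpr hq.2) (h i)

theorem range_eq_insert {α : Type*} (f : Fin n → α) (k : Fin n) :
    Set.range f = insert (f k) (f '' {i | i ≠ k}) := by
  ext x
  constructor
  · rintro ⟨i, rfl⟩
    by_cases hi : i = k
    · left; rw [hi]
    · right; exact ⟨i, hi, rfl⟩
  · rintro (rfl | ⟨i, -, rfl⟩)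
    · exact ⟨k, rfl⟩
    · exact ⟨i, rfl⟩

theorem ncard_others_le {α : Type*} (f : Fin n → α) (k : Fin n) :
    (f '' {i | i ≠ k}).ncard ≤ n - 1 := by
  refine (Set.ncard_image_le (Set.toFinite _)).trans (le_of_eq ?_)
  have : ({i | i ≠ k} : Set (Fin n)) = ({k} : Set (Fin n))ᶜ := rfl
  rw [this, Set.ncard_compl]
  simp

theorem others_minimal_ne_irr (f : Fin n → MvPolynomial (Fin n) K) (k : Fin n)
    {p : Ideal (MvPolynomial (Fin n) K)} (hp : p ∈ (Ideal.span (f '' {i | i ≠ k})).minimalPrimes) :
    p ≠ irr K n := by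
  intro hpi
  have h1 := height_le_of_minimal (Set.toFinite _) (ncard_others_le f k) hp
  rw [hpi, height_irr] at h1
  have h2 : n ≤ n - 1 := by exact_mod_cast h1
  have h3 : 0 < n := k.pos
  omega

/-- one of the forms of an m-primary system may be replaced by a linear form -/
theorem exists_linear_replacement [Infinite K] (a : Fin n → ℕ) (hpos : ∀ i, 1 ≤ a i)
    (f : Fin n → MvPolynomial (Fin n) K) (hf : ∀ i, (f i).IsHomogeneous (a i))
    (h : IsMPrimary (Ideal.span (Set.range f))) (k : Fin n) :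
    ∃ l : MvPolynomial (Fin n) K, l.IsHomogeneous 1 ∧
      IsMPrimary (Ideal.span (Set.range (Function.update f k l))) := by
  classical
  set s : Set (MvPolynomial (Fin n) K) := f '' {i | i ≠ k} with hs
  set J := Ideal.span s with hJ
  obtain ⟨l, hl, hl2⟩ := exists_linear_avoid J.minimalPrimes
    J.finite_minimalPrimes_of_isNoetherianRing (fun p hp => hp.1.1.ne_top)
    (fun p hp => others_minimal_ne_irr f k hp)
  refine ⟨l, hl, ?_⟩
  have hrange : Set.range (Function.update f k l) = insert l s := by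
    rw [range_eq_insert _ k, Function.update_self]
    congr 1
    apply Set.image_congr
    intro i hi
    exact Function.update_of_ne hi _ _
  rw [hrange]
  have hhom : HomIdeal (Ideal.span (insert l s)) := by
    apply homIdeal_span
    rintro g (rfl | ⟨i, -, rfl⟩)
    · exact ⟨1, hl⟩
    · exact ⟨a i, hf i⟩
  have hirr : irr K n ∈ (Ideal.span (insert (f k) s)).minimalPrimes := by
    rw [← range_eq_insert]
    apply irr_mem_minimalPrimes _ h
    rw [Ideal.span_le]
    rintro _ ⟨i, rfl⟩
    exact mem_irr_of_isHomogeneous (hpos i) (hf i)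
  rw [isMPrimary_iff_radical]
  intro i
  rw [← Ideal.sInf_minimalPrimes, Ideal.mem_sInf]
  intro p hp
  have hpp : p.IsPrime := hp.1.1
  have hphom := homIdeal_of_mem_minimalPrimes hhom hp
  have hle := le_irr_of_homIdeal hphom hpp.ne_top
  by_cases hpe : p = irr K n
  · rw [hpe]; exact X_mem_irr i
  · exfalso
    have hlt : p < irr K n := lt_of_le_of_ne hle hpe
    have hsp : s ⊆ p := fun x hx => hp.1.2 (Ideal.subset_span (Set.mem_insert_of_mem _ hx))
    have h1 := Ideal.mem_minimalPrimes_span_of_mem_minimalPrimes_span_insert hlt (f k) s hirr s hsp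
      (fun x hx => Ideal.le_radical (Ideal.subset_span (Set.mem_insert_of_mem _ hx)))
    exact hl2 p h1 (hp.1.2 (Ideal.subset_span (Set.mem_insert _ _)))

end Vale.Agent.P200F.G

end

section

namespace Vale.Agent.P200F.G

open MvPolynomial

variable {K : Type*} [Field K] {n : ℕ}

/-- replacing a nonzerodivisor: if `h` is a nonzerodivisor modulo `J` and a power of `h` is in
`J + (f)` then `f` is a nonzerodivisor modulo `J` -/
theorem nzd_replace {R : Type*} [CommRing R] {J : Ideal R} {h f : R}
    (hnzd : ∀ g, h * g ∈ J → g ∈ J) {N : ℕ} (hN : h ^ N ∈ J ⊔ Ideal.span {f}) :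
    ∀ g, f * g ∈ J → g ∈ J := by
  intro g hg
  have hpow : ∀ N : ℕ, ∀ g, h ^ N * g ∈ J → g ∈ J := by
    intro N
    induction N with
    | zero => intro g hg; simpa using hg
    | succ N ih =>
      intro g hg
      refine ih g (hnzd _ ?_)
      rw [← mul_assoc, ← pow_succ']; exact hg
  refine hpow N g ?_
  obtain ⟨j, hj, w, hw, hjw⟩ := Submodule.mem_sup.1 hN
  obtain ⟨c, rfl⟩ := Ideal.mem_span_singleton'.1 hw
  rw [← hjw, add_mul]
  refine J.add_mem (J.mul_mem_right _ hj) ?_
  rw [mul_assoc]
  exact J.mul_mem_left _ hg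

/-- swapping two elements -/
theorem nzd_swap {R : Type*} [CommRing R] {Y : Ideal R} {x y : R}
    (hx : ∀ g, x * g ∈ Y → g ∈ Y) (hy : ∀ g, y * g ∈ Y ⊔ Ideal.span {x} → g ∈ Y ⊔ Ideal.span {x}) :
    ∀ g, x * g ∈ Y ⊔ Ideal.span {y} → g ∈ Y ⊔ Ideal.span {y} := by
  intro g hg
  obtain ⟨y0, hy0, w, hw, hyw⟩ := Submodule.mem_sup.1 hg
  obtain ⟨h, rfl⟩ := Ideal.mem_span_singleton'.1 hw
  have h1 : y * h ∈ Y ⊔ Ideal.span {x} := by
    have : y * h = -y0 + g * x := by rw [mul_comm g x, ← hyw]; ring
    rw [this]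
    exact Submodule.add_mem_sup (Y.neg_mem hy0) (Ideal.mem_span_singleton'.2 ⟨g, rfl⟩)
  obtain ⟨y1, hy1, w, hw, hyw'⟩ := Submodule.mem_sup.1 (hy h h1)
  obtain ⟨h', rfl⟩ := Ideal.mem_span_singleton'.1 hw
  have h2 : x * (g - y * h') ∈ Y := by
    have : x * (g - y * h') = y0 + y * y1 := by
      rw [mul_sub, ← hyw, ← hyw']; ring
    rw [this]
    exact Y.add_mem hy0 (Y.mul_mem_left _ hy1)
  have h3 := hx _ h2
  have : g = (g - y * h') + h' * y := by ring
  rw [this]
  exact Submodule.add_mem_sup h3 (Ideal.mem_span_singleton'.2 ⟨h', rfl⟩)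

/-- graded descent: a nonzerodivisor modulo `Y + (y)` is one modulo `Y` if `y` is a
nonzerodivisor modulo `Y` of positive degree -/
theorem nzd_descent {Y : Ideal (MvPolynomial (Fin n) K)} (hY : HomIdeal Y)
    {x y : MvPolynomial (Fin n) K} {ex e : ℕ} (hxh : x.IsHomogeneous ex)
    (hyh : y.IsHomogeneous e) (he : 1 ≤ e)
    (hy : ∀ g, y * g ∈ Y → g ∈ Y)
    (hx : ∀ g, x * g ∈ Y ⊔ Ideal.span {y} → g ∈ Y ⊔ Ideal.span {y}) :
    ∀ g, x * g ∈ Y → g ∈ Y := by
  have key : ∀ d : ℕ, ∀ g : MvPolynomial (Fin n) K, g.IsHomogeneous d → x * g ∈ Y → g ∈ Y := by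
    intro d
    induction d using Nat.strong_induction_on with
    | _ d ih =>
      intro g hg hxg
      have h1 : g ∈ Y ⊔ Ideal.span {y} := hx g (Ideal.mem_sup_left hxg)
      rcases lt_or_ge d e with hd | hd
      · exact mem_of_hilb_eq le_sup_left (hilb_sup_span_of_lt hY hyh hd).symm hg h1
      · obtain ⟨d', rfl⟩ := Nat.exists_eq_add_of_le' hd
        obtain ⟨u, hu, hgu⟩ := exists_of_mem_sup_span hY hyh hg h1
        have h2 : x * u ∈ Y := by
          refine hy _ ?_
          have : y * (x * u) = x * g - x * (g - y * u) := by ring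
          rw [this]
          exact Y.sub_mem hxg (Y.mul_mem_left _ hgu)
        have h3 := ih d' (by omega) u hu h2
        have : g = (g - y * u) + y * u := by ring
        rw [this]
        exact Y.add_mem hgu (Y.mul_mem_left _ h3)
  intro g hg
  have hC := homIdeal_colonBy hY hxh
  rw [← sum_homogeneousComponent g]
  refine Y.sum_mem fun d _ => ?_
  exact key d _ (homogeneousComponent_isHomogeneous d g) (hC g (mem_colonBy.2 hg) d)

/-- every form is a nonzerodivisor modulo any set of other ones -/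
def Reg {R : Type*} [CommRing R] (f : Fin n → R) : Prop :=
  ∀ (T : Set (Fin n)) (k : Fin n), k ∉ T → ∀ g, f k * g ∈ Ideal.span (f '' T) →
    g ∈ Ideal.span (f '' T)

theorem span_image_insert {R : Type*} [CommRing R] (f : Fin n → R) (T : Set (Fin n))
    (k : Fin n) :
    Ideal.span (f '' insert k T) = Ideal.span (f '' T) ⊔ Ideal.span {f k} := by
  rw [Set.image_insert_eq, Ideal.span_insert, sup_comm]

/-- the one-step replacement -/
theorem Reg.replace {a : Fin n → ℕ} (hpos : ∀ i, 1 ≤ a i)
    {f : Fin n → MvPolynomial (Fin n) K} (hf : ∀ i, (f i).IsHomogeneous (a i))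
    (h : IsMPrimary (Ideal.span (Set.range f))) {k : Fin n} {l : MvPolynomial (Fin n) K}
    (hl : l.IsHomogeneous 1) (hreg : Reg (Function.update f k l)) : Reg f := by
  classical
  have himg : ∀ T : Set (Fin n), k ∉ T → Function.update f k l '' T = f '' T := by
    intro T hT
    refine Set.image_congr fun i hi => ?_
    rw [Function.update_of_ne]
    rintro rfl; exact hT hi
  -- (A)
  have hA : ∀ T : Set (Fin n), k ∉ T → ∀ j, j ∉ T → j ≠ k → ∀ g,
      f j * g ∈ Ideal.span (f '' T) → g ∈ Ideal.span (f '' T) := by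
    intro T hkT j hj hjk g hg
    have := hreg T j hj g
    rw [himg T hkT, Function.update_of_ne hjk] at this
    exact this hg
  have hhom : ∀ T : Set (Fin n), HomIdeal (Ideal.span (f '' T)) := by
    intro T
    refine homIdeal_span ?_
    rintro _ ⟨i, _, rfl⟩
    exact ⟨a i, hf i⟩
  -- (B)
  have hB0 : ∀ g, f k * g ∈ Ideal.span (f '' {i | i ≠ k}) →
      g ∈ Ideal.span (f '' {i | i ≠ k}) := by
    have h1 : ∀ g, l * g ∈ Ideal.span (f '' {i | i ≠ k}) →
        g ∈ Ideal.span (f '' {i | i ≠ k}) := by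
      intro g hg
      have := hreg {i | i ≠ k} k (by simp) g
      rw [himg _ (by simp), Function.update_self] at this
      exact this hg
    obtain ⟨N, hN⟩ := h
    refine nzd_replace h1 (N := N) ?_
    rw [← span_image_insert]
    have h2 : insert k {i | i ≠ k} = (Set.univ : Set (Fin n)) := by
      ext i; simp [em]
    rw [h2, Set.image_univ]
    exact hN N le_rfl _ (by simpa using hl.pow N)
  have hB1 : ∀ D : Finset (Fin n), ∀ g, f k * g ∈ Ideal.span (f '' {i | i ≠ k ∧ i ∉ D}) →
      g ∈ Ideal.span (f '' {i | i ≠ k ∧ i ∉ D}) := by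
    intro D
    induction D using Finset.induction_on with
    | empty => simpa using hB0
    | insert j D hjD ih =>
      by_cases hjk : j = k
      · have h1 : {i | i ≠ k ∧ i ∉ insert j D} = {i | i ≠ k ∧ i ∉ D} := by
          ext i
          simp only [Set.mem_ofPred_eq, Finset.mem_insert, not_or, hjk]
          tauto
        rw [h1]; exact ih
      · have h1 : insert j {i | i ≠ k ∧ i ∉ insert j D} = {i | i ≠ k ∧ i ∉ D} := by
          ext i
          simp only [Set.mem_insert_iff, Set.mem_ofPred_eq, Finset.mem_insert, not_or]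
          constructor
          · rintro (rfl | ⟨h1, h2, h3⟩)
            · exact ⟨hjk, hjD⟩
            · exact ⟨h1, h3⟩
          · rintro ⟨h1, h2⟩
            by_cases hij : i = j
            · exact Or.inl hij
            · exact Or.inr ⟨h1, hij, h2⟩
        refine nzd_descent (hhom _) (hf k) (hf j) (hpos j)
          (hA _ (by simp) j (by simp) hjk) ?_
        rw [← span_image_insert, h1]
        exact ih
  have hB : ∀ T : Set (Fin n), k ∉ T → ∀ g, f k * g ∈ Ideal.span (f '' T) →
      g ∈ Ideal.span (f '' T) := by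
    intro T hT
    have h1 : T = {i | i ≠ k ∧ i ∉ Finset.univ.filter (· ∉ T)} := by
      ext i
      simp only [Set.mem_ofPred_eq, Finset.mem_filter, Finset.mem_univ, true_and, not_not]
      constructor
      · intro hi
        exact ⟨fun hik => hT (hik ▸ hi), hi⟩
      · exact fun hi => hi.2
    have := hB1 (Finset.univ.filter (· ∉ T))
    rw [← h1] at this
    exact this
  -- (C)
  intro T j hj
  by_cases hkT : k ∈ T
  · have hjk : j ≠ k := by rintro rfl; exact hj hkT
    have h1 : insert k (T \ {k}) = T := by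
      ext i
      simp only [Set.mem_insert_iff, Set.mem_sdiff, Set.mem_singleton_iff]
      constructor
      · rintro (rfl | ⟨h1, -⟩)
        · exact hkT
        · exact h1
      · intro hi
        by_cases hik : i = k
        · exact Or.inl hik
        · exact Or.inr ⟨hi, hik⟩
    have h2 := nzd_swap (Y := Ideal.span (f '' (T \ {k}))) (x := f j) (y := f k)
      (hA _ (by simp) j (fun hcon => hj hcon.1) hjk)
      (by
        rw [← span_image_insert]
        exact hB _ (by simp [hjk.symm]))
    rw [← span_image_insert, h1] at h2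
    exact h2
  · by_cases hjk : j = k
    · subst hjk; exact hB T hkT
    · exact hA T hkT j hj hjk

theorem reg_X : Reg (X : Fin n → MvPolynomial (Fin n) K) := by
  intro T k hk g hg
  rw [mem_ideal_span_X_image] at hg ⊢
  intro m hm
  have h1 : m + Finsupp.single k 1 ∈ (X k * g).support := by
    rw [mem_support_iff, mul_comm, coeff_mul_X]
    exact mem_support_iff.1 hm
  obtain ⟨i, hi, hmi⟩ := hg _ h1
  refine ⟨i, hi, ?_⟩
  have hik : k ≠ i := by rintro rfl; exact hk hi
  rw [Finsupp.add_apply, Finsupp.single_apply, if_neg hik, add_zero] at hmi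
  exact hmi

theorem reg_linear {f : Fin n → MvPolynomial (Fin n) K} (hf : ∀ i, (f i).IsHomogeneous 1)
    (h : IsMPrimary (Ideal.span (Set.range f))) : Reg f := by
  classical
  have hc : ∀ i, ∃ c : Fin n → K, ∑ j, c j • (X j : MvPolynomial (Fin n) K) = f i := by
    intro i
    have h1 : f i ∈ homogeneousSubmodule (Fin n) K 1 := hf i
    rw [homogeneousSubmodule_one_eq_span_X, Submodule.mem_span_range_iff_exists_fun] at h1
    exact h1
  choose c hc using hc
  set C : Matrix (Fin n) (Fin n) K := Matrix.of c with hC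
  have hdet : C.det ≠ 0 := by
    intro h0
    obtain ⟨v, hv, hCv⟩ := Matrix.exists_mulVec_eq_zero_iff.2 h0
    have hker : Ideal.span (Set.range f) ≤ RingHom.ker (eval v) := by
      rw [Ideal.span_le]
      rintro _ ⟨i, rfl⟩
      rw [SetLike.mem_coe, RingHom.mem_ker, ← hc i, map_sum]
      have := congrFun hCv i
      rw [Matrix.mulVec, dotProduct] at this
      simpa [smul_eval, hC] using this
    obtain ⟨N, hN⟩ := h
    apply hv
    funext j
    have h1 := hker (hN (N + 1) (by omega) (X j ^ (N + 1)) (isHomogeneous_X_pow _ _))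
    rw [RingHom.mem_ker, map_pow, eval_X] at h1
    exact eq_zero_of_pow_eq_zero h1
  have hunit : IsUnit C.det := isUnit_iff_ne_zero.2 hdet
  set D := C⁻¹ with hD
  have hDC : D * C = 1 := Matrix.nonsing_inv_mul C hunit
  have hCD : C * D = 1 := Matrix.mul_nonsing_inv C hunit
  have hmul : ∀ (A B : Matrix (Fin n) (Fin n) K) (i : Fin n),
      ∑ j, A i j • ∑ k, B j k • (X k : MvPolynomial (Fin n) K) = ∑ k, (A * B) i k • X k := by
    intro A B i
    simp only [Finset.smul_sum, smul_smul, Matrix.mul_apply, Finset.sum_smul]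
    rw [Finset.sum_comm]
  have hone : ∀ i, ∑ k, (1 : Matrix (Fin n) (Fin n) K) i k • (X k : MvPolynomial (Fin n) K)
      = X i := by
    intro i
    simp [Matrix.one_apply]
  let φ : MvPolynomial (Fin n) K →ₐ[K] MvPolynomial (Fin n) K := aeval f
  let ψ : MvPolynomial (Fin n) K →ₐ[K] MvPolynomial (Fin n) K :=
    aeval fun i => ∑ j, D i j • (X j : MvPolynomial (Fin n) K)
  have h1 : φ.comp ψ = AlgHom.id K _ := by
    refine algHom_ext fun i => ?_
    simp only [φ, ψ, AlgHom.comp_apply, aeval_X, map_sum, map_smul, AlgHom.id_apply]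
    have : ∀ j, f j = ∑ k, C j k • (X k : MvPolynomial (Fin n) K) := fun j => (hc j).symm
    simp only [this]
    rw [hmul, hDC, hone]
  have h2 : ψ.comp φ = AlgHom.id K _ := by
    refine algHom_ext fun i => ?_
    simp only [φ, ψ, AlgHom.comp_apply, aeval_X, AlgHom.id_apply]
    rw [← hc i]
    simp only [map_sum, map_smul, aeval_X]
    have : ∀ j, c i j = C i j := fun j => rfl
    simp only [this]
    rw [hmul, hCD, hone]
  let e : MvPolynomial (Fin n) K ≃+* MvPolynomial (Fin n) K :=
    (AlgEquiv.ofAlgHom φ ψ h1 h2).toRingEquiv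
  have he : ∀ i, e (X i) = f i := fun i => by
    change φ (X i) = f i
    simp [φ]
  have hspan : ∀ T : Set (Fin n), Ideal.span (f '' T) =
      Ideal.map (e : MvPolynomial (Fin n) K →+* MvPolynomial (Fin n) K) (Ideal.span (X '' T)) := by
    intro T
    rw [Ideal.map_span, Set.image_image]
    congr 1
    exact Set.image_congr fun i _ => (he i).symm
  intro T k hk g hg
  rw [hspan] at hg ⊢
  obtain ⟨x, hx, hxe⟩ := (Ideal.mem_map_of_equiv e _).1 hg
  refine (Ideal.mem_map_of_equiv e _).2 ⟨e.symm g, ?_, e.apply_symm_apply g⟩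
  refine reg_X T k hk _ ?_
  have : X k * e.symm g = x := by
    apply e.injective
    rw [map_mul, he, e.apply_symm_apply, hxe]
  rw [this]; exact hx

theorem reg_aux [Infinite K] (S : Finset (Fin n)) : ∀ (a : Fin n → ℕ)
    (f : Fin n → MvPolynomial (Fin n) K), (∀ i, 1 ≤ a i) → (∀ i, (f i).IsHomogeneous (a i)) →
    (∀ i, i ∉ S → a i = 1) → IsMPrimary (Ideal.span (Set.range f)) → Reg f := by
  classical
  induction S using Finset.induction_on with
  | empty =>
    intro a f _ hf h1 h
    exact reg_linear (fun i => by have := hf i; rwa [h1 i (by simp)] at this) h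
  | insert k S hk ih =>
    intro a f hpos hf h1 h
    obtain ⟨l, hl, hlP⟩ := exists_linear_replacement a hpos f hf h k
    refine Reg.replace hpos hf h hl (ih (Function.update a k 1) (Function.update f k l) ?_ ?_ ?_
      hlP)
    · intro i
      by_cases hik : i = k
      · subst hik; simp
      · rw [Function.update_of_ne hik]; exact hpos i
    · intro i
      by_cases hik : i = k
      · subst hik; simpa using hl
      · rw [Function.update_of_ne hik, Function.update_of_ne hik]; exact hf i
    · intro i hi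
      by_cases hik : i = k
      · subst hik; simp
      · rw [Function.update_of_ne hik]
        exact h1 i (by simp [hik, hi])

theorem reg_of_isMPrimary [Infinite K] (a : Fin n → ℕ) (hpos : ∀ i, 1 ≤ a i)
    (f : Fin n → MvPolynomial (Fin n) K) (hf : ∀ i, (f i).IsHomogeneous (a i))
    (h : IsMPrimary (Ideal.span (Set.range f))) : Reg f :=
  reg_aux Finset.univ a f hpos hf (by simp) h

/-- exponents of degree `d` bounded by `a` on `T` -/
def boxT (a : Fin n → ℕ) (T : Finset (Fin n)) (d : ℕ) : Finset (Fin n → ℕ) :=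
  (Finset.piAntidiag Finset.univ d).filter fun m => ∀ i ∈ T, m i < a i

theorem mem_boxT {a : Fin n → ℕ} {T : Finset (Fin n)} {d : ℕ} {m : Fin n → ℕ} :
    m ∈ boxT a T d ↔ ∑ i, m i = d ∧ ∀ i ∈ T, m i < a i := by
  simp [boxT, Finset.mem_piAntidiag]

theorem card_boxT_empty (a : Fin n → ℕ) (d : ℕ) :
    (boxT a ∅ d).card = ((Finset.univ : Finset (Fin n)).finsuppAntidiag d).card := by
  refine Finset.card_bij' (fun m _ => Finsupp.equivFunOnFinite.symm m) (fun m _ => ⇑m) ?_ ?_ ?_ ?_
  · intro m hm
    rw [mem_boxT] at hm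
    simpa [Finset.mem_finsuppAntidiag] using hm.1
  · intro m hm
    rw [Finset.mem_finsuppAntidiag] at hm
    rw [mem_boxT]
    simpa using hm.1
  · intro m hm; rfl
  · intro m hm; ext i; rfl

theorem card_boxT_insert_of_lt (a : Fin n → ℕ) (T : Finset (Fin n)) (k : Fin n) {d : ℕ}
    (hd : d < a k) : (boxT a (insert k T) d).card = (boxT a T d).card := by
  congr 1
  ext m
  simp only [mem_boxT, Finset.mem_insert, forall_eq_or_imp]
  constructor
  · rintro ⟨h1, h2, h3⟩; exact ⟨h1, h3⟩
  · rintro ⟨h1, h3⟩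
    refine ⟨h1, ?_, h3⟩
    have := Finset.single_le_sum (f := m) (fun i _ => Nat.zero_le _) (Finset.mem_univ k)
    omega

theorem card_boxT_insert (a : Fin n → ℕ) (T : Finset (Fin n)) {k : Fin n} (hk : k ∉ T) (d : ℕ) :
    (boxT a T (d + a k)).card = (boxT a (insert k T) (d + a k)).card + (boxT a T d).card := by
  classical
  have h1 : (boxT a T d).card = ((boxT a T (d + a k)).filter fun m => ¬ m k < a k).card := by
    refine Finset.card_bij' (fun m _ => m + Pi.single k (a k)) (fun m _ => m - Pi.single k (a k))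
      ?_ ?_ ?_ ?_
    · intro m hm
      rw [mem_boxT] at hm
      rw [Finset.mem_filter, mem_boxT]
      refine ⟨⟨?_, ?_⟩, by simp⟩
      · simp [Finset.sum_add_distrib, hm.1]
      · intro i hi
        have hik : i ≠ k := by rintro rfl; exact hk hi
        simp [hik, hm.2 i hi]
    · intro m hm
      rw [Finset.mem_filter, mem_boxT, not_lt] at hm
      rw [mem_boxT]
      have hle : Pi.single k (a k) ≤ m := by
        intro i
        by_cases hik : i = k
        · subst hik; simpa using hm.2
        · simp [hik]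
      refine ⟨?_, ?_⟩
      · have h2 : ∑ i, (m - Pi.single k (a k) : Fin n → ℕ) i +
            ∑ i, (Pi.single k (a k) : Fin n → ℕ) i
            = ∑ i, m i := by
          rw [← Finset.sum_add_distrib]
          refine Finset.sum_congr rfl fun i _ => ?_
          exact Nat.sub_add_cancel (hle i)
        rw [hm.1.1] at h2
        simp at h2
        exact h2
      · intro i hi
        have hik : i ≠ k := by rintro rfl; exact hk hi
        simpa [hik] using hm.1.2 i hi
    · intro m hm; ext i; simp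
    · intro m hm
      rw [Finset.mem_filter, mem_boxT, not_lt] at hm
      ext i
      by_cases hik : i = k
      · subst hik
        have := hm.2
        simp only [Pi.add_apply, Pi.sub_apply, Pi.single_eq_same]
        omega
      · simp [hik]
  have h2 : boxT a (insert k T) (d + a k) = (boxT a T (d + a k)).filter fun m => m k < a k := by
    ext m
    simp only [mem_boxT, Finset.mem_insert, forall_eq_or_imp, Finset.mem_filter]
    tauto
  rw [h1, h2]
  exact (Finset.card_filter_add_card_filter_not _).symm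

theorem isRegSeq_of_isMPrimary [Infinite K] (a : Fin n → ℕ) (hpos : ∀ i, 1 ≤ a i)
    (f : Fin n → MvPolynomial (Fin n) K) (hf : ∀ i, (f i).IsHomogeneous (a i))
    (h : IsMPrimary (Ideal.span (Set.range f))) : IsRegSeq f := fun k g hg =>
  reg_of_isMPrimary a hpos f hf h {j | j < k} k (by simp) g hg

end Vale.Agent.P200F.G

end

section

namespace Vale.Agent.P200F

open MvPolynomial Module

/-- polynomial ring in three variables -/
abbrev S3 (K : Type*) [Field K] := MvPolynomial (Fin 3) K

section alg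
variable {K A : Type*} [Field K] [CommRing A] [Algebra K A]

/-- the linear form with coefficient vector `t` -/
def lin (x : Fin 3 → A) (t : Fin 3 → K) : A := ∑ i, t i • x i

end alg

/-- homogeneous regular sequence of three forms of degrees `a,b,c` in three variables -/
structure RegSeq3 {K : Type*} [Field K] (a b c : ℕ) (f g h : S3 K) : Prop where
  hf : f.IsHomogeneous a
  hg : g.IsHomogeneous b
  hh : h.IsHomogeneous c
  nf : f ≠ 0
  rg : ∀ u v, g * u = f * v → ∃ w, u = f * w
  rh : ∀ u v w, h * u = f * v + g * w → ∃ v' w', u = f * v' + g * w'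

end Vale.Agent.P200F

end

section

namespace Vale.Agent.P200F

open MvPolynomial Module

variable {K : Type*} [Field K]

theorem RegSeq3.pow {a b c : ℕ} {f g h : S3 K} (H : RegSeq3 a b c f g h) (N : ℕ) :
    RegSeq3 a b (c * N) f g (h ^ N) where
  hf := H.hf
  hg := H.hg
  hh := H.hh.pow N
  nf := H.nf
  rg := H.rg
  rh := by
    induction N with
    | zero => intro u v w huvw; exact ⟨v, w, by simpa using huvw⟩
    | succ N ih =>
      intro u v w huvw
      rw [pow_succ', mul_assoc] at huvw
      obtain ⟨v', w', h'⟩ := H.rh _ _ _ huvw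
      exact ih u v' w' h'

theorem finrank_map_of_inj {A B : Type*} [AddCommGroup A] [Module K A] [AddCommGroup B]
    [Module K B] (φ : A →ₗ[K] B) (W : Submodule K A) (h : ∀ u ∈ W, φ u = 0 → u = 0) :
    finrank K (W.map φ) = finrank K W := by
  have h1 : ∀ u : W, φ.domRestrict W u = 0 → u = 0 := fun u hu => Subtype.ext (h u u.2 hu)
  have h2 : finrank K (LinearMap.range (φ.domRestrict W)) = finrank K W :=
    LinearMap.finrank_range_of_inj ((LinearMap.ker_eq_bot.1 (LinearMap.ker_eq_bot'.2 h1)))
  rw [LinearMap.range_domRestrict] at h2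
  exact h2

end Vale.Agent.P200F

end

section

namespace Vale.Agent.P200F.G

open MvPolynomial

variable {K : Type*} [Field K] {n : ℕ}

/-- `φ` eliminates the linear form `l`. -/
structure Eliminates (φ : MvPolynomial (Fin (n + 1)) K →ₐ[K] MvPolynomial (Fin n) K)
    (l : MvPolynomial (Fin (n + 1)) K) : Prop where
  surj : Function.Surjective φ
  homog : ∀ d f, f.IsHomogeneous d → (φ f).IsHomogeneous d
  ker : RingHom.ker φ = Ideal.span {l}

/-- `φ` commutes with homogeneous components -/
theorem Eliminates.comp_map {φ : MvPolynomial (Fin (n + 1)) K →ₐ[K] MvPolynomial (Fin n) K}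
    {l : MvPolynomial (Fin (n + 1)) K} (h : Eliminates φ l) (d : ℕ)
    (f : MvPolynomial (Fin (n + 1)) K) :
    homogeneousComponent d (φ f) = φ (homogeneousComponent d f) := by
  classical
  conv_lhs => rw [← sum_homogeneousComponent f, map_sum, map_sum]
  have h1 : ∀ i ∈ Finset.range (f.totalDegree + 1),
      homogeneousComponent d (φ (homogeneousComponent i f)) =
      if d = i then φ (homogeneousComponent i f) else 0 := fun i _ =>
    homogeneousComponent_of_mem (h.homog _ _ (homogeneousComponent_isHomogeneous i f))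
  rw [Finset.sum_congr rfl h1, Finset.sum_ite_eq]
  split_ifs with h2
  · rfl
  · rw [Finset.mem_range, not_lt] at h2
    rw [homogeneousComponent_eq_zero d f (by omega), map_zero]

theorem Eliminates.exists_lift {φ : MvPolynomial (Fin (n + 1)) K →ₐ[K] MvPolynomial (Fin n) K}
    {l : MvPolynomial (Fin (n + 1)) K} (h : Eliminates φ l) {d : ℕ}
    {g : MvPolynomial (Fin n) K} (hg : g.IsHomogeneous d) :
    ∃ f : MvPolynomial (Fin (n + 1)) K, f.IsHomogeneous d ∧ φ f = g := by
  obtain ⟨f, rfl⟩ := h.surj g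
  refine ⟨homogeneousComponent d f, homogeneousComponent_isHomogeneous _ _, ?_⟩
  rw [← h.comp_map, homogeneousComponent_eq_self hg]

/-- m-primary ideals pass to the quotient: if `I = (f_i)` is m-primary and `f_k` is a multiple
of `l`, then the images of the other `f_i` generate an m-primary ideal. -/
theorem Eliminates.isMPrimary {φ : MvPolynomial (Fin (n + 1)) K →ₐ[K] MvPolynomial (Fin n) K}
    {l : MvPolynomial (Fin (n + 1)) K} (h : Eliminates φ l) (k : Fin (n + 1))
    (f : Fin (n + 1) → MvPolynomial (Fin (n + 1)) K)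
    (hf : IsMPrimary (Ideal.span (Set.range f))) (hk : l ∣ f k) :
    IsMPrimary (Ideal.span (Set.range fun i => φ (f (k.succAbove i)))) := by
  obtain ⟨N, hN⟩ := hf
  refine ⟨N, fun d hd g hg => ?_⟩
  obtain ⟨f', hf', rfl⟩ := h.exists_lift hg
  have h1 : φ f' ∈ (Ideal.span (Set.range f)).map φ := Ideal.mem_map_of_mem _ (hN d hd f' hf')
  rw [Ideal.map_span] at h1
  refine Ideal.span_le.2 ?_ h1
  rintro _ ⟨_, ⟨i, rfl⟩, rfl⟩
  by_cases hi : i = k
  · have h2 : φ (f i) = 0 := by
      have h3 : f i ∈ RingHom.ker φ := by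
        rw [h.ker, hi, Ideal.mem_span_singleton]
        exact hk
      exact h3
    rw [h2]
    exact Ideal.zero_mem _
  · obtain ⟨j, rfl⟩ := Fin.exists_succAbove_eq hi
    exact Ideal.subset_span ⟨j, rfl⟩

end Vale.Agent.P200F.G

end

section

namespace Vale.Agent.P200F.B

open MvPolynomial Module
open Vale.Agent.P200F.G

variable {K : Type*} [Field K] {n c : ℕ}

/-- the Hilbert function of `S / (f_i : i < k)` -/
theorem hilb_span_first (h : c ≤ n) (a : Fin c → ℕ)
    (f : Fin c → MvPolynomial (Fin n) K) (hf : ∀ i, (f i).IsHomogeneous (a i))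
    (hreg : IsRegularSeq f) (k : ℕ) (hk : k ≤ c) (d : ℕ) :
    hilb (Ideal.span (f '' {j | j.1 < k})) d =
      (boxT (extDeg h a 0) (Finset.univ.filter fun i : Fin n => i.1 < k) d).card := by
  classical
  induction k generalizing d with
  | zero =>
    have e1 : (f '' {j | j.1 < 0}) = ∅ := by
      rw [Set.image_eq_empty]
      ext j
      simp
    have e2 : (Finset.univ.filter fun i : Fin n => i.1 < 0) = ∅ := by
      ext j
      simp
    rw [e1, e2, card_boxT_empty, ← finrank_homogeneousSubmodule (K := K), Ideal.span_empty]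
    have h := finrank_piece_add_hilb (K := K) (n := n) ⊥ d
    rw [← h]
    have h0 : piece (⊥ : Ideal (MvPolynomial (Fin n) K)) d = ⊥ := by
      unfold piece
      ext x; simp
    rw [h0, finrank_bot, zero_add]
  | succ k ih =>
    have ih := fun d => ih (by omega) d
    have hhom : HomIdeal (Ideal.span (f '' {j | j.1 < k})) := by
      refine homIdeal_span ?_
      rintro _ ⟨i, _, rfl⟩
      exact ⟨a i, hf i⟩
    have e1 : {j : Fin c | j.1 < k + 1} = insert ⟨k, hk⟩ {j : Fin c | j.1 < k} := by
      ext j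
      rw [Set.mem_insert_iff, Set.mem_ofPred_eq, Set.mem_ofPred_eq, Fin.ext_iff]
      simp only
      omega
    have e2 : (Finset.univ.filter fun i : Fin n => i.1 < k + 1) =
        insert ⟨k, by omega⟩ (Finset.univ.filter fun i : Fin n => i.1 < k) := by
      ext j
      simp only [Finset.mem_filter, Finset.mem_univ, true_and, Finset.mem_insert, Fin.ext_iff]
      omega
    have hnot : (⟨k, by omega⟩ : Fin n) ∉ (Finset.univ.filter fun i : Fin n => i.1 < k) := by
      simp
    have hA : extDeg h a 0 ⟨k, by omega⟩ = a ⟨k, hk⟩ := extDeg_castLE h a 0 ⟨k, hk⟩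
    rw [e1, e2, span_image_insert]
    rcases lt_or_ge d (a ⟨k, hk⟩) with hd | hd
    · rw [hilb_sup_span_of_lt hhom (hf _) hd, ih, card_boxT_insert_of_lt _ _ _ (by rw [hA]; exact hd)]
    · obtain ⟨d, rfl⟩ := Nat.exists_eq_add_of_le' hd
      have h1 := hilb_exact hhom (hf ⟨k, hk⟩) d
      have h2 : colonBy (Ideal.span (f '' {j | j.1 < k})) (f ⟨k, hk⟩) =
          Ideal.span (f '' {j | j.1 < k}) := by
        ext g
        rw [mem_colonBy]
        exact ⟨hreg ⟨k, hk⟩ g, fun hg => Ideal.mul_mem_left _ _ hg⟩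
      have h3 := card_boxT_insert (extDeg h a 0) (Finset.univ.filter fun i : Fin n => i.1 < k) hnot d
      rw [hA] at h3
      rw [h2, ih, ih, h3] at h1
      omega

theorem mem_outside_iff_boxT (h : c ≤ n) (a : Fin c → ℕ) (d : ℕ) (m : Fin n →₀ ℕ) :
    m ∈ outside h a d ↔
      (m : Fin n → ℕ) ∈ boxT (extDeg h a 0) (Finset.univ.filter fun i : Fin n => i.1 < c) d := by
  rw [mem_boxT]
  constructor
  · rintro ⟨h1, h2⟩
    refine ⟨h2, fun i hi => ?_⟩
    rw [Finset.mem_filter] at hi
    have := h1 ⟨i.1, hi.2⟩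
    rw [← extDeg_castLE h a 0] at this
    exact this
  · rintro ⟨h1, h2⟩
    refine ⟨fun i => ?_, h1⟩
    have := h2 (Fin.castLE h i) (by simp)
    rwa [extDeg_castLE] at this

theorem hilb_span_regular (h : c ≤ n) (a : Fin c → ℕ)
    (f : Fin c → MvPolynomial (Fin n) K) (hf : ∀ i, (f i).IsHomogeneous (a i))
    (hreg : IsRegularSeq f) (d : ℕ) :
    hilb (Ideal.span (Set.range f)) d = (outside h a d).ncard := by
  have h1 := hilb_span_first h a f hf hreg c le_rfl d
  have h2 : f '' {j | j.1 < c} = Set.range f := by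
    rw [← Set.image_univ]
    congr 1
    ext j
    simp
  rw [h2] at h1
  rw [h1, ncard_eq_card_of_iff fun m => mem_outside_iff_boxT h a d m]

/-- `dim (f)_d = dim P_d` for a homogeneous regular sequence -/
theorem finrank_powerIdeal (h : c ≤ n) (a : Fin c → ℕ) (hpos : ∀ i, 1 ≤ a i)
    (f : Fin c → MvPolynomial (Fin n) K) (hf : ∀ i, (f i).IsHomogeneous (a i))
    (hreg : IsRegularSeq f) (d : ℕ) :
    finrank K (degPart (powerIdeal K h a) d) = finrank K (degPart (Ideal.span (Set.range f)) d)
      := by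
  have h1 := finrank_homogeneous_eq (K := K) h a d
  have h2 := finrank_piece_add_hilb (Ideal.span (Set.range f)) d
  have h3 := hilb_span_regular h a f hf hreg d
  have h4 : degPart (Ideal.span (Set.range f)) d = piece (Ideal.span (Set.range f)) d := rfl
  rw [h4]
  omega

/-- exponents of degree `d` of `P` together with the `q` greatest ones outside `P` -/
def lexSet (h : c ≤ n) (a : Fin c → ℕ) (d q : ℕ) : Set (Fin n →₀ ℕ) :=
  insideP h a d ∪
    {e | e ∈ outside h a d ∧ {e' | e' ∈ outside h a d ∧ lexGT e' e}.ncard < q}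

theorem lexSet_finite (h : c ≤ n) (a : Fin c → ℕ) (d q : ℕ) : (lexSet h a d q).Finite :=
  (finite_degree_eq d).subset (by
    rintro m (hm | hm)
    · exact hm.2
    · exact hm.1.2)

theorem lexSet_mono (h : c ≤ n) (a : Fin c → ℕ) (d : ℕ) {q q' : ℕ} (hq : q ≤ q') :
    lexSet h a d q ⊆ lexSet h a d q' := by
  rintro m (hm | hm)
  · exact Or.inl hm
  · exact Or.inr ⟨hm.1, hm.2.trans_le hq⟩

theorem lexPart_eq (h : c ≤ n) (a : Fin c → ℕ) (I : Ideal (MvPolynomial (Fin n) K)) (d : ℕ) :
    lexPart h a I d = restrictSupport K (lexSet h a d (qdim h a I d)) := by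
  rw [lexPart, degPart_powerIdeal, restrictSupport_eq_span, restrictSupport_eq_span,
    ← Submodule.span_union, ← Set.image_union]
  rfl

theorem ncard_lexSet (h : c ≤ n) (a : Fin c → ℕ) (d q : ℕ) :
    (lexSet h a d q).ncard = (insideP h a d).ncard + min q (outside h a d).ncard := by
  have hin : (insideP h a d).Finite := (finite_degree_eq d).subset fun _ hm => hm.2
  have hout : {e | e ∈ outside h a d ∧ {e' | e' ∈ outside h a d ∧ lexGT e' e}.ncard < q}.Finite :=
    (finite_degree_eq d).subset fun _ hm => hm.1.2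
  rw [lexSet, Set.ncard_union_eq _ hin hout]
  · congr 1
    have h1 : (outside h a d).ncard = (boxD (extDeg h a (d + 1)) d).card :=
      ncard_eq_card_of_iff fun m => mem_outside_iff h a (Nat.lt_succ_self d) m
    rw [h1, ← card_lexSeg]
    apply ncard_eq_card_of_iff
    intro m
    rw [mem_lexSeg, Set.mem_ofPred_eq, mem_outside_iff h a (Nat.lt_succ_self d),
      ncard_larger h a (Nat.lt_succ_self d)]
  · rw [Set.disjoint_left]
    rintro m ⟨⟨i, hi⟩, -⟩ ⟨⟨h2, -⟩, -⟩
    exact absurd (h2 i) (not_lt.mpr hi)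

theorem finrank_lexPart (h : c ≤ n) (a : Fin c → ℕ) (I : Ideal (MvPolynomial (Fin n) K)) (d : ℕ) :
    finrank K (lexPart h a I d) =
      finrank K (degPart (powerIdeal K h a) d) + min (qdim h a I d) (outside h a d).ncard := by
  rw [lexPart_eq, finrank_restrictSupport _ (lexSet_finite _ _ _ _), ncard_lexSet,
    degPart_powerIdeal, finrank_restrictSupport _ ((finite_degree_eq d).subset fun _ hm => hm.2)]

theorem lppSet_inter (h : c ≤ n) (a : Fin c → ℕ) (I : Ideal (MvPolynomial (Fin n) K)) (d : ℕ) :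
    lppSet K h a I ∩ {m | ∑ i, m i = d} = lexSet h a d (qdim h a I d) := by
  ext m
  constructor
  · rintro ⟨hm, hd⟩
    have hd' : ∑ i, m i = d := hd
    subst hd'
    rcases hm with hm | hm
    · exact Or.inl ⟨hm, rfl⟩
    · exact Or.inr hm
  · rintro (hm | hm)
    · exact ⟨Or.inl hm.1, hm.2⟩
    · have hd' : ∑ i, m i = d := hm.1.2
      subst hd'
      exact ⟨Or.inr hm, rfl⟩

/-- `J` is homogeneous with the same Hilbert function as `I` -/
theorem lexPlusPowers_spec (h : c ≤ n) (a : Fin c → ℕ) (hpos : ∀ i, 1 ≤ a i)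
    (f : Fin c → MvPolynomial (Fin n) K) (hf : ∀ i, (f i).IsHomogeneous (a i))
    (hreg : IsRegularSeq f) (I : Ideal (MvPolynomial (Fin n) K)) (hI : HomIdeal I)
    (hfI : ∀ i, f i ∈ I) (J : Ideal (MvPolynomial (Fin n) K))
    (hJ : J.restrictScalars K = lexPlusPowers h a I) :
    HomIdeal J ∧ (∀ d, piece J d = lexPart h a I d) ∧
      ∀ d, finrank K (piece J d) = finrank K (piece I d) := by
  have hmem : ∀ g, g ∈ J ↔ g ∈ restrictSupport K (lppSet K h a I) := by
    intro g
    rw [← lexPlusPowers_eq, ← hJ]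
    rfl
  have hpiece : ∀ d, piece J d = lexPart h a I d := by
    intro d
    rw [lexPart_eq, ← lppSet_inter]
    ext g
    rw [mem_piece, hmem, isHomogeneous_iff_support, mem_restrictSupport_iff,
      mem_restrictSupport_iff, Set.subset_inter_iff]
    rfl
  refine ⟨?_, hpiece, ?_⟩
  · intro g hg d
    rw [hmem, mem_restrictSupport_iff] at hg ⊢
    refine Set.Subset.trans ?_ hg
    intro m hm
    rw [Finset.mem_coe, MvPolynomial.mem_support_iff, coeff_homogeneousComponent] at hm
    rw [Finset.mem_coe, MvPolynomial.mem_support_iff]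
    intro h0
    rw [h0] at hm
    simp at hm
  · intro d
    rw [hpiece, finrank_lexPart]
    have h1 := finrank_homogeneous_eq (K := K) h a d
    have h2 := finrank_powerIdeal h a hpos f hf hreg d
    have h3 : finrank K (degPart (Ideal.span (Set.range f)) d) ≤ finrank K (piece I d) := by
      have hle : Ideal.span (Set.range f) ≤ I := by
        rw [Ideal.span_le]
        rintro _ ⟨i, rfl⟩
        exact hfI i
      exact Submodule.finrank_mono (piece_mono hle d)
    have h4 : finrank K (piece I d) ≤ finrank K (homogeneousSubmodule (Fin n) K d) :=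
      Submodule.finrank_mono (piece_le I d)
    have h5 : qdim h a I d = finrank K (piece I d) - finrank K (degPart (powerIdeal K h a) d) := rfl
    rw [h5]
    omega

end Vale.Agent.P200F.B

end

section

namespace Vale.Agent.P200F.B

open MvPolynomial Module
open Vale.Agent.P200F.G

variable {K : Type*} [Field K] {n c : ℕ}

/-- the Eisenbud-Green-Harris property of a sequence of forms -/
def EGHfor (h : c ≤ n) (a : Fin c → ℕ) (f : Fin c → MvPolynomial (Fin n) K) : Prop :=
  ∀ I : Ideal (MvPolynomial (Fin n) K), HomIdeal I → (∀ i, f i ∈ I) →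
    ∃ J : Ideal (MvPolynomial (Fin n) K), J.restrictScalars K = lexPlusPowers h a I

theorem comp_zero_mul (w : MvPolynomial (Fin n) K) {u : MvPolynomial (Fin n) K} {d : ℕ}
    (hu : u.IsHomogeneous d) : homogeneousComponent d (w * u) = coeff 0 w • u := by
  have h1 := comp_mul_add hu w 0
  rw [zero_add, homogeneousComponent_zero, mul_comm, mul_comm u, ← smul_eq_C_mul] at h1
  exact h1

theorem shd_piece_le (I : Ideal (MvPolynomial (Fin n) K)) (j : ℕ) :
    shd (piece I j) ≤ piece I (j + 1) := by
  apply iSup_le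
  rintro i _ ⟨u, hu, rfl⟩
  refine ⟨I.mul_mem_left _ hu.1, ?_⟩
  rw [add_comm]
  exact (isHomogeneous_X K i).mul hu.2

/-- the truncated sequence is regular -/
theorem regular_castLE {f : Fin c → MvPolynomial (Fin n) K} (hreg : IsRegularSeq f) {c' : ℕ}
    (h' : c' ≤ c) : IsRegularSeq fun i : Fin c' => f (Fin.castLE h' i) := by
  intro i g hg
  have e : (fun i : Fin c' => f (Fin.castLE h' i)) '' {j | j < i} =
      f '' {j | j < Fin.castLE h' i} := by
    ext x
    constructor
    · rintro ⟨j, hj, rfl⟩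
      exact ⟨Fin.castLE h' j, hj, rfl⟩
    · rintro ⟨j, hj, rfl⟩
      have hj' : j.1 < i.1 := hj
      exact ⟨⟨j.1, by omega⟩, hj', rfl⟩
  rw [e] at hg ⊢
  exact hreg _ g hg

end Vale.Agent.P200F.B

end

section

namespace Vale.Agent.P200F.B

open MvPolynomial Module

variable {K : Type*} [Field K] {n : ℕ}

theorem koszulTerm_eq (I : Ideal (MvPolynomial (Fin n) K)) (p j : ℕ) :
    koszulTerm I p j = (koszulChain I p j : Set (Finset (Fin n) → MvPolynomial (Fin n) K ⧸ I)) := by
  ext c
  simp only [koszulTerm, koszulChain, quotPiece, Set.mem_setOf_eq, SetLike.mem_coe,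
    Submodule.mem_mk, AddSubmonoid.mem_mk, AddSubsemigroup.mem_mk]
  constructor
  · intro h
    refine ⟨fun s hs => ?_, fun s => ?_⟩
    · rcases h s with h | h
      · exact h
      · exact absurd h.1 hs
    · rcases h s with h | ⟨_, d, g, hd, hg, he⟩
      · rw [h]
        exact Submodule.zero_mem _
      · rw [if_pos (by omega)]
        refine ⟨g, ?_, he⟩
        rw [SetLike.mem_coe, mem_homogeneousSubmodule]
        rwa [← hd, Nat.add_sub_cancel_left]
  · rintro ⟨h1, h2⟩ s
    by_cases hs : s.card = p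
    · have := h2 s
      by_cases hp : p ≤ j
      · rw [if_pos hp] at this
        obtain ⟨g, hg, he⟩ := this
        exact Or.inr ⟨hs, j - p, g, by omega, hg, he⟩
      · rw [if_neg hp] at this
        exact Or.inl ((Submodule.mem_bot K).mp this)
    · exact Or.inl (h1 s hs)

theorem koszulDiff_eq (I : Ideal (MvPolynomial (Fin n) K)) :
    (koszulDiff I : (Finset (Fin n) → MvPolynomial (Fin n) K ⧸ I) → _) = koszulD I := by
  funext c t
  simp only [koszulDiff, koszulD, LinearMap.coe_mk, AddHom.coe_mk]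
  apply Finset.sum_congr rfl
  intro i _
  rw [map_mul, map_pow, map_neg, map_one, mul_assoc]

theorem setFinrank_coe {V : Type*} [AddCommGroup V] [Module K V] (W : Submodule K V) :
    Set.finrank K (W : Set V) = finrank K W := by
  rw [Set.finrank, Submodule.span_eq]

theorem bettiNumber_eq (I : Ideal (MvPolynomial (Fin n) K)) (p j : ℕ) :
    bettiNumber I p j = betti I p j := by
  have h := (((koszulChain I (p + 1) j).map (koszulD I)).comap
    (koszulChain I p j ⊓ LinearMap.ker (koszulD I)).subtype).finrank_quotient_add_finrank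
  have h2 : finrank K ↥(((koszulChain I (p + 1) j).map (koszulD I)).comap
      (koszulChain I p j ⊓ LinearMap.ker (koszulD I)).subtype) =
      finrank K ↥((koszulChain I (p + 1) j).map (koszulD I)) := by
    exact LinearEquiv.finrank_eq (Submodule.comapSubtypeEquivOfLe (map_koszulD_le I p j))
  have h3 : {c | c ∈ koszulTerm I p j ∧ koszulDiff I c = 0} =
      ((koszulChain I p j ⊓ LinearMap.ker (koszulD I) :
        Submodule K (Finset (Fin n) → MvPolynomial (Fin n) K ⧸ I)) : Set _) := by
    ext c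
    simp only [koszulTerm_eq, koszulDiff_eq, Set.mem_setOf_eq, SetLike.mem_coe, Submodule.mem_inf,
      LinearMap.mem_ker]
  have h4 : koszulDiff I '' koszulTerm I (p + 1) j =
      ((koszulChain I (p + 1) j).map (koszulD I) : Set _) := by
    rw [koszulTerm_eq, koszulDiff_eq, Submodule.map_coe]
  rw [bettiNumber, h3, h4, setFinrank_coe, setFinrank_coe, betti]
  omega

end Vale.Agent.P200F.B

end
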