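import Vale.Agent.P200F.Ns
import Vale.Agent.P200F.L1

set_option linter.all false

section

namespace Vale.Agent.P200F.L

open MvPolynomial Module
open Vale.Agent.P200F.B Vale.Agent.P200F.G

section ring
variable {K R : Type*} [Field K] [CommRing R] [Algebra K R] {n : ℕ}

/-- families indexed by the `p`-element sets, with entries in `W` -/
def chW (n p : ℕ) (W : Submodule K R) : Submodule K (Finset (Fin n) → R) where
  carrier := {c | (∀ s, s.card ≠ p → c s = 0) ∧ ∀ s, c s ∈ W}
  add_mem' := by
    rintro a b ⟨ha, ha'⟩ ⟨hb, hb'⟩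
    exact ⟨fun s hs => by simp [ha s hs, hb s hs], fun s => W.add_mem (ha' s) (hb' s)⟩
  zero_mem' := ⟨fun _ _ => rfl, fun _ => W.zero_mem⟩
  smul_mem' := by
    rintro k a ⟨ha, ha'⟩
    exact ⟨fun s hs => by simp [ha s hs], fun s => W.smul_mem _ (ha' s)⟩

theorem mem_chW {p : ℕ} {W : Submodule K R} {c : Finset (Fin n) → R} :
    c ∈ chW n p W ↔ (∀ s, s.card ≠ p → c s = 0) ∧ ∀ s, c s ∈ W := Iff.rfl

/-- the Koszul differential as a linear map -/
def kdL (K : Type*) [Field K] {R : Type*} [CommRing R] [Algebra K R] {n : ℕ} (x : Fin n → R) :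
    (Finset (Fin n) → R) →ₗ[K] (Finset (Fin n) → R) where
  toFun := kd x
  map_add' := by
    intro a b
    funext t
    rw [Pi.add_apply, kd_apply, kd_apply, kd_apply, ← Finset.sum_add_distrib]
    refine Finset.sum_congr rfl fun i _ => ?_
    rw [Pi.add_apply, mul_add, mul_add]
  map_smul' := by
    intro k a
    funext t
    rw [RingHom.id_apply, Pi.smul_apply, kd_apply, kd_apply, Finset.smul_sum]
    refine Finset.sum_congr rfl fun i _ => ?_
    rw [Pi.smul_apply, mul_smul_comm, mul_smul_comm]

theorem kd_add (x : Fin n → R) (a b : Finset (Fin n) → R) : kd x (a + b) = kd x a + kd x b := by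
  funext t
  rw [Pi.add_apply, kd_apply, kd_apply, kd_apply, ← Finset.sum_add_distrib]
  refine Finset.sum_congr rfl fun i _ => ?_
  rw [Pi.add_apply, mul_add, mul_add]

theorem kd_sub (x : Fin n → R) (a b : Finset (Fin n) → R) : kd x (a - b) = kd x a - kd x b := by
  funext t
  rw [Pi.sub_apply, kd_apply, kd_apply, kd_apply, ← Finset.sum_sub_distrib]
  refine Finset.sum_congr rfl fun i _ => ?_
  rw [Pi.sub_apply, mul_sub, mul_sub]

/-- multiplication by a ring element commutes with the differential -/
theorem kd_mul (x : Fin n → R) (r : R) (a : Finset (Fin n) → R) (t : Finset (Fin n)) :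
    kd x (fun s => r * a s) t = r * kd x a t := by
  rw [kd_apply, kd_apply, Finset.mul_sum]
  refine Finset.sum_congr rfl fun i _ => ?_
  ring

/-- families `u` of entries in `W` with all entries of `∂ u` in `U` -/
def rc (x : Fin n → R) (U W : Submodule K R) (p : ℕ) : Submodule K (Finset (Fin n) → R) where
  carrier := {c | c ∈ chW n p W ∧ ∀ t, kd x c t ∈ U}
  add_mem' := by
    rintro a b ⟨ha, ha'⟩ ⟨hb, hb'⟩
    refine ⟨Submodule.add_mem _ ha hb, fun t => ?_⟩
    rw [kd_add]
    exact U.add_mem (ha' t) (hb' t)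
  zero_mem' := by
    refine ⟨Submodule.zero_mem _, fun t => ?_⟩
    have h : kd x (0 : Finset (Fin n) → R) = 0 := (kdL K x).map_zero
    rw [h]
    exact U.zero_mem
  smul_mem' := by
    rintro k a ⟨ha, ha'⟩
    refine ⟨Submodule.smul_mem _ _ ha, fun t => ?_⟩
    have h : kd x (k • a) = k • kd x a := (kdL K x).map_smul k a
    rw [h]
    exact U.smul_mem _ (ha' t)

theorem mem_rc {p : ℕ} {x : Fin n → R} {U W : Submodule K R} {c : Finset (Fin n) → R} :
    c ∈ rc x U W p ↔ c ∈ chW n p W ∧ ∀ t, kd x c t ∈ U := Iff.rfl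

/-- pairs of families: the cycles of the Koszul complex of `x, z` -/
def pc (x : Fin n → R) (z : R) (U W : Submodule K R) (p : ℕ) :
    Submodule K ((Finset (Fin n) → R) × (Finset (Fin n) → R)) where
  carrier := {q | q.1 ∈ chW n (p + 1) W ∧ q.2 ∈ chW n p W ∧ (∀ t, kd x q.2 t ∈ U) ∧
    ∀ t, kd x q.1 t + z * q.2 t ∈ U}
  add_mem' := by
    rintro a b ⟨ha1, ha2, ha3, ha4⟩ ⟨hb1, hb2, hb3, hb4⟩
    refine ⟨Submodule.add_mem _ ha1 hb1, Submodule.add_mem _ ha2 hb2, fun t => ?_, fun t => ?_⟩
    · rw [Prod.snd_add, kd_add]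
      exact U.add_mem (ha3 t) (hb3 t)
    · have h := U.add_mem (ha4 t) (hb4 t)
      rw [Prod.snd_add, Prod.fst_add, kd_add, Pi.add_apply, Pi.add_apply, mul_add]
      convert h using 1
      ring
  zero_mem' := by
    have h : kd x (0 : Finset (Fin n) → R) = 0 := (kdL K x).map_zero
    refine ⟨Submodule.zero_mem _, Submodule.zero_mem _, fun t => ?_, fun t => ?_⟩
    · rw [Prod.snd_zero, h]
      exact U.zero_mem
    · rw [Prod.snd_zero, Prod.fst_zero, h]
      simp
  smul_mem' := by
    rintro k a ⟨ha1, ha2, ha3, ha4⟩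
    have h : ∀ c : Finset (Fin n) → R, kd x (k • c) = k • kd x c := fun c =>
      (kdL K x).map_smul k c
    refine ⟨Submodule.smul_mem _ _ ha1, Submodule.smul_mem _ _ ha2, fun t => ?_, fun t => ?_⟩
    · rw [Prod.smul_snd, h]
      exact U.smul_mem _ (ha3 t)
    · rw [Prod.smul_snd, Prod.smul_fst, h, Pi.smul_apply, Pi.smul_apply, mul_smul_comm,
        ← smul_add]
      exact U.smul_mem _ (ha4 t)

theorem mem_pc {p : ℕ} {x : Fin n → R} {z : R} {U W : Submodule K R}
    {q : (Finset (Fin n) → R) × (Finset (Fin n) → R)} :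
    q ∈ pc x z U W p ↔ q.1 ∈ chW n (p + 1) W ∧ q.2 ∈ chW n p W ∧ (∀ t, kd x q.2 t ∈ U) ∧
      ∀ t, kd x q.1 t + z * q.2 t ∈ U := Iff.rfl

/-- `chW` as a space of functions -/
def chWEquiv (n p : ℕ) (W : Submodule K R) :
    chW n p W ≃ₗ[K] ({s : Finset (Fin n) // s.card = p} → W) where
  toFun c := fun s => ⟨c.1 s.1, c.2.2 s.1⟩
  map_add' _ _ := rfl
  map_smul' _ _ := rfl
  invFun c := ⟨fun s => if h : s.card = p then (c ⟨s, h⟩ : R) else 0, by
    refine ⟨fun s hs => dif_neg hs, fun s => ?_⟩
    by_cases h : s.card = p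
    · simp only [h, dif_pos]
      exact (c ⟨s, h⟩).2
    · simp only [h]
      exact Submodule.zero_mem _⟩
  left_inv := by
    intro c
    apply Subtype.ext
    funext s
    by_cases h : s.card = p
    · simp only [h, dif_pos]
    · simp only [h]
      exact (c.2.1 s h).symm
  right_inv := by
    intro c
    funext s
    apply Subtype.ext
    simp only [s.2, dif_pos]

instance finite_chW (p : ℕ) (W : Submodule K R) [Module.Finite K W] :
    Module.Finite K (chW n p W) := Module.Finite.equiv (chWEquiv n p W).symm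

theorem finrank_chW (p : ℕ) (W : Submodule K R) [Module.Finite K W] :
    finrank K (chW n p W) = n.choose p * finrank K W := by
  classical
  rw [(chWEquiv n p W).finrank_eq, Module.finrank_pi_fintype, Finset.sum_const, Finset.card_univ,
    smul_eq_mul, Fintype.card_finset_len, Fintype.card_fin]

instance finite_rc (x : Fin n → R) (U W : Submodule K R) (p : ℕ) [Module.Finite K W] :
    Module.Finite K (rc x U W p) :=
  Submodule.finiteDimensional_of_le (S₂ := chW n p W) fun _ h => h.1

theorem finrank_rc_le (x : Fin n → R) (U W : Submodule K R) (p : ℕ) [Module.Finite K W] :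
    finrank K (rc x U W p) ≤ n.choose p * finrank K W := by
  rw [← finrank_chW]
  exact Submodule.finrank_mono fun _ h => h.1

/-- the differential of a `(p + 1)`-family is a `p`-family -/
theorem kd_card {x : Fin n → R} {p : ℕ} {c : Finset (Fin n) → R}
    (hc : ∀ s, s.card ≠ p + 1 → c s = 0) (t : Finset (Fin n)) (ht : t.card ≠ p) :
    kd x c t = 0 := by
  rw [kd_apply]
  refine Finset.sum_eq_zero fun i hi => ?_
  rw [hc, mul_zero, mul_zero]
  rw [Finset.card_insert_of_notMem (Finset.mem_compl.1 hi)]
  omega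

theorem kd_card_zero {x : Fin n → R} {c : Finset (Fin n) → R}
    (hc : ∀ s, s.card ≠ 0 → c s = 0) : kd x c = 0 := by
  funext t
  rw [kd_apply, Pi.zero_apply]
  refine Finset.sum_eq_zero fun i hi => ?_
  rw [hc, mul_zero, mul_zero]
  rw [Finset.card_ne_zero]
  exact Finset.insert_nonempty _ _

/-- the number of cycles grows at most like `U` -/
theorem finrank_rc_mono (x : Fin n → R) {U U' : Submodule K R} (hU : U ≤ U')
    (W : Submodule K R) (p : ℕ) [Module.Finite K W] [Module.Finite K U'] :
    finrank K (rc x U' W (p + 1)) + n.choose p * finrank K U ≤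
      finrank K (rc x U W (p + 1)) + n.choose p * finrank K U' := by
  have : Module.Finite K U := Submodule.finiteDimensional_of_le hU
  -- map `rc U' → chW p (U' / U)`
  set φ : (Finset (Fin n) → R) →ₗ[K] (Finset (Fin n) → R ⧸ U) :=
    (LinearMap.pi fun t => U.mkQ ∘ₗ LinearMap.proj t) ∘ₗ kdL K x with hφ
  have h1 := finrank_map_add φ (rc x U' W (p + 1))
  have h2 : rc x U' W (p + 1) ⊓ LinearMap.ker φ = rc x U W (p + 1) := by
    ext c
    rw [Submodule.mem_inf, LinearMap.mem_ker]
    constructor
    · rintro ⟨h3, h4⟩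
      refine ⟨h3.1, fun t => ?_⟩
      have h5 := congrFun h4 t
      exact (Submodule.Quotient.mk_eq_zero U).1 h5
    · rintro ⟨h3, h4⟩
      refine ⟨⟨h3, fun t => hU (h4 t)⟩, ?_⟩
      funext t
      exact (Submodule.Quotient.mk_eq_zero U).2 (h4 t)
  rw [h2] at h1
  -- the image is in a space of dimension `choose * (dim U' - dim U)`
  set ψ : (Finset (Fin n) → R) →ₗ[K] (Finset (Fin n) → R ⧸ U) :=
    LinearMap.pi fun t => U.mkQ ∘ₗ LinearMap.proj t with hψ
  have h3 : (rc x U' W (p + 1)).map φ ≤ (chW n p U').map ψ := by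
    rintro _ ⟨c, hc, rfl⟩
    exact ⟨kd x c, ⟨fun t ht => kd_card hc.1.1 t ht, hc.2⟩, rfl⟩
  have h4 := finrank_map_add ψ (chW n p U')
  have h5 : chW n p U' ⊓ LinearMap.ker ψ = chW n p U := by
    ext c
    rw [Submodule.mem_inf, LinearMap.mem_ker]
    constructor
    · rintro ⟨h6, h7⟩
      refine ⟨h6.1, fun t => ?_⟩
      exact (Submodule.Quotient.mk_eq_zero U).1 (congrFun h7 t)
    · rintro ⟨h6, h7⟩
      refine ⟨⟨h6, fun t => hU (h7 t)⟩, ?_⟩
      funext t
      exact (Submodule.Quotient.mk_eq_zero U).2 (h7 t)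
  rw [h5, finrank_chW, finrank_chW] at h4
  have h6 := Submodule.finrank_mono h3
  omega

end ring

section poly
variable {K : Type*} [Field K] {n : ℕ}

/-- forms of degree `e - i`, or zero -/
noncomputable def Bd (K : Type*) [Field K] (n e i : ℕ) : Submodule K (MvPolynomial (Fin n) K) :=
  if i ≤ e then homogeneousSubmodule (Fin n) K (e - i) else ⊥

instance finite_Bd (e i : ℕ) : Module.Finite K (Bd K n e i) := by
  by_cases h : i ≤ e
  · rw [Bd, if_pos h]
    infer_instance
  · rw [Bd, if_neg h]
    infer_instance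

/-- layered spaces: total degree `D`, containing the pieces of `J` -/
structure Lay (J : Ideal (MvPolynomial (Fin n) K)) (D : ℕ)
    (V : ℕ → Submodule K (MvPolynomial (Fin n) K)) : Prop where
  le : ∀ i, V i ≤ Bd K n D i
  ge : ∀ i ≤ D, piece J (D - i) ≤ V i

/-- the number of cycles of the graded space `⨁ V i z^i` -/
noncomputable def zc (V : ℕ → Submodule K (MvPolynomial (Fin n) K)) (p d : ℕ) : ℕ :=
  finrank K (rc X (V 0) (homogeneousSubmodule (Fin n) K d) (p + 1)) +
    ∑ i ∈ Finset.range (d + 1), (n.choose (p + 1) * finrank K (Bd K n d (i + 1)) +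
      finrank K (rc X (V i) (V (i + 1)) p))

/-- total dimension -/
noncomputable def tot (V : ℕ → Submodule K (MvPolynomial (Fin n) K)) (D : ℕ) : ℕ :=
  ∑ i ∈ Finset.range (D + 1), finrank K (V i)

/-- exponents with last coordinate `i` -/
noncomputable def sn (m : Fin n →₀ ℕ) (i : ℕ) : Fin (n + 1) →₀ ℕ :=
  Finsupp.equivFunOnFinite.symm (Fin.snoc (α := fun _ => ℕ) m i)

theorem sn_castSucc (m : Fin n →₀ ℕ) (i : ℕ) (j : Fin n) : sn m i j.castSucc = m j :=
  Fin.snoc_castSucc (α := fun _ => ℕ) _ _ _

theorem sn_last (m : Fin n →₀ ℕ) (i : ℕ) : sn m i (Fin.last n) = i :=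
  Fin.snoc_last (α := fun _ => ℕ) _ _

/-- the lex-plus-powers space of dimension `v` in degree `D` -/
noncomputable def lx (K : Type*) [Field K] {n c : ℕ} (h : c ≤ n) (a : Fin c → ℕ) (D v : ℕ) :
    Submodule K (MvPolynomial (Fin n) K) :=
  restrictSupport K (lexSet h a D (v - (insideP h a D).ncard))

/-- the layers of the lex-plus-powers space -/
noncomputable def lxl (K : Type*) [Field K] {n c : ℕ} (h : c ≤ n + 1) (a : Fin c → ℕ) (D v : ℕ)
    (i : ℕ) : Submodule K (MvPolynomial (Fin n) K) :=
  restrictSupport K {m | sn m i ∈ lexSet h a D (v - (insideP h a D).ncard)}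

/-- cycle inequality in `n` variables for all forms `f` in a class -/
def ZLE (K : Type*) [Field K] {n c : ℕ} (h : c ≤ n) (a : Fin c → ℕ) (p : ℕ)
    (f : Fin c → MvPolynomial (Fin n) K) : Prop :=
  ∀ (d : ℕ) (V : Submodule K (MvPolynomial (Fin n) K)),
    piece (Ideal.span (Set.range f)) (d + 1) ≤ V → V ≤ homogeneousSubmodule (Fin n) K (d + 1) →
    finrank K (rc X V (homogeneousSubmodule (Fin n) K d) p) ≤
      finrank K (rc X (lx K h a (d + 1) (finrank K V)) (homogeneousSubmodule (Fin n) K d) p)

end poly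

end Vale.Agent.P200F.L

end

section

set_option linter.all false

namespace Vale.Agent.P200F.L

open MvPolynomial Module
open Vale.Agent.P200F.B Vale.Agent.P200F.G

variable {K R : Type*} [Field K] [CommRing R] [Algebra K R] {n : ℕ}

/-- embedding of subsets -/
def up (s : Finset (Fin n)) : Finset (Fin (n + 1)) := s.map Fin.castSuccEmb

/-- restriction of subsets -/
def dn (s : Finset (Fin (n + 1))) : Finset (Fin n) := Finset.univ.filter fun i => i.castSucc ∈ s

theorem mem_up_castSucc {s : Finset (Fin n)} {i : Fin n} : i.castSucc ∈ up s ↔ i ∈ s := by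
  unfold up
  rw [Finset.mem_map]
  constructor
  · rintro ⟨j, hj, h⟩
    rw [← Fin.castSucc_injective n h]
    exact hj
  · intro h
    exact ⟨i, h, rfl⟩

theorem last_notMem_up (s : Finset (Fin n)) : Fin.last n ∉ up s := by
  unfold up
  rw [Finset.mem_map]
  rintro ⟨j, _, h⟩
  exact (Fin.castSucc_lt_last j).ne h

theorem card_up (s : Finset (Fin n)) : (up s).card = s.card := Finset.card_map _

theorem card_ins (s : Finset (Fin n)) : (insert (Fin.last n) (up s)).card = s.card + 1 := by
  rw [Finset.card_insert_of_notMem (last_notMem_up s), card_up]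

theorem dn_up (s : Finset (Fin n)) : dn (up s) = s := by
  ext i
  rw [dn, Finset.mem_filter, mem_up_castSucc]
  simp

theorem dn_ins (s : Finset (Fin n)) : dn (insert (Fin.last n) (up s)) = s := by
  ext i
  rw [dn, Finset.mem_filter, Finset.mem_insert, mem_up_castSucc]
  simp [(Fin.castSucc_lt_last i).ne]

theorem up_dn {s : Finset (Fin (n + 1))} (h : Fin.last n ∉ s) : up (dn s) = s := by
  ext i
  induction i using Fin.lastCases with
  | last => exact iff_of_false (last_notMem_up _) h
  | cast i => rw [mem_up_castSucc, dn, Finset.mem_filter]; simp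

theorem ins_dn {s : Finset (Fin (n + 1))} (h : Fin.last n ∈ s) :
    insert (Fin.last n) (up (dn s)) = s := by
  ext i
  induction i using Fin.lastCases with
  | last => exact iff_of_true (Finset.mem_insert_self _ _) h
  | cast i =>
    rw [Finset.mem_insert, mem_up_castSucc, dn, Finset.mem_filter]
    simp [(Fin.castSucc_lt_last i).ne]

theorem forall_sets (P : Finset (Fin (n + 1)) → Prop) :
    (∀ s, P s) ↔ (∀ s, P (up s)) ∧ ∀ s, P (insert (Fin.last n) (up s)) := by
  constructor
  · intro h
    exact ⟨fun s => h _, fun s => h _⟩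
  · rintro ⟨h1, h2⟩ s
    by_cases h : Fin.last n ∈ s
    · rw [← ins_dn h]; exact h2 _
    · rw [← up_dn h]; exact h1 _

theorem up_compl (t : Finset (Fin n)) : (up t)ᶜ = insert (Fin.last n) (up tᶜ) := by
  ext i
  induction i using Fin.lastCases with
  | last =>
    exact iff_of_true (Finset.mem_compl.2 (last_notMem_up _)) (Finset.mem_insert_self _ _)
  | cast i =>
    rw [Finset.mem_compl, mem_up_castSucc, Finset.mem_insert, mem_up_castSucc, Finset.mem_compl]
    simp [(Fin.castSucc_lt_last i).ne]

theorem ins_compl (t : Finset (Fin n)) : (insert (Fin.last n) (up t))ᶜ = up tᶜ := by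
  ext i
  induction i using Fin.lastCases with
  | last =>
    exact iff_of_false (fun h => Finset.mem_compl.1 h (Finset.mem_insert_self _ _))
      (last_notMem_up _)
  | cast i =>
    rw [Finset.mem_compl, Finset.mem_insert, mem_up_castSucc, mem_up_castSucc, Finset.mem_compl]
    simp [(Fin.castSucc_lt_last i).ne]

theorem insert_up (t : Finset (Fin n)) (i : Fin n) :
    insert i.castSucc (up t) = up (insert i t) := by
  unfold up
  rw [Finset.map_insert]
  rfl

theorem filter_up (t : Finset (Fin n)) (i : Fin n) :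
    ((up t).filter fun k => k < i.castSucc).card = (t.filter fun k => k < i).card := by
  have : (up t).filter (fun k => k < i.castSucc) = up (t.filter fun k => k < i) := by
    ext k
    induction k using Fin.lastCases with
    | last =>
      refine iff_of_false (fun h => last_notMem_up _ (Finset.mem_filter.1 h).1) (last_notMem_up _)
    | cast k =>
      rw [Finset.mem_filter, mem_up_castSucc, mem_up_castSucc, Finset.mem_filter,
        Fin.castSucc_lt_castSucc_iff]
  rw [this, card_up]

theorem filter_up_last (t : Finset (Fin n)) :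
    ((up t).filter fun k => k < Fin.last n).card = t.card := by
  rw [Finset.filter_true_of_mem, card_up]
  intro k hk
  induction k using Fin.lastCases with
  | last => exact absurd hk (last_notMem_up _)
  | cast k => exact Fin.castSucc_lt_last k

theorem filter_ins (t : Finset (Fin n)) (i : Fin n) :
    ((insert (Fin.last n) (up t)).filter fun k => k < i.castSucc).card =
      (t.filter fun k => k < i).card := by
  rw [Finset.filter_insert, if_neg (not_lt.2 (Fin.le_last _)), filter_up]

omit [Field K] [Algebra K R] in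
theorem kd_up (x : Fin (n + 1) → R) (c : Finset (Fin (n + 1)) → R) (t : Finset (Fin n)) :
    kd x c (up t) = kd (fun i => x i.castSucc) (fun s => c (up s)) t +
      x (Fin.last n) * ((-1) ^ t.card * c (insert (Fin.last n) (up t))) := by
  rw [kd_apply, kd_apply, up_compl, Finset.sum_insert (last_notMem_up _), filter_up_last, add_comm]
  congr 1
  · rw [up, Finset.sum_map]
    refine Finset.sum_congr rfl fun i _ => ?_
    rw [show (Fin.castSuccEmb i : Fin (n + 1)) = i.castSucc from rfl, filter_up, insert_up]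
  · ring

omit [Field K] [Algebra K R] in
theorem kd_ins (x : Fin (n + 1) → R) (c : Finset (Fin (n + 1)) → R) (t : Finset (Fin n)) :
    kd x c (insert (Fin.last n) (up t)) = (-1) ^ (t.card + 1) * kd (fun i => x i.castSucc)
      (fun s => (-1) ^ s.card * c (insert (Fin.last n) (up s))) t := by
  rw [kd_apply, kd_apply, ins_compl, up, Finset.sum_map, Finset.mul_sum]
  refine Finset.sum_congr rfl fun i hi => ?_
  rw [show (Fin.castSuccEmb i : Fin (n + 1)) = i.castSucc from rfl]
  change (-1) ^ ((insert (Fin.last n) (up t)).filter fun k => k < i.castSucc).card *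
    (x i.castSucc * c (insert i.castSucc (insert (Fin.last n) (up t)))) = _
  rw [filter_ins, Finset.insert_comm, insert_up,
    Finset.card_insert_of_notMem (Finset.mem_compl.1 hi)]
  have h : ((-1 : R) ^ (t.card + 1)) * (-1) ^ (t.card + 1) = 1 := by
    rw [← mul_pow]; simp
  linear_combination (-((-1) ^ (t.filter fun k => k < i).card *
    (x i.castSucc * c (insert (Fin.last n) (up (insert i t)))))) * h

theorem sign_mem (U : Submodule K R) (k : ℕ) (y : R) : (-1) ^ k * y ∈ U ↔ y ∈ U := by
  rcases neg_one_pow_eq_or R k with h | h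
  · rw [h, one_mul]
  · rw [h, neg_one_mul, Submodule.neg_mem_iff]

omit [Field K] [Algebra K R] in
theorem sign_zero (k : ℕ) (y : R) : (-1) ^ k * y = 0 ↔ y = 0 := by
  rcases neg_one_pow_eq_or R k with h | h
  · rw [h, one_mul]
  · rw [h, neg_one_mul, neg_eq_zero]

omit [Field K] [Algebra K R] in
theorem sign_sign (k : ℕ) (y : R) : (-1) ^ k * ((-1) ^ k * y) = y := by
  rw [← mul_assoc, ← mul_pow]; simp

/-- families on subsets of `Fin (n + 1)` as pairs of families -/
def Th (K R : Type*) [Field K] [CommRing R] [Algebra K R] (n : ℕ) :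
    (Finset (Fin (n + 1)) → R) ≃ₗ[K] (Finset (Fin n) → R) × (Finset (Fin n) → R) where
  toFun c := (fun s => c (up s), fun s => (-1) ^ s.card * c (insert (Fin.last n) (up s)))
  map_add' a b := by
    refine Prod.ext rfl (funext fun s => ?_)
    change (-1) ^ s.card * (a _ + b _) = (-1) ^ s.card * a _ + (-1) ^ s.card * b _
    rw [mul_add]
  map_smul' k a := by
    refine Prod.ext rfl (funext fun s => ?_)
    change (-1) ^ s.card * (k • a _) = k • ((-1) ^ s.card * a _)
    rw [mul_smul_comm]
  invFun q := fun s => if Fin.last n ∈ s then (-1) ^ (dn s).card * q.2 (dn s) else q.1 (dn s)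
  left_inv c := by
    funext s
    by_cases h : Fin.last n ∈ s
    · simp only [h, if_true]
      rw [sign_sign, ins_dn h]
    · simp only [h, if_false]
      rw [up_dn h]
  right_inv q := by
    refine Prod.ext (funext fun s => ?_) (funext fun s => ?_)
    · simp only [last_notMem_up, if_false]
      rw [dn_up]
    · simp only [Finset.mem_insert_self, if_true]
      rw [dn_ins, sign_sign]

theorem Th_mem (x : Fin (n + 1) → R) (U W : Submodule K R) (p : ℕ)
    (c : Finset (Fin (n + 1)) → R) :
    Th K R n c ∈ pc (fun i => x i.castSucc) (x (Fin.last n)) U W p ↔ c ∈ rc x U W (p + 1) := by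
  rw [mem_rc, mem_pc, mem_chW, mem_chW, mem_chW, forall_sets (fun s => s.card ≠ p + 1 → c s = 0),
    forall_sets (fun s => c s ∈ W), forall_sets (fun s => kd x c s ∈ U)]
  have e1 : (Th K R n c).1 = fun s => c (up s) := rfl
  have e2 : (Th K R n c).2 = fun s => (-1) ^ s.card * c (insert (Fin.last n) (up s)) := rfl
  simp only [e1, e2, kd_up, kd_ins, card_up, card_ins, sign_mem, sign_zero, ne_eq,
    Nat.add_right_cancel_iff]
  tauto

/-- The linear equivalence is `c ↦ (s ↦ c (s.map castSucc), s ↦ (-1)^|s| c (insert last (s.map castSucc)))`. -/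
theorem finrank_rc_succ (x : Fin (n + 1) → R) (U W : Submodule K R) (p : ℕ) :
    finrank K (rc x U W (p + 1)) =
      finrank K (pc (fun i => x i.castSucc) (x (Fin.last n)) U W p) := by
  have h : (rc x U W (p + 1)).map (Th K R n).toLinearMap =
      pc (fun i => x i.castSucc) (x (Fin.last n)) U W p := by
    ext q
    obtain ⟨c, rfl⟩ := (Th K R n).surjective q
    rw [Th_mem]
    constructor
    · rintro ⟨d, hd, h⟩
      rw [← (Th K R n).injective h]
      exact hd
    · intro hc
      exact ⟨c, hc, rfl⟩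
  rw [← h]
  exact (LinearEquiv.finrank_map_eq (Th K R n) _).symm

theorem mem_map_alg {R' : Type*} [CommRing R'] [Algebra K R'] (e : R ≃ₐ[K] R')
    (U : Submodule K R) (y : R) : e y ∈ U.map e.toLinearMap ↔ y ∈ U := by
  constructor
  · rintro ⟨z, hz, h⟩
    rw [← e.injective h]
    exact hz
  · intro h
    exact ⟨y, h, rfl⟩

theorem finrank_pc_map {R' : Type*} [CommRing R'] [Algebra K R'] (e : R ≃ₐ[K] R')
    (x : Fin n → R) (z : R) (U W : Submodule K R) (p : ℕ) :
    finrank K (pc (fun i => e (x i)) (e z) (U.map e.toLinearMap) (W.map e.toLinearMap) p) =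
      finrank K (pc x z U W p) := by
  let e0 : (Finset (Fin n) → R) ≃ₗ[K] (Finset (Fin n) → R') :=
    LinearEquiv.piCongrRight fun _ => e.toLinearEquiv
  let E : ((Finset (Fin n) → R) × (Finset (Fin n) → R)) ≃ₗ[K]
    ((Finset (Fin n) → R') × (Finset (Fin n) → R')) := e0.prodCongr e0
  have hE1 : ∀ q, (E q).1 = fun s => e (q.1 s) := fun _ => rfl
  have hE2 : ∀ q, (E q).2 = fun s => e (q.2 s) := fun _ => rfl
  have key : ∀ q, E q ∈ pc (fun i => e (x i)) (e z) (U.map e.toLinearMap)
      (W.map e.toLinearMap) p ↔ q ∈ pc x z U W p := by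
    intro q
    have hk : ∀ (c : Finset (Fin n) → R) (t : Finset (Fin n)),
        kd (fun i => e (x i)) (fun s => e (c s)) t = e (kd x c t) := fun c t =>
      (kd_map (e : R →+* R') x c t).symm
    rw [mem_pc, mem_pc, mem_chW, mem_chW, mem_chW, mem_chW, hE1, hE2]
    simp only [hk, ← map_mul, ← map_add, mem_map_alg, EmbeddingLike.map_eq_zero_iff]
  have h : (pc x z U W p).map E.toLinearMap =
      pc (fun i => e (x i)) (e z) (U.map e.toLinearMap) (W.map e.toLinearMap) p := by
    ext q
    obtain ⟨c, rfl⟩ := E.surjective q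
    rw [key]
    constructor
    · rintro ⟨d, hd, h⟩
      rw [← E.injective h]
      exact hd
    · intro hc
      exact ⟨c, hc, rfl⟩
  rw [← h]
  exact LinearEquiv.finrank_map_eq E _

/-- exterior multiplication with `ε = ∑ c_i e_i` -/
def eps (c : Fin n → R) (g : Finset (Fin n) → R) : Finset (Fin n) → R := fun s =>
  ∑ i ∈ s, (-1 : R) ^ (s.filter fun k => k < i).card * (c i * g (s.erase i))

/-- the homotopy formula -/
theorem kd_eps (x c : Fin n → R) (g : Finset (Fin n) → R) (t : Finset (Fin n)) :
    kd x (eps c g) t + eps c (kd x g) t = (∑ i, c i * x i) * g t := by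
  classical
  have A : kd x (eps c g) t = ∑ i ∈ tᶜ, (c i * x i * g t + ∑ j ∈ t, (-1 : R) ^
      ((t.filter fun k => k < i).card + ((insert i t).filter fun k => k < j).card) *
        (x i * c j * g ((insert i t).erase j))) := by
    rw [kd_apply]
    refine Finset.sum_congr rfl fun i hi => ?_
    have hi' := Finset.mem_compl.1 hi
    rw [eps, Finset.sum_insert hi', Finset.erase_insert hi', Finset.filter_insert,
      if_neg (lt_irrefl i), mul_add, mul_add]
    congr 1
    · have := sign_sign (t.filter fun k => k < i).card (c i * x i * g t)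
      linear_combination this
    · rw [Finset.mul_sum, Finset.mul_sum]
      refine Finset.sum_congr rfl fun j _ => ?_
      rw [pow_add]
      ring
  have B : eps c (kd x g) t = ∑ j ∈ t, (c j * x j * g t + ∑ i ∈ tᶜ, (-1 : R) ^
      ((t.filter fun k => k < j).card + ((t.erase j).filter fun k => k < i).card) *
        (x i * c j * g (insert i (t.erase j)))) := by
    rw [eps]
    refine Finset.sum_congr rfl fun j hj => ?_
    have h1 : (t.erase j)ᶜ = insert j tᶜ := Finset.compl_erase
    have h2 : j ∉ tᶜ := fun h => Finset.mem_compl.1 h hj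
    have h3 : (t.erase j).filter (fun k => k < j) = t.filter fun k => k < j := by
      ext k
      simp only [Finset.mem_filter, Finset.mem_erase]
      constructor
      · rintro ⟨⟨_, h5⟩, h6⟩; exact ⟨h5, h6⟩
      · rintro ⟨h5, h6⟩; exact ⟨⟨h6.ne, h5⟩, h6⟩
    rw [kd_apply, h1, Finset.sum_insert h2, h3, Finset.insert_erase hj, mul_add, mul_add]
    congr 1
    · have := sign_sign (t.filter fun k => k < j).card (c j * x j * g t)
      linear_combination this
    · rw [Finset.mul_sum, Finset.mul_sum]
      refine Finset.sum_congr rfl fun i _ => ?_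
      rw [pow_add]
      ring
  rw [A, B, Finset.sum_add_distrib, Finset.sum_add_distrib,
    Finset.sum_comm (s := t) (t := tᶜ)]
  have C : (∑ i ∈ tᶜ, ∑ j ∈ t, (-1 : R) ^
      ((t.filter fun k => k < i).card + ((insert i t).filter fun k => k < j).card) *
        (x i * c j * g ((insert i t).erase j))) + (∑ i ∈ tᶜ, ∑ j ∈ t, (-1 : R) ^
      ((t.filter fun k => k < j).card + ((t.erase j).filter fun k => k < i).card) *
        (x i * c j * g (insert i (t.erase j)))) = 0 := by
    rw [← Finset.sum_add_distrib]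
    refine Finset.sum_eq_zero fun i hi => ?_
    rw [← Finset.sum_add_distrib]
    refine Finset.sum_eq_zero fun j hj => ?_
    have hi' := Finset.mem_compl.1 hi
    have hij : i ≠ j := fun h => hi' (h ▸ hj)
    rw [Finset.erase_insert_of_ne hij]
    rcases lt_or_gt_of_ne hij with hlt | hlt
    · have h1 : ((insert i t).filter fun k => k < j).card =
          (t.filter fun k => k < j).card + 1 := by
        rw [Finset.filter_insert, if_pos hlt, Finset.card_insert_of_notMem]
        simp [hi']
      have h2 : (t.erase j).filter (fun k => k < i) = t.filter fun k => k < i := by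
        ext k
        simp only [Finset.mem_filter, Finset.mem_erase]
        constructor
        · rintro ⟨⟨_, h5⟩, h6⟩; exact ⟨h5, h6⟩
        · rintro ⟨h5, h6⟩; exact ⟨⟨(h6.trans hlt).ne, h5⟩, h6⟩
      rw [h1, h2]
      ring
    · have h1 : ((insert i t).filter fun k => k < j).card =
          (t.filter fun k => k < j).card := by
        rw [Finset.filter_insert, if_neg (not_lt.2 hlt.le)]
      have h2 : (t.filter fun k => k < i).card =
          ((t.erase j).filter fun k => k < i).card + 1 := by
        have : t.filter (fun k => k < i) = insert j ((t.erase j).filter fun k => k < i) := by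
          ext k
          simp only [Finset.mem_filter, Finset.mem_erase, Finset.mem_insert]
          constructor
          · rintro ⟨h5, h6⟩
            by_cases hkj : k = j
            · exact Or.inl hkj
            · exact Or.inr ⟨⟨hkj, h5⟩, h6⟩
          · rintro (rfl | ⟨⟨_, h5⟩, h6⟩)
            · exact ⟨hj, hlt⟩
            · exact ⟨h5, h6⟩
        rw [this, Finset.card_insert_of_notMem]
        simp
      rw [h1, h2]
      ring
  have D : (∑ i, c i * x i) * g t = (∑ i ∈ tᶜ, c i * x i * g t) + ∑ i ∈ t, c i * x i * g t := by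
    rw [Finset.sum_mul, ← Finset.sum_compl_add_sum t]
  rw [D]
  linear_combination C

theorem eps_mem {p : ℕ} {W : Submodule K R} (c : Fin n → K) {g : Finset (Fin n) → R}
    (hg : ∀ s, g s ∈ W) (s : Finset (Fin n)) :
    eps (fun i => algebraMap K R (c i)) g s ∈ W := by
  unfold eps
  refine W.sum_mem fun i _ => ?_
  rw [sign_mem, ← Algebra.smul_def]
  exact W.smul_mem _ (hg _)

theorem eps_mem_chW {p : ℕ} {W : Submodule K R} (c : Fin n → K) {g : Finset (Fin n) → R}
    (hg : g ∈ chW n p W) : eps (fun i => algebraMap K R (c i)) g ∈ chW n (p + 1) W := by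
  rw [mem_chW] at hg ⊢
  refine ⟨fun s hs => ?_, fun s => eps_mem (p := p) c hg.2 s⟩
  unfold eps
  refine Finset.sum_eq_zero fun i hi => ?_
  rw [hg.1, mul_zero, mul_zero]
  rw [Finset.card_erase_of_mem hi]
  have := Finset.card_pos.2 ⟨i, hi⟩
  omega

end Vale.Agent.P200F.L

end

section

namespace Vale.Agent.P200F.L

open MvPolynomial Module
open Vale.Agent.P200F.B Vale.Agent.P200F.G

variable {K : Type*} [Field K] {n : ℕ}

/-- the graded pieces of `B[z]` -/
noncomputable def Gd (K : Type*) [Field K] (n e : ℕ) :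
    Submodule K (Polynomial (MvPolynomial (Fin n) K)) where
  carrier := {F | ∀ i, F.coeff i ∈ Bd K n e i}
  add_mem' ha hb i := by
    rw [Polynomial.coeff_add]
    exact Submodule.add_mem _ (ha i) (hb i)
  zero_mem' i := by
    rw [Polynomial.coeff_zero]
    exact Submodule.zero_mem _
  smul_mem' k F hF i := by
    rw [Polynomial.coeff_smul]
    exact Submodule.smul_mem _ _ (hF i)

/-- the layers (lowest coefficients) of a space -/
noncomputable def lay (V : Submodule K (Polynomial (MvPolynomial (Fin n) K))) (i : ℕ) :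
    Submodule K (MvPolynomial (Fin n) K) where
  carrier := {b | ∃ F ∈ V, (∀ j < i, F.coeff j = 0) ∧ F.coeff i = b}
  add_mem' := by
    rintro a b ⟨F, hF, hF0, rfl⟩ ⟨G, hG, hG0, rfl⟩
    refine ⟨F + G, V.add_mem hF hG, fun j hj => ?_, ?_⟩
    · rw [Polynomial.coeff_add, hF0 j hj, hG0 j hj, add_zero]
    · rw [Polynomial.coeff_add]
  zero_mem' := ⟨0, V.zero_mem, fun j _ => Polynomial.coeff_zero j, Polynomial.coeff_zero i⟩
  smul_mem' := by
    rintro k a ⟨F, hF, hF0, rfl⟩
    refine ⟨k • F, V.smul_mem k hF, fun j hj => ?_, ?_⟩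
    · rw [Polynomial.coeff_smul, hF0 j hj, smul_zero]
    · rw [Polynomial.coeff_smul]

/-- the graded space with given layers -/
noncomputable def grs (V : ℕ → Submodule K (MvPolynomial (Fin n) K)) :
    Submodule K (Polynomial (MvPolynomial (Fin n) K)) where
  carrier := {F | ∀ i, F.coeff i ∈ V i}
  add_mem' ha hb i := by
    rw [Polynomial.coeff_add]
    exact Submodule.add_mem _ (ha i) (hb i)
  zero_mem' i := by
    rw [Polynomial.coeff_zero]
    exact Submodule.zero_mem _
  smul_mem' k F hF i := by
    rw [Polynomial.coeff_smul]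
    exact Submodule.smul_mem _ _ (hF i)

/-- the variables of `B` in `B[z]` -/
noncomputable abbrev xB (K : Type*) [Field K] (n : ℕ) :
    Fin n → Polynomial (MvPolynomial (Fin n) K) := fun i => Polynomial.C (X i)

section cut
variable {M W : Type*} [AddCommGroup M] [Module K M] [AddCommGroup W] [Module K W]

/-- the part of `C` killed by `π 0, …, π (i - 1)` -/
def cut (C : Submodule K M) (π : ℕ → M →ₗ[K] W) (i : ℕ) : Submodule K M where
  carrier := {F | F ∈ C ∧ ∀ j < i, π j F = 0}
  add_mem' := by
    rintro a b ⟨ha, ha'⟩ ⟨hb, hb'⟩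
    refine ⟨C.add_mem ha hb, fun j hj => ?_⟩
    rw [map_add, ha' j hj, hb' j hj, add_zero]
  zero_mem' := ⟨C.zero_mem, fun j _ => map_zero _⟩
  smul_mem' := by
    rintro k a ⟨ha, ha'⟩
    refine ⟨C.smul_mem k ha, fun j hj => ?_⟩
    rw [map_smul, ha' j hj, smul_zero]

theorem mem_cut {C : Submodule K M} {π : ℕ → M →ₗ[K] W} {i : ℕ} {F : M} :
    F ∈ cut C π i ↔ F ∈ C ∧ ∀ j < i, π j F = 0 := Iff.rfl

theorem cut_succ (C : Submodule K M) (π : ℕ → M →ₗ[K] W) (i : ℕ) :
    cut C π (i + 1) = cut C π i ⊓ LinearMap.ker (π i) := by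
  ext F
  rw [Submodule.mem_inf, mem_cut, mem_cut, LinearMap.mem_ker]
  constructor
  · rintro ⟨h1, h2⟩
    exact ⟨⟨h1, fun j hj => h2 j (by omega)⟩, h2 i (by omega)⟩
  · rintro ⟨⟨h1, h2⟩, h3⟩
    refine ⟨h1, fun j hj => ?_⟩
    rcases Nat.lt_succ_iff_lt_or_eq.1 hj with h | h
    · exact h2 j h
    · rw [h]
      exact h3

theorem cut_le (C : Submodule K M) (π : ℕ → M →ₗ[K] W) (i : ℕ) : cut C π i ≤ C :=
  fun _ h => h.1

theorem cut_zero (C : Submodule K M) (π : ℕ → M →ₗ[K] W) : cut C π 0 = C :=
  le_antisymm (cut_le C π 0) fun _ h => ⟨h, fun _ hj => absurd hj (Nat.not_lt_zero _)⟩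

theorem finrank_cut (C : Submodule K M) (π : ℕ → M →ₗ[K] W) [Module.Finite K C] (N : ℕ) :
    finrank K C = ∑ i ∈ Finset.range N, finrank K ((cut C π i).map (π i)) +
      finrank K (cut C π N) := by
  induction N with
  | zero => rw [Finset.sum_range_zero, zero_add, cut_zero]
  | succ N ih =>
    have h0 : Module.Finite K (cut C π N) := Submodule.finiteDimensional_of_le (cut_le C π N)
    rw [ih, Finset.sum_range_succ, cut_succ, add_assoc, finrank_map_add]

theorem finrank_cut' (C : Submodule K M) (π : ℕ → M →ₗ[K] W) [Module.Finite K C] (N : ℕ)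
    (hN : cut C π N = ⊥) :
    finrank K C = ∑ i ∈ Finset.range N, finrank K ((cut C π i).map (π i)) := by
  rw [finrank_cut C π N, hN, finrank_bot, add_zero]

end cut

theorem bd_zero {e i : ℕ} {b : MvPolynomial (Fin n) K} (hb : b ∈ Bd K n e i) (h : e < i) :
    b = 0 := by
  rw [Bd, if_neg (by omega)] at hb
  exact (Submodule.mem_bot K).1 hb

/-- the coefficients as linear maps over `K` -/
noncomputable def cfL (K : Type*) [Field K] (n i : ℕ) :
    Polynomial (MvPolynomial (Fin n) K) →ₗ[K] MvPolynomial (Fin n) K where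
  toFun F := F.coeff i
  map_add' _ _ := Polynomial.coeff_add _ _ _
  map_smul' _ _ := Polynomial.coeff_smul _ _ _

instance finite_Gd (e : ℕ) : Module.Finite K (Gd K n e) := by
  let f : Gd K n e →ₗ[K] ((i : Fin (e + 1)) → Bd K n e i) :=
    { toFun := fun F i => ⟨F.1.coeff i, F.2 i⟩
      map_add' := fun F G => by
        funext i
        apply Subtype.ext
        exact Polynomial.coeff_add _ _ _
      map_smul' := fun k F => by
        funext i
        apply Subtype.ext
        exact Polynomial.coeff_smul _ _ _ }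
  refine Module.Finite.of_injective f fun F G h => ?_
  apply Subtype.ext
  apply Polynomial.ext
  intro i
  by_cases hi : i < e + 1
  · exact congrArg Subtype.val (congrFun h ⟨i, hi⟩)
  · rw [bd_zero (F.2 i) (by omega), bd_zero (G.2 i) (by omega)]

theorem gd_ext {e : ℕ} {F : Polynomial (MvPolynomial (Fin n) K)} (hF : F ∈ Gd K n e)
    (h : ∀ j < e + 1, F.coeff j = 0) : F = 0 := by
  apply Polynomial.ext
  intro i
  rw [Polynomial.coeff_zero]
  by_cases hi : i < e + 1
  · exact h i hi
  · exact bd_zero (hF i) (by omega)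

theorem map_cut_coeff (V : Submodule K (Polynomial (MvPolynomial (Fin n) K))) (i : ℕ) :
    (cut V (cfL K n) i).map (cfL K n i) = lay V i := by
  ext b
  constructor
  · rintro ⟨F, ⟨hF, hF'⟩, rfl⟩
    exact ⟨F, hF, hF', rfl⟩
  · rintro ⟨F, hF, hF', rfl⟩
    exact ⟨F, ⟨hF, hF'⟩, rfl⟩

theorem finrank_eq_tot_lay {D : ℕ} (V : Submodule K (Polynomial (MvPolynomial (Fin n) K)))
    (hV : V ≤ Gd K n D) : finrank K V = tot (lay V) D := by
  have h0 : Module.Finite K V := Submodule.finiteDimensional_of_le hV
  rw [finrank_cut' V (cfL K n) (D + 1), tot]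
  · exact Finset.sum_congr rfl fun i _ => by rw [map_cut_coeff]
  · rw [eq_bot_iff]
    rintro F ⟨hF, hF'⟩
    rw [Submodule.mem_bot]
    exact gd_ext (hV hF) hF'

theorem lay_le {D : ℕ} {V : Submodule K (Polynomial (MvPolynomial (Fin n) K))}
    (hV : V ≤ Gd K n D) (i : ℕ) : lay V i ≤ Bd K n D i := by
  rintro _ ⟨F, hF, -, rfl⟩
  exact hV hF i

theorem kd_coeff (α : Finset (Fin n) → Polynomial (MvPolynomial (Fin n) K))
    (t : Finset (Fin n)) (i : ℕ) :
    (kd (xB K n) α t).coeff i = kd X (fun s => (α s).coeff i) t := by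
  rw [kd_apply, kd_apply, Polynomial.finsetSum_coeff]
  refine Finset.sum_congr rfl fun j _ => ?_
  have h : (-1 : Polynomial (MvPolynomial (Fin n) K)) ^ (t.filter fun k => k < j).card *
      (xB K n j * α (insert j t)) =
      Polynomial.C ((-1) ^ (t.filter fun k => k < j).card * X j) * α (insert j t) := by
    rw [Polynomial.C_mul, Polynomial.C_pow, Polynomial.C_neg, Polynomial.C_1, mul_assoc]
  rw [h, Polynomial.coeff_C_mul, mul_assoc]

/-- the coefficients of a pair -/
noncomputable def lpi (K : Type*) [Field K] (n i : ℕ) :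
    (Finset (Fin n) → Polynomial (MvPolynomial (Fin n) K)) ×
      (Finset (Fin n) → Polynomial (MvPolynomial (Fin n) K)) →ₗ[K]
    (Finset (Fin n) → MvPolynomial (Fin n) K) × (Finset (Fin n) → MvPolynomial (Fin n) K) where
  toFun q := (fun s => (q.1 s).coeff i, fun s => (Polynomial.X * q.2 s).coeff i)
  map_add' a b := by
    apply Prod.ext
    · funext s
      exact Polynomial.coeff_add _ _ _
    · funext s
      change (Polynomial.X * (a.2 s + b.2 s)).coeff i = _
      rw [mul_add, Polynomial.coeff_add]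
      rfl
  map_smul' k a := by
    apply Prod.ext
    · funext s
      exact Polynomial.coeff_smul _ _ _
    · funext s
      change (Polynomial.X * (k • a.2 s)).coeff i = _
      rw [mul_smul_comm, Polynomial.coeff_smul]
      rfl

theorem lpi_eq_zero {i : ℕ} {q : (Finset (Fin n) → Polynomial (MvPolynomial (Fin n) K)) ×
      (Finset (Fin n) → Polynomial (MvPolynomial (Fin n) K))} (h : lpi K n i q = 0)
      (s : Finset (Fin n)) : (q.1 s).coeff i = 0 ∧ (Polynomial.X * q.2 s).coeff i = 0 :=
  ⟨congrFun (congrArg Prod.fst h) s, congrFun (congrArg Prod.snd h) s⟩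

instance finite_pc (x : Fin n → Polynomial (MvPolynomial (Fin n) K))
    (z : Polynomial (MvPolynomial (Fin n) K))
    (U : Submodule K (Polynomial (MvPolynomial (Fin n) K))) (d p : ℕ) :
    Module.Finite K (pc x z U (Gd K n d) p) := by
  have h1 : (chW n (p + 1) (Gd K n d)).FG := Module.Finite.iff_fg.1 inferInstance
  have h2 : (chW n p (Gd K n d)).FG := Module.Finite.iff_fg.1 inferInstance
  have h3 : Module.Finite K ((chW n (p + 1) (Gd K n d)).prod (chW n p (Gd K n d))) :=
    Module.Finite.iff_fg.2 (h1.prod h2)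
  exact Submodule.finiteDimensional_of_le
    (S₂ := (chW n (p + 1) (Gd K n d)).prod (chW n p (Gd K n d))) fun q hq => ⟨hq.1, hq.2.1⟩

/-- `(a, h) ↦ (a, h - ∂ a)` -/
noncomputable def lpsi (A R' : Submodule K (Finset (Fin n) → MvPolynomial (Fin n) K)) :
    (A × R') →ₗ[K]
      (Finset (Fin n) → MvPolynomial (Fin n) K) × (Finset (Fin n) → MvPolynomial (Fin n) K) :=
  (A.subtype ∘ₗ LinearMap.fst K A R').prod
    (R'.subtype ∘ₗ LinearMap.snd K A R' - kdL K X ∘ₗ A.subtype ∘ₗ LinearMap.fst K A R')

theorem lpsi_apply (A R' : Submodule K (Finset (Fin n) → MvPolynomial (Fin n) K)) (q : A × R') :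
    lpsi A R' q = (q.1.1, q.2.1 - kd X q.1.1) := rfl

theorem finrank_range_lpsi (A R' : Submodule K (Finset (Fin n) → MvPolynomial (Fin n) K))
    [Module.Finite K A] [Module.Finite K R'] :
    finrank K (LinearMap.range (lpsi A R')) = finrank K A + finrank K R' := by
  rw [LinearMap.finrank_range_of_inj, Module.finrank_prod]
  intro q q' h
  rw [lpsi_apply, lpsi_apply, Prod.mk.injEq] at h
  obtain ⟨h1, h2⟩ := h
  rw [h1] at h2
  apply Prod.ext
  · exact Subtype.ext h1
  · exact Subtype.ext (sub_left_injective h2)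

theorem Bd_shift (d i : ℕ) : Bd K n (d + 1) (i + 1) = Bd K n d i := by
  rw [Bd, Bd]
  by_cases h : i ≤ d
  · rw [if_pos h, if_pos (by omega), show d + 1 - (i + 1) = d - i by omega]
  · rw [if_neg h, if_neg (by omega)]

theorem kd_X_mem {d i : ℕ} {a : Finset (Fin n) → MvPolynomial (Fin n) K}
    (ha : ∀ s, a s ∈ Bd K n d i) (t : Finset (Fin n)) : kd X a t ∈ Bd K n (d + 1) i := by
  rw [kd_apply]
  refine Submodule.sum_mem _ fun j _ => ?_
  have h1 := ha (insert j t)
  have h2 : X j * a (insert j t) ∈ Bd K n (d + 1) i := by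
    by_cases h : i ≤ d
    · rw [Bd, if_pos h, mem_homogeneousSubmodule] at h1
      rw [Bd, if_pos (by omega), mem_homogeneousSubmodule,
        show d + 1 - i = 1 + (d - i) by omega]
      exact (isHomogeneous_X K j).mul h1
    · rw [bd_zero h1 (by omega), mul_zero]
      exact Submodule.zero_mem _
  rcases neg_one_pow_eq_or (MvPolynomial (Fin n) K) (t.filter fun k => k < j).card with h | h
  · rw [h, one_mul]
    exact h2
  · rw [h, neg_one_mul]
    exact Submodule.neg_mem _ h2

/-- the part of degree `0` -/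
theorem map_cut_zero_le {d p : ℕ} (V : Submodule K (Polynomial (MvPolynomial (Fin n) K))) :
    (cut (pc (xB K n) Polynomial.X V (Gd K n d) p) (lpi K n) 0).map (lpi K n 0) ≤
      (rc X (lay V 0) (homogeneousSubmodule (Fin n) K d) (p + 1)).map
        (LinearMap.inl K _ (Finset (Fin n) → MvPolynomial (Fin n) K)) := by
  rintro _ ⟨⟨α, γ⟩, ⟨⟨h1, h2, h3, h4⟩, -⟩, rfl⟩
  refine ⟨fun s => (α s).coeff 0, ⟨⟨fun s hs => ?_, fun s => ?_⟩, fun t => ?_⟩, ?_⟩
  · change (α s).coeff 0 = 0
    have e : α s = 0 := h1.1 s hs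
    rw [e, Polynomial.coeff_zero]
  · have h5 := h1.2 s 0
    rw [Bd, if_pos (Nat.zero_le d), Nat.sub_zero] at h5
    exact h5
  · refine ⟨_, h4 t, fun j hj => absurd hj (Nat.not_lt_zero _), ?_⟩
    rw [Polynomial.coeff_add, kd_coeff, Polynomial.coeff_X_mul_zero, add_zero]
  · apply Prod.ext
    · rfl
    · funext s
      exact (Polynomial.coeff_X_mul_zero _).symm

/-- the parts of positive degree -/
theorem map_cut_succ_le {d p : ℕ} (V : Submodule K (Polynomial (MvPolynomial (Fin n) K)))
    (i : ℕ) :
    (cut (pc (xB K n) Polynomial.X V (Gd K n d) p) (lpi K n) (i + 1)).map (lpi K n (i + 1)) ≤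
      LinearMap.range (lpsi (chW n (p + 1) (Bd K n d (i + 1)))
        (rc X (lay V i) (lay V (i + 1)) p)) := by
  rintro _ ⟨⟨α, γ⟩, ⟨⟨h1, h2, h3, h4⟩, h5⟩, rfl⟩
  have h6 : ∀ j < i + 1, ∀ s, (α s).coeff j = 0 := fun j hj s => (lpi_eq_zero (h5 j hj) s).1
  have h7 : ∀ j < i, ∀ s, (γ s).coeff j = 0 := by
    intro j hj s
    have h := (lpi_eq_zero (h5 (j + 1) (by omega)) s).2
    rw [Polynomial.coeff_X_mul] at h
    exact h
  have hz : ∀ t, kd X (fun _ : Finset (Fin n) => (0 : MvPolynomial (Fin n) K)) t = 0 := by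
    intro t
    exact congrFun (kdL K (X : Fin n → MvPolynomial (Fin n) K)).map_zero t
  set a : Finset (Fin n) → MvPolynomial (Fin n) K := fun s => (α s).coeff (i + 1) with ha
  set g : Finset (Fin n) → MvPolynomial (Fin n) K := fun s => (γ s).coeff i with hg
  have ha1 : a ∈ chW n (p + 1) (Bd K n d (i + 1)) :=
    ⟨fun s hs => by
      have e : α s = 0 := h1.1 s hs
      rw [ha]; simp only; rw [e, Polynomial.coeff_zero],
      fun s => h1.2 s (i + 1)⟩
  have hg1 : ∀ s, s.card ≠ p → g s = 0 := fun s hs => by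
    have e : γ s = 0 := h2.1 s hs
    rw [hg]; simp only; rw [e, Polynomial.coeff_zero]
  have hh1 : ∀ t, kd X a t + g t ∈ lay V (i + 1) := by
    intro t
    refine ⟨_, h4 t, fun j hj => ?_, ?_⟩
    · rw [Polynomial.coeff_add, kd_coeff]
      have h8 : (fun s => (α s).coeff j) = fun _ => 0 := funext fun s => h6 j hj s
      rw [h8, hz, zero_add]
      cases j with
      | zero => exact Polynomial.coeff_X_mul_zero _
      | succ j =>
        rw [Polynomial.coeff_X_mul]
        exact h7 j (by omega) t
    · rw [Polynomial.coeff_add, kd_coeff, Polynomial.coeff_X_mul]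
  have hk1 : ∀ t, kd X g t ∈ lay V i := by
    intro t
    refine ⟨_, h3 t, fun j hj => ?_, ?_⟩
    · rw [kd_coeff]
      have h8 : (fun s => (γ s).coeff j) = fun _ => 0 := funext fun s => h7 j hj s
      rw [h8, hz]
    · rw [kd_coeff]
  have hr : kd X a + g ∈ rc X (lay V i) (lay V (i + 1)) p := by
    refine ⟨⟨fun s hs => ?_, hh1⟩, fun t => ?_⟩
    · rw [Pi.add_apply, hg1 s hs, kd_card ha1.1 s hs, add_zero]
    · rw [kd_add, kd_sq, zero_add]
      exact hk1 t
  refine ⟨(⟨a, ha1⟩, ⟨kd X a + g, hr⟩), ?_⟩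
  rw [lpsi_apply]
  apply Prod.ext
  · rfl
  · change kd X a + g - kd X a = _
    rw [add_sub_cancel_left]
    funext s
    exact (Polynomial.coeff_X_mul _ _).symm

theorem cut_top {d p : ℕ} (V : Submodule K (Polynomial (MvPolynomial (Fin n) K))) :
    cut (pc (xB K n) Polynomial.X V (Gd K n d) p) (lpi K n) (d + 2) = ⊥ := by
  rw [eq_bot_iff]
  rintro ⟨α, γ⟩ ⟨⟨h1, h2, h3, h4⟩, h5⟩
  rw [Submodule.mem_bot]
  apply Prod.ext
  · funext s
    exact gd_ext (h1.2 s) fun j hj => (lpi_eq_zero (h5 j (by omega)) s).1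
  · funext s
    refine gd_ext (h2.2 s) fun j hj => ?_
    have h := (lpi_eq_zero (h5 (j + 1) (by omega)) s).2
    rw [Polynomial.coeff_X_mul] at h
    exact h

theorem finrank_pc_eq {d p : ℕ} (V : Submodule K (Polynomial (MvPolynomial (Fin n) K))) :
    finrank K (pc (xB K n) Polynomial.X V (Gd K n d) p) =
      finrank K ((cut (pc (xB K n) Polynomial.X V (Gd K n d) p) (lpi K n) 0).map (lpi K n 0)) +
      ∑ i ∈ Finset.range (d + 1), finrank K
        ((cut (pc (xB K n) Polynomial.X V (Gd K n d) p) (lpi K n) (i + 1)).map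
          (lpi K n (i + 1))) := by
  rw [finrank_cut' _ (lpi K n) (d + 2) (cut_top V), Finset.sum_range_succ', add_comm]

theorem finrank_map_inl (R' : Submodule K (Finset (Fin n) → MvPolynomial (Fin n) K)) :
    finrank K (R'.map (LinearMap.inl K _ (Finset (Fin n) → MvPolynomial (Fin n) K))) =
      finrank K R' :=
  (Submodule.equivMapOfInjective _ LinearMap.inl_injective R').finrank_eq.symm

theorem finrank_lpsi_rc {d p i : ℕ} (V : ℕ → Submodule K (MvPolynomial (Fin n) K))
    (hV : ∀ i, V i ≤ Bd K n (d + 1) i) :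
    finrank K (LinearMap.range (lpsi (chW n (p + 1) (Bd K n d (i + 1)))
        (rc X (V i) (V (i + 1)) p))) =
      n.choose (p + 1) * finrank K (Bd K n d (i + 1)) + finrank K (rc X (V i) (V (i + 1)) p) := by
  have h : Module.Finite K (V (i + 1)) := Submodule.finiteDimensional_of_le (hV (i + 1))
  rw [finrank_range_lpsi, finrank_chW]

theorem zc_lay {d p : ℕ} (V : Submodule K (Polynomial (MvPolynomial (Fin n) K)))
    (hV : V ≤ Gd K n (d + 1)) :
    finrank K (pc (xB K n) Polynomial.X V (Gd K n d) p) ≤ zc (lay V) p d := by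
  rw [finrank_pc_eq, zc]
  refine Nat.add_le_add ?_ (Finset.sum_le_sum fun i _ => ?_)
  · rw [← finrank_map_inl]
    exact Submodule.finrank_mono (map_cut_zero_le V)
  · rw [← finrank_lpsi_rc (lay V) (lay_le hV)]
    have h : Module.Finite K (lay V (i + 1)) :=
      Submodule.finiteDimensional_of_le (lay_le hV (i + 1))
    exact Submodule.finrank_mono (map_cut_succ_le V i)

theorem lay_grs (V : ℕ → Submodule K (MvPolynomial (Fin n) K)) (i : ℕ) :
    lay (grs V) i = V i := by
  ext b
  constructor
  · rintro ⟨F, hF, -, rfl⟩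
    exact hF i
  · intro hb
    refine ⟨Polynomial.C b * Polynomial.X ^ i, fun j => ?_, fun j hj => ?_, ?_⟩
    · rw [Polynomial.coeff_C_mul_X_pow]
      split_ifs with h
      · rw [h]
        exact hb
      · exact Submodule.zero_mem _
    · rw [Polynomial.coeff_C_mul_X_pow, if_neg (by omega)]
    · rw [Polynomial.coeff_C_mul_X_pow, if_pos rfl]

theorem kd_CX (a : Finset (Fin n) → MvPolynomial (Fin n) K) (i : ℕ) (t : Finset (Fin n)) :
    kd (xB K n) (fun s => Polynomial.X ^ i * Polynomial.C (a s)) t =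
      Polynomial.X ^ i * Polynomial.C (kd X a t) := by
  rw [kd_mul, kd_map]

theorem coeff_XC (b : MvPolynomial (Fin n) K) (i j : ℕ) :
    (Polynomial.X ^ i * Polynomial.C b).coeff j = if j = i then b else 0 := by
  rw [mul_comm, Polynomial.coeff_C_mul_X_pow]

theorem XC_mem_grs {V : ℕ → Submodule K (MvPolynomial (Fin n) K)}
    {b : MvPolynomial (Fin n) K} {i : ℕ} (hb : b ∈ V i) :
    Polynomial.X ^ i * Polynomial.C b ∈ grs V := by
  intro j
  rw [coeff_XC]
  split_ifs with h
  · rw [h]
    exact hb
  · exact Submodule.zero_mem _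

theorem XC_mem_Gd {b : MvPolynomial (Fin n) K} {d i : ℕ} (hb : b ∈ Bd K n d i) :
    Polynomial.X ^ i * Polynomial.C b ∈ Gd K n d := by
  intro j
  rw [coeff_XC]
  split_ifs with h
  · rw [h]
    exact hb
  · exact Submodule.zero_mem _

theorem le_map_cut_zero {d p : ℕ} (V : ℕ → Submodule K (MvPolynomial (Fin n) K)) :
    (rc X (V 0) (homogeneousSubmodule (Fin n) K d) (p + 1)).map
        (LinearMap.inl K _ (Finset (Fin n) → MvPolynomial (Fin n) K)) ≤
    (cut (pc (xB K n) Polynomial.X (grs V) (Gd K n d) p) (lpi K n) 0).map (lpi K n 0) := by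
  rintro _ ⟨a, ⟨h1, h2⟩, rfl⟩
  refine ⟨(fun s => Polynomial.X ^ 0 * Polynomial.C (a s), 0), ⟨⟨⟨fun s hs => ?_, fun s => ?_⟩,
    Submodule.zero_mem _, fun t => ?_, fun t => ?_⟩, fun j hj => absurd hj (Nat.not_lt_zero _)⟩,
    ?_⟩
  · change Polynomial.X ^ 0 * Polynomial.C (a s) = 0
    rw [h1.1 s hs, Polynomial.C_0, mul_zero]
  · refine XC_mem_Gd ?_
    rw [Bd, if_pos (Nat.zero_le d), Nat.sub_zero]
    exact h1.2 s
  · have h : kd (xB K n) (0 : Finset (Fin n) → Polynomial (MvPolynomial (Fin n) K)) = 0 :=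
      (kdL K (xB K n)).map_zero
    change kd (xB K n) (0 : Finset (Fin n) → Polynomial (MvPolynomial (Fin n) K)) t ∈ grs V
    rw [h]
    exact Submodule.zero_mem _
  · change kd (xB K n) (fun s => Polynomial.X ^ 0 * Polynomial.C (a s)) t +
      Polynomial.X * (0 : Polynomial (MvPolynomial (Fin n) K)) ∈ grs V
    rw [mul_zero, add_zero, kd_CX]
    exact XC_mem_grs (h2 t)
  · apply Prod.ext
    · funext s
      change (Polynomial.X ^ 0 * Polynomial.C (a s)).coeff 0 = a s
      rw [coeff_XC, if_pos rfl]
    · funext s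
      exact Polynomial.coeff_X_mul_zero _

theorem le_map_cut_succ {d p : ℕ} (V : ℕ → Submodule K (MvPolynomial (Fin n) K))
    (hV : ∀ i, V i ≤ Bd K n (d + 1) i) (i : ℕ) :
    LinearMap.range (lpsi (chW n (p + 1) (Bd K n d (i + 1))) (rc X (V i) (V (i + 1)) p)) ≤
    (cut (pc (xB K n) Polynomial.X (grs V) (Gd K n d) p) (lpi K n) (i + 1)).map
      (lpi K n (i + 1)) := by
  rintro _ ⟨⟨⟨a, ha⟩, ⟨h, hh⟩⟩, rfl⟩
  rw [lpsi_apply]
  set g : Finset (Fin n) → MvPolynomial (Fin n) K := h - kd X a with hg
  have hg1 : ∀ s, g s ∈ Bd K n d i := by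
    intro s
    rw [hg, Pi.sub_apply, ← Bd_shift]
    exact Submodule.sub_mem _ (hV _ (hh.1.2 s)) (kd_X_mem ha.2 s)
  have hg0 : ∀ s, s.card ≠ p → g s = 0 := by
    intro s hs
    rw [hg, Pi.sub_apply, hh.1.1 s hs, kd_card ha.1 s hs, sub_zero]
  have hkg : ∀ t, kd X g t ∈ V i := by
    intro t
    rw [hg, kd_sub, kd_sq, sub_zero]
    exact hh.2 t
  have hag : ∀ t, kd X a t + g t ∈ V (i + 1) := by
    intro t
    rw [hg, Pi.sub_apply, add_sub_cancel]
    exact hh.1.2 t
  refine ⟨(fun s => Polynomial.X ^ (i + 1) * Polynomial.C (a s),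
    fun s => Polynomial.X ^ i * Polynomial.C (g s)), ⟨⟨⟨fun s hs => ?_, fun s => ?_⟩,
    ⟨fun s hs => ?_, fun s => ?_⟩, fun t => ?_, fun t => ?_⟩, fun j hj => ?_⟩, ?_⟩
  · change Polynomial.X ^ (i + 1) * Polynomial.C (a s) = 0
    rw [ha.1 s hs, Polynomial.C_0, mul_zero]
  · exact XC_mem_Gd (ha.2 s)
  · change Polynomial.X ^ i * Polynomial.C (g s) = 0
    rw [hg0 s hs, Polynomial.C_0, mul_zero]
  · exact XC_mem_Gd (hg1 s)
  · change kd (xB K n) (fun s => Polynomial.X ^ i * Polynomial.C (g s)) t ∈ grs V
    rw [kd_CX]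
    exact XC_mem_grs (hkg t)
  · change kd (xB K n) (fun s => Polynomial.X ^ (i + 1) * Polynomial.C (a s)) t +
      Polynomial.X * (Polynomial.X ^ i * Polynomial.C (g t)) ∈ grs V
    rw [kd_CX, ← mul_assoc, ← pow_succ', ← mul_add, ← Polynomial.C_add]
    exact XC_mem_grs (hag t)
  · apply Prod.ext
    · funext s
      change (Polynomial.X ^ (i + 1) * Polynomial.C (a s)).coeff j = 0
      rw [coeff_XC, if_neg (by omega)]
    · funext s
      change (Polynomial.X * (Polynomial.X ^ i * Polynomial.C (g s))).coeff j = 0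
      rw [← mul_assoc, ← pow_succ', coeff_XC, if_neg (by omega)]
  · apply Prod.ext
    · funext s
      change (Polynomial.X ^ (i + 1) * Polynomial.C (a s)).coeff (i + 1) = a s
      rw [coeff_XC, if_pos rfl]
    · funext s
      change (Polynomial.X * (Polynomial.X ^ i * Polynomial.C (g s))).coeff (i + 1) = g s
      rw [← mul_assoc, ← pow_succ', coeff_XC, if_pos rfl]

theorem grs_le {D : ℕ} (V : ℕ → Submodule K (MvPolynomial (Fin n) K))
    (hV : ∀ i, V i ≤ Bd K n D i) : grs V ≤ Gd K n D := fun _ hF i => hV i (hF i)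

theorem zc_grs {d p : ℕ} (V : ℕ → Submodule K (MvPolynomial (Fin n) K))
    (hV : ∀ i, V i ≤ Bd K n (d + 1) i) :
    finrank K (pc (xB K n) Polynomial.X (grs V) (Gd K n d) p) = zc V p d := by
  have hl : lay (grs V) = V := funext (lay_grs V)
  refine le_antisymm ?_ ?_
  · have h := zc_lay (p := p) (grs V) (grs_le V hV)
    rw [hl] at h
    exact h
  · rw [finrank_pc_eq, zc]
    refine Nat.add_le_add ?_ (Finset.sum_le_sum fun i _ => ?_)
    · rw [← finrank_map_inl]
      have h : Module.Finite K (cut (pc (xB K n) Polynomial.X (grs V) (Gd K n d) p)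
          (lpi K n) 0) := Submodule.finiteDimensional_of_le (cut_le _ _ _)
      exact Submodule.finrank_mono (le_map_cut_zero V)
    · rw [← finrank_lpsi_rc V hV]
      have h : Module.Finite K (cut (pc (xB K n) Polynomial.X (grs V) (Gd K n d) p)
          (lpi K n) (i + 1)) := Submodule.finiteDimensional_of_le (cut_le _ _ _)
      exact Submodule.finrank_mono (le_map_cut_succ V hV i)

theorem finrank_grs {D : ℕ} (V : ℕ → Submodule K (MvPolynomial (Fin n) K))
    (hV : ∀ i, V i ≤ Bd K n D i) : finrank K (grs V) = tot V D := by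
  rw [finrank_eq_tot_lay (grs V) (grs_le V hV), funext (lay_grs V)]

end Vale.Agent.P200F.L

end

section

namespace Vale.Agent.P200F.L

open MvPolynomial Module
open Vale.Agent.P200F.B Vale.Agent.P200F.G

variable {K : Type*} [Field K] {n : ℕ}

/-- `K[x_0, …, x_n] ≃ B[z]`, the last variable is `z` -/
noncomputable def eE (K : Type*) [Field K] (n : ℕ) :
    MvPolynomial (Fin (n + 1)) K ≃ₐ[K] Polynomial (MvPolynomial (Fin n) K) :=
  (renameEquiv K finSuccEquivLast).trans (optionEquivLeft K (Fin n))

theorem eE_apply (F : MvPolynomial (Fin (n + 1)) K) :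
    eE K n F = optionEquivLeft K (Fin n) (rename finSuccEquivLast F) := rfl

theorem eE_X_castSucc (j : Fin n) : eE K n (X j.castSucc) = Polynomial.C (X j) := by
  rw [eE_apply, rename_X, finSuccEquivLast_castSucc, optionEquivLeft_X_some]

theorem eE_X_last : eE K n (X (Fin.last n)) = Polynomial.X := by
  rw [eE_apply, rename_X, finSuccEquivLast_last, optionEquivLeft_X_none]

/-- the exponent `sn m i` on the `Option` type -/
theorem snO_none (m : Fin n →₀ ℕ) (i : ℕ) :
    ((sn m i).mapDomain (finSuccEquivLast : Fin (n + 1) ≃ Option (Fin n))) none = i := by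
  rw [Finsupp.mapDomain_equiv_apply, finSuccEquivLast_symm_none, sn_last]

theorem snO_some (m : Fin n →₀ ℕ) (i : ℕ) :
    ((sn m i).mapDomain (finSuccEquivLast : Fin (n + 1) ≃ Option (Fin n))).some = m := by
  ext j
  rw [Finsupp.some_apply, Finsupp.mapDomain_equiv_apply, finSuccEquivLast_symm_some, sn_castSucc]

theorem coeff_coeff_eE (F : MvPolynomial (Fin (n + 1)) K) (m : Fin n →₀ ℕ) (i : ℕ) :
    ((eE K n F).coeff i).coeff m = F.coeff (sn m i) := by
  have h := optionEquivLeft_coeff_some_coeff_none K (Fin n)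
    ((sn m i).mapDomain (finSuccEquivLast : Fin (n + 1) ≃ Option (Fin n)))
    (rename finSuccEquivLast F)
  rw [snO_none, snO_some, coeff_rename_mapDomain _ (Equiv.injective _)] at h
  exact h

theorem exists_sn (M : Fin (n + 1) →₀ ℕ) : ∃ m i, M = sn m i := by
  refine ⟨Finsupp.equivFunOnFinite.symm fun j => M j.castSucc, M (Fin.last n), ?_⟩
  ext j
  refine Fin.lastCases ?_ (fun j => ?_) j
  · rw [sn_last]
  · rw [sn_castSucc]; rfl

theorem map_eE_restrictSupport (S : Set (Fin (n + 1) →₀ ℕ)) :
    (restrictSupport K S).map (eE K n).toLinearMap =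
      grs fun i => restrictSupport K {m | sn m i ∈ S} := by
  ext G
  constructor
  · rintro ⟨F, hF, rfl⟩ i m hm
    have hm' : ((eE K n F).coeff i).coeff m ≠ 0 := mem_support_iff.1 hm
    rw [coeff_coeff_eE] at hm'
    exact hF (mem_support_iff.2 hm')
  · intro hG
    refine ⟨(eE K n).symm G, fun M hM => ?_, (eE K n).apply_symm_apply G⟩
    obtain ⟨m, i, rfl⟩ := exists_sn M
    have hM' : ((eE K n).symm G).coeff (sn m i) ≠ 0 := mem_support_iff.1 hM
    rw [← coeff_coeff_eE, AlgEquiv.apply_symm_apply] at hM'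
    exact hG i (mem_support_iff.2 hM')

theorem sum_sn (m : Fin n →₀ ℕ) (i : ℕ) : ∑ j, sn m i j = ∑ j, m j + i := by
  rw [Fin.sum_univ_castSucc, sn_last]
  simp only [sn_castSucc]

theorem map_eE_homogeneous (e : ℕ) :
    (homogeneousSubmodule (Fin (n + 1)) K e).map (eE K n).toLinearMap = Gd K n e := by
  rw [homogeneousSubmodule_eq_restrict, map_eE_restrictSupport]
  have h : ∀ i, restrictSupport K {m : Fin n →₀ ℕ | sn m i ∈
      {m : Fin (n + 1) →₀ ℕ | ∑ j, m j = e}} = Bd K n e i := by
    intro i
    ext x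
    rw [MvPolynomial.mem_restrictSupport_iff]
    by_cases hi : i ≤ e
    · rw [Bd, if_pos hi, homogeneousSubmodule_eq_restrict, MvPolynomial.mem_restrictSupport_iff]
      refine forall_congr' fun m => imp_congr_right fun _ => ?_
      rw [Set.mem_ofPred_eq, Set.mem_ofPred_eq, sum_sn, Set.mem_ofPred_eq]
      omega
    · rw [Bd, if_neg hi, Submodule.mem_bot]
      constructor
      · intro hx
        rw [← MvPolynomial.support_eq_empty, Finset.eq_empty_iff_forall_notMem]
        intro m hm
        have h1 := hx hm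
        rw [Set.mem_ofPred_eq, Set.mem_ofPred_eq, sum_sn] at h1
        omega
      · rintro rfl
        simp
  ext F
  exact forall_congr' fun i => by rw [← h i]

end Vale.Agent.P200F.L

end

section

namespace Vale.Agent.P200F.L

open MvPolynomial Module
open Vale.Agent.P200F.B Vale.Agent.P200F.G

variable {K : Type*} [Field K] {n : ℕ}

/-- multiplication by a linear form raises the degree -/
theorem mul_mem_Bd {l b : MvPolynomial (Fin n) K} (hl : l.IsHomogeneous 1) {e i : ℕ}
    (hb : b ∈ Bd K n e (i + 1)) : l * b ∈ Bd K n e i := by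
  by_cases h : i + 1 ≤ e
  · rw [Bd, if_pos h] at hb
    rw [Bd, if_pos (by omega)]
    have h1 := hl.mul hb
    rwa [show 1 + (e - (i + 1)) = e - i by omega] at h1
  · rw [Bd, if_neg h, Submodule.mem_bot] at hb
    rw [hb, mul_zero]
    exact Submodule.zero_mem _

/-- the tail above `k`, divided by `z` -/
noncomputable def tauF (k : ℕ) (F : Polynomial (MvPolynomial (Fin n) K)) :
    Polynomial (MvPolynomial (Fin n) K) :=
  Polynomial.X ^ k * (Polynomial.divX^[k + 1] F)

theorem coeff_tauF (k : ℕ) (F : Polynomial (MvPolynomial (Fin n) K)) (j : ℕ) :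
    (tauF k F).coeff j = if k ≤ j then F.coeff (j + 1) else 0 := by
  have h1 : ∀ m i, (Polynomial.divX^[m] F).coeff i = F.coeff (i + m) := by
    intro m
    induction m with
    | zero => intro i; rfl
    | succ m ih =>
      intro i
      rw [Function.iterate_succ_apply', Polynomial.coeff_divX, ih]
      congr 1
      omega
  rw [tauF, Polynomial.coeff_X_pow_mul']
  by_cases h : k ≤ j
  · rw [if_pos h, if_pos h, h1]
    congr 1
    omega
  · rw [if_neg h, if_neg h]

/-- the distraction `z ^ i ↦ z ^ (i - 1) (z - l)` for `i > k` -/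
noncomputable def dis (k : ℕ) (l : MvPolynomial (Fin n) K) :
    Polynomial (MvPolynomial (Fin n) K) →ₗ[K] Polynomial (MvPolynomial (Fin n) K) where
  toFun F := F - Polynomial.C l * tauF k F
  map_add' := by
    intro F G
    ext1 j
    simp only [Polynomial.coeff_sub, Polynomial.coeff_add, Polynomial.coeff_C_mul, coeff_tauF]
    split_ifs
    · ring
    · ring
  map_smul' := by
    intro c F
    ext1 j
    simp only [Polynomial.coeff_sub, Polynomial.coeff_smul, Polynomial.coeff_C_mul, coeff_tauF,
      RingHom.id_apply]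
    split_ifs
    · rw [smul_sub, mul_smul_comm]
    · rw [mul_zero, sub_zero, sub_zero]

theorem coeff_dis (k : ℕ) (l : MvPolynomial (Fin n) K)
    (F : Polynomial (MvPolynomial (Fin n) K)) (j : ℕ) :
    (dis k l F).coeff j = F.coeff j - if k ≤ j then l * F.coeff (j + 1) else 0 := by
  show (F - Polynomial.C l * tauF k F).coeff j = _
  rw [Polynomial.coeff_sub, Polynomial.coeff_C_mul, coeff_tauF]
  split_ifs
  · rfl
  · rw [mul_zero]

theorem dis_C_mul (k : ℕ) (l b : MvPolynomial (Fin n) K)
    (F : Polynomial (MvPolynomial (Fin n) K)) :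
    dis k l (Polynomial.C b * F) = Polynomial.C b * dis k l F := by
  ext1 j
  rw [coeff_dis, Polynomial.coeff_C_mul, Polynomial.coeff_C_mul, Polynomial.coeff_C_mul,
    coeff_dis]
  split_ifs
  · ring
  · ring

theorem X_mul_dis (k : ℕ) (l : MvPolynomial (Fin n) K)
    (F : Polynomial (MvPolynomial (Fin n) K)) :
    Polynomial.X * dis k l F = dis k l (Polynomial.X * F) +
      Polynomial.C l * Polynomial.monomial k (F.coeff k) := by
  ext1 j
  rw [Polynomial.coeff_add, coeff_dis, Polynomial.coeff_C_mul, Polynomial.coeff_monomial]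
  cases j with
  | zero =>
    rw [Polynomial.coeff_X_mul_zero, Polynomial.coeff_X_mul_zero, Polynomial.coeff_X_mul]
    by_cases h : k = 0
    · subst h
      simp
    · rw [if_neg (by omega), if_neg h]
      simp
  | succ j =>
    rw [Polynomial.coeff_X_mul, Polynomial.coeff_X_mul, Polynomial.coeff_X_mul, coeff_dis]
    by_cases h1 : k ≤ j
    · rw [if_pos h1, if_pos (by omega), if_neg (by omega), mul_zero, add_zero]
    · by_cases h2 : k = j + 1
      · subst h2
        rw [if_neg h1, if_pos le_rfl, if_pos rfl]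
        ring
      · rw [if_neg h1, if_neg (by omega), if_neg h2, mul_zero, add_zero]

theorem dis_injective (k : ℕ) (l : MvPolynomial (Fin n) K)
    (F : Polynomial (MvPolynomial (Fin n) K)) (hF : dis k l F = 0) : F = 0 := by
  by_contra hne
  have h1 := coeff_dis k l F F.natDegree
  rw [hF, Polynomial.coeff_zero, Polynomial.coeff_eq_zero_of_natDegree_lt (Nat.lt_succ_self _),
    mul_zero, ite_self, sub_zero] at h1
  exact hne (Polynomial.leadingCoeff_eq_zero.1 h1.symm)

theorem dis_monomial_le {k i : ℕ} (hi : i ≤ k) (l b : MvPolynomial (Fin n) K) :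
    dis k l (Polynomial.monomial i b) = Polynomial.monomial i b := by
  ext1 j
  rw [coeff_dis, Polynomial.coeff_monomial, Polynomial.coeff_monomial]
  split_ifs with h1 h2 h3 h4
  · omega
  · rw [mul_zero, sub_zero]
  · rw [sub_zero]
  · omega
  · rw [mul_zero, sub_zero]
  · rw [sub_zero]

theorem dis_monomial_succ {k i : ℕ} (hi : k ≤ i) (l b : MvPolynomial (Fin n) K) :
    dis k l (Polynomial.monomial (i + 1) b) =
      Polynomial.monomial (i + 1) b - Polynomial.monomial i (l * b) := by
  ext1 j
  rw [coeff_dis, Polynomial.coeff_sub, Polynomial.coeff_monomial, Polynomial.coeff_monomial,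
    Polynomial.coeff_monomial]
  by_cases h1 : i = j
  · subst h1
    rw [if_neg (by omega), if_pos hi, if_pos rfl, if_pos rfl]
  · by_cases h2 : i + 1 = j
    · rw [if_pos h2, if_neg (by omega : ¬ i + 1 = j + 1), if_neg h1, mul_zero, ite_self]
    · rw [if_neg h2, if_neg (by omega : ¬ i + 1 = j + 1), if_neg h1, mul_zero, ite_self]

theorem dis_mem_Gd {k e : ℕ} {l : MvPolynomial (Fin n) K} (hl : l.IsHomogeneous 1)
    {F : Polynomial (MvPolynomial (Fin n) K)} (hF : F ∈ Gd K n e) : dis k l F ∈ Gd K n e := by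
  intro j
  rw [coeff_dis]
  refine Submodule.sub_mem _ (hF j) ?_
  split_ifs
  · exact mul_mem_Bd hl (hF (j + 1))
  · exact Submodule.zero_mem _

theorem monomial_mem_grs {V : ℕ → Submodule K (MvPolynomial (Fin n) K)} {i : ℕ}
    {b : MvPolynomial (Fin n) K} (hb : b ∈ V i) : Polynomial.monomial i b ∈ grs V := by
  intro j
  rw [Polynomial.coeff_monomial]
  split_ifs with h
  · rw [← h]
    exact hb
  · exact Submodule.zero_mem _

/-- the differential of coefficients -/
theorem coeff_kd (g : Finset (Fin n) → Polynomial (MvPolynomial (Fin n) K))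
    (t : Finset (Fin n)) (k : ℕ) :
    (kd (xB K n) g t).coeff k = kd X (fun s => (g s).coeff k) t := by
  rw [kd_apply, kd_apply, Polynomial.finsetSum_coeff]
  refine Finset.sum_congr rfl fun i _ => ?_
  have h : (-1 : Polynomial (MvPolynomial (Fin n) K)) ^ (t.filter fun k => k < i).card =
      Polynomial.C ((-1) ^ (t.filter fun k => k < i).card) := by
    rw [map_pow, map_neg, map_one]
  rw [h, Polynomial.coeff_C_mul, Polynomial.coeff_C_mul]

theorem kd_monomial (k : ℕ) (g : Finset (Fin n) → MvPolynomial (Fin n) K)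
    (t : Finset (Fin n)) :
    kd (xB K n) (fun s => Polynomial.monomial k (g s)) t = Polynomial.monomial k (kd X g t) := by
  ext1 j
  rw [coeff_kd, Polynomial.coeff_monomial]
  by_cases h : k = j
  · subst h
    rw [if_pos rfl]
    congr 1
    funext s
    rw [Polynomial.coeff_monomial, if_pos rfl]
  · rw [if_neg h]
    have : (fun s => (Polynomial.monomial k (g s)).coeff j) = 0 := by
      funext s
      rw [Polynomial.coeff_monomial, if_neg h]
      rfl
    rw [this]
    exact congrFun ((kdL K (X : Fin n → MvPolynomial (Fin n) K)).map_zero) t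

theorem kd_dis (k : ℕ) (l : MvPolynomial (Fin n) K)
    (g : Finset (Fin n) → Polynomial (MvPolynomial (Fin n) K)) (t : Finset (Fin n)) :
    kd (xB K n) (fun s => dis k l (g s)) t = dis k l (kd (xB K n) g t) := by
  rw [kd_apply, kd_apply, map_sum]
  refine Finset.sum_congr rfl fun i _ => ?_
  rcases neg_one_pow_eq_or (Polynomial (MvPolynomial (Fin n) K))
    (t.filter fun k => k < i).card with hs | hs
  · rw [hs, one_mul, one_mul, dis_C_mul]
  · rw [hs, neg_one_mul, neg_one_mul, map_neg, dis_C_mul]

instance finite_Gd' (e : ℕ) : Module.Finite K (Gd K n e) := by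
  have h : Gd K n e ≤ ⨆ i : Fin (e + 1), (Bd K n e i).map
      ((Polynomial.monomial (R := MvPolynomial (Fin n) K) i).restrictScalars K) := by
    intro F hF
    have hdeg : F.natDegree < e + 1 := by
      rw [Nat.lt_succ_iff, Polynomial.natDegree_le_iff_coeff_eq_zero]
      intro i hi
      have h1 := hF i
      rwa [Bd, if_neg (by omega), Submodule.mem_bot] at h1
    rw [Polynomial.as_sum_range' F (e + 1) hdeg]
    refine Submodule.sum_mem _ fun i hi => ?_
    rw [Finset.mem_range] at hi
    exact Submodule.mem_iSup_of_mem (⟨i, hi⟩ : Fin (e + 1)) ⟨F.coeff i, hF i, rfl⟩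
  exact Submodule.finiteDimensional_of_le h

theorem dist_finite_pc {R : Type*} [CommRing R] [Algebra K R] {m : ℕ} (x : Fin m → R) (z : R)
    (U W : Submodule K R) (p : ℕ) [Module.Finite K W] : Module.Finite K (pc x z U W p) := by
  have h : Module.Finite K ((chW m (p + 1) W).prod (chW m p W)) :=
    Module.Finite.iff_fg.2 ((Module.Finite.iff_fg.1 inferInstance).prod
      (Module.Finite.iff_fg.1 inferInstance))
  refine Submodule.finiteDimensional_of_le (S₂ := (chW m (p + 1) W).prod (chW m p W)) ?_
  rintro ⟨a, b⟩ ⟨h1, h2, -, -⟩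
  exact ⟨h1, h2⟩

theorem dist_grs_le {e : ℕ} {V : ℕ → Submodule K (MvPolynomial (Fin n) K)}
    (hV : ∀ i, V i ≤ Bd K n e i) : grs V ≤ Gd K n e := fun _ hF i => hV i (hF i)

/-- cycles survive the distraction -/
theorem dist_pc {p k : ℕ} (U V : ℕ → Submodule K (MvPolynomial (Fin n) K)) (j : Fin n)
    [Module.Finite K (grs V)] :
    finrank K (pc (xB K n) Polynomial.X (grs U) (grs V) p) ≤
      finrank K (pc (xB K n) Polynomial.X ((grs U).map (dis k (X j)))
        ((grs V).map (dis k (X j))) p) := by
  classical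
  set cc : Fin n → K := Pi.single j 1 with hcc
  set ep : (Finset (Fin n) → Polynomial (MvPolynomial (Fin n) K)) →
    Finset (Fin n) → Polynomial (MvPolynomial (Fin n) K) :=
    eps (fun i => algebraMap K (Polynomial (MvPolynomial (Fin n) K)) (cc i)) with hep
  have hsum : ∑ i, algebraMap K (Polynomial (MvPolynomial (Fin n) K)) (cc i) * xB K n i =
      Polynomial.C (X j) := by
    rw [Finset.sum_eq_single j]
    · rw [hcc, Pi.single_eq_same, map_one, one_mul]
    · intro i _ hi
      rw [hcc, Pi.single_eq_of_ne hi, map_zero, zero_mul]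
    · intro h
      exact absurd (Finset.mem_univ j) h
  have hep_add : ∀ g g' s, ep (g + g') s = ep g s + ep g' s := by
    intro g g' s
    rw [hep, eps, eps, eps, ← Finset.sum_add_distrib]
    refine Finset.sum_congr rfl fun i _ => ?_
    rw [Pi.add_apply]
    ring
  have hep_smul : ∀ (c : K) g s, ep (c • g) s = c • ep g s := by
    intro c g s
    rw [hep, eps, eps, Finset.smul_sum]
    refine Finset.sum_congr rfl fun i _ => ?_
    rw [Pi.smul_apply, mul_smul_comm, mul_smul_comm]
  have hep_zero : ∀ s, ep 0 s = 0 := by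
    intro s
    have := hep_smul 0 0 s
    rwa [zero_smul, zero_smul] at this
  set g' : (Finset (Fin n) → Polynomial (MvPolynomial (Fin n) K)) → Finset (Fin n) →
    Polynomial (MvPolynomial (Fin n) K) := fun g s => Polynomial.monomial k ((g s).coeff k)
    with hg'
  have hg'_add : ∀ a b, g' (a + b) = g' a + g' b := by
    intro a b
    funext s
    rw [hg']
    simp only [Pi.add_apply, Polynomial.coeff_add, map_add]
  have hg'_smul : ∀ (c : K) a, g' (c • a) = c • g' a := by
    intro c a
    funext s
    rw [hg']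
    simp only [Pi.smul_apply, Polynomial.coeff_smul]
    rw [Polynomial.smul_monomial]
  set Ψ : ((Finset (Fin n) → Polynomial (MvPolynomial (Fin n) K)) ×
      (Finset (Fin n) → Polynomial (MvPolynomial (Fin n) K))) →ₗ[K]
      ((Finset (Fin n) → Polynomial (MvPolynomial (Fin n) K)) ×
      (Finset (Fin n) → Polynomial (MvPolynomial (Fin n) K))) :=
    { toFun := fun q => (fun s => dis k (X j) (q.1 s) - ep (g' q.2) s,
        fun s => dis k (X j) (q.2 s))
      map_add' := by
        intro a b
        refine Prod.ext ?_ ?_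
        · funext s
          simp only [Prod.fst_add, Prod.snd_add, Pi.add_apply, map_add, hg'_add, hep_add]
          ring
        · funext s
          simp only [Prod.snd_add, Pi.add_apply, map_add]
      map_smul' := by
        intro c a
        refine Prod.ext ?_ ?_
        · funext s
          simp only [Prod.smul_fst, Prod.smul_snd, Pi.smul_apply, map_smul, hg'_smul, hep_smul,
            RingHom.id_apply, smul_sub]
        · funext s
          simp only [Prod.smul_snd, Pi.smul_apply, map_smul, RingHom.id_apply] } with hΨ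
  have hinj : Function.Injective Ψ := by
    rw [← LinearMap.ker_eq_bot, eq_bot_iff]
    rintro ⟨al, ga⟩ hq
    have h1 : (fun s => dis k (X j) (al s) - ep (g' ga) s) = 0 ∧
      (fun s => dis k (X j) (ga s)) = 0 := Prod.mk.inj (LinearMap.mem_ker.1 hq)
    have h2 : ga = 0 := by
      funext s
      exact dis_injective _ _ _ (congrFun h1.2 s)
    have h3 : g' ga = 0 := by
      rw [h2]
      funext s
      rw [hg']
      simp
    have h4 : al = 0 := by
      funext s
      refine dis_injective k (X j) _ ?_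
      have h5 := congrFun h1.1 s
      simp only [h3, hep_zero, sub_zero] at h5
      exact h5
    rw [h2, h4]
    exact Submodule.zero_mem _
  have hmono : ∀ (V : ℕ → Submodule K (MvPolynomial (Fin n) K)), ∀ b ∈ V k,
      Polynomial.monomial k b ∈ (grs V).map (dis k (X j)) := fun V b hb =>
    ⟨_, monomial_mem_grs hb, dis_monomial_le le_rfl _ _⟩
  have hmap : (pc (xB K n) Polynomial.X (grs U) (grs V) p).map Ψ ≤
      pc (xB K n) Polynomial.X ((grs U).map (dis k (X j))) ((grs V).map (dis k (X j))) p := by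
    rintro _ ⟨⟨al, ga⟩, ⟨hal, hga, h1, h2⟩, rfl⟩
    simp only at hal hga h1 h2
    have hg'mem : g' ga ∈ chW n p ((grs V).map (dis k (X j))) := by
      refine ⟨fun s hs => ?_, fun s => hmono V _ (hga.2 s k)⟩
      rw [hg']
      simp only
      rw [hga.1 s hs, Polynomial.coeff_zero, map_zero]
    refine ⟨?_, ?_, ?_, ?_⟩
    · show (fun s => dis k (X j) (al s) - ep (g' ga) s) ∈
        chW n (p + 1) ((grs V).map (dis k (X j)))
      have h3 : ep (g' ga) ∈ chW n (p + 1) ((grs V).map (dis k (X j))) :=
        eps_mem_chW cc hg'mem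
      refine ⟨fun s hs => ?_, fun s => Submodule.sub_mem _ ⟨_, hal.2 s, rfl⟩ (h3.2 s)⟩
      simp only
      rw [hal.1 s hs, h3.1 s hs, map_zero, sub_zero]
    · refine ⟨fun s hs => ?_, fun s => ⟨_, hga.2 s, rfl⟩⟩
      show dis k (X j) (ga s) = 0
      rw [hga.1 s hs, map_zero]
    · intro t
      show kd (xB K n) (fun s => dis k (X j) (ga s)) t ∈ _
      rw [kd_dis]
      exact ⟨_, h1 t, rfl⟩
    · intro t
      show kd (xB K n) (fun s => dis k (X j) (al s) - ep (g' ga) s) t +
        Polynomial.X * dis k (X j) (ga t) ∈ _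
      have e1 : kd (xB K n) (fun s => dis k (X j) (al s) - ep (g' ga) s) t =
          dis k (X j) (kd (xB K n) al t) - kd (xB K n) (ep (g' ga)) t := by
        rw [← kd_dis]
        exact congrFun (kd_sub (xB K n) (fun s => dis k (X j) (al s)) (ep (g' ga))) t
      have e2 := kd_eps (xB K n)
        (fun i => algebraMap K (Polynomial (MvPolynomial (Fin n) K)) (cc i)) (g' ga) t
      rw [hsum] at e2
      have e3 : ep (kd (xB K n) (g' ga)) t ∈ (grs U).map (dis k (X j)) := by
        refine eps_mem (p := 0) cc (fun s => ?_) t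
        have e4 : kd (xB K n) (g' ga) s = Polynomial.monomial k ((kd (xB K n) ga s).coeff k) := by
          rw [coeff_kd, ← kd_monomial]
        rw [e4]
        exact hmono U _ (h1 s k)
      have e5 : kd (xB K n) (fun s => dis k (X j) (al s) - ep (g' ga) s) t +
          Polynomial.X * dis k (X j) (ga t) =
          dis k (X j) (kd (xB K n) al t + Polynomial.X * ga t) +
            ep (kd (xB K n) (g' ga)) t := by
        rw [e1, X_mul_dis, map_add]
        have e6 : kd (xB K n) (ep (g' ga)) t = Polynomial.C (X j) * g' ga t -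
            ep (kd (xB K n) (g' ga)) t := by
          rw [← e2]
          rw [hep]
          ring
        rw [e6, hg']
        ring
      rw [e5]
      exact Submodule.add_mem _ ⟨_, h2 t, rfl⟩ e3
  have := dist_finite_pc (xB K n) Polynomial.X ((grs U).map (dis k (X j)))
    ((grs V).map (dis k (X j))) p
  have h2 := dist_finite_pc (xB K n) Polynomial.X (grs U) (grs V) p
  rw [← finrank_map_of_inj Ψ _ fun w _ hw => hinj (hw.trans (map_zero Ψ).symm)]
  exact Submodule.finrank_mono hmap

/-- a graded space closed under multiplication by the form is its own distraction -/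
theorem map_dis_eq (U : ℕ → Submodule K (MvPolynomial (Fin n) K)) (k : ℕ)
    (l : MvPolynomial (Fin n) K) (hU : ∀ i, ∀ b ∈ U (i + 1), l * b ∈ U i)
    [Module.Finite K (grs U)] : (grs U).map (dis k l) = grs U := by
  refine Submodule.eq_of_le_of_finrank_eq ?_ ?_
  · rintro _ ⟨F, hF, rfl⟩ i
    rw [coeff_dis]
    refine Submodule.sub_mem _ (hF i) ?_
    split_ifs
    · exact hU i _ (hF (i + 1))
    · exact Submodule.zero_mem _
  · exact finrank_map_of_inj (dis k l) _ fun w _ hw => dis_injective k l w hw

theorem monomial_mem_map_dis {J : Ideal (MvPolynomial (Fin n) K)} {D : ℕ}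
    {V : ℕ → Submodule K (MvPolynomial (Fin n) K)} (hV : Lay J D V) (k : ℕ) (j : Fin n) :
    ∀ i ≤ D, ∀ b ∈ piece J (D - i), Polynomial.monomial i b ∈ (grs V).map (dis k (X j)) := by
  intro i
  induction i with
  | zero =>
    intro _ b hb
    exact ⟨_, monomial_mem_grs (hV.ge 0 (Nat.zero_le _) hb), dis_monomial_le (Nat.zero_le _) _ _⟩
  | succ i ih =>
    intro hi b hb
    by_cases hk : i + 1 ≤ k
    · exact ⟨_, monomial_mem_grs (hV.ge _ hi hb), dis_monomial_le hk _ _⟩
    · have h1 : Polynomial.monomial (i + 1) b =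
          dis k (X j) (Polynomial.monomial (i + 1) b) + Polynomial.monomial i (X j * b) := by
        rw [dis_monomial_succ (by omega)]
        ring
      rw [h1]
      refine Submodule.add_mem _ ⟨_, monomial_mem_grs (hV.ge _ hi hb), rfl⟩
        (ih (by omega) _ ⟨Ideal.mul_mem_left _ _ hb.1, ?_⟩)
      have h2 := (isHomogeneous_X K j).mul ((mem_homogeneousSubmodule _ _).1 hb.2)
      rw [show 1 + (D - (i + 1)) = D - i by omega] at h2
      exact h2

/-- the layers of the distraction -/
noncomputable def disl (k : ℕ) (j : Fin n) (V : ℕ → Submodule K (MvPolynomial (Fin n) K)) :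
    ℕ → Submodule K (MvPolynomial (Fin n) K) := lay ((grs V).map (dis k (X j)))

theorem map_dis_le_Gd {D : ℕ} {V : ℕ → Submodule K (MvPolynomial (Fin n) K)}
    (hV : ∀ i, V i ≤ Bd K n D i) (k : ℕ) (j : Fin n) :
    (grs V).map (dis k (X j)) ≤ Gd K n D := by
  rintro _ ⟨F, hF, rfl⟩
  exact dis_mem_Gd (isHomogeneous_X K j) (dist_grs_le hV hF)

theorem disl_lay {J : Ideal (MvPolynomial (Fin n) K)} {D : ℕ}
    {V : ℕ → Submodule K (MvPolynomial (Fin n) K)} (hV : Lay J D V) (k : ℕ) (j : Fin n) :
    Lay J D (disl k j V) := by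
  refine ⟨lay_le (map_dis_le_Gd hV.le k j), fun i hi b hb => ?_⟩
  refine ⟨_, monomial_mem_map_dis hV k j i hi b hb, fun i' hi' => ?_, ?_⟩
  · rw [Polynomial.coeff_monomial, if_neg (by omega)]
  · rw [Polynomial.coeff_monomial, if_pos rfl]

theorem disl_tot {D : ℕ} {V : ℕ → Submodule K (MvPolynomial (Fin n) K)}
    (hV : ∀ i, V i ≤ Bd K n D i) (k : ℕ) (j : Fin n) : tot (disl k j V) D = tot V D := by
  rw [disl, ← finrank_eq_tot_lay _ (map_dis_le_Gd hV k j), ← finrank_grs V hV]
  exact finrank_map_of_inj (dis k (X j)) _ fun w _ hw => dis_injective k _ w hw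

theorem le_disl (V : ℕ → Submodule K (MvPolynomial (Fin n) K)) (k : ℕ) (j : Fin n) {i : ℕ}
    (hi : i ≤ k) : V i ≤ disl k j V i := by
  intro b hb
  refine ⟨_, ⟨_, monomial_mem_grs hb, dis_monomial_le hi _ _⟩, fun i' hi' => ?_, ?_⟩
  · rw [Polynomial.coeff_monomial, if_neg (by omega)]
  · rw [Polynomial.coeff_monomial, if_pos rfl]

theorem lt_disl {V : ℕ → Submodule K (MvPolynomial (Fin n) K)} {k : ℕ} {j : Fin n}
    {b : MvPolynomial (Fin n) K} (hb : b ∈ V (k + 1)) (hjb : X j * b ∉ V k) :
    V k < disl k j V k := by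
  refine lt_of_le_of_ne (le_disl V k j le_rfl) fun heq => hjb ?_
  rw [heq]
  have h1 : -(X j * b) ∈ disl k j V k := by
    refine ⟨_, ⟨_, monomial_mem_grs hb, dis_monomial_succ le_rfl _ _⟩, fun i' hi' => ?_, ?_⟩
    · rw [Polynomial.coeff_sub, Polynomial.coeff_monomial, Polynomial.coeff_monomial,
        if_neg (by omega), if_neg (by omega), sub_zero]
    · rw [Polynomial.coeff_sub, Polynomial.coeff_monomial, Polynomial.coeff_monomial,
        if_neg (by omega), if_pos rfl, zero_sub]
  have h2 := Submodule.neg_mem _ h1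
  rwa [neg_neg] at h2

theorem zc_disl {d p : ℕ} {V : ℕ → Submodule K (MvPolynomial (Fin n) K)}
    (hV : ∀ i, V i ≤ Bd K n (d + 1) i) (k : ℕ) (j : Fin n) :
    zc V p d ≤ zc (disl k j V) p d := by
  rw [← zc_grs V hV]
  refine le_trans ?_ (zc_lay _ (map_dis_le_Gd hV k j))
  have h1 : Gd K n d = grs fun i => Bd K n d i := rfl
  have hfin : Module.Finite K (grs fun i => Bd K n d i) := finite_Gd' d
  have h2 : (Gd K n d).map (dis k (X j)) = Gd K n d :=
    map_dis_eq (fun i => Bd K n d i) k (X j) fun i b hb => mul_mem_Bd (isHomogeneous_X K j) hb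
  have h3 := dist_pc (p := p) (k := k) V (fun i => Bd K n d i) j
  rw [← h1, h2] at h3
  exact h3

/-- the coordinate change `z ↦ z + l` -/
noncomputable def cch (l : MvPolynomial (Fin n) K) :
    Polynomial (MvPolynomial (Fin n) K) →ₗ[K] Polynomial (MvPolynomial (Fin n) K) :=
  (Polynomial.algEquivAevalXAddC l).toLinearMap.restrictScalars K

theorem cch_apply (l : MvPolynomial (Fin n) K) (F : Polynomial (MvPolynomial (Fin n) K)) :
    cch l F = Polynomial.algEquivAevalXAddC l F := rfl

theorem cch_injective (l : MvPolynomial (Fin n) K) : Function.Injective (cch l) :=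
  (Polynomial.algEquivAevalXAddC l).injective

theorem cch_C_mul (l b : MvPolynomial (Fin n) K) (F : Polynomial (MvPolynomial (Fin n) K)) :
    cch l (Polynomial.C b * F) = Polynomial.C b * cch l F := by
  rw [cch_apply, cch_apply, map_mul]
  congr 1
  exact (Polynomial.algEquivAevalXAddC l).commutes b

theorem cch_X_mul (l : MvPolynomial (Fin n) K) (F : Polynomial (MvPolynomial (Fin n) K)) :
    cch l (Polynomial.X * F) = (Polynomial.X + Polynomial.C l) * cch l F := by
  rw [cch_apply, cch_apply, map_mul]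
  congr 1
  simp [Polynomial.algEquivAevalXAddC]

theorem kd_cch (l : MvPolynomial (Fin n) K)
    (g : Finset (Fin n) → Polynomial (MvPolynomial (Fin n) K)) (t : Finset (Fin n)) :
    kd (xB K n) (fun s => cch l (g s)) t = cch l (kd (xB K n) g t) := by
  rw [kd_apply, kd_apply, map_sum]
  refine Finset.sum_congr rfl fun i _ => ?_
  rcases neg_one_pow_eq_or (Polynomial (MvPolynomial (Fin n) K))
    (t.filter fun k => k < i).card with hs | hs
  · rw [hs, one_mul, one_mul, cch_C_mul]
  · rw [hs, neg_one_mul, neg_one_mul, map_neg, cch_C_mul]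

theorem X_mul_mem_Gd {e : ℕ} {F : Polynomial (MvPolynomial (Fin n) K)} (hF : F ∈ Gd K n e) :
    Polynomial.X * F ∈ Gd K n (e + 1) := by
  intro i
  cases i with
  | zero =>
    rw [Polynomial.coeff_X_mul_zero]
    exact Submodule.zero_mem _
  | succ i =>
    rw [Polynomial.coeff_X_mul]
    have h := hF i
    rw [Bd] at h ⊢
    by_cases hi : i ≤ e
    · rw [if_pos hi] at h
      rw [if_pos (by omega), show e + 1 - (i + 1) = e - i by omega]
      exact h
    · rw [if_neg hi] at h
      rw [if_neg (by omega)]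
      exact h

theorem C_mul_mem_Gd {l : MvPolynomial (Fin n) K} (hl : l.IsHomogeneous 1) {e : ℕ}
    {F : Polynomial (MvPolynomial (Fin n) K)} (hF : F ∈ Gd K n e) :
    Polynomial.C l * F ∈ Gd K n (e + 1) := by
  intro i
  rw [Polynomial.coeff_C_mul]
  have h := hF i
  rw [Bd] at h ⊢
  by_cases hi : i ≤ e
  · rw [if_pos hi] at h
    rw [if_pos (by omega)]
    have h1 := hl.mul ((mem_homogeneousSubmodule _ _).1 h)
    rw [show 1 + (e - i) = e + 1 - i by omega] at h1
    exact h1
  · rw [if_neg hi, Submodule.mem_bot] at h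
    rw [h, mul_zero]
    exact Submodule.zero_mem _

theorem cch_mem_Gd {l : MvPolynomial (Fin n) K} (hl : l.IsHomogeneous 1) {e : ℕ}
    {F : Polynomial (MvPolynomial (Fin n) K)} (hF : F ∈ Gd K n e) : cch l F ∈ Gd K n e := by
  have key : ∀ i e (b : MvPolynomial (Fin n) K), b ∈ Bd K n e i →
      Polynomial.C b * (Polynomial.X + Polynomial.C l) ^ i ∈ Gd K n e := by
    intro i
    induction i with
    | zero =>
      intro e b hb j
      rw [pow_zero, mul_one, Polynomial.coeff_C]
      split_ifs with hj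
      · rw [hj]
        exact hb
      · exact Submodule.zero_mem _
    | succ i ih =>
      intro e b hb
      cases e with
      | zero =>
        rw [Bd, if_neg (by omega), Submodule.mem_bot] at hb
        rw [hb, Polynomial.C_0, zero_mul]
        exact Submodule.zero_mem _
      | succ e =>
        have hb' : b ∈ Bd K n e i := by
          rw [Bd] at hb ⊢
          by_cases hi : i ≤ e
          · rw [if_pos (by omega), show e + 1 - (i + 1) = e - i by omega] at hb
            rw [if_pos hi]
            exact hb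
          · rw [if_neg (by omega)] at hb
            rw [if_neg hi]
            exact hb
        have h1 : Polynomial.C b * (Polynomial.X + Polynomial.C l) ^ (i + 1) =
            Polynomial.X * (Polynomial.C b * (Polynomial.X + Polynomial.C l) ^ i) +
              Polynomial.C l * (Polynomial.C b * (Polynomial.X + Polynomial.C l) ^ i) := by ring
        rw [h1]
        exact Submodule.add_mem _ (X_mul_mem_Gd (ih e b hb')) (C_mul_mem_Gd hl (ih e b hb'))
  rw [Polynomial.as_sum_range_C_mul_X_pow F, map_sum]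
  refine Submodule.sum_mem _ fun i _ => ?_
  have h1 : cch l (Polynomial.C (F.coeff i) * Polynomial.X ^ i) =
      Polynomial.C (F.coeff i) * (Polynomial.X + Polynomial.C l) ^ i := by
    rw [cch_C_mul]
    congr 1
    rw [cch_apply, map_pow]
    congr 1
    simp [Polynomial.algEquivAevalXAddC]
  rw [h1]
  exact key i e _ (hF i)

theorem map_cch_Gd {l : MvPolynomial (Fin n) K} (hl : l.IsHomogeneous 1) (e : ℕ) :
    (Gd K n e).map (cch l) = Gd K n e := by
  refine Submodule.eq_of_le_of_finrank_eq ?_ ?_
  · rintro _ ⟨F, hF, rfl⟩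
    exact cch_mem_Gd hl hF
  · exact finrank_map_of_inj (cch l) _ fun w _ hw =>
      cch_injective l (hw.trans (map_zero (cch l)).symm)

/-- change of coordinates `z ↦ z + l`, for all pairs of spaces -/
theorem cch_pc {p : ℕ} (U V : Submodule K (Polynomial (MvPolynomial (Fin n) K)))
    (cc : Fin n → K) [Module.Finite K V] :
    finrank K (pc (xB K n) Polynomial.X U V p) ≤
      finrank K (pc (xB K n) Polynomial.X
        (U.map (cch (∑ j, MvPolynomial.C (cc j) * X j)))
        (V.map (cch (∑ j, MvPolynomial.C (cc j) * X j))) p) := by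
  classical
  set l : MvPolynomial (Fin n) K := ∑ j, MvPolynomial.C (cc j) * X j with hl
  set ep : (Finset (Fin n) → Polynomial (MvPolynomial (Fin n) K)) →
    Finset (Fin n) → Polynomial (MvPolynomial (Fin n) K) :=
    eps (fun i => algebraMap K (Polynomial (MvPolynomial (Fin n) K)) (cc i)) with hep
  have hsum : ∑ i, algebraMap K (Polynomial (MvPolynomial (Fin n) K)) (cc i) * xB K n i =
      Polynomial.C l := by
    rw [hl, map_sum]
    refine Finset.sum_congr rfl fun i _ => ?_
    rw [map_mul]
    rfl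
  have hep_add : ∀ g g' s, ep (g + g') s = ep g s + ep g' s := by
    intro g g' s
    rw [hep, eps, eps, eps, ← Finset.sum_add_distrib]
    refine Finset.sum_congr rfl fun i _ => ?_
    rw [Pi.add_apply]
    ring
  have hep_smul : ∀ (c : K) g s, ep (c • g) s = c • ep g s := by
    intro c g s
    rw [hep, eps, eps, Finset.smul_sum]
    refine Finset.sum_congr rfl fun i _ => ?_
    rw [Pi.smul_apply, mul_smul_comm, mul_smul_comm]
  have hep_zero : ∀ s, ep 0 s = 0 := by
    intro s
    have := hep_smul 0 0 s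
    rwa [zero_smul, zero_smul] at this
  set g' : (Finset (Fin n) → Polynomial (MvPolynomial (Fin n) K)) → Finset (Fin n) →
    Polynomial (MvPolynomial (Fin n) K) := fun g s => cch l (g s)
    with hg'
  have hg'_add : ∀ a b, g' (a + b) = g' a + g' b := by
    intro a b
    funext s
    rw [hg']
    simp only [Pi.add_apply, map_add]
  have hg'_smul : ∀ (c : K) a, g' (c • a) = c • g' a := by
    intro c a
    funext s
    rw [hg']
    simp only [Pi.smul_apply, map_smul]
  set Ψ : ((Finset (Fin n) → Polynomial (MvPolynomial (Fin n) K)) ×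
      (Finset (Fin n) → Polynomial (MvPolynomial (Fin n) K))) →ₗ[K]
      ((Finset (Fin n) → Polynomial (MvPolynomial (Fin n) K)) ×
      (Finset (Fin n) → Polynomial (MvPolynomial (Fin n) K))) :=
    { toFun := fun q => (fun s => cch l (q.1 s) + ep (g' q.2) s, fun s => cch l (q.2 s))
      map_add' := by
        intro a b
        refine Prod.ext ?_ ?_
        · funext s
          simp only [Prod.fst_add, Prod.snd_add, Pi.add_apply, map_add, hg'_add, hep_add]
          ring
        · funext s
          simp only [Prod.snd_add, Pi.add_apply, map_add]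
      map_smul' := by
        intro c a
        refine Prod.ext ?_ ?_
        · funext s
          simp only [Prod.smul_fst, Prod.smul_snd, Pi.smul_apply, map_smul, hg'_smul, hep_smul,
            RingHom.id_apply, smul_add]
        · funext s
          simp only [Prod.smul_snd, Pi.smul_apply, map_smul, RingHom.id_apply] } with hΨ
  have hinj : Function.Injective Ψ := by
    rw [← LinearMap.ker_eq_bot, eq_bot_iff]
    rintro ⟨al, ga⟩ hq
    have h1 : (fun s => cch l (al s) + ep (g' ga) s) = 0 ∧
      (fun s => cch l (ga s)) = 0 := Prod.mk.inj (LinearMap.mem_ker.1 hq)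
    have h2 : ga = 0 := by
      funext s
      exact cch_injective l ((congrFun h1.2 s).trans (map_zero (cch l)).symm)
    have h3 : g' ga = 0 := h1.2
    have h4 : al = 0 := by
      funext s
      have h5 := congrFun h1.1 s
      simp only [h3, hep_zero, add_zero] at h5
      exact cch_injective l (h5.trans (map_zero (cch l)).symm)
    rw [h2, h4]
    exact Submodule.zero_mem _
  have hmap : (pc (xB K n) Polynomial.X U V p).map Ψ ≤
      pc (xB K n) Polynomial.X (U.map (cch l)) (V.map (cch l)) p := by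
    rintro _ ⟨⟨al, ga⟩, ⟨hal, hga, h1, h2⟩, rfl⟩
    simp only at hal hga h1 h2
    have hg'mem : g' ga ∈ chW n p (V.map (cch l)) := by
      refine ⟨fun s hs => ?_, fun s => ⟨_, hga.2 s, rfl⟩⟩
      rw [hg']
      simp only
      rw [hga.1 s hs, map_zero]
    refine ⟨?_, ?_, ?_, ?_⟩
    · show (fun s => cch l (al s) + ep (g' ga) s) ∈ chW n (p + 1) (V.map (cch l))
      have h3 : ep (g' ga) ∈ chW n (p + 1) (V.map (cch l)) := eps_mem_chW cc hg'mem
      refine ⟨fun s hs => ?_, fun s => Submodule.add_mem _ ⟨_, hal.2 s, rfl⟩ (h3.2 s)⟩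
      simp only
      rw [hal.1 s hs, h3.1 s hs, map_zero, add_zero]
    · exact hg'mem
    · intro t
      show kd (xB K n) (fun s => cch l (ga s)) t ∈ _
      rw [kd_cch]
      exact ⟨_, h1 t, rfl⟩
    · intro t
      show kd (xB K n) (fun s => cch l (al s) + ep (g' ga) s) t +
        Polynomial.X * cch l (ga t) ∈ _
      have e1 : kd (xB K n) (fun s => cch l (al s) + ep (g' ga) s) t =
          cch l (kd (xB K n) al t) + kd (xB K n) (ep (g' ga)) t := by
        rw [← kd_cch]
        exact congrFun (kd_add (xB K n) (fun s => cch l (al s)) (ep (g' ga))) t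
      have e2 := kd_eps (xB K n)
        (fun i => algebraMap K (Polynomial (MvPolynomial (Fin n) K)) (cc i)) (g' ga) t
      rw [hsum] at e2
      have e3 : ep (kd (xB K n) (g' ga)) t ∈ U.map (cch l) := by
        refine eps_mem (p := 0) cc (fun s => ?_) t
        rw [hg', kd_cch]
        exact ⟨_, h1 s, rfl⟩
      have e5 : kd (xB K n) (fun s => cch l (al s) + ep (g' ga) s) t +
          Polynomial.X * cch l (ga t) =
          cch l (kd (xB K n) al t + Polynomial.X * ga t) - ep (kd (xB K n) (g' ga)) t := by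
        rw [e1, map_add, cch_X_mul]
        have e6 : kd (xB K n) (ep (g' ga)) t = Polynomial.C l * g' ga t -
            ep (kd (xB K n) (g' ga)) t := by
          rw [← e2]
          rw [hep]
          ring
        rw [e6, hg']
        ring
      rw [e5]
      exact Submodule.sub_mem _ ⟨_, h2 t, rfl⟩ e3
  have := dist_finite_pc (xB K n) Polynomial.X (U.map (cch l)) (V.map (cch l)) p
  have h2 := dist_finite_pc (xB K n) Polynomial.X U V p
  rw [← finrank_map_of_inj Ψ _ fun w _ hw => hinj (hw.trans (map_zero Ψ).symm)]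
  exact Submodule.finrank_mono hmap

theorem sum_C_mul_X_isHomogeneous (cc : Fin n → K) :
    (∑ j, MvPolynomial.C (cc j) * X j : MvPolynomial (Fin n) K).IsHomogeneous 1 := by
  refine IsHomogeneous.sum _ _ _ fun j _ => ?_
  have h := (isHomogeneous_C (Fin n) (cc j)).mul (isHomogeneous_X K j)
  rwa [zero_add] at h

/-- change of coordinates `z ↦ z + l` -/
theorem coord_pc {d p : ℕ} (V : Submodule K (Polynomial (MvPolynomial (Fin n) K)))
    (cc : Fin n → K) :
    finrank K (pc (xB K n) Polynomial.X V (Gd K n d) p) ≤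
      finrank K (pc (xB K n) Polynomial.X
        (V.map ((Polynomial.algEquivAevalXAddC (∑ j, MvPolynomial.C (cc j) * X j :
          MvPolynomial (Fin n) K)).toLinearMap.restrictScalars K)) (Gd K n d) p) := by
  have h1 := cch_pc (p := p) V (Gd K n d) cc
  rw [map_cch_Gd (sum_C_mul_X_isHomogeneous cc)] at h1
  exact h1

end Vale.Agent.P200F.L

end
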