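import Vale.Agent.P200F.Ns
import Vale.Agent.P200F.L2

set_option linter.all false

section

namespace Vale.Agent.P200F.L

open MvPolynomial Module
open Vale.Agent.P200F.B Vale.Agent.P200F.G

variable {K : Type*} [Field K] {n c : ℕ}

/-- substitute a linear form for the last variable -/
noncomputable def rho (cc : Fin n → K) :
    MvPolynomial (Fin (n + 1)) K →ₐ[K] MvPolynomial (Fin n) K :=
  aeval (Fin.snoc (α := fun _ => MvPolynomial (Fin n) K) X (∑ j, MvPolynomial.C (cc j) * X j))

theorem gen_rho_castSucc (cc : Fin n → K) (j : Fin n) : rho cc (X j.castSucc) = X j := by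
  rw [rho, aeval_X]
  exact Fin.snoc_castSucc (α := fun _ => MvPolynomial (Fin n) K) _ _ _

theorem gen_rho_last (cc : Fin n → K) :
    rho cc (X (Fin.last n)) = ∑ j, MvPolynomial.C (cc j) * X j := by
  rw [rho, aeval_X]
  exact Fin.snoc_last (α := fun _ => MvPolynomial (Fin n) K) _ _

theorem gen_lin_isHomogeneous (cc : Fin n → K) :
    (∑ j, MvPolynomial.C (cc j) * X j : MvPolynomial (Fin n) K).IsHomogeneous 1 := by
  refine IsHomogeneous.sum _ _ _ fun j _ => ?_
  have h := (isHomogeneous_C (Fin n) (cc j)).mul (isHomogeneous_X K j)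
  rwa [zero_add] at h

theorem rho_isHomogeneous (cc : Fin n → K) {d : ℕ} {f : MvPolynomial (Fin (n + 1)) K}
    (hf : f.IsHomogeneous d) : (rho cc f).IsHomogeneous d := by
  have h2 := hf.aeval (Fin.snoc (α := fun _ => MvPolynomial (Fin n) K) X
    (∑ j, MvPolynomial.C (cc j) * X j)) (n := 1) (fun i => by
      refine Fin.lastCases ?_ (fun j => ?_) i
      · rw [Fin.snoc_last]
        exact gen_lin_isHomogeneous cc
      · rw [Fin.snoc_castSucc]
        exact isHomogeneous_X K j)
  rwa [one_mul] at h2

/-- the linear form `X_n - ∑ c_j X_j` -/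
noncomputable def gen_l (cc : Fin n → K) : MvPolynomial (Fin (n + 1)) K :=
  X (Fin.last n) - rename Fin.castSucc (∑ j, MvPolynomial.C (cc j) * X j)

theorem gen_rho_rename (cc : Fin n → K) (g : MvPolynomial (Fin n) K) :
    rho cc (rename Fin.castSucc g) = g := by
  rw [rho, aeval_rename]
  have h2 : (Fin.snoc (α := fun _ => MvPolynomial (Fin n) K) X
      (∑ j, MvPolynomial.C (cc j) * X j)) ∘ Fin.castSucc = X := by
    funext j
    exact Fin.snoc_castSucc (α := fun _ => MvPolynomial (Fin n) K) _ _ _
  rw [h2, aeval_X_left, AlgHom.id_apply]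

theorem gen_rho_eliminates (cc : Fin n → K) : Eliminates (rho cc) (gen_l cc) := by
  refine ⟨fun g => ⟨rename Fin.castSucc g, gen_rho_rename cc g⟩,
    fun d f hf => rho_isHomogeneous cc hf, ?_⟩
  apply le_antisymm
  · intro g hg
    rw [RingHom.mem_ker] at hg
    have key : ((Ideal.Quotient.mkₐ K (Ideal.span {gen_l cc})).comp
        ((rename Fin.castSucc : MvPolynomial (Fin n) K →ₐ[K] MvPolynomial (Fin (n + 1)) K).comp
          (rho cc))) = Ideal.Quotient.mkₐ K (Ideal.span {gen_l cc}) := by
      apply MvPolynomial.algHom_ext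
      intro i
      change Ideal.Quotient.mk (Ideal.span {gen_l cc}) (rename Fin.castSucc (rho cc (X i))) =
        Ideal.Quotient.mk (Ideal.span {gen_l cc}) (X i)
      rw [Ideal.Quotient.eq]
      refine Fin.lastCases ?_ (fun j => ?_) i
      · rw [gen_rho_last]
        have h4 : rename Fin.castSucc (∑ j, MvPolynomial.C (cc j) * X j) - X (Fin.last n) =
            - gen_l cc := by
          rw [gen_l]
          ring
        rw [h4]
        exact neg_mem (Ideal.mem_span_singleton_self _)
      · rw [gen_rho_castSucc, rename_X, sub_self]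
        exact Ideal.zero_mem _
    have h6 := DFunLike.congr_fun key g
    change Ideal.Quotient.mk (Ideal.span {gen_l cc}) (rename Fin.castSucc (rho cc g)) =
        Ideal.Quotient.mk (Ideal.span {gen_l cc}) g at h6
    have hg' : rho cc g = 0 := hg
    rw [hg', map_zero, map_zero] at h6
    exact Ideal.Quotient.eq_zero_iff_mem.1 h6.symm
  · rw [Ideal.span_singleton_le_iff_mem, RingHom.mem_ker]
    rw [gen_l, map_sub, gen_rho_last, gen_rho_rename, sub_self]

/-- adding general linear forms -/
theorem gen_extend {N : ℕ} [Infinite K] (s : Set (MvPolynomial (Fin N) K)) (hs : s.Finite)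
    {k : ℕ} (hk : s.ncard ≤ k)
    (hh : ∀ p : Ideal (MvPolynomial (Fin N) K), p.IsPrime → Ideal.span s ≤ p →
      (k : ℕ∞) ≤ p.height) (m : ℕ) (hm : k + m ≤ N) :
    ∃ l : Fin m → MvPolynomial (Fin N) K, (∀ i, (l i).IsHomogeneous 1) ∧
      ∀ p : Ideal (MvPolynomial (Fin N) K), p.IsPrime →
        Ideal.span (s ∪ Set.range l) ≤ p → ((k + m : ℕ) : ℕ∞) ≤ p.height := by
  induction m with
  | zero =>
    refine ⟨fun i => i.elim0, fun i => i.elim0, fun p hp hle => ?_⟩
    exact hh p hp (le_trans (Ideal.span_mono Set.subset_union_left) hle)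
  | succ m ih =>
    obtain ⟨l, hl, hh⟩ := ih (by omega)
    set J := Ideal.span (s ∪ Set.range l) with hJ
    have hfin : (s ∪ Set.range l).Finite := hs.union (Set.finite_range l)
    have hcard : (s ∪ Set.range l).ncard ≤ k + m :=
      (Set.ncard_union_le _ _).trans (add_le_add hk (ncard_range_le l))
    obtain ⟨g, hg, hg2⟩ := exists_linear_avoid J.minimalPrimes
      J.finite_minimalPrimes_of_isNoetherianRing
      (fun p hp => hp.1.1.ne_top) (by
        intro p hp hpirr
        have h1 := height_le_of_minimal hfin hcard hp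
        rw [hpirr, height_irr] at h1
        have h2 : N ≤ k + m := by exact_mod_cast h1
        omega)
    refine ⟨Fin.snoc l g, ?_, ?_⟩
    · intro i
      refine Fin.lastCases ?_ (fun j => ?_) i
      · rw [Fin.snoc_last]; exact hg
      · rw [Fin.snoc_castSucc]; exact hl j
    · intro p hp hle
      have hJp : J ≤ p := by
        refine le_trans (Ideal.span_mono ?_) hle
        apply Set.union_subset_union_right
        rintro _ ⟨i, rfl⟩
        exact ⟨i.castSucc, Fin.snoc_castSucc (α := fun _ => MvPolynomial (Fin N) K) _ _ _⟩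
      have hgp : g ∈ p := by
        apply hle
        apply Ideal.subset_span
        right
        exact ⟨Fin.last m, Fin.snoc_last (α := fun _ => MvPolynomial (Fin N) K) _ _⟩
      obtain ⟨q, hq, hqp⟩ := Ideal.exists_minimalPrimes_le hJp
      have hqprime : q.IsPrime := hq.1.1
      have hlt : q < p := by
        refine lt_of_le_of_ne hqp ?_
        rintro rfl
        exact hg2 q hq hgp
      have h1 := hh q hqprime hq.1.2
      have h2 := Ideal.height_add_one_le_of_lt_of_isPrime hlt
      have h3 : ((k + (m + 1) : ℕ) : ℕ∞) = ((k + m : ℕ) : ℕ∞) + 1 := by push_cast; ring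
      rw [h3]
      exact le_trans (add_le_add h1 le_rfl) h2

/-- a linear form with a nonzero last coefficient is a multiple of some `gen_l` -/
theorem gen_exists_cc {l : MvPolynomial (Fin (n + 1)) K} (hl : l.IsHomogeneous 1)
    (hl2 : l ∉ Ideal.span (Set.range fun j : Fin n => (X j.castSucc : MvPolynomial (Fin (n + 1)) K))) :
    ∃ cc : Fin n → K, gen_l cc ∣ l := by
  have h1 : l ∈ Submodule.span K (Set.range (X : Fin (n + 1) → MvPolynomial (Fin (n + 1)) K)) := by
    rw [← homogeneousSubmodule_one_eq_span_X]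
    exact hl
  rw [Submodule.mem_span_range_iff_exists_fun] at h1
  obtain ⟨u, hu⟩ := h1
  rw [Fin.sum_univ_castSucc] at hu
  have h0 : u (Fin.last n) ≠ 0 := by
    intro h0
    apply hl2
    rw [← hu, h0, zero_smul, add_zero]
    refine Ideal.sum_mem _ fun j _ => ?_
    rw [MvPolynomial.smul_eq_C_mul]
    exact Ideal.mul_mem_left _ _ (Ideal.subset_span ⟨j, rfl⟩)
  refine ⟨fun j => -(u (Fin.last n))⁻¹ * u j.castSucc, ⟨MvPolynomial.C (u (Fin.last n)), ?_⟩⟩
  have h2 : ∑ j : Fin n, u j.castSucc • (X j.castSucc : MvPolynomial (Fin (n + 1)) K) =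
      -(rename Fin.castSucc (∑ j, MvPolynomial.C (-(u (Fin.last n))⁻¹ * u j.castSucc) * X j) *
        MvPolynomial.C (u (Fin.last n))) := by
    rw [map_sum, Finset.sum_mul, ← Finset.sum_neg_distrib]
    refine Finset.sum_congr rfl fun j _ => ?_
    rw [map_mul, rename_C, rename_X, MvPolynomial.smul_eq_C_mul, mul_right_comm, ← C_mul,
      ← neg_mul, ← C_neg]
    congr 2
    field_simp
  rw [gen_l, sub_mul, ← hu, h2, MvPolynomial.smul_eq_C_mul]
  ring

/-- for a suitable linear form the sequence stays regular -/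
theorem exists_rho_regular [Infinite K] (h : c ≤ n) (a : Fin c → ℕ) (hpos : ∀ i, 1 ≤ a i)
    (f : Fin c → MvPolynomial (Fin (n + 1)) K) (hf : ∀ i, (f i).IsHomogeneous (a i))
    (hreg : IsRegularSeq f) : ∃ cc : Fin n → K, IsRegularSeq fun i => rho cc (f i) := by
  classical
  have hreg' : IsRegSeq f := hreg
  set J : Ideal (MvPolynomial (Fin (n + 1)) K) := Ideal.span (Set.range f) with hJ
  set p0 : Ideal (MvPolynomial (Fin (n + 1)) K) :=
    Ideal.span (Set.range fun j : Fin n => (X j.castSucc : MvPolynomial (Fin (n + 1)) K)) with hp0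
  have hX : (X (Fin.last n) : MvPolynomial (Fin (n + 1)) K) ∉ p0 := by
    have h1 : p0 = Ideal.span (X '' (Set.range (Fin.castSucc : Fin n → Fin (n + 1))) :
        Set (MvPolynomial (Fin (n + 1)) K)) := by
      rw [hp0, ← Set.range_comp]
      rfl
    rw [h1, mem_ideal_span_X_image]
    intro h2
    obtain ⟨i, ⟨j, rfl⟩, hj⟩ := h2 (Finsupp.single (Fin.last n) 1) (by
      rw [MvPolynomial.mem_support_iff, coeff_X_same]
      exact one_ne_zero)
    rw [Finsupp.single_eq_of_ne (Fin.castSucc_lt_last j).ne] at hj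
    exact hj rfl
  obtain ⟨l, hl, hl2⟩ := exists_linear_avoid (insert p0 J.minimalPrimes)
    (J.finite_minimalPrimes_of_isNoetherianRing.insert p0) (by
      rintro p (rfl | hp)
      · intro ht
        apply hX
        rw [ht]
        exact Submodule.mem_top
      · exact hp.1.1.ne_top) (by
      rintro p (rfl | hp)
      · intro ht
        apply hX
        rw [ht]
        exact X_mem_irr _
      · intro hpirr
        have h1 := height_le_of_minimal (Set.finite_range f) (ncard_range_le f) hp
        rw [hpirr, height_irr] at h1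
        have h2 : n + 1 ≤ c := by exact_mod_cast h1
        omega)
  obtain ⟨cc, hcc⟩ := gen_exists_cc hl (hl2 p0 (Set.mem_insert _ _))
  refine ⟨cc, ?_⟩
  -- complete to an m-primary ideal
  set s : Set (MvPolynomial (Fin (n + 1)) K) := insert l (Set.range f) with hs
  have hsfin : s.Finite := (Set.finite_range f).insert l
  have hscard : s.ncard ≤ c + 1 := (Set.ncard_insert_le _ _).trans (add_le_add (ncard_range_le f) le_rfl)
  have hsh : ∀ p : Ideal (MvPolynomial (Fin (n + 1)) K), p.IsPrime → Ideal.span s ≤ p →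
      ((c + 1 : ℕ) : ℕ∞) ≤ p.height := by
    intro p hp hle
    have hJp : J ≤ p := (Ideal.span_mono (Set.subset_insert _ _)).trans hle
    have hlp : l ∈ p := hle (Ideal.subset_span (Set.mem_insert _ _))
    obtain ⟨q, hq, hqp⟩ := Ideal.exists_minimalPrimes_le hJp
    have hqprime : q.IsPrime := hq.1.1
    have hlt : q < p := by
      refine lt_of_le_of_ne hqp ?_
      rintro rfl
      exact hl2 q (Set.mem_insert_of_mem _ hq) hlp
    have h1 := le_height_of_isRegSeq f hreg' q hq.1.2
    have h2 := Ideal.height_add_one_le_of_lt_of_isPrime hlt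
    push_cast
    exact le_trans (add_le_add h1 le_rfl) h2
  obtain ⟨l', hl', hh⟩ := gen_extend s hsfin hscard hsh (n - c) (by omega)
  -- the whole sequence
  set F : Fin (n + 1) → MvPolynomial (Fin (n + 1)) K := fun i =>
    if hi : i.1 < c then f ⟨i.1, hi⟩ else if hi2 : i.1 = c then l else
      l' ⟨i.1 - c - 1, by omega⟩ with hF
  set A : Fin (n + 1) → ℕ := fun i => if hi : i.1 < c then a ⟨i.1, hi⟩ else 1 with hA
  have hApos : ∀ i, 1 ≤ A i := by
    intro i
    rw [hA]
    dsimp only
    split_ifs
    · exact hpos _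
    · exact le_rfl
  have hFhom : ∀ i, (F i).IsHomogeneous (A i) := by
    intro i
    rw [hF, hA]
    dsimp only
    split_ifs
    · exact hf _
    · exact hl
    · exact hl' _
  have hrange : Set.range F = s ∪ Set.range l' := by
    ext x
    constructor
    · rintro ⟨i, rfl⟩
      rw [hF]
      dsimp only
      split_ifs
      · exact Or.inl (Set.mem_insert_of_mem _ ⟨_, rfl⟩)
      · exact Or.inl (Set.mem_insert _ _)
      · exact Or.inr ⟨_, rfl⟩
    · rintro ((rfl | ⟨i, rfl⟩) | ⟨i, rfl⟩)
      · refine ⟨⟨c, by omega⟩, ?_⟩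
        rw [hF]
        dsimp only
        rw [dif_neg (lt_irrefl _), dif_pos rfl]
      · refine ⟨⟨i.1, by omega⟩, ?_⟩
        rw [hF]
        dsimp only
        rw [dif_pos i.2]
      · refine ⟨⟨c + 1 + i.1, by omega⟩, ?_⟩
        rw [hF]
        dsimp only
        rw [dif_neg (by omega), dif_neg (by omega)]
        congr 1
        apply Fin.ext
        change c + 1 + i.1 - c - 1 = i.1
        omega
  have hmp : IsMPrimary (Ideal.span (Set.range F)) := by
    apply isMPrimary_of_height
    · apply homIdeal_span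
      rintro g ⟨i, rfl⟩
      exact ⟨A i, hFhom i⟩
    · intro p hp hle
      rw [hrange] at hle
      have h1 := hh p hp hle
      rwa [show c + 1 + (n - c) = n + 1 by omega] at h1
  set k : Fin (n + 1) := ⟨c, by omega⟩ with hk
  have hFk : gen_l cc ∣ F k := by
    have h1 : F k = l := by
      rw [hF]
      dsimp only
      rw [dif_neg (lt_irrefl _), dif_pos rfl]
    rw [h1]
    exact hcc
  have h3 := (gen_rho_eliminates cc).isMPrimary k F hmp hFk
  have h4 : IsRegularSeq fun i => rho cc (F (k.succAbove i)) :=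
    isRegSeq_of_isMPrimary (fun i => A (k.succAbove i)) (fun i => hApos _) _
      (fun i => rho_isHomogeneous cc (hFhom _)) h3
  have h5 := regular_castLE h4 h
  have h6 : (fun i : Fin c => rho cc (F (k.succAbove (Fin.castLE h i)))) =
      fun i => rho cc (f i) := by
    funext i
    have h7 : k.succAbove (Fin.castLE h i) = ⟨i.1, by omega⟩ := by
      rw [Fin.succAbove_of_castSucc_lt]
      · rfl
      · exact i.2
    rw [h7, hF]
    dsimp only
    rw [dif_pos i.2]
  rw [h6] at h5
  exact h5

/-- the coordinate change `z ↦ z + l` -/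
noncomputable def gen_phi (cc : Fin n → K) :
    Polynomial (MvPolynomial (Fin n) K) ≃ₐ[MvPolynomial (Fin n) K]
      Polynomial (MvPolynomial (Fin n) K) :=
  Polynomial.algEquivAevalXAddC (∑ j, MvPolynomial.C (cc j) * X j : MvPolynomial (Fin n) K)

theorem gen_phi_X (cc : Fin n → K) : gen_phi cc Polynomial.X =
    Polynomial.X + Polynomial.C (∑ j, MvPolynomial.C (cc j) * X j : MvPolynomial (Fin n) K) := by
  rw [gen_phi]
  simp [Polynomial.algEquivAevalXAddC]

theorem gen_phi_C (cc : Fin n → K) (b : MvPolynomial (Fin n) K) :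
    gen_phi cc (Polynomial.C b) = Polynomial.C b := (gen_phi cc).commutes b

theorem gen_phi_symm_X (cc : Fin n → K) : (gen_phi cc).symm Polynomial.X =
    Polynomial.X - Polynomial.C (∑ j, MvPolynomial.C (cc j) * X j : MvPolynomial (Fin n) K) := by
  rw [AlgEquiv.symm_apply_eq, map_sub, gen_phi_X, gen_phi_C]
  ring

theorem gen_mem_Bd {e i : ℕ} {b : MvPolynomial (Fin n) K} :
    b ∈ Bd K n e i ↔ (i ≤ e ∧ b.IsHomogeneous (e - i)) ∨ b = 0 := by
  by_cases h : i ≤ e
  · rw [Bd, if_pos h]
    constructor
    · intro hb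
      exact Or.inl ⟨h, hb⟩
    · rintro (hb | rfl)
      · exact hb.2
      · exact Submodule.zero_mem _
  · rw [Bd, if_neg h, Submodule.mem_bot]
    constructor
    · intro hb
      exact Or.inr hb
    · rintro (hb | hb)
      · exact absurd hb.1 h
      · exact hb

/-- products -/
theorem gen_Bd_mul {e e' i i' : ℕ} {b b' : MvPolynomial (Fin n) K} (hb : b ∈ Bd K n e i)
    (hb' : b' ∈ Bd K n e' i') : b * b' ∈ Bd K n (e + e') (i + i') := by
  rw [gen_mem_Bd] at *
  rcases hb with ⟨h1, h2⟩ | rfl
  · rcases hb' with ⟨h3, h4⟩ | rfl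
    · refine Or.inl ⟨by omega, ?_⟩
      have h5 := h2.mul h4
      rwa [show e + e' - (i + i') = e - i + (e' - i') by omega]
    · exact Or.inr (mul_zero _)
  · exact Or.inr (zero_mul _)

theorem gen_Gd_mul {e e' : ℕ} {F G : Polynomial (MvPolynomial (Fin n) K)}
    (hF : F ∈ Gd K n e) (hG : G ∈ Gd K n e') : F * G ∈ Gd K n (e + e') := by
  intro i
  rw [Polynomial.coeff_mul]
  refine Submodule.sum_mem _ fun x hx => ?_
  have hx' : x.1 + x.2 = i := by simpa using hx
  rw [← hx']
  exact gen_Bd_mul (hF _) (hG _)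

theorem gen_C_mem_Gd {e : ℕ} {b : MvPolynomial (Fin n) K} (hb : b.IsHomogeneous e) :
    Polynomial.C b ∈ Gd K n e := by
  intro i
  rw [Polynomial.coeff_C]
  split_ifs with h
  · rw [h, gen_mem_Bd]
    exact Or.inl ⟨Nat.zero_le _, hb⟩
  · exact Submodule.zero_mem _

theorem gen_X_mem_Gd : (Polynomial.X : Polynomial (MvPolynomial (Fin n) K)) ∈ Gd K n 1 := by
  intro i
  rw [Polynomial.coeff_X]
  split_ifs with h
  · rw [← h, gen_mem_Bd]
    exact Or.inl ⟨le_rfl, isHomogeneous_one _ _⟩
  · exact Submodule.zero_mem _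

theorem gen_pow_mem_Gd {F : Polynomial (MvPolynomial (Fin n) K)} (hF : F ∈ Gd K n 1) (i : ℕ) :
    F ^ i ∈ Gd K n i := by
  induction i with
  | zero =>
    rw [pow_zero, ← Polynomial.C_1]
    exact gen_C_mem_Gd (isHomogeneous_one _ _)
  | succ i ih =>
    rw [pow_succ]
    exact gen_Gd_mul ih hF

/-- an automorphism over `B` which maps `z` to a form of degree one preserves the degree -/
theorem gen_aut_mem_Gd (ψ : Polynomial (MvPolynomial (Fin n) K) →ₐ[MvPolynomial (Fin n) K]
    Polynomial (MvPolynomial (Fin n) K)) (hψ : ψ Polynomial.X ∈ Gd K n 1) {e : ℕ}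
    {F : Polynomial (MvPolynomial (Fin n) K)} (hF : F ∈ Gd K n e) : ψ F ∈ Gd K n e := by
  rw [Polynomial.as_sum_range_C_mul_X_pow F, map_sum]
  refine Submodule.sum_mem _ fun i _ => ?_
  rw [map_mul, map_pow]
  have h1 : ψ (Polynomial.C (F.coeff i)) = Polynomial.C (F.coeff i) := ψ.commutes _
  rw [h1]
  rcases gen_mem_Bd.1 (hF i) with ⟨h2, h3⟩ | h2
  · have h4 := gen_Gd_mul (gen_C_mem_Gd h3) (gen_pow_mem_Gd hψ i)
    rwa [show e - i + i = e by omega] at h4
  · rw [h2, Polynomial.C_0, zero_mul]
    exact Submodule.zero_mem _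

theorem gen_phi_mem_Gd (cc : Fin n → K) {e : ℕ} {F : Polynomial (MvPolynomial (Fin n) K)}
    (hF : F ∈ Gd K n e) : gen_phi cc F ∈ Gd K n e := by
  refine gen_aut_mem_Gd (gen_phi cc).toAlgHom ?_ hF
  change gen_phi cc Polynomial.X ∈ _
  rw [gen_phi_X]
  exact Submodule.add_mem _ gen_X_mem_Gd (gen_C_mem_Gd (gen_lin_isHomogeneous cc))

theorem gen_phi_symm_mem_Gd (cc : Fin n → K) {e : ℕ} {F : Polynomial (MvPolynomial (Fin n) K)}
    (hF : F ∈ Gd K n e) : (gen_phi cc).symm F ∈ Gd K n e := by
  refine gen_aut_mem_Gd (gen_phi cc).symm.toAlgHom ?_ hF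
  change (gen_phi cc).symm Polynomial.X ∈ _
  rw [gen_phi_symm_X]
  exact Submodule.sub_mem _ gen_X_mem_Gd (gen_C_mem_Gd (gen_lin_isHomogeneous cc))

/-- the lowest coefficient is the restriction to the hyperplane -/
theorem gen_coeff_zero (cc : Fin n → K) (F : MvPolynomial (Fin (n + 1)) K) :
    (gen_phi cc (eE K n F)).coeff 0 = rho cc F := by
  have key : (((Polynomial.aeval (0 : MvPolynomial (Fin n) K)).restrictScalars K).comp
      (((gen_phi cc).toAlgHom.restrictScalars K).comp (eE K n).toAlgHom)) = rho cc := by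
    apply MvPolynomial.algHom_ext
    intro i
    change Polynomial.aeval (0 : MvPolynomial (Fin n) K) (gen_phi cc (eE K n (X i))) = _
    refine Fin.lastCases ?_ (fun j => ?_) i
    · rw [eE_X_last, gen_phi_X, gen_rho_last, map_add, Polynomial.aeval_X, Polynomial.aeval_C,
        zero_add]
      rfl
    · rw [eE_X_castSucc, gen_phi_C, gen_rho_castSucc]
      simp
  rw [← key]
  change _ = Polynomial.aeval (0 : MvPolynomial (Fin n) K) (gen_phi cc (eE K n F))
  rw [Polynomial.coeff_zero_eq_aeval_zero]

/-- passage to a layered space -/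
theorem exists_layers (cc : Fin n → K) (a : Fin c → ℕ)
    (f : Fin c → MvPolynomial (Fin (n + 1)) K) (hf : ∀ i, (f i).IsHomogeneous (a i)) (p d : ℕ)
    (V : Submodule K (MvPolynomial (Fin (n + 1)) K))
    (hV1 : piece (Ideal.span (Set.range f)) (d + 1) ≤ V)
    (hV2 : V ≤ homogeneousSubmodule (Fin (n + 1)) K (d + 1)) :
    ∃ V' : ℕ → Submodule K (MvPolynomial (Fin n) K),
      Lay (Ideal.span (Set.range fun i => rho cc (f i))) (d + 1) V' ∧
      tot V' (d + 1) = finrank K V ∧
      finrank K (rc X V (homogeneousSubmodule (Fin (n + 1)) K d) (p + 1)) ≤ zc V' p d := by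
  classical
  set V1 : Submodule K (Polynomial (MvPolynomial (Fin n) K)) := V.map (eE K n).toLinearMap with hV1def
  set V2 : Submodule K (Polynomial (MvPolynomial (Fin n) K)) :=
    V1.map ((gen_phi cc).toLinearMap.restrictScalars K) with hV2def
  have hG1 : V1 ≤ Gd K n (d + 1) := by
    rw [← map_eE_homogeneous]
    exact Submodule.map_mono hV2
  have hG2 : V2 ≤ Gd K n (d + 1) := by
    rintro _ ⟨F, hF, rfl⟩
    exact gen_phi_mem_Gd cc (hG1 hF)
  refine ⟨lay V2, ⟨fun i => lay_le hG2 i, ?_⟩, ?_, ?_⟩
  · intro i hi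
    apply piece_span_le
    rintro _ ⟨k, rfl⟩ w
    have hr : (rho cc (f k)).IsHomogeneous (a k) := rho_isHomogeneous cc (hf k)
    by_cases hk : a k ≤ d + 1 - i
    · obtain ⟨t, ht⟩ := Nat.exists_eq_add_of_le' hk
      have h1 := comp_mul_add hr w t
      rw [ht, mul_comm w, h1]
      set b := homogeneousComponent t w with hb
      have hbh : b.IsHomogeneous t := homogeneousComponent_isHomogeneous _ _
      -- the element
      set H : Polynomial (MvPolynomial (Fin n) K) := Polynomial.C b * Polynomial.X ^ i with hH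
      have hHG : H ∈ Gd K n (t + i) := gen_Gd_mul (gen_C_mem_Gd hbh) (gen_pow_mem_Gd gen_X_mem_Gd i)
      have hHG' := gen_phi_symm_mem_Gd cc hHG
      rw [← map_eE_homogeneous] at hHG'
      obtain ⟨g, hg, hgH⟩ := hHG'
      have hg2 : eE K n g = (gen_phi cc).symm H := hgH
      have hmem : f k * g ∈ V := by
        apply hV1
        refine ⟨Ideal.mul_mem_right _ _ (Ideal.subset_span ⟨k, rfl⟩), ?_⟩
        have h2 : (f k * g).IsHomogeneous (a k + (t + i)) := (hf k).mul hg
        rwa [show a k + (t + i) = d + 1 by omega] at h2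
      have hval : gen_phi cc (eE K n (f k * g)) = gen_phi cc (eE K n (f k)) * Polynomial.C b *
          Polynomial.X ^ i := by
        rw [map_mul, map_mul, hg2, AlgEquiv.apply_symm_apply, hH, mul_assoc]
      refine ⟨gen_phi cc (eE K n (f k * g)), ⟨_, ⟨_, hmem, rfl⟩, rfl⟩, ?_, ?_⟩
      · intro j hj
        rw [hval, Polynomial.coeff_mul_X_pow', if_neg (by omega)]
      · rw [hval, Polynomial.coeff_mul_X_pow', if_pos le_rfl, Nat.sub_self, Polynomial.mul_coeff_zero,
          gen_coeff_zero, Polynomial.coeff_C_zero]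
    · rw [mul_comm, comp_mul_of_lt hr w (by omega)]
      exact Submodule.zero_mem _
  · rw [← finrank_eq_tot_lay V2 hG2]
    have e1 : finrank K V2 = finrank K V1 :=
      LinearEquiv.finrank_map_eq ((gen_phi cc).toLinearEquiv.restrictScalars K) V1
    have e2 : finrank K V1 = finrank K V :=
      LinearEquiv.finrank_map_eq (eE K n).toLinearEquiv V
    rw [e1, e2]
  · rw [finrank_rc_succ, ← finrank_pc_map (eE K n), map_eE_homogeneous]
    have h1 : (fun i : Fin n => eE K n (X i.castSucc)) = xB K n := by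
      funext j
      exact eE_X_castSucc j
    rw [h1, eE_X_last]
    exact (coord_pc V1 cc).trans (zc_lay V2 hG2)

end Vale.Agent.P200F.L

end

section

namespace Vale.Agent.P200F.L

open MvPolynomial Module
open Vale.Agent.P200F.B Vale.Agent.P200F.G

variable {K : Type*} [Field K] {n : ℕ}

/-- the potential -/
noncomputable def pot (W D : ℕ) (V : ℕ → Submodule K (MvPolynomial (Fin n) K)) : ℕ :=
  ∑ i ∈ Finset.range (D + 1), W ^ (D - i) * finrank K (V i)

theorem pot_le {W D : ℕ} (hW : 1 ≤ W) (V : ℕ → Submodule K (MvPolynomial (Fin n) K)) :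
    pot W D V ≤ W ^ D * tot V D := by
  rw [pot, tot, Finset.mul_sum]
  refine Finset.sum_le_sum fun i _ => Nat.mul_le_mul_right _ (Nat.pow_le_pow_right hW ?_)
  omega

theorem pot_lt {W D k : ℕ} (hk : k < D) {V V' : ℕ → Submodule K (MvPolynomial (Fin n) K)}
    (hfin : ∀ i, Module.Finite K (V' i)) (hW : tot V D < W)
    (h1 : ∀ i < k, V i ≤ V' i) (h2 : V k < V' k) : pot W D V < pot W D V' := by
  have hsplit : ∀ V : ℕ → Submodule K (MvPolynomial (Fin n) K), pot W D V =
      ∑ i ∈ Finset.range k, W ^ (D - i) * finrank K (V i) + W ^ (D - k) * finrank K (V k) +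
        ∑ i ∈ Finset.Ico (k + 1) (D + 1), W ^ (D - i) * finrank K (V i) := by
    intro V
    rw [pot, ← Finset.sum_range_succ, Finset.range_eq_Ico, Finset.range_eq_Ico,
      Finset.sum_Ico_consecutive _ (Nat.zero_le _) (by omega)]
  rw [hsplit V, hsplit V']
  have e1 : ∑ i ∈ Finset.range k, W ^ (D - i) * finrank K (V i) ≤
      ∑ i ∈ Finset.range k, W ^ (D - i) * finrank K (V' i) :=
    Finset.sum_le_sum fun i hi => Nat.mul_le_mul_left _ (by
      have := hfin i
      exact Submodule.finrank_mono (h1 i (Finset.mem_range.1 hi)))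
  have e2 : W ^ (D - k) * (finrank K (V k) + 1) ≤ W ^ (D - k) * finrank K (V' k) :=
    Nat.mul_le_mul_left _ (by
      have := hfin k
      exact Submodule.finrank_lt_finrank_of_lt h2)
  have e3 : ∑ i ∈ Finset.Ico (k + 1) (D + 1), W ^ (D - i) * finrank K (V i) ≤
      W ^ (D - k - 1) * tot V D := by
    rw [tot, Finset.mul_sum]
    refine le_trans (Finset.sum_le_sum (g := fun i => W ^ (D - k - 1) * finrank K (V i)) ?_) ?_
    · intro i hi
      rw [Finset.mem_Ico] at hi
      exact Nat.mul_le_mul_right _ (Nat.pow_le_pow_right (by omega) (by omega))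
    · refine Finset.sum_le_sum_of_subset ?_
      intro i hi
      rw [Finset.mem_Ico] at hi
      exact Finset.mem_range.2 hi.2
  have e4 : W ^ (D - k - 1) * tot V D < W ^ (D - k) := by
    have h3 : D - k = D - k - 1 + 1 := by omega
    have h4 : 0 < W ^ (D - k - 1) := Nat.pow_pos (by omega)
    calc W ^ (D - k - 1) * tot V D < W ^ (D - k - 1) * W := Nat.mul_lt_mul_of_pos_left hW h4
      _ = W ^ (D - k) := by rw [← pow_succ, ← h3]
  have e5 : W ^ (D - k) * (finrank K (V k) + 1) = W ^ (D - k) * finrank K (V k) + W ^ (D - k) := by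
    ring
  omega

/-- every layered space can be made stable, keeping any property that survives distractions -/
theorem exists_stable_gen {J : Ideal (MvPolynomial (Fin n) K)} {D : ℕ}
    (P : (ℕ → Submodule K (MvPolynomial (Fin n) K)) → Prop)
    (hP : ∀ V, Lay J D V → P V → ∀ k j, P (disl k j V))
    {V : ℕ → Submodule K (MvPolynomial (Fin n) K)} (hV : Lay J D V) (hPV : P V) :
    ∃ V' : ℕ → Submodule K (MvPolynomial (Fin n) K), Lay J D V' ∧
      tot V' D = tot V D ∧ P V' ∧
      ∀ k < D, ∀ j : Fin n, ∀ b ∈ V' (k + 1), X j * b ∈ V' k := by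
  classical
  set W := tot V D + 1 with hW
  have key : ∀ N, ∀ V' : ℕ → Submodule K (MvPolynomial (Fin n) K), Lay J D V' → P V' →
      tot V' D = tot V D → W ^ D * tot V D - pot W D V' ≤ N →
      ∃ V' : ℕ → Submodule K (MvPolynomial (Fin n) K), Lay J D V' ∧
        tot V' D = tot V D ∧ P V' ∧
        ∀ k < D, ∀ j : Fin n, ∀ b ∈ V' (k + 1), X j * b ∈ V' k := by
    intro N
    induction N with
    | zero =>
      intro V' hL hPV' ht hN
      refine ⟨V', hL, ht, hPV', fun k hk j b hb => ?_⟩
      by_contra hjb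
      have h1 : pot W D V' < pot W D (disl k j V') :=
        pot_lt hk (fun i => Submodule.finiteDimensional_of_le ((disl_lay hL k j).le i))
          (by omega) (fun i hi => le_disl V' k j hi.le) (lt_disl hb hjb)
      have h2 := pot_le (W := W) (D := D) (by omega) (disl k j V')
      rw [disl_tot hL.le k j, ht] at h2
      omega
    | succ N ih =>
      intro V' hL hPV' ht hN
      by_cases hst : ∀ k < D, ∀ j : Fin n, ∀ b ∈ V' (k + 1), X j * b ∈ V' k
      · exact ⟨V', hL, ht, hPV', hst⟩
      · push Not at hst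
        obtain ⟨k, hk, j, b, hb, hjb⟩ := hst
        have h1 : pot W D V' < pot W D (disl k j V') :=
          pot_lt hk (fun i => Submodule.finiteDimensional_of_le ((disl_lay hL k j).le i))
            (by omega) (fun i hi => le_disl V' k j hi.le) (lt_disl hb hjb)
        have h2 := pot_le (W := W) (D := D) (by omega) (disl k j V')
        have h3 := disl_tot hL.le k j
        rw [h3, ht] at h2
        exact ih (disl k j V') (disl_lay hL k j) (hP V' hL hPV' k j) (h3.trans ht) (by omega)
  exact key _ V hV hPV rfl le_rfl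

theorem exists_stable {J : Ideal (MvPolynomial (Fin n) K)} {d : ℕ} (p : ℕ)
    {V : ℕ → Submodule K (MvPolynomial (Fin n) K)} (hV : Lay J (d + 1) V) :
    ∃ V' : ℕ → Submodule K (MvPolynomial (Fin n) K), Lay J (d + 1) V' ∧
      tot V' (d + 1) = tot V (d + 1) ∧ zc V p d ≤ zc V' p d ∧
      ∀ k ≤ d, ∀ j : Fin n, ∀ b ∈ V' (k + 1), X j * b ∈ V' k := by
  obtain ⟨V', h1, h2, h3, h4⟩ := exists_stable_gen (J := J) (D := d + 1)
    (fun V' => zc V p d ≤ zc V' p d) (fun V' hL hPV' k j => hPV'.trans (zc_disl hL.le k j)) hV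
    le_rfl
  exact ⟨V', h1, h2, h3, fun k hk => h4 k (by omega)⟩

end Vale.Agent.P200F.L

end

section

namespace Vale.Agent.P200F.L

open MvPolynomial Module
open Vale.Agent.P200F.B Vale.Agent.P200F.G

variable {K : Type*} [Field K] {n c : ℕ}

theorem lexGT_tr {e e' e'' : Fin n →₀ ℕ} (h1 : lexGT e e') (h2 : lexGT e' e'') :
    lexGT e e'' := by
  obtain ⟨i, hi, hi'⟩ := h1
  obtain ⟨j, hj, hj'⟩ := h2
  rcases lt_trichotomy i j with hij | hij | hij
  · exact ⟨i, by rw [← hj' i hij]; exact hi, fun k hk => by rw [hi' k hk, hj' k (hk.trans hij)]⟩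
  · subst hij
    exact ⟨i, hj.trans hi, fun k hk => by rw [hi' k hk, hj' k hk]⟩
  · exact ⟨j, by rw [hi' j hij]; exact hj, fun k hk => by rw [hi' k (hk.trans hij), hj' k hk]⟩

theorem lexGT_total {e e' : Fin n →₀ ℕ} (h : e ≠ e') : lexGT e e' ∨ lexGT e' e := by
  classical
  have hex : ∃ i, e i ≠ e' i := by
    by_contra hcon
    push Not at hcon
    exact h (Finsupp.ext hcon)
  have hs : (Finset.univ.filter fun i => e i ≠ e' i).Nonempty := by
    obtain ⟨i, hi⟩ := hex
    exact ⟨i, by simp [hi]⟩
  obtain ⟨i, hi, hmin⟩ : ∃ i, e i ≠ e' i ∧ ∀ j < i, e j = e' j := by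
    refine ⟨_, (Finset.mem_filter.1 (Finset.min'_mem _ hs)).2, fun j hj => ?_⟩
    by_contra hcon
    exact absurd (Finset.min'_le _ j (by simp [hcon])) (not_le.mpr hj)
  rcases lt_or_gt_of_ne hi with h1 | h1
  · exact Or.inr ⟨i, h1, fun j hj => (hmin j hj).symm⟩
  · exact Or.inl ⟨i, h1, hmin⟩

/-- lex-plus-powers sets are closed upwards outside `P` -/
theorem lexSet_up (h : c ≤ n) (a : Fin c → ℕ) {d q : ℕ} {e e' : Fin n →₀ ℕ}
    (he : e ∈ outside h a d) (hgt : lexGT e e') (he' : e' ∈ lexSet h a d q)
    (ho : e' ∈ outside h a d) : e ∈ lexSet h a d q := by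
  rcases he' with he' | he'
  · obtain ⟨⟨i, hi⟩, -⟩ := he'
    exact absurd (ho.1 i) (not_lt.mpr hi)
  · refine Or.inr ⟨he, lt_of_le_of_lt (Set.ncard_le_ncard ?_ ?_) he'.2⟩
    · rintro x ⟨hx1, hx2⟩
      exact ⟨hx1, lexGT_tr hx2 hgt⟩
    · exact (outside_finite h a d).subset fun _ hx => hx.1

theorem mem_lexSet_degree (h : c ≤ n) (a : Fin c → ℕ) {d q : ℕ} {e : Fin n →₀ ℕ}
    (he : e ∈ lexSet h a d q) : ∑ i, e i = d := by
  rcases he with he | he
  · exact he.2
  · exact he.1.2

theorem lex_sum_sn (m : Fin n →₀ ℕ) (i : ℕ) : ∑ k, sn m i k = ∑ k, m k + i := by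
  rw [Fin.sum_univ_castSucc, sn_last]
  simp only [sn_castSucc]

theorem sn_castLE (h : c ≤ n) (h' : c ≤ n + 1) (m : Fin n →₀ ℕ) (i : ℕ) (k : Fin c) :
    sn m i (Fin.castLE h' k) = m (Fin.castLE h k) :=
  sn_castSucc m i (Fin.castLE h k)

theorem sn_injective {m m' : Fin n →₀ ℕ} {i i' : ℕ} (H : sn m i = sn m' i') :
    m = m' ∧ i = i' := by
  constructor
  · ext k
    rw [← sn_castSucc m i, ← sn_castSucc m' i', H]
  · rw [← sn_last m i, ← sn_last m' i', H]

theorem sum_add_single (m : Fin n →₀ ℕ) (j : Fin n) :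
    ∑ k, (m + Finsupp.single j 1 : Fin n →₀ ℕ) k = ∑ k, m k + 1 := by
  simp only [Finsupp.add_apply, Finset.sum_add_distrib]
  congr 1
  rw [Finset.sum_eq_single j]
  · simp
  · intro k _ hk
    rw [Finsupp.single_eq_of_ne hk]
  · intro hj
    exact absurd (Finset.mem_univ j) hj

theorem add_single_same (m : Fin n →₀ ℕ) (j : Fin n) :
    (m + Finsupp.single j 1 : Fin n →₀ ℕ) j = m j + 1 := by
  simp

theorem add_single_ne (m : Fin n →₀ ℕ) {j k : Fin n} (hk : k ≠ j) :
    (m + Finsupp.single j 1 : Fin n →₀ ℕ) k = m k := by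
  rw [Finsupp.add_apply, Finsupp.single_eq_of_ne hk, add_zero]

/-- filling the box -/
theorem lex_fill (h : c ≤ n) (a : Fin c → ℕ) (D : ℕ) (q : ℕ → ℕ)
    (hcl : ∀ i < D, ∀ m ∈ lexSet h a (D - (i + 1)) (q (i + 1)), ∀ j : Fin n,
      m + Finsupp.single j 1 ∈ lexSet h a (D - i) (q i))
    (m : Fin n →₀ ℕ) (hm : m ∈ outside h a D) (i : ℕ) (hi : i ≤ D) (m' : Fin n →₀ ℕ)
    (hm' : m' ∈ lexSet h a (D - i) (q i)) (ho : m' ∈ outside h a (D - i)) (hgt : lexGT m m') :
    m ∈ lexSet h a D (q 0) := by
  induction i generalizing m' with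
  | zero => exact lexSet_up h a hm hgt hm' ho
  | succ i ih =>
    obtain ⟨k, hk, hk'⟩ := hgt
    have hD : D - i = D - (i + 1) + 1 := by omega
    by_cases hex : ∃ j, k < j ∧
        ∀ l : Fin c, (m' + Finsupp.single j 1 : Fin n →₀ ℕ) (Fin.castLE h l) < a l
    · obtain ⟨j, hj, hbox⟩ := hex
      refine ih (by omega) (m' + Finsupp.single j 1) (hcl i (by omega) m' hm' j)
        ⟨hbox, ?_⟩ ⟨k, ?_, fun l hl => ?_⟩
      · rw [sum_add_single, ho.2, hD]
      · rw [add_single_ne m' hj.ne]
        exact hk
      · rw [add_single_ne m' (hl.trans hj).ne]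
        exact hk' l hl
    · have hcap : ∀ j, k < j → m j ≤ m' j := by
        intro j hj
        by_contra hcon
        rw [not_le] at hcon
        apply hex
        refine ⟨j, hj, fun l => ?_⟩
        by_cases hl : Fin.castLE h l = j
        · rw [hl, add_single_same]
          have := hm.1 l
          rw [hl] at this
          omega
        · rw [add_single_ne m' hl]
          exact ho.1 l
      have hbox : ∀ l : Fin c, (m' + Finsupp.single k 1 : Fin n →₀ ℕ) (Fin.castLE h l) < a l := by
        intro l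
        by_cases hl : Fin.castLE h l = k
        · rw [hl, add_single_same]
          have := hm.1 l
          rw [hl] at this
          omega
        · rw [add_single_ne m' hl]
          exact ho.1 l
      have hw := hcl i (by omega) m' hm' k
      rcases Nat.lt_or_ge (m' k + 1) (m k) with h1 | h1
      · refine ih (by omega) (m' + Finsupp.single k 1) hw ⟨hbox, ?_⟩ ⟨k, ?_, fun l hl => ?_⟩
        · rw [sum_add_single, ho.2, hD]
        · rw [add_single_same]
          exact h1
        · rw [add_single_ne m' hl.ne]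
          exact hk' l hl
      · have h2 : ∀ l, m l ≤ (m' + Finsupp.single k 1 : Fin n →₀ ℕ) l := by
          intro l
          rcases lt_trichotomy l k with hl | hl | hl
          · rw [add_single_ne m' hl.ne, hk' l hl]
          · rw [hl, add_single_same]
            exact h1
          · rw [add_single_ne m' hl.ne']
            exact hcap l hl
        have h3 : ∑ l, m l ≤ ∑ l, (m' + Finsupp.single k 1 : Fin n →₀ ℕ) l :=
          Finset.sum_le_sum fun l _ => h2 l
        have h4 := sum_add_single m' k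
        have h5 := hm.2
        have h6 := ho.2
        have hi0 : i = 0 := by omega
        subst hi0
        have h7 : ∑ l, m l = ∑ l, (m' + Finsupp.single k 1 : Fin n →₀ ℕ) l := by omega
        have h8 : m = m' + Finsupp.single k 1 := by
          ext l
          exact (Finset.sum_eq_sum_iff_of_le fun l _ => h2 l).1 h7 l (Finset.mem_univ l)
        rw [h8]
        exact hw

/-- the main combinatorial lemma: among the stable families of lex layers, the lexicographic
one has the smallest `z`-free layer -/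
theorem lex_layer (h : c ≤ n) (h' : c ≤ n + 1) (a : Fin c → ℕ) (D : ℕ) (q : ℕ → ℕ) (Q : ℕ)
    (hcl : ∀ i < D, ∀ m ∈ lexSet h a (D - (i + 1)) (q (i + 1)), ∀ j : Fin n,
      m + Finsupp.single j 1 ∈ lexSet h a (D - i) (q i))
    (hcard : (lexSet h' a D Q).ncard ≤
      ∑ i ∈ Finset.range (D + 1), (lexSet h a (D - i) (q i)).ncard)
    (m : Fin n →₀ ℕ) (hm : sn m 0 ∈ lexSet h' a D Q) : m ∈ lexSet h a D (q 0) := by
  classical
  by_contra hcon
  have hmD : ∑ k, m k = D := by
    have h1 := mem_lexSet_degree h' a hm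
    rw [lex_sum_sn, add_zero] at h1
    exact h1
  have hmo : m ∈ outside h a D := by
    refine ⟨fun l => ?_, hmD⟩
    by_contra hl
    exact hcon (Or.inl ⟨⟨l, not_lt.mp hl⟩, hmD⟩)
  have huo : sn m 0 ∈ outside h' a D := by
    refine ⟨fun l => ?_, ?_⟩
    · rw [sn_castLE h h']
      exact hmo.1 l
    · rw [lex_sum_sn, hmD, add_zero]
  -- all members of the layers are in the set, and different from `u`
  have key : ∀ i ≤ D, ∀ m' ∈ lexSet h a (D - i) (q i),
      sn m' i ∈ lexSet h' a D Q ∧ sn m' i ≠ sn m 0 := by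
    intro i hi m' hm'
    have hne : sn m' i ≠ sn m 0 := by
      intro H
      obtain ⟨rfl, rfl⟩ := sn_injective H
      exact hcon hm'
    refine ⟨?_, hne⟩
    have hdeg : ∑ k, sn m' i k = D := by
      rw [lex_sum_sn, mem_lexSet_degree h a hm']
      omega
    by_cases hin : ∃ l, a l ≤ m' (Fin.castLE h l)
    · obtain ⟨l, hl⟩ := hin
      refine Or.inl ⟨⟨l, ?_⟩, hdeg⟩
      rw [sn_castLE h h']
      exact hl
    · push Not at hin
      have ho : sn m' i ∈ outside h' a D := by
        refine ⟨fun l => ?_, hdeg⟩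
        rw [sn_castLE h h']
        exact hin l
      rcases lexGT_total hne with h1 | h1
      · exact lexSet_up h' a ho h1 hm huo
      · exfalso
        obtain ⟨k, hk, hk'⟩ := h1
        apply hcon
        refine lex_fill h a D q hcl m hmo i hi m' hm' ⟨hin, mem_lexSet_degree h a hm'⟩ ?_
        induction k using Fin.lastCases with
        | last =>
          rw [sn_last, sn_last] at hk
          omega
        | cast k =>
          rw [sn_castSucc, sn_castSucc] at hk
          refine ⟨k, hk, fun j hj => ?_⟩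
          have h2 := hk' j.castSucc (Fin.castSucc_lt_castSucc_iff.2 hj)
          rw [sn_castSucc, sn_castSucc] at h2
          exact h2
  -- counting
  set F : Finset (Fin (n + 1) →₀ ℕ) := (Finset.range (D + 1)).biUnion fun i =>
    (lexSet_finite h a (D - i) (q i)).toFinset.image fun m' => sn m' i with hF
  have hFc : F.card = ∑ i ∈ Finset.range (D + 1), (lexSet h a (D - i) (q i)).ncard := by
    rw [hF, Finset.card_biUnion]
    · refine Finset.sum_congr rfl fun i _ => ?_
      rw [Finset.card_image_of_injective _ fun x y hxy => (sn_injective hxy).1,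
        Set.ncard_eq_toFinset_card _ (lexSet_finite h a (D - i) (q i))]
    · intro i _ j _ hij
      rw [Function.onFun, Finset.disjoint_left]
      intro x hx hx'
      rw [Finset.mem_image] at hx hx'
      obtain ⟨y, -, rfl⟩ := hx
      obtain ⟨z, -, hz⟩ := hx'
      exact hij (sn_injective hz).2.symm
  have hsub : F ⊆ (lexSet_finite h' a D Q).toFinset.erase (sn m 0) := by
    intro x hx
    rw [hF, Finset.mem_biUnion] at hx
    obtain ⟨i, hi, hx⟩ := hx
    rw [Finset.mem_image] at hx
    obtain ⟨m', hm', rfl⟩ := hx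
    rw [Set.Finite.mem_toFinset] at hm'
    rw [Finset.mem_range] at hi
    obtain ⟨h1, h2⟩ := key i (by omega) m' hm'
    rw [Finset.mem_erase, Set.Finite.mem_toFinset]
    exact ⟨h2, h1⟩
  have h1 := Finset.card_le_card hsub
  have hmem : sn m 0 ∈ (lexSet_finite h' a D Q).toFinset := by
    rw [Set.Finite.mem_toFinset]
    exact hm
  have h2 := Finset.card_erase_lt_of_mem hmem
  rw [← Set.ncard_eq_toFinset_card _ (lexSet_finite h' a D Q)] at h2
  omega

/-- the layers of a lex-plus-powers set are stable -/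
theorem lexSet_stable (h' : c ≤ n + 1) (h : c ≤ n) (a : Fin c → ℕ) (D Q i : ℕ)
    (m : Fin n →₀ ℕ) (hm : sn m (i + 1) ∈ lexSet h' a D Q) (j : Fin n) :
    sn (m + Finsupp.single j 1) i ∈ lexSet h' a D Q := by
  have hdeg : ∑ k, sn (m + Finsupp.single j 1) i k = D := by
    have h1 := mem_lexSet_degree h' a hm
    rw [lex_sum_sn] at h1 ⊢
    rw [sum_add_single]
    omega
  by_cases hin : ∃ l, a l ≤ sn (m + Finsupp.single j 1) i (Fin.castLE h' l)
  · exact Or.inl ⟨hin, hdeg⟩
  · push Not at hin
    have ho : sn m (i + 1) ∈ outside h' a D := by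
      refine ⟨fun l => ?_, mem_lexSet_degree h' a hm⟩
      have h1 := hin l
      rw [sn_castLE h h', Finsupp.add_apply] at h1
      rw [sn_castLE h h']
      omega
    refine lexSet_up h' a ⟨hin, hdeg⟩ ⟨j.castSucc, ?_, fun k hk => ?_⟩ hm ho
    · rw [sn_castSucc, sn_castSucc, add_single_same]
      omega
    · induction k using Fin.lastCases with
      | last => exact absurd hk (not_lt.mpr (Fin.le_last _))
      | cast k =>
        rw [Fin.castSucc_lt_castSucc_iff] at hk
        rw [sn_castSucc, sn_castSucc, add_single_ne m hk.ne]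

theorem finrank_lx (h : c ≤ n) (a : Fin c → ℕ) (D v : ℕ) (h1 : (insideP h a D).ncard ≤ v)
    (h2 : v ≤ finrank K (homogeneousSubmodule (Fin n) K D)) :
    finrank K (lx K h a D v) = v := by
  have hin : (insideP h a D).Finite := (finite_degree_eq D).subset fun _ hm => hm.2
  rw [finrank_homogeneous_eq h a, degPart_powerIdeal, finrank_restrictSupport _ hin] at h2
  rw [lx, finrank_restrictSupport _ (lexSet_finite _ _ _ _), ncard_lexSet]
  omega

theorem lxl_le (h : c ≤ n + 1) (a : Fin c → ℕ) (D v i : ℕ) :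
    lxl K h a D v i ≤ Bd K n D i := by
  have hdeg : ∀ m : Fin n →₀ ℕ, sn m i ∈ lexSet h a D (v - (insideP h a D).ncard) →
      ∑ k, m k + i = D := by
    intro m hm
    rw [← lex_sum_sn]
    exact mem_lexSet_degree h a hm
  rw [lxl, Bd]
  split_ifs with hi
  · rw [homogeneousSubmodule_eq_restrict]
    apply restrictSupport_mono
    intro m hm
    have h1 := hdeg m hm
    show ∑ k, m k = D - i
    omega
  · intro x hx
    rw [MvPolynomial.mem_restrictSupport_iff] at hx
    rw [Submodule.mem_bot, ← MvPolynomial.support_eq_empty, Finset.eq_empty_iff_forall_notMem]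
    intro m hm
    have h1 := hdeg m (hx hm)
    omega

theorem map_eE_lx (h : c ≤ n + 1) (a : Fin c → ℕ) (D v : ℕ) :
    (lx K h a D v).map (eE K n).toLinearMap = grs (lxl K h a D v) :=
  map_eE_restrictSupport _

end Vale.Agent.P200F.L

end

section

namespace Vale.Agent.P200F.L

open MvPolynomial Module
open Vale.Agent.P200F.B Vale.Agent.P200F.G

variable {K : Type*} [Field K] {n c : ℕ}

/-- the zero part of the powers -/
theorem ncard_insideP_le (h : c ≤ n) (a : Fin c → ℕ) (hpos : ∀ i, 1 ≤ a i)
    (f : Fin c → MvPolynomial (Fin n) K) (hf : ∀ i, (f i).IsHomogeneous (a i))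
    (hreg : IsRegularSeq f) (D : ℕ) :
    (insideP h a D).ncard = finrank K (piece (Ideal.span (Set.range f)) D) := by
  have h1 := finrank_powerIdeal h a hpos f hf hreg D
  rw [degPart_powerIdeal, finrank_restrictSupport _ ((finite_degree_eq D).subset
    fun _ hm => hm.2)] at h1
  exact h1

/-- the ideal generated by a space containing `(f)_D` -/
theorem piece_span_space {D : ℕ} (f : Fin c → MvPolynomial (Fin n) K) (a : Fin c → ℕ)
    (hf : ∀ i, (f i).IsHomogeneous (a i)) (V : Submodule K (MvPolynomial (Fin n) K))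
    (hV1 : piece (Ideal.span (Set.range f)) D ≤ V)
    (hV2 : V ≤ homogeneousSubmodule (Fin n) K D) :
    ∃ I : Ideal (MvPolynomial (Fin n) K), HomIdeal I ∧ (∀ i, f i ∈ I) ∧ piece I D = V ∧
      ∀ W : Submodule K (MvPolynomial (Fin n) K), piece (Ideal.span (Set.range f)) (D + 1) ≤ W →
        (∀ j : Fin n, ∀ b ∈ V, X j * b ∈ W) → piece I (D + 1) ≤ W := by
  set s : Set (MvPolynomial (Fin n) K) := (V : Set (MvPolynomial (Fin n) K)) ∪ Set.range f with hs
  have hfcomp : ∀ (i : Fin c) (d : ℕ) (w : MvPolynomial (Fin n) K),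
      homogeneousComponent d (w * f i) ∈ piece (Ideal.span (Set.range f)) d := by
    intro i d w
    refine ⟨?_, homogeneousComponent_isHomogeneous _ _⟩
    have hh : HomIdeal (Ideal.span (Set.range f)) := homIdeal_span fun g hg => by
      obtain ⟨i, rfl⟩ := hg
      exact ⟨a i, hf i⟩
    exact hh _ (Ideal.mul_mem_left _ _ (Ideal.subset_span ⟨i, rfl⟩)) d
  refine ⟨Ideal.span s, homIdeal_span fun g hg => ?_, fun i =>
    Ideal.subset_span (Or.inr ⟨i, rfl⟩), le_antisymm ?_ ?_, ?_⟩
  · rcases hg with hg | ⟨i, rfl⟩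
    · exact ⟨D, hV2 hg⟩
    · exact ⟨a i, hf i⟩
  · apply piece_span_le
    rintro x (hx | ⟨i, rfl⟩) w
    · rw [comp_zero_mul w (hV2 hx)]
      exact Submodule.smul_mem _ _ hx
    · exact hV1 (hfcomp i D w)
  · intro g hg
    exact ⟨Ideal.subset_span (Or.inl hg), hV2 hg⟩
  · intro W hW1 hW2
    apply piece_span_le
    rintro x (hx | ⟨i, rfl⟩) w
    · have h1 := comp_mul_add (hV2 hx) w 1
      rw [add_comm 1 D] at h1
      rw [mul_comm w x, h1, mul_comm]
      -- `homogeneousComponent 1 w` is a combination of the variables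
      have h2 : (homogeneousComponent 1 w) ∈
          Submodule.span K (Set.range (X : Fin n → MvPolynomial (Fin n) K)) := by
        rw [← homogeneousSubmodule_one_eq_span_X]
        exact homogeneousComponent_isHomogeneous _ _
      refine Submodule.span_induction (p := fun g _ => g * x ∈ W) ?_ ?_ ?_ ?_ h2
      · rintro _ ⟨j, rfl⟩
        exact hW2 j x hx
      · rw [zero_mul]
        exact W.zero_mem
      · intro u v _ _ hu hv
        rw [add_mul]
        exact W.add_mem hu hv
      · intro k u _ hu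
        rw [smul_mul_assoc]
        exact W.smul_mem k hu
    · exact hW1 (hfcomp i (D + 1) w)

/-- the space of the lex-plus-powers ideal of the ideal generated by `V` -/
theorem lexPart_eq_lx (h : c ≤ n) (a : Fin c → ℕ) (I : Ideal (MvPolynomial (Fin n) K)) (D : ℕ) :
    lexPart h a I D = lx K h a D (finrank K (piece I D)) := by
  rw [lexPart_eq, lx, qdim, degPart_powerIdeal, finrank_restrictSupport _
    ((finite_degree_eq D).subset fun _ hm => hm.2)]
  rfl

/-- reduction of families modulo an ideal -/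
noncomputable def red (I : Ideal (MvPolynomial (Fin n) K)) :
    (Finset (Fin n) → MvPolynomial (Fin n) K) →ₗ[K]
      (Finset (Fin n) → MvPolynomial (Fin n) K ⧸ I) :=
  LinearMap.pi fun t => (Ideal.Quotient.mkₐ K I).toLinearMap ∘ₗ LinearMap.proj t

theorem red_apply (I : Ideal (MvPolynomial (Fin n) K))
    (c : Finset (Fin n) → MvPolynomial (Fin n) K) (t : Finset (Fin n)) :
    red I c t = Ideal.Quotient.mk I (c t) := rfl

theorem koszulD_red (I : Ideal (MvPolynomial (Fin n) K))
    (c : Finset (Fin n) → MvPolynomial (Fin n) K) : koszulD I (red I c) = red I (kd X c) := by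
  funext t
  rw [red_apply, kd_map]
  rfl

theorem sign_mul_mem' (W : Submodule K (MvPolynomial (Fin n) K)) (m : ℕ)
    {x : MvPolynomial (Fin n) K} (hx : x ∈ W) : (-1 : MvPolynomial (Fin n) K) ^ m * x ∈ W := by
  rcases neg_one_pow_eq_or (MvPolynomial (Fin n) K) m with h | h
  · rw [h, one_mul]
    exact hx
  · rw [h, neg_one_mul]
    exact W.neg_mem hx

/-- the differential of a family of forms -/
theorem kd_hom {c : Finset (Fin n) → MvPolynomial (Fin n) K} {e : ℕ}
    (hc : ∀ s, c s ∈ homogeneousSubmodule (Fin n) K e) (t : Finset (Fin n)) :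
    kd X c t ∈ homogeneousSubmodule (Fin n) K (e + 1) := by
  rw [kd_apply]
  refine Submodule.sum_mem _ fun i _ => sign_mul_mem' _ _ ?_
  rw [add_comm]
  exact (isHomogeneous_X K i).mul (hc _)

/-- the differential of a family in an ideal -/
theorem kd_piece {I : Ideal (MvPolynomial (Fin n) K)}
    {c : Finset (Fin n) → MvPolynomial (Fin n) K} {e : ℕ}
    (hc : ∀ s, c s ∈ piece I e) (t : Finset (Fin n)) : kd X c t ∈ piece I (e + 1) := by
  refine ⟨?_, kd_hom (fun s => (hc s).2) t⟩
  show kd X c t ∈ I
  rw [kd_apply]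
  exact Ideal.sum_mem _ fun i _ => I.mul_mem_left _ (I.mul_mem_left _ (hc _).1)

/-- chains modulo an ideal are reductions of families of forms -/
theorem map_red_chW (I : Ideal (MvPolynomial (Fin n) K)) (p e : ℕ) :
    (chW n p (homogeneousSubmodule (Fin n) K e)).map (red I) = koszulChain I p (p + e) := by
  apply le_antisymm
  · rintro _ ⟨g, hg, rfl⟩
    refine ⟨fun s hs => ?_, fun s => ?_⟩
    · rw [red_apply, hg.1 s hs, map_zero]
    · rw [if_pos (by omega), Nat.add_sub_cancel_left]
      exact mem_quotPiece.2 ⟨_, hg.2 s, rfl⟩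
  · intro c hc
    have h1 : ∀ s, ∃ g : MvPolynomial (Fin n) K, Ideal.Quotient.mk I g = c s ∧
        g.IsHomogeneous e ∧ (s.card ≠ p → g = 0) := by
      intro s
      by_cases hs : s.card = p
      · have h2 := hc.2 s
        rw [if_pos (by omega), Nat.add_sub_cancel_left] at h2
        obtain ⟨g, hg, hg'⟩ := mem_quotPiece.1 h2
        exact ⟨g, hg', hg, fun h => absurd hs h⟩
      · exact ⟨0, by rw [hc.1 s hs, map_zero], isHomogeneous_zero _ _ _, fun _ => rfl⟩
    choose g hg1 hg2 hg3 using h1
    exact ⟨g, ⟨fun s hs => hg3 s hs, fun s => hg2 s⟩, funext fun s => hg1 s⟩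

/-- cycles modulo an ideal -/
theorem finrank_cycles (I : Ideal (MvPolynomial (Fin n) K)) (p e : ℕ) :
    finrank K ↥(koszulChain I p (p + e) ⊓ LinearMap.ker (koszulD I)) +
      n.choose p * finrank K (piece I e) =
      finrank K (rc X (piece I (e + 1)) (homogeneousSubmodule (Fin n) K e) p) := by
  have h1 := finrank_map_add (red I)
    (rc X (piece I (e + 1)) (homogeneousSubmodule (Fin n) K e) p)
  have h2 : (rc X (piece I (e + 1)) (homogeneousSubmodule (Fin n) K e) p).map (red I) =
      koszulChain I p (p + e) ⊓ LinearMap.ker (koszulD I) := by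
    apply le_antisymm
    · rintro _ ⟨g, hg, rfl⟩
      refine ⟨?_, LinearMap.mem_ker.2 ?_⟩
      · rw [← map_red_chW]
        exact ⟨g, hg.1, rfl⟩
      · rw [koszulD_red]
        funext t
        rw [red_apply]
        exact Ideal.Quotient.eq_zero_iff_mem.2 (hg.2 t).1
    · rintro c ⟨hc1, hc2⟩
      have hc1' : c ∈ koszulChain I p (p + e) := hc1
      rw [← map_red_chW] at hc1'
      obtain ⟨g, hg, rfl⟩ := hc1'
      refine ⟨g, ⟨hg, fun t => ⟨?_, kd_hom hg.2 t⟩⟩, rfl⟩
      have h3 := LinearMap.mem_ker.1 hc2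
      rw [koszulD_red] at h3
      exact Ideal.Quotient.eq_zero_iff_mem.1 (congrFun h3 t)
  have h3 : rc X (piece I (e + 1)) (homogeneousSubmodule (Fin n) K e) p ⊓
      LinearMap.ker (red I) = chW n p (piece I e) := by
    ext g
    constructor
    · rintro ⟨hg1, hg2⟩
      refine ⟨hg1.1.1, fun s => ⟨?_, hg1.1.2 s⟩⟩
      exact Ideal.Quotient.eq_zero_iff_mem.1 (congrFun (LinearMap.mem_ker.1 hg2) s)
    · intro hg
      refine ⟨⟨⟨hg.1, fun s => (hg.2 s).2⟩, fun t => kd_piece hg.2 t⟩, LinearMap.mem_ker.2 ?_⟩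
      funext s
      exact Ideal.Quotient.eq_zero_iff_mem.2 (hg.2 s).1
  have h4 : Module.Finite K (piece I e) :=
    Submodule.finiteDimensional_of_le (G.piece_le I e)
  rw [h2, h3, finrank_chW] at h1
  exact h1

/-- boundaries modulo an ideal -/
theorem finrank_bds (I : Ideal (MvPolynomial (Fin n) K)) (p d : ℕ) :
    finrank K ((koszulChain I (p + 1) (p + (d + 1))).map (koszulD I)) +
      finrank K (rc X (piece I (d + 1)) (homogeneousSubmodule (Fin n) K d) (p + 1)) =
      n.choose (p + 1) * finrank K (homogeneousSubmodule (Fin n) K d) := by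
  have h1 := finrank_map_add (koszulD I ∘ₗ red I)
    (chW n (p + 1) (homogeneousSubmodule (Fin n) K d))
  rw [Submodule.map_comp, map_red_chW, finrank_chW,
    show p + 1 + d = p + (d + 1) by omega] at h1
  have h2 : chW n (p + 1) (homogeneousSubmodule (Fin n) K d) ⊓
      LinearMap.ker (koszulD I ∘ₗ red I) =
      rc X (piece I (d + 1)) (homogeneousSubmodule (Fin n) K d) (p + 1) := by
    ext g
    constructor
    · rintro ⟨hg1, hg2⟩
      refine ⟨hg1, fun t => ⟨?_, kd_hom hg1.2 t⟩⟩
      have h3 := LinearMap.mem_ker.1 hg2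
      rw [LinearMap.comp_apply, koszulD_red] at h3
      exact Ideal.Quotient.eq_zero_iff_mem.1 (congrFun h3 t)
    · intro hg
      refine ⟨hg.1, LinearMap.mem_ker.2 ?_⟩
      rw [LinearMap.comp_apply, koszulD_red]
      funext t
      exact Ideal.Quotient.eq_zero_iff_mem.2 (hg.2 t).1
  rw [h2] at h1
  exact h1

theorem betti_rc_zero (I : Ideal (MvPolynomial (Fin n) K)) (_hI : HomIdeal I) (p : ℕ) :
    betti I p p + n.choose p * finrank K (piece I 0) =
      finrank K (rc X (piece I 1) (homogeneousSubmodule (Fin n) K 0) p) := by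
  have h1 := betti_add I p p
  rw [koszulChain_eq_bot I (Or.inr (Nat.lt_succ_self p)), Submodule.map_bot, finrank_bot,
    add_zero] at h1
  have h2 := finrank_cycles I p 0
  rw [add_zero, zero_add] at h2
  rw [h1]
  exact h2

theorem betti_rc (I : Ideal (MvPolynomial (Fin n) K)) (_hI : HomIdeal I) (p d : ℕ) :
    betti I p (p + (d + 1)) + n.choose p * finrank K (piece I (d + 1)) +
        n.choose (p + 1) * finrank K (homogeneousSubmodule (Fin n) K d) =
      finrank K (rc X (piece I (d + 2)) (homogeneousSubmodule (Fin n) K (d + 1)) p) +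
        finrank K (rc X (piece I (d + 1)) (homogeneousSubmodule (Fin n) K d) (p + 1)) := by
  have h1 := betti_add I p (p + (d + 1))
  have h2 := finrank_cycles I p (d + 1)
  have h3 := finrank_bds I p d
  rw [show d + 1 + 1 = d + 2 by omega] at h2
  omega

theorem zle_zero (h : c ≤ n) (a : Fin c → ℕ) (f : Fin c → MvPolynomial (Fin n) K) :
    ZLE K h a 0 f := by
  intro d V _ _
  have h1 : ∀ U : Submodule K (MvPolynomial (Fin n) K),
      rc X U (homogeneousSubmodule (Fin n) K d) 0 =
        chW n 0 (homogeneousSubmodule (Fin n) K d) := by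
    intro U
    refine le_antisymm (fun c hc => hc.1) fun c hc => ⟨hc, fun t => ?_⟩
    rw [kd_card_zero hc.1]
    exact U.zero_mem
  rw [h1, h1]

end Vale.Agent.P200F.L

end

section

namespace Vale.Agent.P200F.L

open MvPolynomial Module
open Vale.Agent.P200F.B Vale.Agent.P200F.G

variable {K : Type*} [Field K] {n c : ℕ}

/-- closure of lex layers under multiplication by the variables -/
theorem lexSet_closure (h : c ≤ n) (a : Fin c → ℕ) (hpos : ∀ i, 1 ≤ a i)
    (f : Fin c → MvPolynomial (Fin n) K) (hf : ∀ i, (f i).IsHomogeneous (a i))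
    (hreg : IsRegularSeq f) (hE : EGHfor h a f) (D : ℕ)
    (V W : Submodule K (MvPolynomial (Fin n) K))
    (hV1 : piece (Ideal.span (Set.range f)) D ≤ V)
    (hV2 : V ≤ homogeneousSubmodule (Fin n) K D)
    (hW1 : piece (Ideal.span (Set.range f)) (D + 1) ≤ W)
    (hW2 : W ≤ homogeneousSubmodule (Fin n) K (D + 1))
    (hVW : ∀ j : Fin n, ∀ b ∈ V, X j * b ∈ W) (m : Fin n →₀ ℕ)
    (hm : m ∈ lexSet h a D (finrank K V - (insideP h a D).ncard)) (j : Fin n) :
    m + Finsupp.single j 1 ∈ lexSet h a (D + 1) (finrank K W - (insideP h a (D + 1)).ncard) := by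
  obtain ⟨I, hI, hfI, hID, hI2⟩ := piece_span_space f a hf V hV1 hV2
  obtain ⟨J, hJ⟩ := hE I hI hfI
  obtain ⟨-, hJ2, -⟩ := lexPlusPowers_spec h a hpos f hf hreg I hI hfI J hJ
  have h1 : monomial m (1 : K) ∈ piece J D := by
    rw [hJ2, lexPart_eq_lx, hID]
    exact (monomial_mem_restrictSupport K).2 (Or.inl hm)
  have h2 : monomial (m + Finsupp.single j 1) (1 : K) ∈ piece J (D + 1) := by
    have h3 : monomial (m + Finsupp.single j 1) (1 : K) = X j * monomial m 1 := by
      rw [X, monomial_mul, one_mul, add_comm]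
    rw [h3]
    apply shd_piece_le J D
    exact Submodule.mem_iSup_of_mem j ⟨_, h1, rfl⟩
  rw [hJ2, lexPart_eq_lx] at h2
  have h3 := ((monomial_mem_restrictSupport K).1 h2).resolve_right one_ne_zero
  refine lexSet_mono h a (D + 1) ?_ h3
  have : Module.Finite K W := Submodule.finiteDimensional_of_le hW2
  exact Nat.sub_le_sub_right (Submodule.finrank_mono (hI2 W hW1 hVW)) _

theorem eE_X_fun : (fun i : Fin n => eE K n (X i.castSucc)) = xB K n := by
  funext i
  rw [eE_X_castSucc]

/-- the cycles of the lex space are counted by its layers -/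
theorem finrank_rc_lx (h' : c ≤ n + 1) (a : Fin c → ℕ) (d v p : ℕ) :
    finrank K (rc X (lx K h' a (d + 1) v) (homogeneousSubmodule (Fin (n + 1)) K d) (p + 1)) =
      zc (lxl K h' a (d + 1) v) p d := by
  have e2 : eE K n (X (Fin.last n)) = Polynomial.X := eE_X_last
  have e3 := finrank_pc_map (K := K) (R := MvPolynomial (Fin (n + 1)) K)
    (R' := Polynomial (MvPolynomial (Fin n) K)) (eE K n) (fun i : Fin n => (X i.castSucc))
    (X (Fin.last n)) (lx K h' a (d + 1) v) (homogeneousSubmodule (Fin (n + 1)) K d) p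
  rw [eE_X_fun, e2, map_eE_lx, map_eE_homogeneous] at e3
  rw [finrank_rc_succ, ← e3]
  exact zc_grs _ fun i => lxl_le h' a (d + 1) v i

theorem tot_lxl (h' : c ≤ n + 1) (a : Fin c → ℕ) (d v : ℕ)
    (h1 : (insideP h' a (d + 1)).ncard ≤ v)
    (h2 : v ≤ finrank K (homogeneousSubmodule (Fin (n + 1)) K (d + 1))) :
    tot (lxl K h' a (d + 1) v) (d + 1) = v := by
  rw [← finrank_grs _ (fun i => lxl_le h' a (d + 1) v i), ← map_eE_lx]
  rw [LinearEquiv.finrank_map_eq (eE K n).toLinearEquiv, finrank_lx h' a (d + 1) v h1 h2]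

/-- all families with entries in a lex layer are cycles modulo the previous one -/
theorem finrank_rc_lxl (h : c ≤ n) (h' : c ≤ n + 1) (a : Fin c → ℕ) (d v p i : ℕ) :
    finrank K (rc X (lxl K h' a (d + 1) v i) (lxl K h' a (d + 1) v (i + 1)) p) =
      n.choose p * finrank K (lxl K h' a (d + 1) v (i + 1)) := by
  have : Module.Finite K (lxl K h' a (d + 1) v (i + 1)) :=
    Submodule.finiteDimensional_of_le (lxl_le h' a (d + 1) v (i + 1))
  have h0 : rc X (lxl K h' a (d + 1) v i) (lxl K h' a (d + 1) v (i + 1)) p =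
      chW n p (lxl K h' a (d + 1) v (i + 1)) := by
    refine le_antisymm (fun u hu => hu.1) fun u hu => ⟨hu, fun t => ?_⟩
    rw [kd_apply]
    refine Submodule.sum_mem _ fun j _ => sign_mul_mem' _ _ ?_
    have h2 := hu.2 (insert j t)
    -- multiplication by a variable
    have h3 : (lxl K h' a (d + 1) v (i + 1)).map (LinearMap.mulLeft K (X j)) ≤
        lxl K h' a (d + 1) v i := by
      rw [lxl, restrictSupport_eq_span, Submodule.map_span, Submodule.span_le]
      rintro _ ⟨_, ⟨m, hm, rfl⟩, rfl⟩
      show X j * monomial m (1 : K) ∈ lxl K h' a (d + 1) v i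
      have h4 : X j * monomial m (1 : K) = monomial (m + Finsupp.single j 1) 1 := by
        rw [X, monomial_mul, one_mul, add_comm]
      rw [h4]
      exact (monomial_mem_restrictSupport K).2 (Or.inl (lexSet_stable h' h a _ _ i m hm j))
    exact h3 ⟨_, h2, rfl⟩
  rw [h0, finrank_chW]

/-- **the induction step** -/
theorem zle_succ [Infinite K] (h : c ≤ n) (h' : c ≤ n + 1) (a : Fin c → ℕ)
    (hpos : ∀ i, 1 ≤ a i) (f : Fin c → MvPolynomial (Fin (n + 1)) K)
    (hf : ∀ i, (f i).IsHomogeneous (a i)) (hreg : IsRegularSeq f) (p : ℕ)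
    (hE : ∀ cc : Fin n → K, IsRegularSeq (fun i => rho cc (f i)) →
      EGHfor h a fun i => rho cc (f i))
    (hZ : ∀ cc : Fin n → K, IsRegularSeq (fun i => rho cc (f i)) →
      ZLE K h a (p + 1) fun i => rho cc (f i)) :
    ZLE K h' a (p + 1) f := by
  intro d V hV1 hV2
  obtain ⟨cc, hcc⟩ := exists_rho_regular h a hpos f hf hreg
  specialize hE cc hcc
  specialize hZ cc hcc
  set fb : Fin c → MvPolynomial (Fin n) K := fun i => rho cc (f i) with hfb
  have hfbh : ∀ i, (fb i).IsHomogeneous (a i) := fun i => rho_isHomogeneous cc (hf i)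
  obtain ⟨V1, hL1, ht1, hz1⟩ := exists_layers cc a f hf p d V hV1 hV2
  obtain ⟨V2, hL2, ht2, hz2, hs2⟩ := exists_stable p hL1
  have hV2h : ∀ i ≤ d + 1, V2 i ≤ homogeneousSubmodule (Fin n) K (d + 1 - i) := by
    intro i hi
    have := hL2.le i
    rwa [Bd, if_pos hi] at this
  have hfin : ∀ i, Module.Finite K (V2 i) := fun i =>
    Submodule.finiteDimensional_of_le (hL2.le i)
  -- the lex layers
  set q : ℕ → ℕ := fun i => finrank K (V2 i) - (insideP h a (d + 1 - i)).ncard with hq
  have hins : ∀ D, (insideP h a D).ncard = finrank K (piece (Ideal.span (Set.range fb)) D) :=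
    fun D => ncard_insideP_le h a hpos fb hfbh hcc D
  have hins' : (insideP h' a (d + 1)).ncard =
      finrank K (piece (Ideal.span (Set.range f)) (d + 1)) :=
    ncard_insideP_le h' a hpos f hf hreg _
  have hfinV : Module.Finite K V := Submodule.finiteDimensional_of_le hV2
  have hv1 : (insideP h' a (d + 1)).ncard ≤ finrank K V := by
    rw [hins']
    exact Submodule.finrank_mono hV1
  have hv2 : finrank K V ≤ finrank K (homogeneousSubmodule (Fin (n + 1)) K (d + 1)) :=
    Submodule.finrank_mono hV2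
  set v := finrank K V with hv
  have hlxv : finrank K (lx K h' a (d + 1) v) = v := finrank_lx h' a (d + 1) v hv1 hv2
  have hcardi : ∀ i ≤ d + 1, (lexSet h a (d + 1 - i) (q i)).ncard = finrank K (V2 i) := by
    intro i hi
    have h1 : (insideP h a (d + 1 - i)).ncard ≤ finrank K (V2 i) := by
      rw [hins]
      have := hfin i
      exact Submodule.finrank_mono (hL2.ge i hi)
    have h2 : finrank K (V2 i) ≤ finrank K (homogeneousSubmodule (Fin n) K (d + 1 - i)) :=
      Submodule.finrank_mono (hV2h i hi)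
    have h3 := finrank_lx (K := K) h a (d + 1 - i) (finrank K (V2 i)) h1 h2
    rwa [lx, finrank_restrictSupport _ (lexSet_finite _ _ _ _)] at h3
  have hcl : ∀ i < d + 1, ∀ m ∈ lexSet h a (d + 1 - (i + 1)) (q (i + 1)), ∀ j : Fin n,
      m + Finsupp.single j 1 ∈ lexSet h a (d + 1 - i) (q i) := by
    intro i hi m hm j
    have e1 : d + 1 - i = d + 1 - (i + 1) + 1 := by omega
    have h1 := lexSet_closure h a hpos fb hfbh hcc hE (d + 1 - (i + 1)) (V2 (i + 1)) (V2 i)
      (hL2.ge _ (by omega)) (hV2h _ (by omega)) (by rw [← e1]; exact hL2.ge i (by omega))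
      (by rw [← e1]; exact hV2h i (by omega)) (fun j b hb => hs2 i (by omega) j b hb) m hm j
    rw [← e1] at h1
    exact h1
  have hcard : (lexSet h' a (d + 1) (v - (insideP h' a (d + 1)).ncard)).ncard ≤
      ∑ i ∈ Finset.range (d + 1 + 1), (lexSet h a (d + 1 - i) (q i)).ncard := by
    have h1 : (lexSet h' a (d + 1) (v - (insideP h' a (d + 1)).ncard)).ncard = v := by
      have h2 := hlxv
      rwa [lx, finrank_restrictSupport _ (lexSet_finite _ _ _ _)] at h2
    rw [h1, ← ht1, ← ht2, tot]
    exact Finset.sum_le_sum fun i hi => (hcardi i (by rw [Finset.mem_range] at hi; omega)).ge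
  have hlay := lex_layer h h' a (d + 1) q (v - (insideP h' a (d + 1)).ncard) hcl hcard
  -- the layers of the lex space
  set L := lxl K h' a (d + 1) v with hL
  have hLle : ∀ i, L i ≤ Bd K n (d + 1) i := fun i => lxl_le h' a (d + 1) v i
  have hLfin : ∀ i, Module.Finite K (L i) := fun i =>
    Submodule.finiteDimensional_of_le (hLle i)
  have hLtot : tot L (d + 1) = v := tot_lxl h' a d v hv1 hv2
  have hzL : finrank K (rc X (lx K h' a (d + 1) v) (homogeneousSubmodule (Fin (n + 1)) K d)
      (p + 1)) = zc L p d := finrank_rc_lx h' a d v p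
  have hL0 : L 0 ≤ lx K h a (d + 1) (finrank K (V2 0)) := by
    refine restrictSupport_mono K fun m hm => ?_
    exact hlay m hm
  -- the inequalities
  have hV20 := hZ d (V2 0) (by simpa using hL2.ge 0 (by omega)) (by simpa using hV2h 0 (by omega))
  have hM : finrank K (lx K h a (d + 1) (finrank K (V2 0))) = finrank K (V2 0) := by
    have h3 := hcardi 0 (by omega)
    rw [lx, finrank_restrictSupport _ (lexSet_finite _ _ _ _)]
    exact h3
  have hfinM : Module.Finite K (lx K h a (d + 1) (finrank K (V2 0))) := by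
    have h1 : lx K h a (d + 1) (finrank K (V2 0)) ≤ homogeneousSubmodule (Fin n) K (d + 1) := by
      rw [homogeneousSubmodule_eq_restrict]
      refine restrictSupport_mono K ?_
      rintro m (hm | hm)
      · exact hm.2
      · exact hm.1.2
    exact Submodule.finiteDimensional_of_le h1
  have hmono := finrank_rc_mono (K := K) (X : Fin n → MvPolynomial (Fin n) K) hL0
    (homogeneousSubmodule (Fin n) K d) p
  rw [hM] at hmono
  have hup : ∀ i, finrank K (rc X (V2 i) (V2 (i + 1)) p) ≤ n.choose p * finrank K (V2 (i + 1)) :=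
    fun i => by
      have := hfin (i + 1)
      exact finrank_rc_le X _ _ p
  have hrcL : ∑ i ∈ Finset.range (d + 1), finrank K (rc X (L i) (L (i + 1)) p) =
      n.choose p * ∑ i ∈ Finset.range (d + 1), finrank K (L (i + 1)) := by
    rw [Finset.mul_sum]
    exact Finset.sum_congr rfl fun i _ => finrank_rc_lxl h h' a d v p i
  rw [hzL]
  refine hz1.trans (hz2.trans ?_)
  rw [zc, zc, Finset.sum_add_distrib, Finset.sum_add_distrib, hrcL]
  have e1 : ∑ i ∈ Finset.range (d + 1), finrank K (rc X (V2 i) (V2 (i + 1)) p) ≤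
      n.choose p * ∑ i ∈ Finset.range (d + 1), finrank K (V2 (i + 1)) := by
    rw [Finset.mul_sum]
    exact Finset.sum_le_sum fun i _ => hup i
  have e2 : tot V2 (d + 1) = ∑ i ∈ Finset.range (d + 1), finrank K (V2 (i + 1)) +
      finrank K (V2 0) := by
    rw [tot, Finset.sum_range_succ']
  have e3 : tot L (d + 1) = ∑ i ∈ Finset.range (d + 1), finrank K (L (i + 1)) +
      finrank K (L 0) := by
    rw [tot, Finset.sum_range_succ']
  rw [← Finset.mul_sum]
  have e4 : n.choose p * ∑ i ∈ Finset.range (d + 1), finrank K (V2 (i + 1)) +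
      n.choose p * finrank K (V2 0) = n.choose p * v := by
    rw [← mul_add, ← e2, ht2, ht1]
  have e5 : n.choose p * ∑ i ∈ Finset.range (d + 1), finrank K (L (i + 1)) +
      n.choose p * finrank K (L 0) = n.choose p * v := by
    rw [← mul_add, ← e3, hLtot]
  omega

end Vale.Agent.P200F.L

end

section

namespace Vale.Agent.P200F.L

open MvPolynomial Module
open Vale.Agent.P200F.B Vale.Agent.P200F.G

variable {K L : Type*} [Field K] [Field L] [Algebra K L] {n : ℕ}

/-- entrywise extension of scalars commutes with the Koszul differential -/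
theorem kd_X_map (c : Finset (Fin n) → MvPolynomial (Fin n) K) (t : Finset (Fin n)) :
    kd X (fun s => MvPolynomial.map (algebraMap K L) (c s)) t =
      MvPolynomial.map (algebraMap K L) (kd X c t) := by
  rw [kd_map (MvPolynomial.map (σ := Fin n) (algebraMap K L)) X c t]
  simp only [MvPolynomial.map_X]

/-- coordinates of cycles -/
theorem kd_X_bcc (φ : L →ₗ[K] K) (c : Finset (Fin n) → MvPolynomial (Fin n) L)
    (t : Finset (Fin n)) :
    kd X (fun s => bcc φ (c s)) t = bcc φ (kd X c t) := by
  rw [kd_apply, kd_apply, bcc_sum]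
  refine Finset.sum_congr rfl fun i _ => ?_
  have h1 : ((-1 : MvPolynomial (Fin n) L) ^ (t.filter fun k => k < i).card) *
      (X i * c (insert i t)) =
      MvPolynomial.map (algebraMap K L)
        ((-1 : MvPolynomial (Fin n) K) ^ (t.filter fun k => k < i).card * X i) *
        c (insert i t) := by
    rw [map_mul, map_pow, map_neg, map_one, MvPolynomial.map_X, mul_assoc]
  rw [h1, bcc_map_mul, mul_assoc]

/-- `K`-linearly independent families stay `L`-linearly independent -/
theorem linearIndependent_map_fam {ι : Type*} [Fintype ι]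
    (u : ι → Finset (Fin n) → MvPolynomial (Fin n) K) (hu : LinearIndependent K u) :
    LinearIndependent L (fun i => fun s => MvPolynomial.map (algebraMap K L) (u i s)) := by
  rw [Fintype.linearIndependent_iff]
  intro c hc i
  have h1 : ∀ φ : L →ₗ[K] K, φ (c i) = 0 := by
    intro φ
    have h3 : ∑ i, φ (c i) • u i = 0 := by
      funext s
      have h2 := congrArg (bcc φ) (congrFun hc s)
      rw [Finset.sum_apply, Pi.zero_apply, bcc_sum, bcc_zero] at h2
      rw [Finset.sum_apply, Pi.zero_apply, ← h2]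
      refine Finset.sum_congr rfl fun i _ => ?_
      rw [Pi.smul_apply, Pi.smul_apply, bcc_smul_map]
    exact Fintype.linearIndependent_iff.1 hu _ h3 i
  have B := Module.Basis.ofVectorSpace K L
  apply B.ext_elem
  intro α
  rw [map_zero, Finsupp.zero_apply]
  exact h1 (B.coord α)

theorem finrank_rc_le_baseChange (U : Submodule K (MvPolynomial (Fin n) K))
    (U' : Submodule L (MvPolynomial (Fin n) L))
    (hU : ∀ g ∈ U, MvPolynomial.map (algebraMap K L) g ∈ U') (d p : ℕ) :
    finrank K (rc X U (homogeneousSubmodule (Fin n) K d) p) ≤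
      finrank L (rc X U' (homogeneousSubmodule (Fin n) L d) p) := by
  classical
  set V := rc X U (homogeneousSubmodule (Fin n) K d) p with hV
  let u := Module.finBasis K V
  let w : Fin (finrank K V) → Finset (Fin n) → MvPolynomial (Fin n) L := fun i s =>
    MvPolynomial.map (algebraMap K L) ((u i : Finset (Fin n) → MvPolynomial (Fin n) K) s)
  have hu : LinearIndependent K
      (fun i => (u i : Finset (Fin n) → MvPolynomial (Fin n) K)) :=
    u.linearIndependent.map' V.subtype V.ker_subtype
  have hw : LinearIndependent L w := linearIndependent_map_fam _ hu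
  have hle : Submodule.span L (Set.range w) ≤
      rc X U' (homogeneousSubmodule (Fin n) L d) p := by
    rw [Submodule.span_le]
    rintro _ ⟨i, rfl⟩
    have h := mem_rc.1 (u i).2
    refine ⟨⟨fun s hs => ?_, fun s => ?_⟩, fun t => ?_⟩
    · show MvPolynomial.map (algebraMap K L)
        ((u i : Finset (Fin n) → MvPolynomial (Fin n) K) s) = 0
      rw [h.1.1 s hs, map_zero]
    · exact IsHomogeneous.map (h.1.2 s) _
    · have h1 := kd_X_map (L := L) (u i : Finset (Fin n) → MvPolynomial (Fin n) K) t
      show kd X (fun s => MvPolynomial.map (algebraMap K L)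
        ((u i : Finset (Fin n) → MvPolynomial (Fin n) K) s)) t ∈ U'
      rw [h1]
      exact hU _ (h.2 t)
  have h1 := Submodule.finrank_mono hle
  rw [finrank_span_eq_card hw, Fintype.card_fin] at h1
  exact h1

theorem finrank_rc_restrictSupport (S : Set (Fin n →₀ ℕ)) (d p : ℕ) :
    finrank L (rc X (restrictSupport L S) (homogeneousSubmodule (Fin n) L d) p) ≤
      finrank K (rc X (restrictSupport K S) (homogeneousSubmodule (Fin n) K d) p) := by
  classical
  set V := rc X (restrictSupport K S) (homogeneousSubmodule (Fin n) K d) p with hV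
  let u := Module.finBasis K V
  let w : Fin (finrank K V) → Finset (Fin n) → MvPolynomial (Fin n) L := fun i s =>
    MvPolynomial.map (algebraMap K L) ((u i : Finset (Fin n) → MvPolynomial (Fin n) K) s)
  have hle : rc X (restrictSupport L S) (homogeneousSubmodule (Fin n) L d) p ≤
      Submodule.span L (Set.range w) := by
    intro c hc
    rw [mem_rc, mem_chW] at hc
    let B := Module.Basis.ofVectorSpace K L
    -- coordinates of `c` are cycles
    have h1 : ∀ φ : L →ₗ[K] K, (fun s => bcc φ (c s)) ∈ V := by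
      intro φ
      rw [hV, mem_rc, mem_chW]
      refine ⟨⟨fun s hs => ?_, fun s => ?_⟩, fun t => ?_⟩
      · show bcc φ (c s) = 0
        rw [hc.1.1 s hs, bcc_zero]
      · exact bcc_isHomogeneous _ (hc.1.2 s)
      · rw [kd_X_bcc, mem_restrictSupport_iff]
        intro m hm
        rw [coeff_bcc] at hm
        refine (mem_restrictSupport_iff.1 (hc.2 t)) m fun h0 => hm ?_
        rw [h0, map_zero]
    -- a common finite set of basis elements
    have h2 : ∃ T : Finset _, ∀ s, c s =
        ∑ α ∈ T, B α • MvPolynomial.map (algebraMap K L) (bcc (B.coord α) (c s)) := by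
      have h3 : ∀ s, ∃ T : Finset _, ∀ T' : Finset _, T ⊆ T' → c s =
          ∑ α ∈ T', B α • MvPolynomial.map (algebraMap K L) (bcc (B.coord α) (c s)) := by
        intro s
        refine ⟨(c s).support.biUnion fun m => (B.repr (coeff m (c s))).support, ?_⟩
        intro T' hT'
        ext m
        rw [coeff_sum]
        have h4 : ∀ α, coeff m (B α • MvPolynomial.map (algebraMap K L)
            (bcc (B.coord α) (c s))) = (B.repr (coeff m (c s)) α) • B α := by
          intro α
          rw [coeff_smul, coeff_map, coeff_bcc, smul_eq_mul, mul_comm, ← Algebra.smul_def,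
            Module.Basis.coord_apply]
        rw [Finset.sum_congr rfl fun α _ => h4 α]
        by_cases hm : m ∈ (c s).support
        · conv_lhs => rw [← B.linearCombination_repr (coeff m (c s)),
            Finsupp.linearCombination_apply, Finsupp.sum]
          refine Finset.sum_subset ((Finset.subset_biUnion_of_mem
            (fun m => (B.repr (coeff m (c s))).support) hm).trans hT') fun α _ hα => ?_
          rw [Finsupp.notMem_support_iff.1 hα, zero_smul]
        · rw [MvPolynomial.notMem_support_iff.1 hm, map_zero]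
          simp
      choose T hT using h3
      exact ⟨Finset.univ.biUnion T, fun s =>
        hT s _ (Finset.subset_biUnion_of_mem T (Finset.mem_univ s))⟩
    obtain ⟨T, hT⟩ := h2
    have h3 : c = ∑ α ∈ T, B α • (fun s =>
        MvPolynomial.map (algebraMap K L) (bcc (B.coord α) (c s))) := by
      funext s
      rw [Finset.sum_apply]
      exact hT s
    rw [h3]
    refine Submodule.sum_mem _ fun α _ => Submodule.smul_mem _ _ ?_
    have h4 := congrArg V.subtype (u.sum_repr ⟨_, h1 (B.coord α)⟩)
    rw [map_sum] at h4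
    have h5 : (fun s => MvPolynomial.map (algebraMap K L) (bcc (B.coord α) (c s))) =
        ∑ i, (algebraMap K L (u.repr ⟨_, h1 (B.coord α)⟩ i)) • w i := by
      funext s
      have h6 := congrFun h4 s
      rw [Finset.sum_apply] at h6
      have h7 : bcc (B.coord α) (c s) = ∑ i, (u.repr ⟨_, h1 (B.coord α)⟩ i) •
          ((u i : Finset (Fin n) → MvPolynomial (Fin n) K) s) := h6.symm
      rw [h7, map_sum, Finset.sum_apply]
      refine Finset.sum_congr rfl fun i _ => ?_
      rw [Pi.smul_apply, smul_eq_C_mul, map_mul, map_C, C_mul']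
    rw [h5]
    exact Submodule.sum_mem _ fun i _ => Submodule.smul_mem _ _
      (Submodule.subset_span ⟨i, rfl⟩)
  have h1 : finrank L (rc X (restrictSupport L S) (homogeneousSubmodule (Fin n) L d) p) ≤
      finrank L (Submodule.span L (Set.range w)) := by
    have : Module.Finite L (Submodule.span L (Set.range w)) :=
      FiniteDimensional.span_of_finite L (Set.finite_range w)
    exact Submodule.finrank_mono hle
  refine h1.trans ?_
  have h2 := finrank_range_le_card (R := L) w
  rw [Fintype.card_fin] at h2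
  exact h2

end Vale.Agent.P200F.L

end

section

namespace Vale.Agent.P200F.L

open MvPolynomial Module
open Vale.Agent.P200F.B Vale.Agent.P200F.G

variable {K : Type*} [Field K] {n c : ℕ}

/-- all numbers of variables, from `n = c` (for one `p`, and a class `C` of forms which is closed
under general linear sections) -/
theorem zle_all [Infinite K] (a : Fin c → ℕ) (hpos : ∀ i, 1 ≤ a i) (p : ℕ)
    (C : ∀ n : ℕ, (Fin c → MvPolynomial (Fin n) K) → Prop)
    (hC : ∀ (n : ℕ) (f : Fin c → MvPolynomial (Fin (n + 1)) K), C (n + 1) f →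
      ∀ cc : Fin n → K, C n fun i => rho cc (f i))
    (hE : ∀ (n : ℕ) (h : c ≤ n) (f : Fin c → MvPolynomial (Fin n) K),
      (∀ i, (f i).IsHomogeneous (a i)) → IsRegularSeq f → C n f → EGHfor h a f)
    (base : ∀ f : Fin c → MvPolynomial (Fin c) K,
      (∀ i, (f i).IsHomogeneous (a i)) → IsRegularSeq f → C c f → ZLE K le_rfl a p f) :
    ∀ (n : ℕ) (h : c ≤ n) (f : Fin c → MvPolynomial (Fin n) K),
      (∀ i, (f i).IsHomogeneous (a i)) → IsRegularSeq f → C n f → ZLE K h a p f := by
  intro n h
  induction n, h using Nat.le_induction with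
  | base => exact base
  | succ n h ih =>
    intro f hf hreg hCf
    cases p with
    | zero => exact zle_zero _ a f
    | succ p =>
      exact zle_succ h (Nat.le_succ_of_le h) a hpos f hf hreg p
        (fun cc hcc => hE n h _ (fun i => rho_isHomogeneous cc (hf i)) hcc (hC n f hCf cc))
        (fun cc hcc => ih _ (fun i => rho_isHomogeneous cc (hf i)) hcc (hC n f hCf cc))

/-- descent along an extension of the field -/
theorem zle_of_baseChange {L : Type*} [Field L] [Algebra K L] (h : c ≤ n) (a : Fin c → ℕ)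
    (p : ℕ) (f : Fin c → MvPolynomial (Fin n) K) (hf : ∀ i, (f i).IsHomogeneous (a i))
    (hZ : ZLE L h a p fun i => MvPolynomial.map (algebraMap K L) (f i)) : ZLE K h a p f := by
  intro d V hV1 hV2
  obtain ⟨I, hI, hfI, hID, -⟩ := piece_span_space f a hf V hV1 hV2
  set IL : Ideal (MvPolynomial (Fin n) L) := I.map (MvPolynomial.map (σ := Fin n) (algebraMap K L))
    with hIL
  have h1 : Ideal.span (Set.range fun i => MvPolynomial.map (algebraMap K L) (f i)) ≤ IL := by
    rw [Ideal.span_le]
    rintro _ ⟨i, rfl⟩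
    exact Ideal.mem_map_of_mem _ (hfI i)
  have h2 := hZ d (piece IL (d + 1)) (piece_mono h1 _) (G.piece_le IL _)
  have h3 : finrank L (piece IL (d + 1)) = finrank K V := by
    have h4 := finrank_piece_add_hilb IL (d + 1)
    have h5 := finrank_piece_add_hilb I (d + 1)
    rw [hilb_baseChange I hI] at h4
    rw [hID] at h5
    have h6 : finrank L (homogeneousSubmodule (Fin n) L (d + 1)) =
        finrank K (homogeneousSubmodule (Fin n) K (d + 1)) := by
      rw [finrank_homogeneousSubmodule, finrank_homogeneousSubmodule]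
    omega
  rw [h3] at h2
  have h7 : ∀ g ∈ V, MvPolynomial.map (algebraMap K L) g ∈ piece IL (d + 1) := by
    intro g hg
    rw [← hID] at hg
    exact ⟨Ideal.mem_map_of_mem _ hg.1, ((mem_homogeneousSubmodule _ _).1 hg.2).map _⟩
  exact (finrank_rc_le_baseChange V (piece IL (d + 1)) h7 d p).trans
    (h2.trans (finrank_rc_restrictSupport _ d p))

/-- one Betti number from two cycle inequalities -/
theorem betti_le_of_zle (h : c ≤ n) (a : Fin c → ℕ) (hpos : ∀ i, 1 ≤ a i)
    (f : Fin c → MvPolynomial (Fin n) K) (hf : ∀ i, (f i).IsHomogeneous (a i))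
    (hreg : IsRegularSeq f) (p : ℕ) (hZ : ZLE K h a p f) (hZ' : ZLE K h a (p + 1) f)
    (I : Ideal (MvPolynomial (Fin n) K)) (hI : HomIdeal I)
    (hfI : ∀ i, f i ∈ I) (J : Ideal (MvPolynomial (Fin n) K))
    (hJ : J.restrictScalars K = lexPlusPowers h a I) (j : ℕ) :
    betti I p j ≤ betti J p j := by
  obtain ⟨hJ1, hJ2, hJ3⟩ := lexPlusPowers_spec h a hpos f hf hreg I hI hfI J hJ
  have hfI' : Ideal.span (Set.range f) ≤ I := by
    rw [Ideal.span_le]
    rintro _ ⟨i, rfl⟩
    exact hfI i
  have key : ∀ p, ZLE K h a p f → ∀ d,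
      finrank K (rc X (piece I (d + 1)) (homogeneousSubmodule (Fin n) K d) p) ≤
        finrank K (rc X (piece J (d + 1)) (homogeneousSubmodule (Fin n) K d) p) := by
    intro p hp d
    have h1 := hp d (piece I (d + 1)) (piece_mono hfI' _) (G.piece_le I _)
    rwa [← lexPart_eq_lx, ← hJ2] at h1
  rcases lt_or_ge j p with hj | hj
  · rw [betti_of_lt I (Or.inr hj)]
    exact Nat.zero_le _
  obtain ⟨e, rfl⟩ := Nat.exists_eq_add_of_le hj
  rcases e with _ | d
  · have h1 := betti_rc_zero I hI p
    have h2 := betti_rc_zero J hJ1 p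
    have h3 := key p hZ 0
    rw [hJ3 0] at h2
    rw [zero_add] at h3
    rw [add_zero]
    omega
  · have h1 := betti_rc I hI p d
    have h2 := betti_rc J hJ1 p d
    have h3 := key p hZ (d + 1)
    have h4 := key (p + 1) hZ' d
    rw [hJ3 (d + 1)] at h2
    have h5 : d + 1 + 1 = d + 2 := rfl
    rw [h5] at h3
    omega

end Vale.Agent.P200F.L

end
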