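import Vale.Agent.P200F.Ns
import Vale.Agent.P200F.L3

set_option linter.all false

section

namespace Vale.Agent.P200F.M

open MvPolynomial Module
open Vale.Agent.P200F.B Vale.Agent.P200F.G Vale.Agent.P200F.L

section ring
variable {D R : Type*} [DivisionRing D] [Ring R] [Module D R] [IsScalarTower D R R] {n : ℕ}

/-- families indexed by the `p`-element sets, with entries in `W` -/
def chD (n p : ℕ) (W : Submodule D R) : Submodule D (Finset (Fin n) → R) where
  carrier := {c | (∀ s, s.card ≠ p → c s = 0) ∧ ∀ s, c s ∈ W}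
  add_mem' := by
    rintro a b ⟨ha, ha'⟩ ⟨hb, hb'⟩
    exact ⟨fun s hs => by simp [ha s hs, hb s hs], fun s => W.add_mem (ha' s) (hb' s)⟩
  zero_mem' := ⟨fun _ _ => rfl, fun _ => W.zero_mem⟩
  smul_mem' := by
    rintro k a ⟨ha, ha'⟩
    exact ⟨fun s hs => by simp [ha s hs], fun s => W.smul_mem _ (ha' s)⟩

theorem mem_chD {p : ℕ} {W : Submodule D R} {c : Finset (Fin n) → R} :
    c ∈ chD n p W ↔ (∀ s, s.card ≠ p → c s = 0) ∧ ∀ s, c s ∈ W := Iff.rfl

/-- the Koszul differential of right multiplications by `x` -/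
def kr (x : Fin n → R) (c : Finset (Fin n) → R) : Finset (Fin n) → R := fun t =>
  ∑ i ∈ tᶜ, (-1 : R) ^ (t.filter fun k => k < i).card * (c (insert i t) * x i)

theorem kr_apply (x : Fin n → R) (c : Finset (Fin n) → R) (t : Finset (Fin n)) :
    kr x c t = ∑ i ∈ tᶜ, (-1 : R) ^ (t.filter fun k => k < i).card * (c (insert i t) * x i) := rfl

theorem kr_add (x : Fin n → R) (a b : Finset (Fin n) → R) : kr x (a + b) = kr x a + kr x b := by
  funext t
  rw [Pi.add_apply, kr_apply, kr_apply, kr_apply, ← Finset.sum_add_distrib]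
  refine Finset.sum_congr rfl fun i _ => ?_
  rw [Pi.add_apply, add_mul, mul_add]

theorem kr_smul (x : Fin n → R) (k : D) (a : Finset (Fin n) → R) :
    kr x (k • a) = k • kr x a := by
  funext t
  rw [Pi.smul_apply, kr_apply, kr_apply, Finset.smul_sum]
  refine Finset.sum_congr rfl fun i _ => ?_
  rw [Pi.smul_apply, smul_mul_assoc]
  rcases neg_one_pow_eq_or R (t.filter fun k => k < i).card with h | h
  · rw [h, one_mul, one_mul]
  · rw [h, neg_one_mul, neg_one_mul, smul_neg]

/-- the differential as a `D`-linear map -/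
def krL (D : Type*) [DivisionRing D] {R : Type*} [Ring R] [Module D R] [IsScalarTower D R R]
    {n : ℕ} (x : Fin n → R) : (Finset (Fin n) → R) →ₗ[D] (Finset (Fin n) → R) where
  toFun := kr x
  map_add' := kr_add x
  map_smul' := fun k a => kr_smul x k a

/-- families with entries in `W` whose differential has entries in `U` -/
def rd (x : Fin n → R) (U W : Submodule D R) (p : ℕ) : Submodule D (Finset (Fin n) → R) where
  carrier := {c | c ∈ chD n p W ∧ ∀ t, kr x c t ∈ U}
  add_mem' := by
    rintro a b ⟨ha, ha'⟩ ⟨hb, hb'⟩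
    refine ⟨Submodule.add_mem _ ha hb, fun t => ?_⟩
    rw [kr_add]
    exact U.add_mem (ha' t) (hb' t)
  zero_mem' := by
    refine ⟨Submodule.zero_mem _, fun t => ?_⟩
    have h : kr x (0 : Finset (Fin n) → R) = 0 := (krL D x).map_zero
    rw [h]
    exact U.zero_mem
  smul_mem' := by
    rintro k a ⟨ha, ha'⟩
    refine ⟨Submodule.smul_mem _ _ ha, fun t => ?_⟩
    rw [kr_smul]
    exact U.smul_mem _ (ha' t)

theorem mem_rd {p : ℕ} {x : Fin n → R} {U W : Submodule D R} {c : Finset (Fin n) → R} :
    c ∈ rd x U W p ↔ c ∈ chD n p W ∧ ∀ t, kr x c t ∈ U := Iff.rfl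

end ring

section poly
variable {D : Type*} [DivisionRing D] {n : ℕ}

end poly

end Vale.Agent.P200F.M

end

section

namespace Vale.Agent.P200F.M

open MvPolynomial Module
open Vale.Agent.P200F.B Vale.Agent.P200F.G Vale.Agent.P200F.L

variable {K D : Type*} [Field K] [DivisionRing D] [Algebra K D] {n : ℕ}

/-- membership in `VD` is tested by the `K`-linear functionals of `D` (finite support!) -/
theorem mem_VD_iff (V : Submodule K (MvPolynomial (Fin n) K)) (u : YR D n) :
    u ∈ VD D V ↔ ∀ l : D →ₗ[K] K, ∃ v ∈ V, ∀ m, MvPolynomial.coeff m v = l (u.coeff m) := by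
  rw [mem_VD_iff_m1c]
  refine forall_congr' fun l => ?_
  constructor
  · intro h
    exact ⟨_, h, fun m => m1c_coeff l u m⟩
  · rintro ⟨v, hv, h⟩
    have h1 : m1c l u = v := by
      refine MvPolynomial.ext _ _ fun m => ?_
      rw [m1c_coeff, h]
    rw [h1]
    exact hv

theorem VD_restrictSupport (M : Set (Fin n →₀ ℕ)) :
    VD D (restrictSupport K M) = monD D M := by
  ext u
  rw [mem_VD_iff_m1c]
  constructor
  · intro h m hm
    by_contra hM
    refine hm (functionals_separate (K := K) fun φ => ?_)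
    by_contra hφ
    refine hM ((mem_restrictSupport_iff.1 (h φ)) m ?_)
    rw [m1c_coeff]
    exact hφ
  · intro h l
    refine mem_restrictSupport_iff.2 fun m hm => ?_
    rw [m1c_coeff] at hm
    refine h m fun h0 => hm ?_
    rw [h0, map_zero]

/-- entrywise extension of coefficients commutes with the differential -/
theorem kr_bD (c : Finset (Fin n) → MvPolynomial (Fin n) K) (t : Finset (Fin n)) :
    kr (zv D n) (fun s => bD D (c s)) t = bD D (kd X c t) := by
  rw [kr_apply, kd_apply, map_sum]
  refine Finset.sum_congr rfl fun i _ => ?_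
  rw [map_mul, map_pow, map_neg, map_one, map_mul, ← bD_X (K := K), ← map_mul, ← map_mul,
    mul_comm (c (insert i t))]

/-- coordinates of cycles -/
theorem kd_m1c (φ : D →ₗ[K] K) (c : Finset (Fin n) → YR D n) (t : Finset (Fin n)) :
    kd X (fun s => m1c φ (c s)) t = m1c φ (kr (zv D n) c t) := by
  rw [kr_apply, kd_apply, m1c_sum]
  refine Finset.sum_congr rfl fun i _ => ?_
  have h2 : m1c φ (c (insert i t) * zv D n i) = m1c φ (c (insert i t)) * X i := by
    rw [← bD_X (K := K), m1c_mul_bD]
  have h3 : ∀ u : YR D n, m1c φ (-u) = - m1c φ u := fun u => by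
    rw [eq_neg_iff_add_eq_zero, ← m1c_add, neg_add_cancel, m1c_zero]
  rcases Nat.even_or_odd (t.filter fun k => k < i).card with h | h
  · rw [h.neg_one_pow, h.neg_one_pow, one_mul, one_mul, h2, mul_comm]
  · rw [h.neg_one_pow, h.neg_one_pow, neg_one_mul, neg_one_mul, h3, h2, mul_comm]

/-- the number of cycles -/
theorem finrank_rd_VD (V W : Submodule K (MvPolynomial (Fin n) K)) [Module.Finite K W] (p : ℕ) :
    finrank D (rd (zv D n) (VD D V) (VD D W) p) = finrank K (rc X V W p) := by
  classical
  set Z := rc X V W p with hZ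
  let b := Module.finBasis K Z
  let w : Fin (finrank K Z) → Finset (Fin n) → YR D n := fun i s =>
    bD D ((b i : Finset (Fin n) → MvPolynomial (Fin n) K) s)
  have hb : LinearIndependent K
      (fun i => (b i : Finset (Fin n) → MvPolynomial (Fin n) K)) :=
    b.linearIndependent.map' Z.subtype Z.ker_subtype
  have hw : LinearIndependent D w := by
    rw [Fintype.linearIndependent_iff]
    intro c hc i
    refine functionals_separate (K := K) fun φ => ?_
    have h3 : ∑ i, φ (c i) • (b i : Finset (Fin n) → MvPolynomial (Fin n) K) = 0 := by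
      funext s
      have h2 := congrArg (m1c φ) (congrFun hc s)
      rw [Finset.sum_apply, Pi.zero_apply, m1c_sum, m1c_zero] at h2
      rw [Finset.sum_apply, Pi.zero_apply, ← h2]
      exact Finset.sum_congr rfl fun i _ => (m1c_smul_bD _ _ _).symm
    exact Fintype.linearIndependent_iff.1 hb _ h3 i
  have hspan : rd (zv D n) (VD D V) (VD D W) p = Submodule.span D (Set.range w) := by
    apply le_antisymm
    · intro c hc
      rw [mem_rd, mem_chD] at hc
      let B := Module.Basis.ofVectorSpace K D
      have h1 : ∀ φ : D →ₗ[K] K, (fun s => m1c φ (c s)) ∈ Z := by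
        intro φ
        rw [hZ, mem_rc, mem_chW]
        refine ⟨⟨fun s hs => ?_, fun s => m1c_mem (hc.1.2 s) φ⟩, fun t => ?_⟩
        · show m1c φ (c s) = 0
          rw [hc.1.1 s hs, m1c_zero]
        · rw [kd_m1c]
          exact m1c_mem (hc.2 t) φ
      have h2 : ∃ T : Finset _, ∀ s, c s = ∑ α ∈ T, B α • bD D (m1c (B.coord α) (c s)) := by
        choose T hT using fun s => m1c_expand B (c s)
        exact ⟨Finset.univ.biUnion T, fun s =>
          hT s _ (Finset.subset_biUnion_of_mem T (Finset.mem_univ s))⟩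
      obtain ⟨T, hT⟩ := h2
      have h3 : c = ∑ α ∈ T, B α • (fun s => bD D (m1c (B.coord α) (c s))) := by
        funext s
        rw [Finset.sum_apply]
        exact hT s
      rw [h3]
      refine Submodule.sum_mem _ fun α _ => Submodule.smul_mem _ _ ?_
      have h4 := congrArg Z.subtype (b.sum_repr ⟨_, h1 (B.coord α)⟩)
      rw [map_sum] at h4
      have h5 : (fun s => bD D (m1c (B.coord α) (c s))) =
          ∑ i, (algebraMap K D (b.repr ⟨_, h1 (B.coord α)⟩ i)) • w i := by
        funext s
        have h6 := congrFun h4 s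
        rw [Finset.sum_apply] at h6
        have h7 : m1c (B.coord α) (c s) = ∑ i, (b.repr ⟨_, h1 (B.coord α)⟩ i) •
            ((b i : Finset (Fin n) → MvPolynomial (Fin n) K) s) := h6.symm
        rw [h7, map_sum, Finset.sum_apply]
        exact Finset.sum_congr rfl fun i _ => bD_smul _ _
      rw [h5]
      exact Submodule.sum_mem _ fun i _ => Submodule.smul_mem _ _
        (Submodule.subset_span ⟨i, rfl⟩)
    · rw [Submodule.span_le]
      rintro _ ⟨i, rfl⟩
      have h := mem_rc.1 (b i).2
      refine ⟨⟨fun s hs => ?_, fun s => ?_⟩, fun t => ?_⟩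
      · show bD D ((b i : Finset (Fin n) → MvPolynomial (Fin n) K) s) = 0
        rw [h.1.1 s hs, map_zero]
      · exact Submodule.subset_span ⟨_, h.1.2 s, rfl⟩
      · have h1 := kr_bD (D := D) (b i : Finset (Fin n) → MvPolynomial (Fin n) K) t
        show kr (zv D n) (fun s => bD D ((b i : Finset (Fin n) → MvPolynomial (Fin n) K) s)) t ∈
          VD D V
        rw [h1]
        exact Submodule.subset_span ⟨_, h.2 t, rfl⟩
  rw [hspan, finrank_span_eq_card hw, Fintype.card_fin]

end Vale.Agent.P200F.M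

end

section

set_option linter.all false

namespace Vale.Agent.P200F.M

open MvPolynomial Module
open Vale.Agent.P200F.B Vale.Agent.P200F.G Vale.Agent.P200F.L

section gen
variable {R : Type*} [Ring R] {n : ℕ}

theorem cp_sgn (k : ℕ) (y : R) : (-1 : R) ^ k * y = ((-1 : ℤ) ^ k) • y := by
  rcases Nat.even_or_odd k with h | h
  · rw [h.neg_one_pow, h.neg_one_pow, one_mul, one_smul]
  · rw [h.neg_one_pow, h.neg_one_pow, neg_one_mul, neg_one_smul]

theorem cp_kr (x : Fin n → R) (c : Finset (Fin n) → R) (t : Finset (Fin n)) :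
    kr x c t = ∑ i ∈ tᶜ, ((-1 : ℤ) ^ (t.filter fun k => k < i).card) •
      (c (insert i t) * x i) := by
  rw [kr_apply]
  exact Finset.sum_congr rfl fun i _ => cp_sgn _ _

end gen

section mem

variable {D R : Type*} [DivisionRing D] [Ring R] [Module D R] [IsScalarTower D R R] {n : ℕ}

end mem

section const

variable {D : Type*} [DivisionRing D] {n : ℕ}

/-- right multiplication by constants, on coefficients -/
theorem coeff_mul_single_zero (u : YR D n) (a : D) (m : Fin n →₀ ℕ) :
    (u * AddMonoidAlgebra.single 0 a).coeff m = u.coeff m * a :=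
  AddMonoidAlgebra.coeff_mul_single_zero u a m

end const

section main

variable {D : Type*} [DivisionRing D] {n : ℕ}

theorem finite_chD (p : ℕ) (W : Submodule D (YR D n)) [Module.Finite D W] :
    Module.Finite D (chD n p W) := by
  let f : chD n p W →ₗ[D] (Finset (Fin n) → W) :=
    { toFun := fun c s => ⟨c.1 s, c.2.2 s⟩
      map_add' := fun a b => rfl
      map_smul' := fun a b => rfl }
  refine Module.Finite.of_injective f fun a b h => ?_
  apply Subtype.ext
  funext s
  exact congrArg Subtype.val (congrFun h s)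

theorem rd_zero (x : Fin n → YR D n) (U W : Submodule D (YR D n)) : rd x U W 0 = chD n 0 W := by
  ext c
  rw [mem_rd]
  refine ⟨fun h => h.1, fun h => ⟨h, fun t => ?_⟩⟩
  have : kr x c t = 0 := by
    rw [cp_kr]
    refine Finset.sum_eq_zero fun i hi => ?_
    rw [h.1, zero_mul, smul_zero]
    rw [Finset.card_insert_of_notMem (Finset.mem_compl.1 hi)]
    omega
  rw [this]
  exact U.zero_mem

theorem kr_card (x : Fin n → YR D n) {c : Finset (Fin n) → YR D n} {q : ℕ}
    (hc : ∀ s, s.card ≠ q + 1 → c s = 0) (t : Finset (Fin n)) (ht : t.card ≠ q) :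
    kr x c t = 0 := by
  rw [cp_kr]
  refine Finset.sum_eq_zero fun i hi => ?_
  rw [hc, zero_mul, smul_zero]
  rw [Finset.card_insert_of_notMem (Finset.mem_compl.1 hi)]
  omega

end main

end Vale.Agent.P200F.M

end

section

namespace Vale.Agent.P200F.M

open MvPolynomial Module
open Vale.Agent.P200F.B Vale.Agent.P200F.G Vale.Agent.P200F.L

variable {n : ℕ}

/-- sets of exponents of degree `D` containing all multiples of the squares -/
def SqSet (n D : ℕ) (M : Set (Fin n →₀ ℕ)) : Prop :=
  (∀ m ∈ M, ∑ i, m i = D) ∧ ∀ m : Fin n →₀ ℕ, ∑ i, m i = D → (∃ i, 2 ≤ m i) → m ∈ M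

/-- the layers with respect to the last variable -/
def layS (M : Set (Fin (n + 1) →₀ ℕ)) (i : ℕ) : Set (Fin n →₀ ℕ) := {m | sn m i ∈ M}

theorem SqSet.finite {D : ℕ} {M : Set (Fin n →₀ ℕ)} (hM : SqSet n D M) : M.Finite :=
  (finite_degree_eq D).subset fun m hm => hM.1 m hm

theorem SqSet.inside {D : ℕ} {M : Set (Fin n →₀ ℕ)} (hM : SqSet n D M) :
    insideP (le_refl n) (fun _ : Fin n => 2) D ⊆ M := fun m hm => hM.2 m hm.2 hm.1

theorem SqSet.layS {D i : ℕ} {M : Set (Fin (n + 1) →₀ ℕ)} (hM : SqSet (n + 1) (D + i) M) :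
    SqSet n D (layS M i) := by
  refine ⟨fun m hm => ?_, fun m hD h2 => ?_⟩
  · have h1 := hM.1 _ hm
    rw [lex_sum_sn] at h1
    omega
  · refine hM.2 _ ?_ ?_
    · rw [lex_sum_sn, hD]
    · obtain ⟨k, hk⟩ := h2
      refine ⟨k.castSucc, ?_⟩
      rwa [sn_castSucc]

/-- all higher layers are full -/
theorem SqSet.layS_full {D i : ℕ} {M : Set (Fin (n + 1) →₀ ℕ)} (hM : SqSet (n + 1) D M)
    (hi : 2 ≤ i) : Vale.Agent.P200F.M.layS M i = {m | ∑ k, m k + i = D} := by
  ext m
  constructor
  · intro hm
    have h1 := hM.1 _ hm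
    rwa [lex_sum_sn] at h1
  · intro hm
    refine hM.2 _ ?_ ⟨Fin.last n, ?_⟩
    · rw [lex_sum_sn]
      exact hm
    · rwa [sn_last]

theorem SqSet.ncard_layS {D : ℕ} {M : Set (Fin (n + 1) →₀ ℕ)} (hM : SqSet (n + 1) D M) :
    M.ncard = (Vale.Agent.P200F.M.layS M 0).ncard + (Vale.Agent.P200F.M.layS M 1).ncard +
      {m : Fin (n + 1) →₀ ℕ | ∑ k, m k = D ∧ 2 ≤ m (Fin.last n)}.ncard := by
  have hinj : ∀ i, Function.Injective fun m : Fin n →₀ ℕ => sn m i :=
    fun i m m' h => (sn_injective h).1
  have h0 : M = ((fun m : Fin n →₀ ℕ => sn m 0) '' Vale.Agent.P200F.M.layS M 0 ∪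
      (fun m : Fin n →₀ ℕ => sn m 1) '' Vale.Agent.P200F.M.layS M 1) ∪
      {m : Fin (n + 1) →₀ ℕ | ∑ k, m k = D ∧ 2 ≤ m (Fin.last n)} := by
    ext x
    constructor
    · intro hx
      obtain ⟨m, i, rfl⟩ := exists_sn x
      have h1 := hM.1 _ hx
      rcases i with _ | _ | i
      · exact Or.inl (Or.inl ⟨m, hx, rfl⟩)
      · exact Or.inl (Or.inr ⟨m, hx, rfl⟩)
      · exact Or.inr ⟨h1, by rw [sn_last]; omega⟩
    · rintro ((⟨m, hm, rfl⟩ | ⟨m, hm, rfl⟩) | ⟨h1, h2⟩)
      · exact hm
      · exact hm
      · exact hM.2 _ h1 ⟨_, h2⟩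
  have hfin : ∀ s ⊆ {m : Fin (n + 1) →₀ ℕ | ∑ k, m k = D}, s.Finite :=
    fun s hs => (finite_degree_eq D).subset hs
  have hf0 : ((fun m : Fin n →₀ ℕ => sn m 0) '' Vale.Agent.P200F.M.layS M 0).Finite := by
    refine hM.finite.subset ?_
    rintro _ ⟨m, hm, rfl⟩
    exact hm
  have hf1 : ((fun m : Fin n →₀ ℕ => sn m 1) '' Vale.Agent.P200F.M.layS M 1).Finite := by
    refine hM.finite.subset ?_
    rintro _ ⟨m, hm, rfl⟩
    exact hm
  have hf2 : {m : Fin (n + 1) →₀ ℕ | ∑ k, m k = D ∧ 2 ≤ m (Fin.last n)}.Finite :=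
    hfin _ fun m hm => hm.1
  conv_lhs => rw [h0]
  rw [Set.ncard_union_eq _ (hf0.union hf1) hf2, Set.ncard_union_eq _ hf0 hf1,
    Set.ncard_image_of_injective _ (hinj 0), Set.ncard_image_of_injective _ (hinj 1)]
  · rw [Set.disjoint_left]
    rintro _ ⟨m, -, rfl⟩ ⟨m', -, h⟩
    have := (sn_injective h).2
    omega
  · rw [Set.disjoint_left]
    rintro _ (⟨m, -, rfl⟩ | ⟨m, -, rfl⟩) ⟨-, h⟩
    · rw [sn_last] at h
      omega
    · rw [sn_last] at h
      omega

end Vale.Agent.P200F.M

end

section

namespace Vale.Agent.P200F.M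

open MvPolynomial Module
open Vale.Agent.P200F.B Vale.Agent.P200F.G Vale.Agent.P200F.L

variable {D : Type*} [DivisionRing D] {n : ℕ}

section cut
variable {M W : Type*} [AddCommGroup M] [Module D M] [AddCommGroup W] [Module D W]

end cut

theorem deg_wt_add (B : ℕ) (m m' : Fin n →₀ ℕ) : wt B (m + m') = wt B m + wt B m' := by
  rw [wt, wt, wt, ← Finset.sum_add_distrib]
  refine Finset.sum_congr rfl fun i _ => ?_
  rw [Finsupp.add_apply, add_mul]

theorem deg_wt_single (B : ℕ) (i : Fin n) : wt B (Finsupp.single i 1) = B ^ (i : ℕ) := by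
  rw [wt, Finset.sum_eq_single i]
  · rw [Finsupp.single_eq_same, one_mul]
  · intro j _ hj
    rw [Finsupp.single_eq_of_ne hj, zero_mul]
  · intro h
    exact absurd (Finset.mem_univ i) h

theorem degPart_single (B k w : ℕ) (m : Fin n →₀ ℕ) (r : D) :
    degPart D B k w (AddMonoidAlgebra.single m r) =
      if wt B m + k = w then AddMonoidAlgebra.single m r else 0 := by
  apply deg_yr_ext
  intro m'
  rw [degPart_coeff]
  by_cases h : wt B m + k = w
  · rw [if_pos h]
    by_cases h' : wt B m' + k = w
    · rw [if_pos h']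
    · rw [if_neg h', AddMonoidAlgebra.coeff_single, Finsupp.single_eq_of_ne]
      intro hc
      exact h' (hc ▸ h)
  · rw [if_neg h, AddMonoidAlgebra.coeff_zero, Finsupp.zero_apply]
    by_cases h' : wt B m' + k = w
    · rw [if_pos h', AddMonoidAlgebra.coeff_single, Finsupp.single_eq_of_ne]
      intro hc
      exact h (hc ▸ h')
    · rw [if_neg h']

theorem degPart_mul_zv (B k w : ℕ) (u : YR D n) (i : Fin n) :
    degPart D B k w (u * zv D n i) = degPart D B (k + B ^ (i : ℕ)) w u * zv D n i := by
  induction u using AddMonoidAlgebra.induction_linear with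
  | zero => rw [zero_mul, map_zero, map_zero, zero_mul]
  | add a b ha hb => rw [add_mul, map_add, ha, hb, map_add, add_mul]
  | single m r =>
    rw [zv, AddMonoidAlgebra.single_mul_single, degPart_single, degPart_single, deg_wt_add,
      deg_wt_single]
    by_cases h : wt B m + B ^ (i : ℕ) + k = w
    · rw [if_pos h, if_pos (by omega), AddMonoidAlgebra.single_mul_single]
    · rw [if_neg h, if_neg (by omega), zero_mul]

/-- the weight of a set -/
def degSet (B : ℕ) (s : Finset (Fin n)) : ℕ := ∑ i ∈ s, B ^ (i : ℕ)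

theorem degSet_insert (B : ℕ) {s : Finset (Fin n)} {i : Fin n} (hi : i ∉ s) :
    degSet B (insert i s) = degSet B s + B ^ (i : ℕ) := by
  rw [degSet, Finset.sum_insert hi, add_comm]
  rfl

/-- the part of weight `w` of a family -/
noncomputable def degFam (D : Type*) [DivisionRing D] {n : ℕ} (B w : ℕ) :
    (Finset (Fin n) → YR D n) →ₗ[D] (Finset (Fin n) → YR D n) where
  toFun c s := degPart D B (degSet B s) w (c s)
  map_add' a b := by
    funext s
    exact (degPart D B (degSet B s) w).map_add (a s) (b s)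
  map_smul' k a := by
    funext s
    exact (degPart D B (degSet B s) w).map_smul k (a s)

theorem degFam_apply (B w : ℕ) (c : Finset (Fin n) → YR D n) (s : Finset (Fin n)) :
    degFam D B w c s = degPart D B (degSet B s) w (c s) := rfl

theorem kr_degFam (B w : ℕ) (c : Finset (Fin n) → YR D n) (t : Finset (Fin n)) :
    kr (zv D n) (degFam D B w c) t = degPart D B (degSet B t) w (kr (zv D n) c t) := by
  rw [kr_apply, kr_apply, map_sum]
  refine Finset.sum_congr rfl fun i hi => ?_
  have hi' : i ∉ t := Finset.mem_compl.1 hi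
  rw [degFam_apply, degSet_insert B hi']
  rcases neg_one_pow_eq_or (YR D n) (t.filter fun k => k < i).card with h | h
  · rw [h, one_mul, one_mul, degPart_mul_zv]
  · rw [h, neg_one_mul, neg_one_mul, map_neg, degPart_mul_zv]

theorem deg_finite_chD (p : ℕ) (W : Submodule D (YR D n)) [Module.Finite D W] :
    Module.Finite D (chD n p W) := by
  let f : chD n p W →ₗ[D] (Finset (Fin n) → W) :=
    { toFun := fun c s => ⟨c.1 s, c.2.2 s⟩
      map_add' := fun _ _ => rfl
      map_smul' := fun _ _ => rfl }
  refine Module.Finite.of_injective f fun c c' h => ?_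
  apply Subtype.ext
  funext s
  exact congrArg Subtype.val (congrFun h s)

/-- cycles survive the degeneration -/
theorem finrank_rd_inm {B d p : ℕ} (hB : d + 1 < B) {V : Submodule D (YR D n)}
    (hV : V ≤ YD D n (d + 1)) :
    finrank D (rd (zv D n) V (YD D n d) p) ≤
      finrank D (rd (zv D n) (monD D (inm B V)) (YD D n d) p) := by
  have h0 : Module.Finite D (YD D n d) := by
    have := finite_monD (D := D) {m : Fin n →₀ ℕ | ∑ i, m i = d} (fun m hm => hm)
    exact this
  have h1 : Module.Finite D (chD n p (YD D n d)) := deg_finite_chD p _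
  have h2 : ∀ U : Submodule D (YR D n), Module.Finite D (rd (zv D n) U (YD D n d) p) :=
    fun U => Submodule.finiteDimensional_of_le (S₂ := chD n p (YD D n d)) fun c hc => hc.1
  have h3 := h2 V
  have h4 := h2 (monD D (inm B V))
  refine finrank_le_of_degCut _ _ (degFam D B)
    (d * B ^ n + 1 + degSet B (Finset.univ : Finset (Fin n))) ?_ ?_
  · rw [eq_bot_iff]
    rintro c ⟨hc, hc'⟩
    rw [Submodule.mem_bot]
    funext s
    apply deg_yr_ext
    intro m
    rw [Pi.zero_apply, AddMonoidAlgebra.coeff_zero, Finsupp.zero_apply]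
    by_contra h
    have h5 := hc.1.2 s m h
    have h6 : degSet B s ≤ degSet B (Finset.univ : Finset (Fin n)) :=
      Finset.sum_le_sum_of_subset (Finset.subset_univ s)
    have h7 := deg_wt_lt B (by omega) h5
    have h8 := hc' (wt B m + degSet B s) (by omega)
    have h9 : (degFam D B (wt B m + degSet B s) c s).coeff m = 0 := by
      rw [h8, Pi.zero_apply, AddMonoidAlgebra.coeff_zero, Finsupp.zero_apply]
    rw [degFam_apply, degPart_coeff, if_pos rfl] at h9
    exact h h9
  · intro w
    rintro _ ⟨c, hc, rfl⟩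
    have hff : ∀ j, degFam D B j (degFam D B w c) = if j = w then degFam D B w c else 0 := by
      intro j
      funext s
      rw [degFam_apply, degFam_apply, degPart_degPart]
      by_cases hj : j = w
      · rw [if_pos hj, if_pos hj]
        rfl
      · rw [if_neg hj, if_neg hj]
        rfl
    refine ⟨degFam D B w c, ⟨⟨⟨?_, ?_⟩, ?_⟩, ?_⟩, ?_⟩
    · intro s hs
      rw [degFam_apply, hc.1.1.1 s hs, map_zero]
    · intro s m hm
      rw [degFam_apply, degPart_coeff] at hm
      refine hc.1.1.2 s m fun h => hm ?_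
      rw [h, ite_self]
    · intro t m hm
      rw [kr_degFam, degPart_coeff] at hm
      have hw : wt B m + degSet B t = w := by
        by_contra h
        exact hm (if_neg h)
      rw [if_pos hw] at hm
      refine ⟨kr (zv D n) c t, hc.1.2 t, hm, fun m' hm' => ?_⟩
      have h5 := hc.2 (wt B m' + degSet B t) (by omega)
      have h6 := kr_degFam B (wt B m' + degSet B t) c t
      rw [h5] at h6
      have h7 : kr (zv D n) (0 : Finset (Fin n) → YR D n) = 0 := (krL D (zv D n)).map_zero
      rw [h7, Pi.zero_apply] at h6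
      have h8 : (degPart D B (degSet B t) (wt B m' + degSet B t) (kr (zv D n) c t)).coeff m' = 0 := by
        rw [← h6, AddMonoidAlgebra.coeff_zero, Finsupp.zero_apply]
      rwa [degPart_coeff, if_pos rfl] at h8
    · intro j hj
      rw [hff, if_neg (by omega)]
    · rw [hff, if_pos rfl]

theorem deg_sum_sn (m : Fin n →₀ ℕ) (i : ℕ) : ∑ j, sn m i j = ∑ j, m j + i := by
  rw [Fin.sum_univ_castSucc, sn_last]
  congr 1
  exact Finset.sum_congr rfl fun j _ => sn_castSucc m i j

theorem deg_wt_sn (B : ℕ) (m : Fin n →₀ ℕ) (i : ℕ) : wt B (sn m i) = wt B m + i * B ^ n := by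
  rw [wt, wt, Fin.sum_univ_castSucc, sn_last, Fin.val_last]
  congr 1
  refine Finset.sum_congr rfl fun j _ => ?_
  rw [sn_castSucc, Fin.val_castSucc]

theorem deg_exists_sn (m : Fin (n + 1) →₀ ℕ) : ∃ (m' : Fin n →₀ ℕ), m = sn m' (m (Fin.last n)) := by
  refine ⟨Finsupp.equivFunOnFinite.symm fun j => m j.castSucc, ?_⟩
  ext j
  refine Fin.lastCases ?_ (fun j => ?_) j
  · rw [sn_last]
  · rw [sn_castSucc]
    rfl

end Vale.Agent.P200F.M

end

section

namespace Vale.Agent.P200F.M

open MvPolynomial Module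
open Vale.Agent.P200F.B Vale.Agent.P200F.G Vale.Agent.P200F.L

universe u

variable {K : Type u} [Field K] {n : ℕ}

/-- the number of cycles of a monomial space -/
noncomputable def ZS (K : Type*) [Field K] {n : ℕ} (M : Set (Fin n →₀ ℕ)) (d p : ℕ) : ℕ :=
  finrank K (rc X (restrictSupport K M) (homogeneousSubmodule (Fin n) K d) p)

section trans
variable {D : Type*} [DivisionRing D] [Algebra K D]

/-- the exponents obtained from a space `V` and a matrix `E` -/
def trM (D : Type*) [DivisionRing D] [Algebra K D] (E : Fin n → Fin n → D) (B : ℕ)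
    (V : Submodule K (MvPolynomial (Fin n) K)) : Set (Fin n →₀ ℕ) :=
  inm B ((VD D V).comap (theta E))

theorem VD_le_YD {e : ℕ} {V : Submodule K (MvPolynomial (Fin n) K)}
    (hV : V ≤ homogeneousSubmodule (Fin n) K e) : VD D V ≤ YD D n e := by
  rw [← VD_homogeneous (K := K)]
  exact VD_mono hV

end trans

end Vale.Agent.P200F.M

end

section

namespace Vale.Agent.P200F.M

open MvPolynomial Module
open Vale.Agent.P200F.B Vale.Agent.P200F.G Vale.Agent.P200F.L

universe u

variable {K : Type u} [Field K] {n : ℕ}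

section step
variable {D : Type*} [DivisionRing D]

end step

theorem monD_mono {D : Type*} [DivisionRing D] {M N : Set (Fin n →₀ ℕ)} (h : M ⊆ N) :
    monD D M ≤ monD D N := fun _ hu m hm => h (hu m hm)

end Vale.Agent.P200F.M

end

section

namespace Vale.Agent.P200F.M

open MvPolynomial Module
open Vale.Agent.P200F.B Vale.Agent.P200F.G Vale.Agent.P200F.L

universe u

variable {K : Type u} [Field K] {n : ℕ}

theorem layS_le {K : Type*} [Field K] {D : ℕ} {M : Set (Fin (n + 1) →₀ ℕ)}
    (hM : ∀ m ∈ M, ∑ i, m i = D) (i : ℕ) : restrictSupport K (layS M i) ≤ Bd K n D i := by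
  have hdeg : ∀ m : Fin n →₀ ℕ, m ∈ layS M i → ∑ k, m k + i = D := by
    intro m hm
    rw [← lex_sum_sn]
    exact hM _ hm
  rw [Bd]
  split_ifs with hi
  · rw [homogeneousSubmodule_eq_restrict]
    apply restrictSupport_mono
    intro m hm
    have h1 := hdeg m hm
    show ∑ k, m k = D - i
    omega
  · intro x hx
    rw [mem_restrictSupport_iff] at hx
    rw [Submodule.mem_bot, ← MvPolynomial.support_eq_empty, Finset.eq_empty_iff_forall_notMem]
    intro m hm
    have h1 := hdeg m (hx hm)
    omega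

/-- the cycles are counted by the layers -/
theorem zs_eq_zc {K : Type*} [Field K] {d p : ℕ} {M : Set (Fin (n + 1) →₀ ℕ)}
    (hM : ∀ m ∈ M, ∑ i, m i = d + 1) :
    ZS K M d (p + 1) = zc (fun i => restrictSupport K (layS M i)) p d := by
  have e2 : eE K n (X (Fin.last n)) = Polynomial.X := eE_X_last
  have e3 := finrank_pc_map (K := K) (R := MvPolynomial (Fin (n + 1)) K)
    (R' := Polynomial (MvPolynomial (Fin n) K)) (eE K n) (fun i : Fin n => (X i.castSucc))
    (X (Fin.last n)) (restrictSupport K M) (homogeneousSubmodule (Fin (n + 1)) K d) p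
  rw [eE_X_fun, e2, map_eE_restrictSupport, map_eE_homogeneous] at e3
  rw [ZS, finrank_rc_succ, ← e3]
  exact zc_grs _ fun i => layS_le hM i

theorem zs_zero {K : Type*} [Field K] (M M' : Set (Fin n →₀ ℕ)) (d : ℕ) :
    ZS K M d 0 = ZS K M' d 0 := by
  have h1 : ∀ U : Submodule K (MvPolynomial (Fin n) K),
      rc X U (homogeneousSubmodule (Fin n) K d) 0 =
        chW n 0 (homogeneousSubmodule (Fin n) K d) := by
    intro U
    refine le_antisymm (fun c hc => hc.1) fun c hc => ⟨hc, fun t => ?_⟩
    rw [kd_card_zero hc.1]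
    exact U.zero_mem
  rw [ZS, ZS, h1, h1]

theorem zs_mono {K : Type*} [Field K] {M M' : Set (Fin n →₀ ℕ)} (h : M ⊆ M') (d p : ℕ) :
    ZS K M d p ≤ ZS K M' d p := by
  rw [ZS, ZS]
  exact Submodule.finrank_mono fun u hu => ⟨hu.1, fun t => restrictSupport_mono K h (hu.2 t)⟩

/-- all families with entries in a stable layer are cycles modulo the previous one -/
theorem finrank_rc_stable {K : Type*} [Field K] {M0 M1 : Set (Fin n →₀ ℕ)} (hf : M1.Finite)
    (hst : ∀ m ∈ M1, ∀ j, m + Finsupp.single j 1 ∈ M0) (p : ℕ) :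
    finrank K (rc X (restrictSupport K M0) (restrictSupport K M1) p) =
      n.choose p * M1.ncard := by
  have h0 : rc X (restrictSupport K M0) (restrictSupport K M1) p =
      chW n p (restrictSupport K M1) := by
    refine le_antisymm (fun u hu => hu.1) fun u hu => ⟨hu, fun t => ?_⟩
    rw [kd_apply]
    refine Submodule.sum_mem _ fun j _ => sign_mul_mem' _ _ ?_
    have h2 := hu.2 (insert j t)
    have h3 : (restrictSupport K M1).map (LinearMap.mulLeft K (X j)) ≤ restrictSupport K M0 := by
      rw [restrictSupport_eq_span, Submodule.map_span, Submodule.span_le]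
      rintro _ ⟨_, ⟨m, hm, rfl⟩, rfl⟩
      show X j * monomial m (1 : K) ∈ restrictSupport K M0
      have h4 : X j * monomial m (1 : K) = monomial (m + Finsupp.single j 1) 1 := by
        rw [X, monomial_mul, one_mul, add_comm]
      rw [h4]
      exact (monomial_mem_restrictSupport K).2 (Or.inl (hst m hm j))
    exact h3 ⟨_, h2, rfl⟩
  have hfin : Module.Finite K (restrictSupport K M1) := by
    have := hf.to_subtype
    exact Module.Finite.of_basis (basisRestrictSupport K M1)
  rw [h0, finrank_chW, finrank_restrictSupport _ hf]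

end Vale.Agent.P200F.M

end

section

namespace Vale.Agent.P200F.M

open MvPolynomial Module
open Vale.Agent.P200F.B Vale.Agent.P200F.G Vale.Agent.P200F.L

universe u

variable {K : Type u} [Field K] {n c : ℕ}

theorem isMPrimary_of_regular (a : Fin n → ℕ) (f : Fin n → MvPolynomial (Fin n) K)
    (hf : ∀ i, (f i).IsHomogeneous (a i)) (hreg : IsRegularSeq f) :
    IsMPrimary (Ideal.span (Set.range f)) := by
  refine isMPrimary_of_height (homIdeal_span fun g hg => ?_) fun p hp hle =>
    le_height_of_isRegSeq f hreg p hle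
  obtain ⟨i, rfl⟩ := hg
  exact ⟨a i, hf i⟩

end Vale.Agent.P200F.M

end
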