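import Vale.Agent.P200F.Ns
import Vale.Agent.P200F.L4

set_option linter.all false

section

namespace Vale.Agent.P200F.V

open Module
open Vale.Agent.P200F.M

section sgn
variable {n : ℕ}

/-- the number of the elements of `s` before `i` -/
def qaP (s : Finset (Fin n)) (i : Fin n) : ℕ := (s.filter fun j => j < i).card

theorem qaP_erase_lt {s : Finset (Fin n)} {i j : Fin n} (hi : i ∈ s) (h : i < j) :
    qaP s j = qaP (s.erase i) j + 1 := by
  have h1 : s.filter (fun k => k < j) = insert i ((s.erase i).filter fun k => k < j) := by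
    ext k
    simp only [Finset.mem_filter, Finset.mem_erase, Finset.mem_insert]
    constructor
    · rintro ⟨h5, h6⟩
      by_cases hki : k = i
      · exact Or.inl hki
      · exact Or.inr ⟨⟨hki, h5⟩, h6⟩
    · rintro (rfl | ⟨⟨_, h5⟩, h6⟩)
      · exact ⟨hi, h⟩
      · exact ⟨h5, h6⟩
  unfold qaP
  rw [h1, Finset.card_insert_of_notMem]
  simp

theorem qaP_erase_ge {s : Finset (Fin n)} {i j : Fin n} (h : j ≤ i) :
    qaP (s.erase i) j = qaP s j := by
  unfold qaP
  congr 1
  ext k
  simp only [Finset.mem_filter, Finset.mem_erase]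
  constructor
  · rintro ⟨⟨_, h5⟩, h6⟩
    exact ⟨h5, h6⟩
  · rintro ⟨h5, h6⟩
    exact ⟨⟨(lt_of_lt_of_le h6 h).ne, h5⟩, h6⟩

theorem qaP_insert_lt {s : Finset (Fin n)} {i j : Fin n} (hi : i ∉ s) (h : i < j) :
    qaP (insert i s) j = qaP s j + 1 := by
  rw [qaP_erase_lt (Finset.mem_insert_self i s) h, Finset.erase_insert hi]

/-- the sign rule -/
theorem qaP_swap {s : Finset (Fin n)} {i j : Fin n} (hi : i ∈ s) (hj : j ∈ s) (h : i ≠ j) :
    (-1 : ℤ) ^ (qaP (s.erase i) i + qaP ((s.erase i).erase j) j) +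
      (-1 : ℤ) ^ (qaP (s.erase j) j + qaP ((s.erase j).erase i) i) = 0 := by
  rw [qaP_erase_ge (le_refl i), qaP_erase_ge (le_refl j), qaP_erase_ge (le_refl j),
    qaP_erase_ge (le_refl i)]
  rcases lt_or_gt_of_ne h with hlt | hlt
  · rw [qaP_erase_lt hi hlt, qaP_erase_ge hlt.le]
    ring
  · rw [qaP_erase_lt hj hlt, qaP_erase_ge hlt.le]
    ring

end sgn

section ops
variable {D : Type*} [DivisionRing D] {n : ℕ}

/-- an antisymmetric double sum vanishes -/
theorem qa_double (s : Finset (Fin n)) (X : Fin n → Fin n → D) (hX : ∀ i j, X i j = X j i)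
    (f : Finset (Fin n) → D) :
    ∑ i ∈ s, ∑ j ∈ s.erase i, ((-1 : ℤ) ^ (qaP (s.erase i) i + qaP ((s.erase i).erase j) j)) •
      (X i j * f ((s.erase i).erase j)) = 0 := by
  rw [Finset.sum_sigma']
  refine Finset.sum_involution (fun a _ => (⟨a.2, a.1⟩ : (_ : Fin n) × Fin n)) ?_ ?_ ?_ ?_
  · rintro ⟨i, j⟩ h
    obtain ⟨h1, h2⟩ := Finset.mem_sigma.1 h
    obtain ⟨h3, h4⟩ := Finset.mem_erase.1 h2
    change ((-1 : ℤ) ^ (qaP (s.erase i) i + qaP ((s.erase i).erase j) j)) •
      (X i j * f ((s.erase i).erase j)) +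
        ((-1 : ℤ) ^ (qaP (s.erase j) j + qaP ((s.erase j).erase i) i)) •
      (X j i * f ((s.erase j).erase i)) = 0
    have h5 : (s.erase j).erase i = (s.erase i).erase j := Finset.erase_right_comm
    have h6 := qaP_swap h1 h4 (Ne.symm h3)
    rw [h5] at h6 ⊢
    rw [hX j i, ← add_smul, h6, zero_smul]
  · rintro ⟨i, j⟩ h _ h'
    obtain ⟨h1, h2⟩ := Finset.mem_sigma.1 h
    obtain ⟨h3, h4⟩ := Finset.mem_erase.1 h2
    exact h3 (congrArg Sigma.fst h')
  · rintro ⟨i, j⟩ h
    obtain ⟨h1, h2⟩ := Finset.mem_sigma.1 h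
    obtain ⟨h3, h4⟩ := Finset.mem_erase.1 h2
    exact Finset.mem_sigma.2 ⟨h4, Finset.mem_erase.2 ⟨Ne.symm h3, h1⟩⟩
  · rintro ⟨i, j⟩ _
    rfl

/-- the operators -/
def qaT (E : Fin n → Fin n → D) (k : Fin n) (f : Finset (Fin n) → D) : Finset (Fin n) → D :=
  fun s => ∑ i ∈ s, ((-1 : ℤ) ^ qaP (s.erase i) i) • (E i k * f (s.erase i))

theorem qaT_apply (E : Fin n → Fin n → D) (k : Fin n) (f : Finset (Fin n) → D)
    (s : Finset (Fin n)) : qaT E k f s =
      ∑ i ∈ s, ((-1 : ℤ) ^ qaP (s.erase i) i) • (E i k * f (s.erase i)) := rfl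

theorem qaT_zero (E : Fin n → Fin n → D) (k : Fin n) : qaT E k 0 = 0 := by
  funext s
  rw [qaT_apply]
  apply Finset.sum_eq_zero
  intro i _
  rw [Pi.zero_apply, mul_zero, smul_zero]

theorem qaT_smul (E : Fin n → Fin n → D) (k : Fin n) (c : ℤ) (f : Finset (Fin n) → D) :
    qaT E k (c • f) = c • qaT E k f := by
  funext s
  rw [Pi.smul_apply, qaT_apply, qaT_apply, Finset.smul_sum]
  refine Finset.sum_congr rfl fun i _ => ?_
  rw [Pi.smul_apply, mul_smul_comm, smul_comm]

/-- composition -/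
theorem qaT_qaT (E : Fin n → Fin n → D) (k l : Fin n) (f : Finset (Fin n) → D)
    (s : Finset (Fin n)) : qaT E k (qaT E l f) s =
      ∑ i ∈ s, ∑ j ∈ s.erase i, ((-1 : ℤ) ^ (qaP (s.erase i) i + qaP ((s.erase i).erase j) j)) •
        (E i k * E j l * f ((s.erase i).erase j)) := by
  rw [qaT_apply]
  refine Finset.sum_congr rfl fun i _ => ?_
  rw [qaT_apply, Finset.mul_sum, Finset.smul_sum]
  refine Finset.sum_congr rfl fun j _ => ?_
  rw [mul_smul_comm, smul_smul, pow_add, mul_assoc]

variable {E : Fin n → Fin n → D}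

/-- the coefficients of the products of the `ξ_i` -/
theorem qa_coeff (E : Fin n → Fin n → D) (i j k l : Fin n) :
    (M.lin (E i) * M.lin (E j) : YR D n).coeff (Finsupp.single k 1 + Finsupp.single l 1) =
      ∑ a, ∑ b, if (a = k ∧ b = l) ∨ (a = l ∧ b = k) then E i a * E j b else 0 := by
  classical
  unfold M.lin
  rw [Finset.sum_mul, AddMonoidAlgebra.coeff_sum, Finsupp.finsetSum_apply]
  refine Finset.sum_congr rfl fun a _ => ?_
  rw [Finset.mul_sum, AddMonoidAlgebra.coeff_sum, Finsupp.finsetSum_apply]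
  refine Finset.sum_congr rfl fun b _ => ?_
  rw [AddMonoidAlgebra.single_mul_single, AddMonoidAlgebra.coeff_single, Finsupp.single_apply]
  have h : (Finsupp.single a 1 + Finsupp.single b 1 : Fin n →₀ ℕ) =
      Finsupp.single k 1 + Finsupp.single l 1 ↔ (a = k ∧ b = l) ∨ (a = l ∧ b = k) := by
    rw [Finsupp.single_add_single_eq_single_add_single one_ne_zero one_ne_zero]
    constructor
    · rintro (h | h | h)
      · exact Or.inl h
      · exact Or.inr h.2
      · exact absurd h.1 (by norm_num)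
    · rintro (h | h)
      · exact Or.inl h
      · exact Or.inr (Or.inl ⟨rfl, h⟩)
  by_cases h1 : (a = k ∧ b = l) ∨ (a = l ∧ b = k)
  · rw [if_pos h1, if_pos (h.2 h1)]
  · rw [if_neg h1, if_neg (fun h2 => h1 (h.1 h2))]

theorem qa_coeff_ne (E : Fin n → Fin n → D) (i j k l : Fin n) (hkl : k ≠ l) :
    (M.lin (E i) * M.lin (E j) : YR D n).coeff (Finsupp.single k 1 + Finsupp.single l 1) =
      E i k * E j l + E i l * E j k := by
  rw [qa_coeff, Finset.sum_eq_add k l hkl]
  · rw [Finset.sum_eq_single l, Finset.sum_eq_single k, if_pos (Or.inl ⟨rfl, rfl⟩),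
      if_pos (Or.inr ⟨rfl, rfl⟩)]
    · intro b _ hb
      rw [if_neg]
      rintro (⟨h, _⟩ | ⟨_, h⟩)
      · exact hkl h.symm
      · exact hb h
    · intro h
      exact absurd (Finset.mem_univ _) h
    · intro b _ hb
      rw [if_neg]
      rintro (⟨_, h⟩ | ⟨h, _⟩)
      · exact hb h
      · exact hkl h
    · intro h
      exact absurd (Finset.mem_univ _) h
  · intro a _ ha
    apply Finset.sum_eq_zero
    intro b _
    rw [if_neg]
    rintro (⟨h, _⟩ | ⟨h, _⟩)
    · exact ha.1 h
    · exact ha.2 h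
  · intro h
    exact absurd (Finset.mem_univ _) h
  · intro h
    exact absurd (Finset.mem_univ _) h

theorem qa_coeff_eq (E : Fin n → Fin n → D) (i j k : Fin n) :
    (M.lin (E i) * M.lin (E j) : YR D n).coeff (Finsupp.single k 1 + Finsupp.single k 1) =
      E i k * E j k := by
  rw [qa_coeff, Finset.sum_eq_single k]
  · rw [Finset.sum_eq_single k, if_pos (Or.inl ⟨rfl, rfl⟩)]
    · intro b _ hb
      rw [if_neg]
      rintro (⟨_, h⟩ | ⟨_, h⟩) <;> exact hb h
    · intro h
      exact absurd (Finset.mem_univ _) h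
  · intro a _ ha
    apply Finset.sum_eq_zero
    intro b _
    rw [if_neg]
    rintro (⟨h, _⟩ | ⟨h, _⟩) <;> exact ha h
  · intro h
    exact absurd (Finset.mem_univ _) h

variable {E : Fin n → Fin n → D}

theorem qa_sym (hcomm : ∀ i j, M.lin (E i) * M.lin (E j) = M.lin (E j) * M.lin (E i))
    {k l : Fin n} (hkl : k ≠ l) (i j : Fin n) :
    E i k * E j l + E i l * E j k = E j k * E i l + E j l * E i k := by
  rw [← qa_coeff_ne E i j k l hkl, ← qa_coeff_ne E j i k l hkl, hcomm]

theorem qa_sym_eq (hcomm : ∀ i j, M.lin (E i) * M.lin (E j) = M.lin (E j) * M.lin (E i))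
    (k : Fin n) (i j : Fin n) : E i k * E j k = E j k * E i k := by
  rw [← qa_coeff_eq E i j k, ← qa_coeff_eq E j i k, hcomm]

/-- the operators anticommute -/
theorem qaT_anti (hcomm : ∀ i j, M.lin (E i) * M.lin (E j) = M.lin (E j) * M.lin (E i))
    {k l : Fin n} (hkl : k ≠ l) (f : Finset (Fin n) → D) :
    qaT E k (qaT E l f) = - qaT E l (qaT E k f) := by
  rw [eq_neg_iff_add_eq_zero]
  funext s
  rw [Pi.add_apply, Pi.zero_apply, qaT_qaT, qaT_qaT, ← Finset.sum_add_distrib,
    ← qa_double s (fun i j => E i k * E j l + E i l * E j k) (fun i j => by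
      rw [qa_sym hcomm hkl]) f]
  refine Finset.sum_congr rfl fun i _ => ?_
  rw [← Finset.sum_add_distrib]
  refine Finset.sum_congr rfl fun j _ => ?_
  rw [← smul_add, ← add_mul]

theorem qaT_sq (hcomm : ∀ i j, M.lin (E i) * M.lin (E j) = M.lin (E j) * M.lin (E i))
    (k : Fin n) (f : Finset (Fin n) → D) : qaT E k (qaT E k f) = 0 := by
  funext s
  rw [Pi.zero_apply, qaT_qaT]
  exact qa_double s (fun i j => E i k * E j k) (fun i j => qa_sym_eq hcomm k i j) f

/-- the unit family -/
def qaDelta (D : Type*) [DivisionRing D] (n : ℕ) : Finset (Fin n) → D :=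
  fun s => if s = ∅ then 1 else 0

/-- the columns of `Φ` -/
def qaW (E : Fin n → Fin n → D) (t : Finset (Fin n)) : Finset (Fin n) → D :=
  (t.sort (· ≤ ·)).foldr (qaT E) (qaDelta D n)

theorem qaW_empty (E : Fin n → Fin n → D) : qaW E ∅ = qaDelta D n := by
  unfold qaW
  rw [Finset.sort_empty]
  rfl

theorem qaW_insert (E : Fin n → Fin n → D) {a : Fin n} {t : Finset (Fin n)}
    (h : ∀ b ∈ t, a < b) : qaW E (insert a t) = qaT E a (qaW E t) := by
  unfold qaW
  rw [Finset.sort_insert (r := (· ≤ ·)) (fun b hb => (h b hb).le)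
    (fun ha => lt_irrefl a (h a ha))]
  rfl

/-- the rule of `Φ` -/
theorem qaT_W (hcomm : ∀ i j, M.lin (E i) * M.lin (E j) = M.lin (E j) * M.lin (E i))
    (t : Finset (Fin n)) : ∀ k, qaT E k (qaW E t) =
      if k ∈ t then 0 else ((-1 : ℤ) ^ qaP t k) • qaW E (insert k t) := by
  induction t using Finset.induction_on_min with
  | empty =>
    intro k
    rw [if_neg (Finset.notMem_empty k), qaW_insert E (by simp)]
    unfold qaP
    rw [Finset.filter_empty, Finset.card_empty, pow_zero, one_smul]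
  | insert a t ha ih =>
    intro k
    have hat : a ∉ t := fun h => lt_irrefl a (ha a h)
    rcases lt_trichotomy k a with hk | hk | hk
    · have hk' : ∀ b ∈ insert a t, k < b := by
        intro b hb
        rcases Finset.mem_insert.1 hb with rfl | hb
        · exact hk
        · exact hk.trans (ha b hb)
      have h0 : qaP (insert a t) k = 0 := by
        unfold qaP
        rw [Finset.card_eq_zero, Finset.filter_eq_empty_iff]
        intro b hb
        exact not_lt.2 (hk' b hb).le
      rw [if_neg (fun h => lt_irrefl k (hk' k h)), qaW_insert E hk', h0, pow_zero, one_smul]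
    · subst hk
      rw [if_pos (Finset.mem_insert_self k t), qaW_insert E ha, qaT_sq hcomm]
    · rw [qaW_insert E ha, qaT_anti hcomm hk.ne', ih k]
      by_cases hkt : k ∈ t
      · rw [if_pos hkt, if_pos (Finset.mem_insert_of_mem hkt), qaT_zero, neg_zero]
      · have h1 : k ∉ insert a t := by
          rw [Finset.mem_insert]
          rintro (h | h)
          · exact hk.ne' h
          · exact hkt h
        have h2 : ∀ b ∈ insert k t, a < b := by
          intro b hb
          rcases Finset.mem_insert.1 hb with rfl | hb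
          · exact hk
          · exact ha b hb
        rw [if_neg hkt, if_neg h1, qaT_smul, ← qaW_insert E h2, Finset.insert_comm a k t,
          qaP_insert_lt hat hk, pow_succ, mul_neg_one, neg_smul]

theorem qaW_card (E : Fin n → Fin n → D) (t : Finset (Fin n)) :
    ∀ s, s.card ≠ t.card → qaW E t s = 0 := by
  induction t using Finset.induction_on_min with
  | empty =>
    intro s hs
    rw [qaW_empty]
    unfold qaDelta
    rw [if_neg]
    rintro rfl
    exact hs rfl
  | insert a t ha ih =>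
    intro s hs
    rw [qaW_insert E ha, qaT_apply]
    apply Finset.sum_eq_zero
    intro i hi
    rw [ih, mul_zero, smul_zero]
    intro h
    apply hs
    rw [Finset.card_insert_of_notMem (fun h => lt_irrefl a (ha a h)), ← h,
      Finset.card_erase_add_one hi]

/-- **Existence of `Φ`.** -/
theorem qa_exists_phi (hcomm : ∀ i j, M.lin (E i) * M.lin (E j) = M.lin (E j) * M.lin (E i)) :
    ∃ Phi : Finset (Fin n) → Finset (Fin n) → D, Phi ∅ ∅ = 1 ∧
      (∀ s t, s.card ≠ t.card → Phi s t = 0) ∧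
      ∀ s t k, ∑ i ∈ s, ((-1 : ℤ) ^ ((s.erase i).filter fun j => j < i).card) •
          (E i k * Phi (s.erase i) t) =
        if k ∈ t then 0 else ((-1 : ℤ) ^ (t.filter fun j => j < k).card) • Phi s (insert k t) := by
  refine ⟨fun s t => qaW E t s, ?_, fun s t h => qaW_card E t s h, fun s t k => ?_⟩
  · change qaW E ∅ ∅ = 1
    rw [qaW_empty]
    unfold qaDelta
    rw [if_pos rfl]
  · have h := congrFun (qaT_W hcomm t k) s
    rw [qaT_apply] at h
    change ∑ i ∈ s, ((-1 : ℤ) ^ qaP (s.erase i) i) • (E i k * qaW E t (s.erase i)) = _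
    rw [h]
    by_cases hk : k ∈ t
    · rw [if_pos hk, if_pos hk]
      rfl
    · rw [if_neg hk, if_neg hk]
      rfl

end ops

end Vale.Agent.P200F.V

end

section

namespace Vale.Agent.P200F.V

open MvPolynomial Module
open Vale.Agent.P200F.M

section mat
variable {D : Type*} [DivisionRing D] {n : ℕ}

/-- right multiplication by the matrix `P` -/
noncomputable def mz (P : Finset (Fin n) → Finset (Fin n) → D) (c : Finset (Fin n) → YR D n) :
    Finset (Fin n) → YR D n := fun t => ∑ s, c s * AddMonoidAlgebra.single 0 (P s t)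

theorem mz_apply (P : Finset (Fin n) → Finset (Fin n) → D) (c : Finset (Fin n) → YR D n)
    (t : Finset (Fin n)) : mz P c t = ∑ s, c s * AddMonoidAlgebra.single 0 (P s t) := rfl

/-- `mz` as a `D`-linear map -/
noncomputable def mzL (P : Finset (Fin n) → Finset (Fin n) → D) :
    (Finset (Fin n) → YR D n) →ₗ[D] (Finset (Fin n) → YR D n) where
  toFun := mz P
  map_add' a b := by
    funext t
    rw [Pi.add_apply, mz_apply, mz_apply, mz_apply, ← Finset.sum_add_distrib]
    refine Finset.sum_congr rfl fun s _ => ?_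
    rw [Pi.add_apply, add_mul]
  map_smul' k a := by
    funext t
    rw [RingHom.id_apply, Pi.smul_apply, mz_apply, mz_apply, Finset.smul_sum]
    refine Finset.sum_congr rfl fun s _ => ?_
    rw [Pi.smul_apply, smul_mul_assoc]

theorem mzL_apply (P : Finset (Fin n) → Finset (Fin n) → D) (c : Finset (Fin n) → YR D n) :
    mzL P c = mz P c := rfl

theorem mz_card {P : Finset (Fin n) → Finset (Fin n) → D}
    (hP : ∀ s t, s.card ≠ t.card → P s t = 0) {c : Finset (Fin n) → YR D n} {p : ℕ}
    (hc : ∀ s, s.card ≠ p → c s = 0) (t : Finset (Fin n)) (ht : t.card ≠ p) : mz P c t = 0 := by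
  rw [mz_apply]
  refine Finset.sum_eq_zero fun s _ => ?_
  by_cases hs : s.card = p
  · rw [hP s t fun h => ht (h ▸ hs), AddMonoidAlgebra.single_zero, mul_zero]
  · rw [hc s hs, zero_mul]

theorem mz_mem (P : Finset (Fin n) → Finset (Fin n) → D) {W : Submodule D (YR D n)}
    (hW : ∀ u ∈ W, ∀ c : D, u * AddMonoidAlgebra.single 0 c ∈ W)
    {c : Finset (Fin n) → YR D n} (hc : ∀ s, c s ∈ W) (t : Finset (Fin n)) : mz P c t ∈ W := by
  rw [mz_apply]
  exact W.sum_mem fun s _ => hW _ (hc s) _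

/-- the identity for the linear forms -/
theorem lin_key (E : Fin n → Fin n → D) (P : Finset (Fin n) → Finset (Fin n) → D)
    (hP : ∀ s t k, ∑ i ∈ s, ((-1 : ℤ) ^ ((s.erase i).filter (fun j => j < i)).card) •
      (E i k * P (s.erase i) t) =
      if k ∈ t then 0 else ((-1 : ℤ) ^ (t.filter (fun j => j < k)).card) • P s (insert k t))
    (s t : Finset (Fin n)) :
    ∑ i ∈ s, ((-1 : ℤ) ^ ((s.erase i).filter (fun j => j < i)).card) •
      (M.lin (E i) * AddMonoidAlgebra.single 0 (P (s.erase i) t)) =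
    ∑ k ∈ tᶜ, ((-1 : ℤ) ^ (t.filter (fun j => j < k)).card) •
      ((AddMonoidAlgebra.single 0 (P s (insert k t)) : YR D n) * zv D n k) := by
  classical
  have h1 : ∀ i, M.lin (E i) * AddMonoidAlgebra.single 0 (P (s.erase i) t) =
      ∑ k, (AddMonoidAlgebra.single (Finsupp.single k 1) (E i k * P (s.erase i) t) : YR D n) := by
    intro i
    rw [M.lin, Finset.sum_mul]
    refine Finset.sum_congr rfl fun k _ => ?_
    rw [AddMonoidAlgebra.single_mul_single, add_zero]
  have h2 : ∀ k, ((AddMonoidAlgebra.single 0 (P s (insert k t)) : YR D n) * zv D n k) =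
      AddMonoidAlgebra.single (Finsupp.single k 1) (P s (insert k t)) := by
    intro k
    rw [zv, AddMonoidAlgebra.single_mul_single, zero_add, mul_one]
  simp only [h1, h2, Finset.smul_sum]
  rw [Finset.sum_comm]
  have h3 : ∀ k, ∑ i ∈ s, ((-1 : ℤ) ^ ((s.erase i).filter (fun j => j < i)).card) •
      (AddMonoidAlgebra.single (Finsupp.single k 1) (E i k * P (s.erase i) t) : YR D n) =
      AddMonoidAlgebra.single (Finsupp.single k 1) (if k ∈ t then 0 else
        ((-1 : ℤ) ^ (t.filter (fun j => j < k)).card) • P s (insert k t)) := by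
    intro k
    rw [← hP s t k]
    have h4 := map_sum (AddMonoidAlgebra.singleAddHom (R := D) (Finsupp.single k 1 : Fin n →₀ ℕ))
      (fun i => ((-1 : ℤ) ^ ((s.erase i).filter (fun j => j < i)).card) •
      (E i k * P (s.erase i) t)) s
    simp only [map_zsmul] at h4
    exact h4.symm
  rw [Finset.sum_congr rfl fun k _ => h3 k, ← Finset.sum_compl_add_sum t, add_comm,
    Finset.sum_eq_zero, zero_add]
  · refine Finset.sum_congr rfl fun k hk => ?_
    rw [if_neg (Finset.mem_compl.1 hk)]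
    exact map_zsmul (AddMonoidAlgebra.singleAddHom (R := D) (Finsupp.single k 1 : Fin n →₀ ℕ)) _ _
  · intro k hk
    rw [if_pos hk, AddMonoidAlgebra.single_zero]

/-- reindexing -/
theorem cb_reindex {M : Type*} [AddCommMonoid M] (F : Finset (Fin n) → Fin n → M) :
    ∑ s' : Finset (Fin n), ∑ i ∈ s'ᶜ, F s' i = ∑ s : Finset (Fin n), ∑ i ∈ s, F (s.erase i) i := by
  classical
  rw [Finset.sum_sigma', Finset.sum_sigma']
  refine Finset.sum_bij' (fun a _ => ⟨insert a.2 a.1, a.2⟩) (fun a _ => ⟨a.1.erase a.2, a.2⟩)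
    ?_ ?_ ?_ ?_ ?_
  · rintro ⟨I, i⟩ h
    simp
  · rintro ⟨I, i⟩ h
    simp
  · rintro ⟨I, i⟩ h
    have hi : i ∉ I := by simpa using h
    simp [Finset.erase_insert hi]
  · rintro ⟨I, i⟩ h
    have hi : i ∈ I := by simpa using h
    simp [Finset.insert_erase hi]
  · rintro ⟨I, i⟩ h
    have hi : i ∉ I := by simpa using h
    simp [Finset.erase_insert hi]

/-- the chain map -/
theorem mz_chain (E : Fin n → Fin n → D) (P : Finset (Fin n) → Finset (Fin n) → D)
    (hP : ∀ s t k, ∑ i ∈ s, ((-1 : ℤ) ^ ((s.erase i).filter (fun j => j < i)).card) •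
      (E i k * P (s.erase i) t) =
      if k ∈ t then 0 else ((-1 : ℤ) ^ (t.filter (fun j => j < k)).card) • P s (insert k t))
    (c : Finset (Fin n) → YR D n) :
    kr (zv D n) (mz P c) = mz P (kr (fun i => M.lin (E i)) c) := by
  classical
  funext t
  have h1 : mz P (kr (fun i => M.lin (E i)) c) t = ∑ s : Finset (Fin n), ∑ i ∈ sᶜ,
      ((-1 : ℤ) ^ (s.filter fun k => k < i).card) •
        (c (insert i s) * (M.lin (E i) * AddMonoidAlgebra.single 0 (P s t))) := by
    rw [mz_apply]
    refine Finset.sum_congr rfl fun s _ => ?_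
    rw [cp_kr, Finset.sum_mul]
    refine Finset.sum_congr rfl fun i _ => ?_
    rw [smul_mul_assoc, mul_assoc]
  rw [h1, cb_reindex, cp_kr]
  have h2 : ∀ s : Finset (Fin n), ∑ i ∈ s, ((-1 : ℤ) ^ ((s.erase i).filter fun k => k < i).card) •
        (c (insert i (s.erase i)) * (M.lin (E i) * AddMonoidAlgebra.single 0 (P (s.erase i) t))) =
      ∑ k ∈ tᶜ, ((-1 : ℤ) ^ (t.filter (fun j => j < k)).card) •
      (c s * (AddMonoidAlgebra.single 0 (P s (insert k t)) : YR D n) * zv D n k) := by
    intro s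
    have h3 := congrArg (fun x => c s * x) (lin_key E P hP s t)
    simp only [Finset.mul_sum, mul_smul_comm] at h3
    refine Eq.trans (Finset.sum_congr rfl fun i hi => ?_) (h3.trans ?_)
    · rw [Finset.insert_erase hi]
    · refine Finset.sum_congr rfl fun k _ => ?_
      rw [mul_assoc]
  rw [Finset.sum_congr rfl fun s _ => h2 s, Finset.sum_comm]
  refine Finset.sum_congr rfl fun k _ => ?_
  rw [mz_apply, Finset.sum_mul, Finset.smul_sum]

/-- injectivity on constants -/
theorem mz_inj_const (E : Fin n → Fin n → D) (P : Finset (Fin n) → Finset (Fin n) → D)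
    (hP1 : P ∅ ∅ = 1)
    (hP : ∀ s t k, ∑ i ∈ s, ((-1 : ℤ) ^ ((s.erase i).filter (fun j => j < i)).card) •
      (E i k * P (s.erase i) t) =
      if k ∈ t then 0 else ((-1 : ℤ) ^ (t.filter (fun j => j < k)).card) • P s (insert k t))
    (hind : LinearIndependent D E) (p : ℕ) :
    ∀ c : Finset (Fin n) → D, (∀ s, s.card ≠ p → c s = 0) → (∀ t, ∑ s, c s * P s t = 0) →
      c = 0 := by
  classical
  induction p with
  | zero =>
    intro c hc h
    have h1 := h ∅
    rw [Finset.sum_eq_single ∅, hP1, mul_one] at h1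
    · funext s
      by_cases hs : s = ∅
      · rw [hs, h1, Pi.zero_apply]
      · exact hc s (by simpa using hs)
    · intro I _ hI
      rw [hc I (by simpa using hI), zero_mul]
    · simp
  | succ p ih =>
    intro c hc h
    have h1 : ∀ k : Fin n, kr (fun i => E i k) c = 0 := by
      intro k
      apply ih
      · intro s hs
        rw [cp_kr]
        refine Finset.sum_eq_zero fun i hi => ?_
        rw [hc, zero_mul, smul_zero]
        rw [Finset.card_insert_of_notMem (Finset.mem_compl.1 hi)]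
        omega
      · intro t
        have h2 : ∑ s, kr (fun i => E i k) c s * P s t = ∑ s : Finset (Fin n), ∑ i ∈ sᶜ,
            ((-1 : ℤ) ^ (s.filter fun k => k < i).card) •
              (c (insert i s) * (E i k * P s t)) := by
          refine Finset.sum_congr rfl fun s _ => ?_
          rw [cp_kr, Finset.sum_mul]
          refine Finset.sum_congr rfl fun i _ => ?_
          rw [smul_mul_assoc, mul_assoc]
        rw [h2, cb_reindex]
        have h3 : ∀ s : Finset (Fin n), ∑ i ∈ s,
            ((-1 : ℤ) ^ ((s.erase i).filter fun k => k < i).card) •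
              (c (insert i (s.erase i)) * (E i k * P (s.erase i) t)) =
            if k ∈ t then 0 else ((-1 : ℤ) ^ (t.filter (fun j => j < k)).card) •
              (c s * P s (insert k t)) := by
          intro s
          have h4 := congrArg (fun x => c s * x) (hP s t k)
          simp only [Finset.mul_sum, mul_smul_comm, mul_ite, mul_zero] at h4
          refine Eq.trans (Finset.sum_congr rfl fun i hi => ?_) h4
          rw [Finset.insert_erase hi]
        rw [Finset.sum_congr rfl fun s _ => h3 s]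
        by_cases hk : k ∈ t
        · simp [hk]
        · simp only [hk, if_false]
          rw [← Finset.smul_sum, h, smul_zero]
    funext s
    by_cases hs : s.card = p + 1
    · obtain ⟨i₀, hi₀⟩ : s.Nonempty := Finset.card_pos.1 (by omega)
      have hi₁ : i₀ ∉ s.erase i₀ := Finset.notMem_erase _ _
      have h4 : ∑ i, (if i ∈ s.erase i₀ then (0 : D) else
          ((-1 : ℤ) ^ ((s.erase i₀).filter fun k => k < i).card) • c (insert i (s.erase i₀))) •
          E i = 0 := by
        funext k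
        rw [Finset.sum_apply, Pi.zero_apply]
        have h5 := congrFun (h1 k) (s.erase i₀)
        rw [cp_kr, Pi.zero_apply] at h5
        refine Eq.trans ?_ h5
        rw [← Finset.sum_compl_add_sum (s.erase i₀)]
        rw [Finset.sum_eq_zero (s := s.erase i₀)]
        · rw [add_zero]
          refine Finset.sum_congr rfl fun i hi => ?_
          rw [if_neg (Finset.mem_compl.1 hi), Pi.smul_apply, smul_eq_mul, smul_mul_assoc]
        · intro i hi
          rw [if_pos hi, zero_smul, Pi.zero_apply]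
      have h6 := (Fintype.linearIndependent_iff.1 hind) _ h4 i₀
      rw [if_neg hi₁, Finset.insert_erase hi₀] at h6
      rcases neg_one_pow_eq_or ℤ ((s.erase i₀).filter fun k => k < i₀).card with h7 | h7
      · rw [h7, one_smul] at h6
        exact h6
      · rw [h7, neg_one_smul, neg_eq_zero] at h6
        exact h6
    · exact hc s hs

/-- injectivity -/
theorem mz_inj (E : Fin n → Fin n → D) (P : Finset (Fin n) → Finset (Fin n) → D)
    (hP1 : P ∅ ∅ = 1)
    (hP : ∀ s t k, ∑ i ∈ s, ((-1 : ℤ) ^ ((s.erase i).filter (fun j => j < i)).card) •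
      (E i k * P (s.erase i) t) =
      if k ∈ t then 0 else ((-1 : ℤ) ^ (t.filter (fun j => j < k)).card) • P s (insert k t))
    (hind : LinearIndependent D E) (p : ℕ) (c : Finset (Fin n) → YR D n)
    (hc : ∀ s, s.card ≠ p → c s = 0) (h : mz P c = 0) : c = 0 := by
  funext s
  ext m
  have h1 : (fun t => (c t).coeff m) = 0 := by
    apply mz_inj_const E P hP1 hP hind p
    · intro t ht
      rw [hc t ht, AddMonoidAlgebra.coeff_zero, Finsupp.zero_apply]
    · intro t
      have h2 := congrArg (fun u : YR D n => u.coeff m) (congrFun h t)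
      simp only [mz_apply, Pi.zero_apply, AddMonoidAlgebra.coeff_zero, Finsupp.zero_apply] at h2
      let φ : YR D n →+ D := AddMonoidHom.mk' (fun u => u.coeff m) (fun u v => by
        rw [AddMonoidAlgebra.coeff_add, Finsupp.add_apply])
      have h3 := map_sum φ (fun s => c s * AddMonoidAlgebra.single 0 (P s t)) Finset.univ
      have h4 : ∀ s, φ (c s * AddMonoidAlgebra.single 0 (P s t)) = (c s).coeff m * P s t :=
        fun s => coeff_mul_single_zero _ _ _
      rw [Finset.sum_congr rfl fun s _ => h4 s] at h3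
      rw [← h3]
      exact h2
  exact congrFun h1 s

/-- the bijection -/
theorem compound_of_phi (E : Fin n → Fin n → D) (P : Finset (Fin n) → Finset (Fin n) → D)
    (hP1 : P ∅ ∅ = 1) (hP0 : ∀ s t, s.card ≠ t.card → P s t = 0)
    (hP : ∀ s t k, ∑ i ∈ s, ((-1 : ℤ) ^ ((s.erase i).filter (fun j => j < i)).card) •
      (E i k * P (s.erase i) t) =
      if k ∈ t then 0 else ((-1 : ℤ) ^ (t.filter (fun j => j < k)).card) • P s (insert k t))
    (hind : LinearIndependent D E) {d p : ℕ} (V : Submodule D (M.YR D n))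
    (hV : V ≤ M.YD D n (d + 1))
    (hVr : ∀ u ∈ V, ∀ c : D, u * AddMonoidAlgebra.single 0 c ∈ V) :
    finrank D (M.rd (M.zv D n) V (M.YD D n d) p) =
      finrank D (M.rd (fun i => M.lin (E i)) V (M.YD D n d) p) := by
  classical
  rcases p with _ | q
  · rw [rd_zero, rd_zero]
  have hchain := mz_chain E P hP
  have hinj := fun (r : ℕ) (c : Finset (Fin n) → YR D n) => mz_inj E P hP1 hP hind r c
  -- surjectivity
  have hsurj : ∀ (r : ℕ) (W : Submodule D (YR D n)) [Module.Finite D W],
      (∀ u ∈ W, ∀ a : D, u * AddMonoidAlgebra.single 0 a ∈ W) → ∀ c ∈ chD n r W,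
        ∃ c' ∈ chD n r W, mz P c' = c := by
    intro r W _ hW c hc
    have := finite_chD r W
    let g : chD n r W →ₗ[D] chD n r W := (mzL P).restrict fun c hc =>
      ⟨fun s hs => mz_card hP0 hc.1 s hs, fun s => mz_mem P hW hc.2 s⟩
    have hg : Function.Injective g := by
      rw [← LinearMap.ker_eq_bot, LinearMap.ker_eq_bot']
      intro c hc
      apply Subtype.ext
      exact hinj r c.1 c.2.1 (congrArg Subtype.val hc)
    obtain ⟨c', hc'⟩ := (LinearMap.injective_iff_surjective.1 hg) ⟨c, hc⟩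
    exact ⟨c'.1, c'.2, congrArg Subtype.val hc'⟩
  have hYA : ∀ u ∈ YD D n d, ∀ a : D, u * AddMonoidAlgebra.single 0 a ∈ YD D n d := by
    intro u hu a m hm
    refine hu m fun h => hm ?_
    rw [coeff_mul_single_zero, h, zero_mul]
  have hfV : Module.Finite D V := by
    have := finite_YD (D := D) (n := n) (d + 1)
    exact Module.Finite.of_injective (Submodule.inclusion hV) (Submodule.inclusion_injective hV)
  have hmap : (rd (fun i => M.lin (E i)) V (YD D n d) (q + 1)).map (mzL P) =
      rd (zv D n) V (YD D n d) (q + 1) := by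
    ext c
    rw [Submodule.mem_map]
    constructor
    · rintro ⟨c, hc, rfl⟩
      rw [mzL_apply, mem_rd]
      refine ⟨⟨fun s hs => mz_card hP0 hc.1.1 s hs, fun s => mz_mem P hYA hc.1.2 s⟩, ?_⟩
      intro t
      rw [hchain]
      exact mz_mem P hVr hc.2 t
    · intro hc
      obtain ⟨c', hc', rfl⟩ := hsurj (q + 1) (YD D n d) hYA c hc.1
      refine ⟨c', ⟨hc', ?_⟩, rfl⟩
      have h1 : kr (zv D n) (mz P c') ∈ chD n q V :=
        ⟨fun t ht => kr_card _ hc.1.1 t ht, hc.2⟩
      obtain ⟨w, hw, hw'⟩ := hsurj q V hVr _ h1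
      rw [hchain] at hw'
      have h2 : kr (fun i => M.lin (E i)) c' - w = 0 := by
        apply hinj q
        · intro s hs
          rw [Pi.sub_apply, kr_card _ hc'.1 s hs, hw.1 s hs, sub_zero]
        · have h3 : mz P (kr (fun i => M.lin (E i)) c' - w) =
              mz P (kr (fun i => M.lin (E i)) c') - mz P w := map_sub (mzL P) _ _
          rw [h3, hw', sub_self]
      rw [sub_eq_zero] at h2
      rw [h2]
      exact hw.2
  rw [← hmap, ← LinearMap.range_domRestrict]
  refine LinearMap.finrank_range_of_inj ?_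
  rw [← LinearMap.ker_eq_bot, LinearMap.ker_eq_bot']
  intro c hc
  apply Subtype.ext
  exact hinj (q + 1) c.1 c.2.1.1 hc

end mat

end Vale.Agent.P200F.V

end

section

namespace Vale.Agent.P200F.V

open MvPolynomial Module
open Vale.Agent.P200F.M

/-- The Koszul complexes of `z` and of the `ξ_i = ∑ E_ik z_k` are isomorphic. -/
theorem compound_comm {D : Type*} [DivisionRing D] {n : ℕ} (E : Fin n → Fin n → D)
    (hcomm : ∀ i j, M.lin (E i) * M.lin (E j) = M.lin (E j) * M.lin (E i))
    (hind : LinearIndependent D E) {d p : ℕ} (V : Submodule D (M.YR D n))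
    (hV : V ≤ M.YD D n (d + 1))
    (hVr : ∀ u ∈ V, ∀ c : D, u * AddMonoidAlgebra.single 0 c ∈ V) :
    finrank D (M.rd (M.zv D n) V (M.YD D n d) p) =
      finrank D (M.rd (fun i => M.lin (E i)) V (M.YD D n d) p) := by
  obtain ⟨P, hP1, hP0, hP⟩ := qa_exists_phi hcomm
  exact compound_of_phi E P hP1 hP0 hP hind V hV hVr

end Vale.Agent.P200F.V

end

section

namespace Vale.Agent.P200F.Y

open MvPolynomial Module
open Vale.Agent.P200F.B Vale.Agent.P200F.G Vale.Agent.P200F.L Vale.Agent.P200F.M Vale.Agent.P200F.V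
open Vale.Agent.P200F.W

universe u

variable {K : Type u} [Field K] {n : ℕ}

theorem y5_sum_smul (m s : Fin n →₀ ℕ) : ∑ k, (m + s) k = ∑ k, m k + ∑ k, s k := by
  rw [← Finset.sum_add_distrib]
  exact Finset.sum_congr rfl fun k _ => Finsupp.add_apply _ _ _

theorem y5_sum_single (i : Fin n) (k : ℕ) : ∑ l, (k • Finsupp.single i 1 : Fin n →₀ ℕ) l = k := by
  rw [Finset.sum_eq_single i]
  · rw [Finsupp.smul_apply, Finsupp.single_eq_same, smul_eq_mul, mul_one]
  · intro l _ hl
    rw [Finsupp.smul_apply, Finsupp.single_eq_of_ne hl, smul_zero]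
  · intro h
    exact absurd (Finset.mem_univ i) h

/-- the forms of degree `e` with last exponents at most `k` -/
def y5_W (n e k : ℕ) : Set (Fin (n + 1) →₀ ℕ) := {m | ∑ i, m i = e ∧ m (Fin.last n) ≤ k}

theorem y5_single_mem {D : Type*} [DivisionRing D] {S : Set (Fin n →₀ ℕ)} {m : Fin n →₀ ℕ}
    (hm : m ∈ S) (c : D) : (AddMonoidAlgebra.single m c : YR D n) ∈ monD D S := by
  classical
  intro m' hm'
  rw [AddMonoidAlgebra.coeff_single, Finsupp.single_apply] at hm'
  by_cases h : m = m'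
  · rw [← h]
    exact hm
  · rw [if_neg h] at hm'
    exact absurd rfl hm'

theorem y5_deg_sn_add (m : Fin n →₀ ℕ) (j : Fin n) {t k : ℕ} (h : t ≤ k) :
    ∑ i, sn (m + t • Finsupp.single j 1) (k - t) i = ∑ i, sn m k i := by
  rw [lex_sum_sn, lex_sum_sn, y5_sum_smul, y5_sum_single]
  omega

end Vale.Agent.P200F.Y

end

section

set_option linter.all false

namespace Vale.Agent.P200F.V

universe u

section Qp

variable {K : Type u} [Field K] {R : Type u} [Ring R] [Algebra K R]

/-- Laurent series whose `n`-th coefficient is homogeneous of degree `n`. -/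
noncomputable def qpair_D (G : ℤ → Submodule K R) (h1 : (1 : R) ∈ G 0)
    (hm : ∀ i j a b, a ∈ G i → b ∈ G j → a * b ∈ G (i + j)) : Subalgebra K (HahnSeries ℤ R) where
  carrier := {F | ∀ n, F.coeff n ∈ G n}
  mul_mem' := by
    intro F E hF hE n
    rw [HahnSeries.coeff_mul]
    refine Submodule.sum_mem _ fun ij hij => ?_
    have h := (Finset.mem_antidiagonal.mp hij).2.2
    rw [← h]
    exact hm _ _ _ _ (hF _) (hE _)
  add_mem' := by
    intro F E hF hE n
    rw [HahnSeries.coeff_add]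
    exact (G n).add_mem (hF n) (hE n)
  algebraMap_mem' := by
    intro r n
    rw [HahnSeries.algebraMap_apply, HahnSeries.C_apply]
    by_cases hn : n = 0
    · subst hn
      rw [HahnSeries.coeff_single_same, Algebra.algebraMap_eq_smul_one]
      exact (G 0).smul_mem _ h1
    · rw [HahnSeries.coeff_single_of_ne hn]
      exact (G n).zero_mem

theorem qpair_mem (G : ℤ → Submodule K R) (h1 : (1 : R) ∈ G 0)
    (hm : ∀ i j a b, a ∈ G i → b ∈ G j → a * b ∈ G (i + j)) (F : HahnSeries ℤ R) :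
    F ∈ qpair_D G h1 hm ↔ ∀ n, F.coeff n ∈ G n :=
  Iff.rfl

theorem qpair_single (G : ℤ → Submodule K R) (h1 : (1 : R) ∈ G 0)
    (hm : ∀ i j a b, a ∈ G i → b ∈ G j → a * b ∈ G (i + j)) (n : ℤ) (a : R) (ha : a ∈ G n) :
    HahnSeries.single n a ∈ qpair_D G h1 hm := by
  rw [qpair_mem]
  intro k
  by_cases hk : k = n
  · subst hk
    rw [HahnSeries.coeff_single_same]
    exact ha
  · rw [HahnSeries.coeff_single_of_ne hk]
    exact (G k).zero_mem

theorem qpair_inv (G : ℤ → Submodule K R)
    (hm : ∀ i j a b, a ∈ G i → b ∈ G j → a * b ∈ G (i + j))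
    (hi : ∀ i a, a ∈ G i → a ≠ 0 → ∃ b ∈ G (-i), a * b = 1 ∧ b * a = 1)
    (F : HahnSeries ℤ R) (hF : ∀ n, F.coeff n ∈ G n) (h0 : F ≠ 0) :
    ∃ E : HahnSeries ℤ R, (∀ n, E.coeff n ∈ G n) ∧ F * E = 1 ∧ E * F = 1 := by
  have hc : F.coeff F.order ≠ 0 := HahnSeries.coeff_order_eq_zero.not.mpr h0
  obtain ⟨b, hb, hab, hba⟩ := hi F.order _ (hF _) hc
  obtain ⟨P, hP⟩ : ∃ P : PowerSeries R, P = LaurentSeries.powerSeriesPart F := ⟨_, rfl⟩
  have hPc : ∀ n : ℕ, PowerSeries.coeff n P = F.coeff (F.order + n) := by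
    intro n
    rw [hP, LaurentSeries.powerSeriesPart_coeff]
  let v : Rˣ := ⟨F.coeff F.order, b, hab, hba⟩
  have hv : PowerSeries.constantCoeff P = v := by
    rw [← PowerSeries.coeff_zero_eq_constantCoeff_apply, hPc, Nat.cast_zero, add_zero]
  obtain ⟨Q, hQ⟩ : ∃ Q : PowerSeries R, Q = PowerSeries.invOfUnit P v := ⟨_, rfl⟩
  have hPQ : P * Q = 1 := by rw [hQ]; exact PowerSeries.mul_invOfUnit P v hv
  have hQP : Q * P = 1 := by rw [hQ]; exact PowerSeries.invOfUnit_mul P v hv
  have hQc : ∀ n : ℕ, PowerSeries.coeff n Q ∈ G (n - F.order) := by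
    intro n
    induction n using Nat.strong_induction_on with
    | _ n ih =>
      rw [hQ, PowerSeries.coeff_invOfUnit, ← hQ]
      split_ifs with hn
      · subst hn
        rw [Nat.cast_zero, zero_sub]
        exact hb
      · have h2 : (n : ℤ) - F.order = -F.order + n := by ring
        rw [h2]
        refine hm _ _ _ _ ((G _).neg_mem hb) ?_
        refine Submodule.sum_mem _ fun x hx => ?_
        split_ifs with hx2
        · have h3 := hm _ _ _ _ (hF (F.order + x.1)) (ih x.2 hx2)
          rw [← hPc] at h3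
          have h4 : F.order + (x.1 : ℤ) + ((x.2 : ℤ) - F.order) = n := by
            rw [← Finset.HasAntidiagonal.mem_antidiagonal.mp hx]
            push_cast
            ring
          rw [h4] at h3
          exact h3
        · exact (G _).zero_mem
  have hF2 : F = HahnSeries.single F.order 1 * HahnSeries.ofPowerSeries ℤ R P := by
    rw [hP]
    exact (LaurentSeries.single_order_mul_powerSeriesPart F).symm
  have hpq : HahnSeries.ofPowerSeries ℤ R P * HahnSeries.ofPowerSeries ℤ R Q = 1 := by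
    rw [← map_mul, hPQ, map_one]
  have hqp : HahnSeries.ofPowerSeries ℤ R Q * HahnSeries.ofPowerSeries ℤ R P = 1 := by
    rw [← map_mul, hQP, map_one]
  have hs : ∀ m : ℤ, (HahnSeries.single m (1 : R)) * HahnSeries.single (-m) 1 = 1 := by
    intro m
    rw [HahnSeries.single_mul_single, add_neg_cancel, mul_one]
    rfl
  have hs' : ∀ m : ℤ, (HahnSeries.single (-m) (1 : R)) * HahnSeries.single m 1 = 1 := by
    intro m
    rw [HahnSeries.single_mul_single, neg_add_cancel, mul_one]
    rfl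
  refine ⟨HahnSeries.ofPowerSeries ℤ R Q * HahnSeries.single (-F.order) 1, ?_, ?_, ?_⟩
  · intro n
    rw [HahnSeries.coeff_mul_single, mul_one, sub_neg_eq_add]
    have h5 := PowerSeries.coeff_coe Q (n + F.order)
    rw [h5]
    split_ifs with h6
    · exact (G _).zero_mem
    · have h7 := hQc (n + F.order).natAbs
      have h8 : ((n + F.order).natAbs : ℤ) - F.order = n := by
        rw [Int.natAbs_of_nonneg (not_lt.mp h6)]
        ring
      rw [h8] at h7
      exact h7
  · have h9 : ∀ m, HahnSeries.single m 1 * HahnSeries.ofPowerSeries ℤ R P *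
        (HahnSeries.ofPowerSeries ℤ R Q * HahnSeries.single (-m) 1) = 1 := by
      intro m
      rw [mul_assoc, ← mul_assoc (HahnSeries.ofPowerSeries ℤ R P), hpq, one_mul, hs]
    have h10 := h9 F.order
    rw [← hF2] at h10
    exact h10
  · have h9 : ∀ m, HahnSeries.ofPowerSeries ℤ R Q * HahnSeries.single (-m) 1 *
        (HahnSeries.single m 1 * HahnSeries.ofPowerSeries ℤ R P) = 1 := by
      intro m
      rw [mul_assoc, ← mul_assoc (HahnSeries.single (-m) (1 : R)), hs', one_mul, hqp]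
    have h10 := h9 F.order
    rw [← hF2] at h10
    exact h10

end Qp

section Gr

variable {K : Type u} [Field K] {L : Type u} [Field L] [Algebra K L]

/-- the operators `v ↦ f * σ^i v` -/
def qpair_G (σ : L ≃ₐ[K] L) (i : ℤ) : Submodule K (Module.End K L) where
  carrier := {T | ∃ f : L, ∀ v, T v = f * (σ ^ i) v}
  add_mem' := by
    rintro T S ⟨f, hf⟩ ⟨g, hg⟩
    exact ⟨f + g, fun v => by rw [LinearMap.add_apply, hf, hg, add_mul]⟩
  zero_mem' := ⟨0, fun v => by rw [LinearMap.zero_apply, zero_mul]⟩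
  smul_mem' := by
    rintro c T ⟨f, hf⟩
    exact ⟨c • f, fun v => by rw [LinearMap.smul_apply, hf, smul_mul_assoc]⟩

theorem qpair_G_one (σ : L ≃ₐ[K] L) : (1 : Module.End K L) ∈ qpair_G σ 0 :=
  ⟨1, fun v => by rw [zpow_zero, one_mul]; rfl⟩

theorem qpair_G_mul (σ : L ≃ₐ[K] L) (i j : ℤ) (a b : Module.End K L) (ha : a ∈ qpair_G σ i)
    (hb : b ∈ qpair_G σ j) : a * b ∈ qpair_G σ (i + j) := by
  obtain ⟨f, hf⟩ := ha
  obtain ⟨g, hg⟩ := hb
  refine ⟨f * (σ ^ i) g, fun v => ?_⟩
  rw [Module.End.mul_apply, hg, hf, map_mul, zpow_add, AlgEquiv.mul_apply, mul_assoc]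

theorem qpair_G_inv (σ : L ≃ₐ[K] L) (i : ℤ) (a : Module.End K L) (ha : a ∈ qpair_G σ i)
    (h0 : a ≠ 0) : ∃ b ∈ qpair_G σ (-i), a * b = 1 ∧ b * a = 1 := by
  obtain ⟨f, hf⟩ := ha
  have hf0 : f ≠ 0 := by
    rintro rfl
    apply h0
    ext v
    rw [hf, zero_mul]
    rfl
  have h1 : ∀ v : L, (σ ^ i) ((σ ^ (-i)) v) = v := by
    intro v
    rw [← AlgEquiv.mul_apply, ← zpow_add, add_neg_cancel, zpow_zero]
    rfl
  have h2 : ∀ v : L, (σ ^ (-i)) ((σ ^ i) v) = v := by
    intro v
    rw [← AlgEquiv.mul_apply, ← zpow_add, neg_add_cancel, zpow_zero]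
    rfl
  refine ⟨((σ ^ (-i)).toLinearMap) ∘ₗ (LinearMap.mulLeft K f⁻¹), ⟨(σ ^ (-i)) f⁻¹, fun v => ?_⟩,
    ?_, ?_⟩
  · rw [LinearMap.comp_apply, LinearMap.mulLeft_apply, AlgEquiv.toLinearMap_apply, map_mul]
  · ext v
    rw [Module.End.mul_apply, hf, LinearMap.comp_apply, LinearMap.mulLeft_apply,
      AlgEquiv.toLinearMap_apply, h1, ← mul_assoc, mul_inv_cancel₀ hf0, one_mul]
    rfl
  · ext v
    rw [Module.End.mul_apply, hf, LinearMap.comp_apply, LinearMap.mulLeft_apply,
      AlgEquiv.toLinearMap_apply, ← mul_assoc, inv_mul_cancel₀ hf0, one_mul, h2]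
    rfl

end Gr

end Vale.Agent.P200F.V

end

section

namespace Vale.Agent.P200F.V

open MvPolynomial Module
open Vale.Agent.P200F.B Vale.Agent.P200F.G Vale.Agent.P200F.L Vale.Agent.P200F.M Vale.Agent.P200F.W
open Vale.Agent.P200F.Y

universe u

/-- `(z + α_{k-1} t) ⋯ (z + α_0 t) = ∑_i (sw α k i) z^(k-i) t^i` -/
def sw {D : Type*} [DivisionRing D] (α : ℕ → D) : ℕ → ℕ → D
  | _, 0 => 1
  | 0, _ + 1 => 0
  | k + 1, t + 1 => sw α k (t + 1) + α k * sw α k t

/-- a sequence with `(z + α_{N-1} t) ⋯ (z + α_0 t) = z^N + c t^N` (and `α_k = 0` for `k ≥ N`, say) whose partial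
sums are not zero -/
def HasSeq (K : Type u) [Field K] (N : ℕ) : Prop :=
  ∃ (D : Type u) (_ : DivisionRing D) (_ : Algebra K D) (α : ℕ → D),
    (∀ k t, N ≤ k → 0 < t → t ≠ N → sw α k t = 0) ∧ ∀ i, 0 < i → i < N → sw α i 1 ≠ 0

section sw
variable {D : Type*} [DivisionRing D] (α : ℕ → D)

theorem sw_zero_right (k : ℕ) : sw α k 0 = 1 := by
  cases k <;> rfl

theorem sw_succ (k t : ℕ) : sw α (k + 1) (t + 1) = sw α k (t + 1) + α k * sw α k t := rfl

theorem sw_lt {k t : ℕ} (h : k < t) : sw α k t = 0 := by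
  induction k generalizing t with
  | zero =>
    obtain ⟨t, rfl⟩ := Nat.exists_eq_succ_of_ne_zero h.ne'
    rfl
  | succ k ih =>
    obtain ⟨t, rfl⟩ := Nat.exists_eq_succ_of_ne_zero (Nat.ne_zero_of_lt h)
    rw [Nat.succ_eq_add_one, sw_succ, ih (by omega), ih (by omega), mul_zero, add_zero]

end sw

section psi
variable {D : Type*} [DivisionRing D] {n : ℕ}

/-- `x^m π_k` for the monomial `x^m z^k` -/
noncomputable def psiM (j : Fin n) (α : ℕ → D) (m : Fin (n + 1) →₀ ℕ) : YR D (n + 1) :=
  ∑ t ∈ Finset.range (m (Fin.last n) + 1),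
    AddMonoidAlgebra.single
      (m - t • Finsupp.single (Fin.last n) 1 + t • Finsupp.single j.castSucc 1)
      (sw α (m (Fin.last n)) t)

/-- `c x^m z^k ↦ c x^m π_k`, left linear -/
noncomputable def psi (j : Fin n) (α : ℕ → D) : YR D (n + 1) →ₗ[D] YR D (n + 1) where
  toFun u := Finsupp.linearCombination D (psiM j α) u.coeff
  map_add' := fun u v => by rw [AddMonoidAlgebra.coeff_add, map_add]
  map_smul' := fun c u => by
    rw [AddMonoidAlgebra.coeff_smul, map_smul, RingHom.id_apply]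

/-- `c x^m z^k ↦ (c α_k) x^m z^k`, left linear -/
noncomputable def dia (α : ℕ → D) : YR D (n + 1) →ₗ[D] YR D (n + 1) where
  toFun u := Finsupp.linearCombination D
    (fun m : Fin (n + 1) →₀ ℕ => (AddMonoidAlgebra.single m (α (m (Fin.last n))) : YR D (n + 1)))
    u.coeff
  map_add' := fun u v => by rw [AddMonoidAlgebra.coeff_add, map_add]
  map_smul' := fun c u => by
    rw [AddMonoidAlgebra.coeff_smul, map_smul, RingHom.id_apply]

theorem dia_single (α : ℕ → D) (m : Fin (n + 1) →₀ ℕ) (c : D) :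
    dia α (AddMonoidAlgebra.single m c) = AddMonoidAlgebra.single m (c * α (m (Fin.last n))) := by
  change Finsupp.linearCombination D _ _ = _
  rw [AddMonoidAlgebra.coeff_single, Finsupp.linearCombination_single,
    AddMonoidAlgebra.smul_single, smul_eq_mul]

theorem psi_sn (j : Fin n) (α : ℕ → D) (m : Fin n →₀ ℕ) (k : ℕ) (c : D) :
    psi j α (AddMonoidAlgebra.single (sn m k) c) = ∑ t ∈ Finset.range (k + 1),
      AddMonoidAlgebra.single (sn (m + t • Finsupp.single j 1) (k - t)) (c * sw α k t) := by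
  change Finsupp.linearCombination D _ _ = _
  rw [AddMonoidAlgebra.coeff_single, Finsupp.linearCombination_single, psiM, sn_last,
    Finset.smul_sum]
  refine Finset.sum_congr rfl fun t ht => ?_
  have ht' : t ≤ k := Nat.lt_succ_iff.1 (Finset.mem_range.1 ht)
  rw [AddMonoidAlgebra.smul_single, smul_eq_mul]
  congr 1
  ext i
  rw [Finsupp.add_apply, Finsupp.tsub_apply, Finsupp.smul_apply, Finsupp.smul_apply]
  refine Fin.lastCases ?_ (fun i => ?_) i
  · rw [sn_last, sn_last, Finsupp.single_eq_same,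
      Finsupp.single_eq_of_ne (Fin.castSucc_lt_last j).ne', smul_zero, add_zero,
      smul_eq_mul, mul_one]
  · rw [sn_castSucc, sn_castSucc, Finsupp.add_apply, Finsupp.smul_apply,
      Finsupp.single_eq_of_ne (Fin.castSucc_lt_last i).ne, smul_zero, Nat.sub_zero]
    congr 2
    by_cases hi : i = j
    · rw [hi, Finsupp.single_eq_same, Finsupp.single_eq_same]
    · rw [Finsupp.single_eq_of_ne hi, Finsupp.single_eq_of_ne fun h =>
        hi (Fin.castSucc_injective n h)]

end psi

end Vale.Agent.P200F.V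

end

section

namespace Vale.Agent.P200F.V

open MvPolynomial Module
open Vale.Agent.P200F.B Vale.Agent.P200F.G Vale.Agent.P200F.L Vale.Agent.P200F.M Vale.Agent.P200F.W
open Vale.Agent.P200F.Y

variable {D : Type*} [DivisionRing D] {n : ℕ}

theorem sb_single_coeff (m m0 : Fin (n + 1) →₀ ℕ) (c : D) :
    (AddMonoidAlgebra.single m c : YR D (n + 1)).coeff m0 = if m = m0 then c else 0 := by
  classical
  rw [AddMonoidAlgebra.coeff_single, Finsupp.single_apply]

theorem sb_single_mem {S : Set (Fin (n + 1) →₀ ℕ)} {m : Fin (n + 1) →₀ ℕ} (hm : m ∈ S) (c : D) :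
    (AddMonoidAlgebra.single m c : YR D (n + 1)) ∈ monD D S := by
  intro m' hm'
  rw [sb_single_coeff] at hm'
  by_cases h : m = m'
  · rw [← h]
    exact hm
  · rw [if_neg h] at hm'
    exact absurd rfl hm'

/-- `psi` on monomials, coefficients with large last exponent -/
theorem sb_psi_single_coeff (j : Fin n) (α : ℕ → D) {m m0 : Fin (n + 1) →₀ ℕ}
    (h : m (Fin.last n) ≤ m0 (Fin.last n)) (c : D) :
    (psi j α (AddMonoidAlgebra.single m c)).coeff m0 =
      (AddMonoidAlgebra.single m c : YR D (n + 1)).coeff m0 := by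
  obtain ⟨m', hm'⟩ := deg_exists_sn m
  generalize hk : m (Fin.last n) = k at *
  subst hm'
  rw [psi_sn, AddMonoidAlgebra.coeff_sum, Finsupp.finsetSum_apply, Finset.sum_eq_single 0]
  · rw [zero_smul, add_zero, Nat.sub_zero, sw_zero_right, mul_one]
  · intro t ht ht0
    rw [sb_single_coeff, if_neg]
    intro h1
    have h2 : k - t = m0 (Fin.last n) := by
      rw [← h1, sn_last]
    have h3 : t ≤ k := Nat.lt_succ_iff.1 (Finset.mem_range.1 ht)
    omega
  · intro h1
    exact absurd (Finset.mem_range.2 (Nat.succ_pos k)) h1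

theorem sb_psi_eq (j : Fin n) (α : ℕ → D) (u : YR D (n + 1)) :
    psi j α u = ∑ m ∈ u.coeff.support, psi j α (AddMonoidAlgebra.single m (u.coeff m)) := by
  conv_lhs => rw [m4_sum_single u]
  rw [map_sum]

/-- the part of the highest last exponent is not changed -/
theorem sb_coeff_top (j : Fin n) (α : ℕ → D) {u : YR D (n + 1)} {m0 : Fin (n + 1) →₀ ℕ}
    (h : ∀ m, u.coeff m ≠ 0 → m (Fin.last n) ≤ m0 (Fin.last n)) :
    (psi j α u).coeff m0 = u.coeff m0 := by
  conv_rhs => rw [m4_sum_single u]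
  rw [sb_psi_eq, AddMonoidAlgebra.coeff_sum, AddMonoidAlgebra.coeff_sum, Finsupp.finsetSum_apply,
    Finsupp.finsetSum_apply]
  refine Finset.sum_congr rfl fun m hm => ?_
  exact sb_psi_single_coeff j α (h m (Finsupp.mem_support_iff.1 hm)) _

theorem psi_injective (j : Fin n) (α : ℕ → D) : Function.Injective (psi j α) := by
  rw [injective_iff_map_eq_zero]
  intro u hu
  by_contra h0
  have h1 : u.coeff.support.Nonempty := by
    rw [Finsupp.support_nonempty_iff]
    intro h
    exact h0 (AddMonoidAlgebra.coeff_injective (by rw [h, AddMonoidAlgebra.coeff_zero]))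
  obtain ⟨m0, hm0, hmax⟩ := Finset.exists_max_image u.coeff.support
    (fun m => m (Fin.last n)) h1
  have h2 := sb_coeff_top j α (u := u) (m0 := m0)
    fun m hm => hmax m (Finsupp.mem_support_iff.2 hm)
  rw [hu, AddMonoidAlgebra.coeff_zero, Finsupp.zero_apply] at h2
  exact Finsupp.mem_support_iff.1 hm0 h2.symm

/-- sets of exponents closed under `x^m z^k ↦ x^m t^i z^(k-i)` -/
def sb_Cl (j : Fin n) (S : Set (Fin (n + 1) →₀ ℕ)) : Prop :=
  ∀ (m : Fin n →₀ ℕ) (k t : ℕ), t ≤ k → sn m k ∈ S → sn (m + t • Finsupp.single j 1) (k - t) ∈ S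

theorem sb_mem {j : Fin n} (α : ℕ → D) {S : Set (Fin (n + 1) →₀ ℕ)} (hS : sb_Cl j S)
    {u : YR D (n + 1)} (hu : u ∈ monD D S) : psi j α u ∈ monD D S := by
  rw [sb_psi_eq]
  refine Submodule.sum_mem _ fun m hm => ?_
  have hmS : m ∈ S := hu m (Finsupp.mem_support_iff.1 hm)
  obtain ⟨m', hm'⟩ := deg_exists_sn m
  rw [hm'] at hmS
  rw [hm', psi_sn]
  refine Submodule.sum_mem _ fun t ht => ?_
  exact sb_single_mem (hS _ _ _ (Nat.lt_succ_iff.1 (Finset.mem_range.1 ht)) hmS) _

theorem sb_surj {j : Fin n} (α : ℕ → D) {S : Set (Fin (n + 1) →₀ ℕ)} (hS : sb_Cl j S) {e : ℕ}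
    (hdeg : ∀ m ∈ S, ∑ i, m i = e) {v : YR D (n + 1)} (hv : v ∈ monD D S) :
    ∃ u ∈ monD D S, psi j α u = v := by
  have hfin : Module.Finite D (monD D S) := finite_monD S hdeg
  have h1 : Function.Injective ((psi j α).restrict fun u hu => sb_mem α hS hu) := by
    intro a b hab
    apply Subtype.ext
    exact psi_injective j α (congrArg Subtype.val hab)
  obtain ⟨u, hu⟩ := LinearMap.surjective_of_injective h1 ⟨v, hv⟩
  exact ⟨u, u.2, congrArg Subtype.val hu⟩

theorem sb_sum_sn (m : Fin n →₀ ℕ) (j : Fin n) {t k : ℕ} (h : t ≤ k) :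
    ∑ i, sn (m + t • Finsupp.single j 1) (k - t) i = ∑ i, sn m k i := by
  rw [deg_sum_sn, deg_sum_sn, m4_deg_add]
  have h1 : ∑ i, (t • Finsupp.single j 1 : Fin n →₀ ℕ) i = t := by
    have h2 : ∀ i, (t • Finsupp.single j 1 : Fin n →₀ ℕ) i =
        t * (Finsupp.single j 1 : Fin n →₀ ℕ) i := fun i => rfl
    rw [Finset.sum_congr rfl fun i _ => h2 i, ← Finset.mul_sum, m4_deg_single, mul_one]
  rw [h1]
  omega

theorem sb_Cl_deg (j : Fin n) (e : ℕ) : sb_Cl j {m : Fin (n + 1) →₀ ℕ | ∑ i, m i = e} := by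
  intro m k t ht h
  rw [Set.mem_ofPred_eq] at h ⊢
  rw [sb_sum_sn m j ht]
  exact h

theorem sb_YD (e : ℕ) : YD D (n + 1) e = monD D {m : Fin (n + 1) →₀ ℕ | ∑ i, m i = e} := rfl

theorem psi_surj_YD (j : Fin n) (α : ℕ → D) {e : ℕ} {v : YR D (n + 1)}
    (hv : v ∈ YD D (n + 1) e) : ∃ u ∈ YD D (n + 1) e, psi j α u = v := by
  rw [sb_YD] at hv ⊢
  exact sb_surj α (sb_Cl_deg j e) (fun m hm => hm) hv

/-- the same for the monomials of degree `e` with exponent of `x_i` at least `b` (`i < n`) -/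
theorem psi_surj_pow (j : Fin n) (α : ℕ → D) {e b : ℕ} (i : Fin n) {v : YR D (n + 1)}
    (hv : v ∈ monD D {m | ∑ k, m k = e ∧ b ≤ m i.castSucc}) :
    ∃ u ∈ monD D {m : Fin (n + 1) →₀ ℕ | ∑ k, m k = e ∧ b ≤ m i.castSucc}, psi j α u = v := by
  refine sb_surj α ?_ (fun m hm => hm.1) hv
  intro m k t ht h
  rw [Set.mem_ofPred_eq] at h ⊢
  refine ⟨by rw [sb_sum_sn m j ht]; exact h.1, ?_⟩
  have h2 := h.2
  rw [sn_castSucc] at h2 ⊢
  rw [Finsupp.add_apply]
  omega

end Vale.Agent.P200F.V

end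

section

namespace Vale.Agent.P200F.V

open MvPolynomial Module
open Vale.Agent.P200F.B Vale.Agent.P200F.G Vale.Agent.P200F.L Vale.Agent.P200F.M Vale.Agent.P200F.W
open Vale.Agent.P200F.Y

variable {D : Type*} [DivisionRing D] {n : ℕ}

theorem sx_sn_add (m : Fin n →₀ ℕ) (k : ℕ) (l : Fin n) :
    sn m k + Finsupp.single l.castSucc 1 = sn (m + Finsupp.single l 1) k := by
  ext i
  rw [Finsupp.add_apply]
  refine Fin.lastCases ?_ (fun i => ?_) i
  · rw [sn_last, sn_last, Finsupp.single_eq_of_ne (Fin.castSucc_lt_last l).ne', add_zero]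
  · rw [sn_castSucc, sn_castSucc, Finsupp.add_apply]
    congr 1
    by_cases hi : i = l
    · rw [hi, Finsupp.single_eq_same, Finsupp.single_eq_same]
    · rw [Finsupp.single_eq_of_ne hi, Finsupp.single_eq_of_ne fun h =>
        hi (Fin.castSucc_injective n h)]

theorem sx_sn_add_last (m : Fin n →₀ ℕ) (k : ℕ) :
    sn m k + Finsupp.single (Fin.last n) 1 = sn m (k + 1) := by
  ext i
  rw [Finsupp.add_apply]
  refine Fin.lastCases ?_ (fun i => ?_) i
  · rw [sn_last, sn_last, Finsupp.single_eq_same]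
  · rw [sn_castSucc, sn_castSucc, Finsupp.single_eq_of_ne (Fin.castSucc_lt_last i).ne, add_zero]

theorem sx_mul_cast (m : Fin n →₀ ℕ) (k : ℕ) (c : D) (l : Fin n) :
    (AddMonoidAlgebra.single (sn m k) c : YR D (n + 1)) * zv D (n + 1) l.castSucc =
      AddMonoidAlgebra.single (sn (m + Finsupp.single l 1) k) c := by
  rw [zv, AddMonoidAlgebra.single_mul_single, mul_one, sx_sn_add]

theorem sx_mul_last (m : Fin n →₀ ℕ) (k : ℕ) (c : D) :
    (AddMonoidAlgebra.single (sn m k) c : YR D (n + 1)) * zv D (n + 1) (Fin.last n) =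
      AddMonoidAlgebra.single (sn m (k + 1)) c := by
  rw [zv, AddMonoidAlgebra.single_mul_single, mul_one, sx_sn_add_last]

theorem dia_mul_castSucc (α : ℕ → D) (u : YR D (n + 1)) (l : Fin n) :
    dia α (u * zv D (n + 1) l.castSucc) = dia α u * zv D (n + 1) l.castSucc := by
  induction u using AddMonoidAlgebra.induction_linear with
  | zero => rw [zero_mul, map_zero, zero_mul]
  | add a b ha hb => rw [add_mul, map_add, ha, hb, map_add, add_mul]
  | single m c =>
    obtain ⟨m', hm'⟩ := deg_exists_sn m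
    rw [hm', sx_mul_cast, dia_single, dia_single, sx_mul_cast, sn_last, sn_last]

theorem psi_mul_castSucc (j : Fin n) (α : ℕ → D) (u : YR D (n + 1)) (l : Fin n) :
    psi j α (u * zv D (n + 1) l.castSucc) = psi j α u * zv D (n + 1) l.castSucc := by
  induction u using AddMonoidAlgebra.induction_linear with
  | zero => rw [zero_mul, map_zero, zero_mul]
  | add a b ha hb => rw [add_mul, map_add, ha, hb, map_add, add_mul]
  | single m c =>
    obtain ⟨m', hm'⟩ := deg_exists_sn m
    rw [hm', sx_mul_cast, psi_sn, psi_sn, Finset.sum_mul]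
    refine Finset.sum_congr rfl fun t _ => ?_
    rw [sx_mul_cast, add_right_comm]

/-- `π_{k+1} = (z + α_k t) π_k` -/
theorem psi_mul_last (j : Fin n) (α : ℕ → D) (u : YR D (n + 1)) :
    psi j α (u * zv D (n + 1) (Fin.last n)) =
      psi j α u * zv D (n + 1) (Fin.last n) + psi j α (dia α u) * zv D (n + 1) j.castSucc := by
  induction u using AddMonoidAlgebra.induction_linear with
  | zero => rw [zero_mul, map_zero, map_zero, map_zero, zero_mul, zero_mul, add_zero]
  | add a b ha hb =>
    rw [add_mul, map_add, ha, hb, map_add, map_add, map_add, add_mul, add_mul]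
    abel
  | single m c =>
    obtain ⟨m', hm'⟩ := deg_exists_sn m
    generalize hk : m (Fin.last n) = k at *
    rw [hm', sx_mul_last, dia_single, sn_last, psi_sn, psi_sn, psi_sn,
      Finset.sum_range_succ' _ (k + 1), Finset.sum_mul, Finset.sum_mul]
    have e1 : ∀ t ∈ Finset.range (k + 1), (AddMonoidAlgebra.single
        (sn (m' + (t + 1) • Finsupp.single j 1) (k + 1 - (t + 1))) (c * sw α (k + 1) (t + 1)) :
        YR D (n + 1)) = AddMonoidAlgebra.single
        (sn (m' + (t + 1) • Finsupp.single j 1) (k - t)) (c * sw α k (t + 1)) +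
        AddMonoidAlgebra.single (sn (m' + t • Finsupp.single j 1) (k - t))
          (c * α k * sw α k t) * zv D (n + 1) j.castSucc := by
      intro t _
      rw [sx_mul_cast, Nat.add_sub_add_right, sw_succ, mul_add, AddMonoidAlgebra.single_add,
        add_assoc m', ← succ_nsmul, mul_assoc c (α k)]
    rw [Finset.sum_congr rfl e1, Finset.sum_add_distrib, Finset.sum_range_succ _ k]
    have e2 : (AddMonoidAlgebra.single (sn (m' + (k + 1) • Finsupp.single j 1) (k - k))
        (c * sw α k (k + 1)) : YR D (n + 1)) = 0 := by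
      rw [sw_lt α (Nat.lt_succ_self k), mul_zero, AddMonoidAlgebra.single_zero]
    have e3 : ∀ t ∈ Finset.range k, (AddMonoidAlgebra.single
        (sn (m' + (t + 1) • Finsupp.single j 1) (k - t)) (c * sw α k (t + 1)) : YR D (n + 1)) =
        AddMonoidAlgebra.single (sn (m' + (t + 1) • Finsupp.single j 1) (k - (t + 1)))
          (c * sw α k (t + 1)) * zv D (n + 1) (Fin.last n) := by
      intro t ht
      have ht' := Finset.mem_range.1 ht
      rw [sx_mul_last]
      congr 2
      omega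
    rw [e2, add_zero, Finset.sum_congr rfl e3]
    have e4 : (AddMonoidAlgebra.single (sn (m' + 0 • Finsupp.single j 1) (k + 1 - 0))
        (c * sw α (k + 1) 0) : YR D (n + 1)) = AddMonoidAlgebra.single
        (sn (m' + 0 • Finsupp.single j 1) (k - 0)) (c * sw α k 0) *
          zv D (n + 1) (Fin.last n) := by
      rw [sx_mul_last, sw_zero_right, sw_zero_right]
      rfl
    have e5 : ∑ i ∈ Finset.range (k + 1), (AddMonoidAlgebra.single
        (sn (m' + i • Finsupp.single j 1) (k - i)) (c * sw α k i) : YR D (n + 1)) *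
          zv D (n + 1) (Fin.last n) = _ := Finset.sum_range_succ' _ k
    rw [e4, e5]
    abel

/-- `dia` does not enlarge supports -/
theorem dia_coeff (α : ℕ → D) (u : YR D (n + 1)) (m : Fin (n + 1) →₀ ℕ) :
    (dia α u).coeff m = u.coeff m * α (m (Fin.last n)) := by
  induction u using AddMonoidAlgebra.induction_linear with
  | zero => rw [map_zero, AddMonoidAlgebra.coeff_zero, Finsupp.zero_apply, zero_mul]
  | add a b ha hb =>
    rw [map_add, AddMonoidAlgebra.coeff_add, Finsupp.add_apply, ha, hb,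
      AddMonoidAlgebra.coeff_add, Finsupp.add_apply, add_mul]
  | single m' c =>
    rw [dia_single, sb_single_coeff, sb_single_coeff]
    split_ifs with h
    · rw [h]
    · rw [zero_mul]

theorem dia_monD (α : ℕ → D) (M : Set (Fin (n + 1) →₀ ℕ)) {u : YR D (n + 1)}
    (hu : u ∈ monD D M) : dia α u ∈ monD D M := by
  intro m hm
  refine hu m fun h => hm ?_
  rw [dia_coeff, h, zero_mul]

theorem psi_mem_YD (j : Fin n) (α : ℕ → D) {e : ℕ} {u : YR D (n + 1)}
    (hu : u ∈ YD D (n + 1) e) : psi j α u ∈ YD D (n + 1) e := by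
  rw [sb_YD] at hu ⊢
  exact sb_mem α (sb_Cl_deg j e) hu

/-- the part of the highest last exponent is not changed -/
theorem psi_coeff_top (j : Fin n) (α : ℕ → D) {e k : ℕ} {u : YR D (n + 1)}
    (hu : u ∈ monD D (y5_W n e k)) (m : Fin n →₀ ℕ) :
    (psi j α u).coeff (sn m k) = u.coeff (sn m k) := by
  refine sb_coeff_top j α fun m' hm' => ?_
  rw [sn_last]
  exact (hu m' hm').2

theorem psi_mem_W (j : Fin n) (α : ℕ → D) {e k : ℕ} {u : YR D (n + 1)}
    (hu : u ∈ monD D (y5_W n e k)) : psi j α u ∈ monD D (y5_W n e k) := by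
  refine sb_mem α ?_ hu
  rintro m k' t ht ⟨h1, h2⟩
  refine ⟨?_, ?_⟩
  · rw [sb_sum_sn m j ht]
    exact h1
  · rw [sn_last] at h2 ⊢
    omega

end Vale.Agent.P200F.V

end

section

namespace Vale.Agent.P200F.V

open MvPolynomial Module
open Vale.Agent.P200F.B Vale.Agent.P200F.G Vale.Agent.P200F.L Vale.Agent.P200F.M

section sr
variable {D R : Type*} [DivisionRing D] [Ring R] [Module D R] [IsScalarTower D R R] {n : ℕ}

/-- the sign exponent -/
def sr_sg (j : Fin n) (s : Finset (Fin (n + 1))) : ℕ :=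
  s.card + (s.filter fun k => k < j.castSucc).card

/-- the change of basis -/
def sr_G (j : Fin n) (δ : R →ₗ[D] R) (c : Finset (Fin (n + 1)) → R) (s : Finset (Fin (n + 1))) : R :=
  if j.castSucc ∈ s ∧ Fin.last n ∉ s then
    c s - (-1 : ℤ) ^ sr_sg j s • δ (c (insert (Fin.last n) (s.erase j.castSucc)))
  else c s

/-- the inverse change of basis -/
def sr_H (j : Fin n) (δ : R →ₗ[D] R) (c : Finset (Fin (n + 1)) → R) (s : Finset (Fin (n + 1))) : R :=
  if j.castSucc ∈ s ∧ Fin.last n ∉ s then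
    c s + (-1 : ℤ) ^ sr_sg j s • δ (c (insert (Fin.last n) (s.erase j.castSucc)))
  else c s

theorem sr_G_pos {j : Fin n} {δ : R →ₗ[D] R} {c : Finset (Fin (n + 1)) → R}
    {s : Finset (Fin (n + 1))} (h1 : j.castSucc ∈ s) (h2 : Fin.last n ∉ s) :
    sr_G j δ c s = c s - (-1 : ℤ) ^ sr_sg j s •
      δ (c (insert (Fin.last n) (s.erase j.castSucc))) := if_pos ⟨h1, h2⟩

theorem sr_G_last {j : Fin n} {δ : R →ₗ[D] R} {c : Finset (Fin (n + 1)) → R}
    {s : Finset (Fin (n + 1))} (h2 : Fin.last n ∈ s) : sr_G j δ c s = c s :=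
  if_neg fun h => h.2 h2

theorem sr_G_neg {j : Fin n} {δ : R →ₗ[D] R} {c : Finset (Fin (n + 1)) → R}
    {s : Finset (Fin (n + 1))} (h2 : j.castSucc ∉ s) : sr_G j δ c s = c s :=
  if_neg fun h => h2 h.1

theorem sr_H_pos {j : Fin n} {δ : R →ₗ[D] R} {c : Finset (Fin (n + 1)) → R}
    {s : Finset (Fin (n + 1))} (h1 : j.castSucc ∈ s) (h2 : Fin.last n ∉ s) :
    sr_H j δ c s = c s + (-1 : ℤ) ^ sr_sg j s •
      δ (c (insert (Fin.last n) (s.erase j.castSucc))) := if_pos ⟨h1, h2⟩

theorem sr_H_last {j : Fin n} {δ : R →ₗ[D] R} {c : Finset (Fin (n + 1)) → R}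
    {s : Finset (Fin (n + 1))} (h2 : Fin.last n ∈ s) : sr_H j δ c s = c s :=
  if_neg fun h => h.2 h2

theorem sr_H_neg {j : Fin n} {δ : R →ₗ[D] R} {c : Finset (Fin (n + 1)) → R}
    {s : Finset (Fin (n + 1))} (h2 : j.castSucc ∉ s) : sr_H j δ c s = c s :=
  if_neg fun h => h2 h.1

theorem sr_GH (j : Fin n) (δ : R →ₗ[D] R) (c : Finset (Fin (n + 1)) → R) :
    sr_G j δ (sr_H j δ c) = c := by
  funext s
  by_cases h1 : j.castSucc ∈ s
  · by_cases h2 : Fin.last n ∈ s
    · rw [sr_G_last h2, sr_H_last h2]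
    · rw [sr_G_pos h1 h2, sr_H_pos h1 h2, sr_H_last (Finset.mem_insert_self _ _),
        add_sub_cancel_right]
  · rw [sr_G_neg h1, sr_H_neg h1]

theorem sr_HG (j : Fin n) (δ : R →ₗ[D] R) (c : Finset (Fin (n + 1)) → R) :
    sr_H j δ (sr_G j δ c) = c := by
  funext s
  by_cases h1 : j.castSucc ∈ s
  · by_cases h2 : Fin.last n ∈ s
    · rw [sr_H_last h2, sr_G_last h2]
    · rw [sr_H_pos h1 h2, sr_G_pos h1 h2, sr_G_last (Finset.mem_insert_self _ _),
        sub_add_cancel]
  · rw [sr_H_neg h1, sr_G_neg h1]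

theorem sr_zsmul_mem {U : Submodule D R} (k : ℕ) {u : R} (hu : u ∈ U) : (-1 : ℤ) ^ k • u ∈ U :=
  U.toAddSubgroup.zsmul_mem hu _

theorem sr_G_mem {j : Fin n} {δ : R →ₗ[D] R} {U : Submodule D R} (hU : ∀ u ∈ U, δ u ∈ U)
    {c : Finset (Fin (n + 1)) → R} (hc : ∀ s, c s ∈ U) (s : Finset (Fin (n + 1))) :
    sr_G j δ c s ∈ U := by
  by_cases h1 : j.castSucc ∈ s
  · by_cases h2 : Fin.last n ∈ s
    · rw [sr_G_last h2]
      exact hc s
    · rw [sr_G_pos h1 h2]
      exact U.sub_mem (hc s) (sr_zsmul_mem _ (hU _ (hc _)))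
  · rw [sr_G_neg h1]
    exact hc s

theorem sr_H_mem {j : Fin n} {δ : R →ₗ[D] R} {U : Submodule D R} (hU : ∀ u ∈ U, δ u ∈ U)
    {c : Finset (Fin (n + 1)) → R} (hc : ∀ s, c s ∈ U) (s : Finset (Fin (n + 1))) :
    sr_H j δ c s ∈ U := by
  by_cases h1 : j.castSucc ∈ s
  · by_cases h2 : Fin.last n ∈ s
    · rw [sr_H_last h2]
      exact hc s
    · rw [sr_H_pos h1 h2]
      exact U.add_mem (hc s) (sr_zsmul_mem _ (hU _ (hc _)))
  · rw [sr_H_neg h1]
    exact hc s

theorem sr_card {j : Fin n} {s : Finset (Fin (n + 1))} (h1 : j.castSucc ∈ s)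
    (h2 : Fin.last n ∉ s) : (insert (Fin.last n) (s.erase j.castSucc)).card = s.card := by
  rw [Finset.card_insert_of_notMem fun h => h2 (Finset.mem_of_mem_erase h),
    Finset.card_erase_add_one h1]

theorem sr_G_zero {j : Fin n} {δ : R →ₗ[D] R} {p : ℕ} {c : Finset (Fin (n + 1)) → R}
    (hc : ∀ s, s.card ≠ p → c s = 0) (s : Finset (Fin (n + 1))) (hs : s.card ≠ p) :
    sr_G j δ c s = 0 := by
  by_cases h1 : j.castSucc ∈ s
  · by_cases h2 : Fin.last n ∈ s
    · rw [sr_G_last h2]
      exact hc s hs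
    · rw [sr_G_pos h1 h2, hc s hs, hc _ (by rw [sr_card h1 h2]; exact hs), map_zero, smul_zero,
        sub_zero]
  · rw [sr_G_neg h1]
    exact hc s hs

theorem sr_H_zero {j : Fin n} {δ : R →ₗ[D] R} {p : ℕ} {c : Finset (Fin (n + 1)) → R}
    (hc : ∀ s, s.card ≠ p → c s = 0) (s : Finset (Fin (n + 1))) (hs : s.card ≠ p) :
    sr_H j δ c s = 0 := by
  by_cases h1 : j.castSucc ∈ s
  · by_cases h2 : Fin.last n ∈ s
    · rw [sr_H_last h2]
      exact hc s hs
    · rw [sr_H_pos h1 h2, hc s hs, hc _ (by rw [sr_card h1 h2]; exact hs), map_zero, smul_zero,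
        add_zero]
  · rw [sr_H_neg h1]
    exact hc s hs

/-- `kr` with integer signs -/
theorem sr_kr {N : ℕ} (x : Fin N → R) (c : Finset (Fin N) → R) (t : Finset (Fin N)) :
    kr x c t = ∑ i ∈ tᶜ, (-1 : ℤ) ^ (t.filter fun k => k < i).card • (c (insert i t) * x i) := by
  rw [kr_apply]
  refine Finset.sum_congr rfl fun i _ => ?_
  rcases Nat.even_or_odd (t.filter fun k => k < i).card with h | h
  · rw [h.neg_one_pow, h.neg_one_pow, one_mul, one_smul]
  · rw [h.neg_one_pow, h.neg_one_pow, neg_one_mul, neg_one_smul]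

/-- the sign rule -/
theorem sr_sign {j : Fin n} {t : Finset (Fin (n + 1))} (h1 : j.castSucc ∈ t)
    {i : Fin (n + 1)} (hi : i ∉ t) :
    (-1 : ℤ) ^ (t.filter fun k => k < i).card * (-1 : ℤ) ^ sr_sg j (insert i t) =
      (-1 : ℤ) ^ sr_sg j t *
        (-1 : ℤ) ^ ((insert (Fin.last n) (t.erase j.castSucc)).filter fun k => k < i).card := by
  have hij : i ≠ j.castSucc := fun h => hi (h ▸ h1)
  have e1 : ((insert (Fin.last n) (t.erase j.castSucc)).filter fun k => k < i) =
      (t.erase j.castSucc).filter fun k => k < i := by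
    rw [Finset.filter_insert, if_neg (not_lt.2 (Fin.le_last i))]
  have e2 : (t.filter fun k => k < i).card =
      ((t.erase j.castSucc).filter fun k => k < i).card + (if j.castSucc < i then 1 else 0) := by
    conv_lhs => rw [← Finset.insert_erase h1]
    rw [Finset.filter_insert]
    split_ifs with h
    · rw [Finset.card_insert_of_notMem]
      intro h'
      exact Finset.notMem_erase _ _ (Finset.mem_of_mem_filter _ h')
    · rfl
  have e3 : sr_sg j (insert i t) = sr_sg j t + 1 + (if i < j.castSucc then 1 else 0) := by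
    unfold sr_sg
    rw [Finset.card_insert_of_notMem hi, Finset.filter_insert]
    split_ifs with h
    · rw [Finset.card_insert_of_notMem fun h' => hi (Finset.mem_of_mem_filter _ h')]
      ring
    · ring
  rw [e1, e2, e3]
  rcases lt_or_gt_of_ne hij with h | h
  · rw [if_neg (not_lt.2 h.le), if_pos h]
    ring
  · rw [if_pos h, if_neg (not_lt.2 h.le)]
    ring

variable {ψ δ : R →ₗ[D] R} {x : Fin (n + 1) → R}

theorem sr_main {j : Fin n}
    (h1 : ∀ u (l : Fin n), ψ (u * x l.castSucc) = ψ u * x l.castSucc)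
    (h2 : ∀ u, ψ (u * x (Fin.last n)) = ψ u * x (Fin.last n) + ψ (δ u) * x j.castSucc)
    (h3 : ∀ u (l : Fin n), δ (u * x l.castSucc) = δ u * x l.castSucc)
    (c : Finset (Fin (n + 1)) → R) (t : Finset (Fin (n + 1))) :
    kr x (fun s => ψ (sr_G j δ c s)) t = ψ (sr_G j δ (kr x c) t) := by
  have h1' : ∀ u (i : Fin (n + 1)), i ≠ Fin.last n → ψ (u * x i) = ψ u * x i := by
    intro u i hi
    obtain ⟨l, rfl⟩ := Fin.exists_castSucc_eq.2 hi
    exact h1 u l
  have h3' : ∀ u (i : Fin (n + 1)), i ≠ Fin.last n → δ (u * x i) = δ u * x i := by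
    intro u i hi
    obtain ⟨l, rfl⟩ := Fin.exists_castSucc_eq.2 hi
    exact h3 u l
  have hjn : j.castSucc ≠ Fin.last n := (Fin.castSucc_lt_last j).ne
  by_cases hn : Fin.last n ∈ t
  · rw [sr_G_last hn, sr_kr, sr_kr, map_sum]
    refine Finset.sum_congr rfl fun i hi => ?_
    have hi' : i ≠ Fin.last n := fun h => (Finset.mem_compl.1 hi) (h ▸ hn)
    rw [sr_G_last (Finset.mem_insert_of_mem hn), map_zsmul, h1' _ _ hi']
  · have hnc : Fin.last n ∈ tᶜ := Finset.mem_compl.2 hn
    have hcard : (t.filter fun k => k < Fin.last n) = t := by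
      refine Finset.filter_true_of_mem fun k hk => ?_
      exact lt_of_le_of_ne (Fin.le_last k) fun h => hn (h ▸ hk)
    by_cases hj : j.castSucc ∈ t
    · -- `j ∈ t`
      have hcompl : (insert (Fin.last n) (t.erase j.castSucc))ᶜ =
          insert j.castSucc (tᶜ.erase (Fin.last n)) := by
        ext i
        simp only [Finset.mem_compl, Finset.mem_insert, Finset.mem_erase, not_or, not_and, ne_eq]
        constructor
        · rintro ⟨g1, g2⟩
          by_cases hij : i = j.castSucc
          · exact Or.inl hij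
          · exact Or.inr ⟨g1, g2 hij⟩
        · rintro (g1 | ⟨g1, g2⟩)
          · exact ⟨fun h => hjn (g1 ▸ h), fun h => absurd g1 h⟩
          · exact ⟨g1, fun _ => g2⟩
      have hjc : j.castSucc ∉ tᶜ.erase (Fin.last n) := fun h =>
        (Finset.mem_compl.1 (Finset.mem_of_mem_erase h)) hj
      have hins : insert j.castSucc (insert (Fin.last n) (t.erase j.castSucc)) =
          insert (Fin.last n) t := by
        rw [Finset.insert_comm, Finset.insert_erase hj]
      have hfil : ((insert (Fin.last n) (t.erase j.castSucc)).filter fun k => k < j.castSucc) =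
          t.filter fun k => k < j.castSucc := by
        rw [Finset.filter_insert, if_neg (not_lt.2 (Fin.le_last _)), Finset.filter_erase,
          Finset.erase_eq_of_notMem]
        intro h
        exact lt_irrefl _ (Finset.mem_filter.1 h).2
      have hR : ψ (sr_G j δ (kr x c) t) =
          (-1 : ℤ) ^ t.card • (ψ (c (insert (Fin.last n) t)) * x (Fin.last n)) +
          (∑ i ∈ tᶜ.erase (Fin.last n), (-1 : ℤ) ^ (t.filter fun k => k < i).card •
            (ψ (c (insert i t)) * x i) -
          ∑ i ∈ tᶜ.erase (Fin.last n), ((-1 : ℤ) ^ sr_sg j t * (-1 : ℤ) ^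
            ((insert (Fin.last n) (t.erase j.castSucc)).filter fun k => k < i).card) •
            (ψ (δ (c (insert i (insert (Fin.last n) (t.erase j.castSucc))))) * x i)) := by
        rw [sr_G_pos hj hn, map_sub, map_zsmul, sr_kr, ← Finset.add_sum_erase _ _ hnc, hcard,
          map_add, map_zsmul, h2, sr_kr, hcompl, Finset.sum_insert hjc, map_add, map_zsmul, hins,
          hfil, h3' _ _ hjn, map_add, map_zsmul, h1' _ _ hjn, map_sum, map_sum, map_sum]
        have e1 : ∑ i ∈ tᶜ.erase (Fin.last n), ψ ((-1 : ℤ) ^ (t.filter fun k => k < i).card •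
            (c (insert i t) * x i)) = ∑ i ∈ tᶜ.erase (Fin.last n),
            (-1 : ℤ) ^ (t.filter fun k => k < i).card • (ψ (c (insert i t)) * x i) := by
          refine Finset.sum_congr rfl fun i hi => ?_
          rw [map_zsmul, h1' _ _ (Finset.ne_of_mem_erase hi)]
        have e2 : ∑ i ∈ tᶜ.erase (Fin.last n), ψ (δ ((-1 : ℤ) ^
            ((insert (Fin.last n) (t.erase j.castSucc)).filter fun k => k < i).card •
            (c (insert i (insert (Fin.last n) (t.erase j.castSucc))) * x i))) =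
            ∑ i ∈ tᶜ.erase (Fin.last n), (-1 : ℤ) ^
            ((insert (Fin.last n) (t.erase j.castSucc)).filter fun k => k < i).card •
            (ψ (δ (c (insert i (insert (Fin.last n) (t.erase j.castSucc))))) * x i) := by
          refine Finset.sum_congr rfl fun i hi => ?_
          rw [map_zsmul, map_zsmul, h3' _ _ (Finset.ne_of_mem_erase hi),
            h1' _ _ (Finset.ne_of_mem_erase hi)]
        rw [e1, e2, smul_add, smul_add, smul_smul, Finset.smul_sum]
        have e3 : (-1 : ℤ) ^ sr_sg j t * (-1 : ℤ) ^ (t.filter fun k => k < j.castSucc).card =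
            (-1 : ℤ) ^ t.card := by
          unfold sr_sg
          rw [pow_add, mul_assoc, ← pow_add, ← two_mul, pow_mul, neg_one_sq, one_pow, mul_one]
        rw [e3]
        have e4 : ∑ i ∈ tᶜ.erase (Fin.last n), (-1 : ℤ) ^ sr_sg j t • (-1 : ℤ) ^
            ((insert (Fin.last n) (t.erase j.castSucc)).filter fun k => k < i).card •
            (ψ (δ (c (insert i (insert (Fin.last n) (t.erase j.castSucc))))) * x i) =
            ∑ i ∈ tᶜ.erase (Fin.last n), ((-1 : ℤ) ^ sr_sg j t * (-1 : ℤ) ^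
            ((insert (Fin.last n) (t.erase j.castSucc)).filter fun k => k < i).card) •
            (ψ (δ (c (insert i (insert (Fin.last n) (t.erase j.castSucc))))) * x i) :=
          Finset.sum_congr rfl fun i _ => smul_smul _ _ _
        rw [e4]
        abel
      rw [hR, sr_kr, ← Finset.add_sum_erase _ _ hnc, hcard,
        sr_G_last (Finset.mem_insert_self _ _), ← Finset.sum_sub_distrib]
      congr 1
      refine Finset.sum_congr rfl fun i hi => ?_
      have hi1 : i ≠ Fin.last n := Finset.ne_of_mem_erase hi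
      have hi2 : i ∉ t := Finset.mem_compl.1 (Finset.mem_of_mem_erase hi)
      have hij : i ≠ j.castSucc := fun h => hi2 (h ▸ hj)
      have hni : Fin.last n ∉ insert i t := by
        rw [Finset.mem_insert, not_or]
        exact ⟨hi1.symm, hn⟩
      rw [sr_G_pos (Finset.mem_insert_of_mem hj) hni, map_sub, map_zsmul, sub_mul, smul_sub,
        smul_mul_assoc, smul_smul, sr_sign hj hi2, Finset.erase_insert_of_ne hij,
        Finset.insert_comm]
    · -- `j ∉ t`
      have hjc : j.castSucc ∈ tᶜ.erase (Fin.last n) :=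
        Finset.mem_erase.2 ⟨hjn, Finset.mem_compl.2 hj⟩
      have hnj : Fin.last n ∉ insert j.castSucc t := by
        rw [Finset.mem_insert, not_or]
        exact ⟨hjn.symm, hn⟩
      have hsg : (-1 : ℤ) ^ (t.filter fun k => k < j.castSucc).card *
          (-1 : ℤ) ^ sr_sg j (insert j.castSucc t) = - (-1 : ℤ) ^ t.card := by
        unfold sr_sg
        rw [Finset.card_insert_of_notMem hj, Finset.filter_insert, if_neg (lt_irrefl _), pow_add,
          pow_succ, mul_comm ((-1 : ℤ) ^ t.card * -1), ← mul_assoc, ← pow_add, ← two_mul, pow_mul,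
          neg_one_sq, one_pow, one_mul, mul_neg_one]
      have hC : ∑ i ∈ (tᶜ.erase (Fin.last n)).erase j.castSucc,
          (-1 : ℤ) ^ (t.filter fun k => k < i).card • (ψ (sr_G j δ c (insert i t)) * x i) =
          ∑ i ∈ (tᶜ.erase (Fin.last n)).erase j.castSucc,
          ψ ((-1 : ℤ) ^ (t.filter fun k => k < i).card • (c (insert i t) * x i)) := by
        refine Finset.sum_congr rfl fun i hi => ?_
        have hij : i ≠ j.castSucc := Finset.ne_of_mem_erase hi
        have hi1 : i ≠ Fin.last n := Finset.ne_of_mem_erase (Finset.mem_of_mem_erase hi)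
        have hji : j.castSucc ∉ insert i t := by
          rw [Finset.mem_insert, not_or]
          exact ⟨hij.symm, hj⟩
        rw [sr_G_neg hji, map_zsmul, h1' _ _ hi1]
      rw [sr_G_neg hj, sr_kr, sr_kr, ← Finset.add_sum_erase _ _ hnc, ← Finset.add_sum_erase _ _ hjc,
        hC, ← Finset.add_sum_erase _ _ hnc, ← Finset.add_sum_erase _ _ hjc, map_add, map_add,
        map_sum, hcard, sr_G_last (Finset.mem_insert_self _ _), map_zsmul, h2,
        sr_G_pos (Finset.mem_insert_self _ _) hnj, Finset.erase_insert hj, map_zsmul,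
        h1' _ _ hjn, map_sub, map_zsmul, sub_mul, smul_sub, smul_mul_assoc, smul_smul, hsg,
        smul_add, neg_smul]
      abel

/-- the linear map `c ↦ ψ (G c)` -/
def sr_L (j : Fin n) (ψ δ : R →ₗ[D] R) :
    (Finset (Fin (n + 1)) → R) →ₗ[D] (Finset (Fin (n + 1)) → R) where
  toFun c := fun s => ψ (sr_G j δ c s)
  map_add' := by
    intro a b
    funext s
    rw [Pi.add_apply, ← map_add]
    congr 1
    by_cases h1 : j.castSucc ∈ s
    · by_cases h2 : Fin.last n ∈ s
      · rw [sr_G_last h2, sr_G_last h2, sr_G_last h2]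
        rfl
      · rw [sr_G_pos h1 h2, sr_G_pos h1 h2, sr_G_pos h1 h2, Pi.add_apply, Pi.add_apply, map_add,
          smul_add]
        abel
    · rw [sr_G_neg h1, sr_G_neg h1, sr_G_neg h1]
      rfl
  map_smul' := by
    intro k a
    funext s
    rw [Pi.smul_apply, RingHom.id_apply, ← map_smul]
    congr 1
    by_cases h1 : j.castSucc ∈ s
    · by_cases h2 : Fin.last n ∈ s
      · rw [sr_G_last h2, sr_G_last h2]
        rfl
      · rw [sr_G_pos h1 h2, sr_G_pos h1 h2, Pi.smul_apply, Pi.smul_apply, map_smul, smul_sub,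
          smul_comm]
    · rw [sr_G_neg h1, sr_G_neg h1]
      rfl

theorem sr_finrank {j : Fin n}
    (h1 : ∀ u (l : Fin n), ψ (u * x l.castSucc) = ψ u * x l.castSucc)
    (h2 : ∀ u, ψ (u * x (Fin.last n)) = ψ u * x (Fin.last n) + ψ (δ u) * x j.castSucc)
    (h3 : ∀ u (l : Fin n), δ (u * x l.castSucc) = δ u * x l.castSucc)
    {W Y : Submodule D R} (hA : ∀ u ∈ W, δ u ∈ W) (hY : ∀ u ∈ Y, δ u ∈ Y)
    (hp : ∀ u ∈ Y, ψ u ∈ Y) (hi : Function.Injective ψ) (hs : ∀ v ∈ Y, ∃ u ∈ Y, ψ u = v) (p : ℕ) :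
    finrank D (rd x W Y p) = finrank D (rd x (W.map ψ) Y p) := by
  have hinj : Function.Injective (sr_L j ψ δ) := by
    intro a b hab
    have h4 : sr_G j δ a = sr_G j δ b := by
      funext s
      exact hi (congrFun hab s)
    rw [← sr_HG j δ a, h4, sr_HG]
  have hmap : (rd x W Y p).map (sr_L j ψ δ) = rd x (W.map ψ) Y p := by
    ext c'
    rw [Submodule.mem_map]
    constructor
    · rintro ⟨c, ⟨hc, hc'⟩, rfl⟩
      refine ⟨⟨fun s hs' => ?_, fun s => ?_⟩, fun t => ?_⟩
      · change ψ (sr_G j δ c s) = 0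
        rw [sr_G_zero hc.1 s hs', map_zero]
      · exact hp _ (sr_G_mem hY hc.2 s)
      · change kr x (fun s => ψ (sr_G j δ c s)) t ∈ _
        rw [sr_main h1 h2 h3]
        exact Submodule.mem_map_of_mem (sr_G_mem hA hc' t)
    · rintro ⟨hc, hc'⟩
      choose u hu hu' using fun s => hs (c' s) (hc.2 s)
      have hΦ : sr_L j ψ δ (sr_H j δ u) = c' := by
        funext s
        change ψ (sr_G j δ (sr_H j δ u) s) = c' s
        rw [sr_GH, hu']
      refine ⟨sr_H j δ u, ⟨⟨fun s hs' => ?_, fun s => ?_⟩, fun t => ?_⟩, hΦ⟩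
      · refine sr_H_zero (fun s hs' => ?_) s hs'
        exact hi (by rw [hu', hc.1 s hs', map_zero])
      · exact sr_H_mem hY hu s
      · have h5 : ∀ t, sr_G j δ (kr x (sr_H j δ u)) t ∈ W := by
          intro t
          have h6 := hc' t
          rw [← hΦ] at h6
          change kr x (fun s => ψ (sr_G j δ (sr_H j δ u) s)) t ∈ _ at h6
          rw [sr_main h1 h2 h3] at h6
          obtain ⟨w, hw, hw'⟩ := h6
          rw [← hi hw']
          exact hw
        have h7 := sr_H_mem (j := j) hA h5 t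
        rwa [sr_HG] at h7
  rw [← hmap]
  exact (Submodule.equivMapOfInjective _ hinj _).finrank_eq

end sr

end Vale.Agent.P200F.V

end

section

namespace Vale.Agent.P200F.V

open MvPolynomial Module
open Vale.Agent.P200F.B Vale.Agent.P200F.G Vale.Agent.P200F.L Vale.Agent.P200F.M Vale.Agent.P200F.W
open Vale.Agent.P200F.Y

/-- `kr z (psi c) = psi (kr' c)` where `kr'` is the Koszul differential of the commuting operators
`u ↦ u x_l` (`l < n`), `u ↦ u z - (dia u) x_j`; and `kr'` is isomorphic to `kr z` by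
`c' + c'' e_n ↦ c' + c'' e_n ∓ (dia c'') e_j` (`dia` commutes with `x_l`, `l < n`). -/
theorem seq_finrank_rd {D : Type*} [DivisionRing D] {n : ℕ} (j : Fin n) (α : ℕ → D) {d p : ℕ}
    (W : Submodule D (YR D (n + 1))) (hA : ∀ u ∈ W, dia α u ∈ W) (hW : W ≤ YD D (n + 1) (d + 1)) :
    finrank D (M.rd (zv D (n + 1)) W (YD D (n + 1) d) p) =
      finrank D (M.rd (zv D (n + 1)) (W.map (psi j α)) (YD D (n + 1) d) p) := by
  have hdY : ∀ u ∈ YD D (n + 1) d, dia α u ∈ YD D (n + 1) d := by
    intro u hu m hm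
    refine hu m fun h => hm ?_
    rw [dia_coeff, h, zero_mul]
  exact sr_finrank (psi_mul_castSucc j α) (psi_mul_last j α) (dia_mul_castSucc α) hA hdY
    (fun _ hu => psi_mem_YD j α hu) (psi_injective j α) (fun _ hv => psi_surj_YD j α hv) p

end Vale.Agent.P200F.V

end

section

set_option linter.all false

namespace Vale.Agent.P200F.V

universe u

/-- the embedding of `L` in the ring of Laurent series over `End_K L` -/
noncomputable def skew_i (K L : Type u) [Field K] [Field L] [Algebra K L] :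
    L →ₐ[K] HahnSeries ℤ (Module.End K L) where
  toFun l := HahnSeries.single 0 (Algebra.lmul K L l)
  map_one' := by
    rw [map_one]
    rfl
  map_mul' a b := by
    rw [HahnSeries.single_mul_single, zero_add, map_mul]
  map_zero' := by
    rw [map_zero, map_zero]
  map_add' a b := by
    rw [map_add]
    exact map_add (HahnSeries.single.addMonoidHom 0) _ _
  commutes' r := by
    rw [HahnSeries.algebraMap_apply, HahnSeries.C_apply, AlgHom.commutes]

/-- a division ring with `T l = σ(l) T` -/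
theorem exists_skew (K L : Type u) [Field K] [Field L] [Algebra K L] (sg : L ≃ₐ[K] L) :
    ∃ (D : Type u) (_ : DivisionRing D) (_ : Algebra K D) (i : L →ₐ[K] D) (T : D),
      T ≠ 0 ∧ ∀ l, T * i l = i (sg l) * T := by
  have hx : sg.toLinearMap ∈ qpair_G sg 1 := ⟨1, fun v => by
    rw [zpow_one, one_mul, AlgEquiv.toLinearMap_apply]⟩
  have hy : ∀ l : L, Algebra.lmul K L l ∈ qpair_G sg 0 := fun l => ⟨l, fun v => by
    rw [zpow_zero]; rfl⟩
  have hU : ∀ F : qpair_D (qpair_G sg) (qpair_G_one sg) (qpair_G_mul sg), IsUnit F ∨ F = 0 := by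
    rintro ⟨F, hF⟩
    by_cases h0 : F = 0
    · right
      subst h0
      rfl
    · left
      obtain ⟨E, hE, h1, h2⟩ := qpair_inv (qpair_G sg) (qpair_G_mul sg) (qpair_G_inv sg) F hF h0
      exact ⟨⟨⟨F, hF⟩, ⟨E, hE⟩, Subtype.ext h1, Subtype.ext h2⟩, rfl⟩
  refine ⟨qpair_D (qpair_G sg) (qpair_G_one sg) (qpair_G_mul sg),
    DivisionRing.ofIsUnitOrEqZero hU, inferInstanceAs (Algebra K (qpair_D _ _ _)),
    (skew_i K L).codRestrict _ fun l => qpair_single _ _ _ _ _ (hy l),
    ⟨HahnSeries.single 1 sg.toLinearMap, qpair_single _ _ _ _ _ hx⟩, ?_, ?_⟩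
  · intro h
    have h1 := congrArg Subtype.val h
    have h2 := HahnSeries.single_eq_zero_iff.mp h1
    have h3 := LinearMap.congr_fun h2 1
    rw [AlgEquiv.toLinearMap_apply, map_one] at h3
    exact one_ne_zero h3
  · intro l
    apply Subtype.ext
    change HahnSeries.single 1 sg.toLinearMap * HahnSeries.single 0 (Algebra.lmul K L l) =
      HahnSeries.single 0 (Algebra.lmul K L (sg l)) * HahnSeries.single 1 sg.toLinearMap
    rw [HahnSeries.single_mul_single, HahnSeries.single_mul_single, zero_add, add_zero]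
    congr 1
    ext v
    rw [Module.End.mul_apply, Module.End.mul_apply, AlgEquiv.toLinearMap_apply,
      AlgEquiv.toLinearMap_apply]
    change sg (l * v) = sg l * sg v
    rw [map_mul]

end Vale.Agent.P200F.V

end

section

namespace Vale.Agent.P200F.V

universe u

section se

variable {L : Type u} [Field L]

/-- `∏_{l < k, l ≠ j} (θ_j - θ_l)` -/
def se_q (θ : ℕ → L) (j k : ℕ) : L := ∏ l ∈ Finset.range k, if l = j then 1 else (θ j - θ l)

theorem se_q_ne (θ : ℕ → L) {N : ℕ} (hd : ∀ i j, i < N → j < N → i ≠ j → θ i ≠ θ j) {j k : ℕ}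
    (hj : j < N) (hk : k ≤ N) : se_q θ j k ≠ 0 := by
  unfold se_q
  rw [Finset.prod_ne_zero_iff]
  intro l hl
  split_ifs with h
  · exact one_ne_zero
  · exact sub_ne_zero.mpr (hd j l hj (lt_of_lt_of_le (Finset.mem_range.mp hl) hk)
      fun h' => h h'.symm)

theorem se_q_succ (θ : ℕ → L) (j k : ℕ) (h : k ≠ j) :
    se_q θ j (k + 1) = se_q θ j k * (θ j - θ k) := by
  rw [se_q, Finset.prod_range_succ, if_neg h]
  rfl

theorem se_q_shift (σ : L →+* L) (θ : ℕ → L) (hσ : ∀ l, σ (θ l) = θ (l + 1)) (j k : ℕ) :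
    σ (se_q θ j k) * (θ (j + 1) - θ 0) = se_q θ (j + 1) (k + 1) := by
  unfold se_q
  rw [Finset.prod_range_succ', if_neg (Nat.succ_ne_zero j).symm, map_prod]
  congr 1
  refine Finset.prod_congr rfl fun l _ => ?_
  by_cases h : l = j
  · rw [if_pos h, if_pos (by omega), map_one]
  · rw [if_neg h, if_neg (by omega), map_sub, hσ, hσ]

/-- the coefficients -/
noncomputable def se_b (θ : ℕ → L) (k j : ℕ) : L :=
  if j ≤ k then se_q θ 0 (k + 1) / se_q θ j (k + 1) else 0

/-- the factors -/
noncomputable def se_beta (σ : L →+* L) (θ : ℕ → L) (k : ℕ) : L :=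
  -(se_q θ 0 (k + 1) / σ (se_q θ 0 (k + 1)))

theorem se_beta_mul (σ : L →+* L) (θ : ℕ → L) {N : ℕ}
    (hd : ∀ i j, i < N → j < N → i ≠ j → θ i ≠ θ j) {k j : ℕ} (hk : k < N) (hj : j ≤ k) :
    se_beta σ θ k * σ (se_b θ k j) = -(se_q θ 0 (k + 1) / σ (se_q θ j (k + 1))) := by
  have h0 : σ (se_q θ 0 (k + 1)) ≠ 0 :=
    (map_ne_zero_iff σ σ.injective).mpr (se_q_ne θ hd (by omega) hk)
  have h1 : σ (se_q θ j (k + 1)) ≠ 0 :=
    (map_ne_zero_iff σ σ.injective).mpr (se_q_ne θ hd (by omega) hk)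
  rw [se_beta, se_b, if_pos hj, map_div₀]
  field_simp

theorem se_rec (σ : L →+* L) (θ : ℕ → L) (hσ : ∀ l, σ (θ l) = θ (l + 1)) {N : ℕ}
    (hd : ∀ i j, i < N → j < N → i ≠ j → θ i ≠ θ j) {k j : ℕ} (hk : k + 1 < N) :
    se_b θ k (j + 1) + se_beta σ θ k * σ (se_b θ k j) = se_b θ (k + 1) (j + 1) := by
  by_cases hj : j ≤ k
  · rw [se_beta_mul σ θ hd (by omega) hj]
    have e1 := se_q_shift σ θ hσ j (k + 1)
    have e2 := se_q_succ θ 0 (k + 1) (Nat.succ_ne_zero k)
    have n1 : σ (se_q θ j (k + 1)) ≠ 0 :=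
      (map_ne_zero_iff σ σ.injective).mpr (se_q_ne θ hd (by omega) (by omega))
    have n2 : se_q θ (j + 1) (k + 2) ≠ 0 := se_q_ne θ hd (by omega) (by omega)
    have e3 : se_q θ 0 (k + 1) / σ (se_q θ j (k + 1)) =
        se_q θ 0 (k + 1) * (θ (j + 1) - θ 0) / se_q θ (j + 1) (k + 2) := by
      rw [div_eq_div_iff n1 n2, ← e1]
      ring
    rw [e3]
    by_cases hj2 : j + 1 ≤ k
    · have e4 := se_q_succ θ (j + 1) (k + 1) (by omega)
      have n3 : se_q θ (j + 1) (k + 1) ≠ 0 := se_q_ne θ hd (by omega) (by omega)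
      rw [se_b, se_b, if_pos hj2, if_pos (by omega)]
      rw [show k + 1 + 1 = k + 2 from rfl] at e4 e2 ⊢
      have e5 : se_q θ 0 (k + 1) / se_q θ (j + 1) (k + 1) =
          se_q θ 0 (k + 1) * (θ (j + 1) - θ (k + 1)) / se_q θ (j + 1) (k + 2) := by
        rw [div_eq_div_iff n3 n2, e4]
        ring
      rw [e5, e2, ← neg_div, ← add_div]
      congr 1
      ring
    · have hjk : j = k := by omega
      subst hjk
      rw [se_b, se_b, if_neg hj2, if_pos le_rfl, zero_add, ← neg_div]
      rw [show j + 1 + 1 = j + 2 from rfl] at e2 ⊢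
      rw [e2]
      congr 1
      ring
  · rw [se_b, se_b, se_b, if_neg (by omega), if_neg hj, if_neg (by omega), map_zero, mul_zero,
      add_zero]

theorem se_last (σ : L →+* L) (θ : ℕ → L) (hσ : ∀ l, σ (θ l) = θ (l + 1)) {k : ℕ}
    (hd : ∀ i j, i < k + 1 → j < k + 1 → i ≠ j → θ i ≠ θ j) (hN : θ (k + 1) = θ 0) {j : ℕ}
    (hj : j < k) : se_b θ k (j + 1) + se_beta σ θ k * σ (se_b θ k j) = 0 := by
  rw [se_beta_mul σ θ hd (by omega) hj.le]
  have e1 := se_q_shift σ θ hσ j (k + 1)
  have e4 := se_q_succ θ (j + 1) (k + 1) (by omega)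
  rw [e4, hN] at e1
  have n4 : θ (j + 1) - θ 0 ≠ 0 :=
    sub_ne_zero.mpr (hd _ _ (by omega) (by omega) (Nat.succ_ne_zero j))
  rw [mul_right_cancel₀ n4 e1, se_b, if_pos (by omega), add_neg_cancel]

end se

/-- existence of sequences -/
theorem hasSeq (K : Type u) [Field K] {N : ℕ} (hN : 0 < N) : HasSeq K N := by
  have : NeZero N := ⟨hN.ne'⟩
  let sg : FractionRing (MvPolynomial (ZMod N) K) ≃ₐ[K] FractionRing (MvPolynomial (ZMod N) K) :=
    IsFractionRing.algEquivOfAlgEquiv (MvPolynomial.renameEquiv K (Equiv.addRight (1 : ZMod N)))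
  obtain ⟨D, _, _, i, T, hT, hi⟩ := exists_skew K (FractionRing (MvPolynomial (ZMod N) K)) sg
  let σ : FractionRing (MvPolynomial (ZMod N) K) →+* FractionRing (MvPolynomial (ZMod N) K) :=
    (sg : FractionRing (MvPolynomial (ZMod N) K) →+* FractionRing (MvPolynomial (ZMod N) K))
  let θ : ℕ → FractionRing (MvPolynomial (ZMod N) K) := fun l =>
    algebraMap (MvPolynomial (ZMod N) K) _ (MvPolynomial.X (l : ZMod N))
  have hσ : ∀ l, σ (θ l) = θ (l + 1) := by
    intro l
    change sg (algebraMap (MvPolynomial (ZMod N) K) _ (MvPolynomial.X (l : ZMod N))) = _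
    rw [IsFractionRing.algEquivOfAlgEquiv_algebraMap, MvPolynomial.renameEquiv_apply,
      MvPolynomial.rename_X, Equiv.coe_addRight]
    change _ = algebraMap (MvPolynomial (ZMod N) K) _ (MvPolynomial.X ((l + 1 : ℕ) : ZMod N))
    rw [Nat.cast_succ]
  have hd : ∀ i j, i < N → j < N → i ≠ j → θ i ≠ θ j := by
    intro a b ha hb hab h
    have h1 := IsFractionRing.injective (MvPolynomial (ZMod N) K)
      (FractionRing (MvPolynomial (ZMod N) K)) h
    have h2 := MvPolynomial.X_injective h1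
    have h3 := (ZMod.natCast_eq_natCast_iff' a b N).mp h2
    rw [Nat.mod_eq_of_lt ha, Nat.mod_eq_of_lt hb] at h3
    exact hab h3
  have hθN : θ N = θ 0 := by
    change algebraMap (MvPolynomial (ZMod N) K) _ (MvPolynomial.X ((N : ℕ) : ZMod N)) =
      algebraMap (MvPolynomial (ZMod N) K) _ (MvPolynomial.X ((0 : ℕ) : ZMod N))
    rw [ZMod.natCast_self, Nat.cast_zero]
  let α : ℕ → D := fun k => if k < N then i (se_beta σ θ k) * T else 0
  have hα : ∀ k, k < N → α k = i (se_beta σ θ k) * T := fun k hk => if_pos hk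
  have hα0 : ∀ k, N ≤ k → α k = 0 := fun k hk => if_neg (not_lt.mpr hk)
  have hmul : ∀ k j, k < N → sw α k j = i (se_b θ k j) * T ^ j →
      α k * sw α k j = i (se_beta σ θ k * σ (se_b θ k j)) * T ^ (j + 1) := by
    intro k j hk h
    rw [h, hα k hk, mul_assoc, ← mul_assoc T, hi, map_mul, pow_succ', mul_assoc, mul_assoc]
    rfl
  have hsw : ∀ k, k < N → ∀ j, sw α k j = i (se_b θ k j) * T ^ j := by
    intro k
    induction k with
    | zero =>
      intro _ j
      cases j with
      | zero =>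
        rw [sw_zero_right, se_b, if_pos le_rfl, div_self (se_q_ne θ hd hN (by omega)), map_one,
          pow_zero, one_mul]
      | succ j =>
        rw [sw_lt α (Nat.succ_pos j), se_b, if_neg (by omega), map_zero, zero_mul]
    | succ k ih =>
      intro hk j
      cases j with
      | zero =>
        rw [sw_zero_right, se_b, if_pos (Nat.zero_le _), div_self (se_q_ne θ hd hN (by omega)),
          map_one, pow_zero, one_mul]
      | succ j =>
        rw [sw_succ, hmul k j (by omega) (ih (by omega) j), ih (by omega) (j + 1), ← add_mul,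
          ← map_add, se_rec σ θ hσ hd hk]
  refine ⟨D, inferInstance, inferInstance, α, ?_, ?_⟩
  · intro k t hk ht htN
    induction k, hk using Nat.le_induction with
    | base =>
      rcases lt_or_gt_of_ne htN with h | h
      · obtain ⟨k, hk⟩ : ∃ k, N = k + 1 := ⟨N - 1, by omega⟩
        obtain ⟨j, rfl⟩ : ∃ j, t = j + 1 := ⟨t - 1, by omega⟩
        have e := se_last σ θ hσ (k := k) (by rw [← hk]; exact hd) (by rw [← hk]; exact hθN)
          (j := j) (by omega)
        have e2 : sw α N (j + 1) = sw α (k + 1) (j + 1) := by rw [hk]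
        rw [e2, sw_succ, hmul k j (by omega) (hsw k (by omega) j), hsw k (by omega) (j + 1),
          ← add_mul, ← map_add, e, map_zero, zero_mul]
      · exact sw_lt α h
    | succ k hk ih =>
      obtain ⟨j, rfl⟩ : ∃ j, t = j + 1 := ⟨t - 1, by omega⟩
      rw [sw_succ, hα0 k hk, zero_mul, add_zero]
      exact ih
  · intro k hk hkN
    rw [hsw k hkN 1, pow_one]
    refine mul_ne_zero ?_ hT
    rw [Ne, map_eq_zero_iff i i.injective, se_b, if_pos (by omega)]
    exact div_ne_zero (se_q_ne θ hd hN (by omega)) (se_q_ne θ hd (by omega) (by omega))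

end Vale.Agent.P200F.V

end
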