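import Vale.Agent.P200F.Ns
import Vale.Agent.P200F.L5
import Vale.Agent.P200F.A4

set_option linter.all false

section

namespace Vale.Agent.P200F.Y

open MvPolynomial Module
open Vale.Agent.P200F.B Vale.Agent.P200F.G Vale.Agent.P200F.L Vale.Agent.P200F.M Vale.Agent.P200F.V
open Vale.Agent.P200F.W

universe u

/-- sets of exponents of degree `D` containing all multiples of the powers -/
def PwSet (n : ℕ) (a : Fin n → ℕ) (D : ℕ) (M : Set (Fin n →₀ ℕ)) : Prop :=
  (∀ m ∈ M, ∑ i, m i = D) ∧ ∀ m : Fin n →₀ ℕ, ∑ i, m i = D → (∃ i, a i ≤ m i) → m ∈ M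

/-- the lex set containing the powers with `v` elements -/
def pwLex (n : ℕ) (a : Fin n → ℕ) (D v : ℕ) : Set (Fin n →₀ ℕ) :=
  lexSet (le_refl n) a D (v - (insideP (le_refl n) a D).ncard)

/-- the layers `i < N` (with respect to the last variable) are stable -/
def Stab {n : ℕ} (N : ℕ) (M : Set (Fin (n + 1) →₀ ℕ)) : Prop :=
  ∀ i, i + 1 < N → ∀ m ∈ layS M (i + 1), ∀ j, m + Finsupp.single j 1 ∈ layS M i

end Vale.Agent.P200F.Y

end

section

namespace Vale.Agent.P200F.Y

open MvPolynomial Module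
open Vale.Agent.P200F.B Vale.Agent.P200F.G Vale.Agent.P200F.L Vale.Agent.P200F.M Vale.Agent.P200F.V
open Vale.Agent.P200F.W

variable {n : ℕ}

/-- the part of the lowest monomials with last exponent at most `i` (generalises `ncard_inm_zero`).
Let `π` be the truncation to last exponents `≤ i` (a linear map); the set on the right is
`inm B (V.map π)` (lower weight implies smaller or equal last exponent as `e < B`), of cardinality
`finrank (V.map π)` by `ncard_inm`, and `U ≤ V.map π`. -/
theorem ncard_inm_le {D : Type*} [DivisionRing D] {B e : ℕ} (hB : e < B)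
    {V : Submodule D (YR D (n + 1))} (hV : V ≤ YD D (n + 1) e) (i : ℕ)
    (U : Submodule D (YR D (n + 1)))
    (hU : ∀ u ∈ U, (∀ m, i < m (Fin.last n) → u.coeff m = 0) ∧
      ∃ v ∈ V, ∀ m, m (Fin.last n) ≤ i → v.coeff m = u.coeff m) :
    finrank D U ≤ {m | m ∈ inm B V ∧ m (Fin.last n) ≤ i}.ncard := by
  classical
  let π : YR D (n + 1) →ₗ[D] YR D (n + 1) :=
    { toFun := fun u => AddMonoidAlgebra.ofCoeff (u.coeff.filter fun m => m (Fin.last n) ≤ i)
      map_add' := fun u v => by
        apply AddMonoidAlgebra.coeff_injective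
        exact Finsupp.filter_add
      map_smul' := fun k u => by
        apply AddMonoidAlgebra.coeff_injective
        exact Finsupp.filter_smul }
  have hπ : ∀ (u : YR D (n + 1)) (m : Fin (n + 1) →₀ ℕ),
      (π u).coeff m = if m (Fin.last n) ≤ i then u.coeff m else 0 := by
    intro u m
    exact Finsupp.filter_apply _ _ _
  have hV' : V.map π ≤ YD D (n + 1) e := by
    rintro _ ⟨u, hu, rfl⟩ m hm
    rw [hπ] at hm
    by_cases h : m (Fin.last n) ≤ i
    · rw [if_pos h] at hm
      exact hV hu m hm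
    · rw [if_neg h] at hm
      exact absurd rfl hm
  have hS : {m | m ∈ inm B V ∧ m (Fin.last n) ≤ i} = inm B (V.map π) := by
    ext m
    constructor
    · rintro ⟨⟨u, hu, hu1, hu2⟩, hm⟩
      refine ⟨π u, ⟨u, hu, rfl⟩, ?_, fun m' hm' => ?_⟩
      · rw [hπ, if_pos hm]
        exact hu1
      · rw [hπ, hu2 m' hm', ite_self]
    · rintro ⟨_, ⟨u, hu, rfl⟩, hu1, hu2⟩
      rw [hπ] at hu1
      by_cases hm : m (Fin.last n) ≤ i
      · rw [if_pos hm] at hu1
        refine ⟨⟨u, hu, hu1, fun m' hm' => ?_⟩, hm⟩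
        obtain ⟨n1, hn1⟩ := deg_exists_sn m
        obtain ⟨n2, hn2⟩ := deg_exists_sn m'
        have hd : ∑ k, m k = e := hV hu _ hu1
        have hlt : wt B n1 < B ^ n := by
          refine deg_digits_lt _ fun k => ?_
          have h5 : n1 k = m k.castSucc := by
            conv_rhs => rw [hn1]
            rw [sn_castSucc]
          have h6 := deg_le_sum m k.castSucc
          omega
        have hle : m' (Fin.last n) ≤ m (Fin.last n) := by
          have h7 : wt B m' = wt B n2 + m' (Fin.last n) * B ^ n := by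
            conv_lhs => rw [hn2]
            rw [deg_wt_sn]
          have h8 : wt B m = wt B n1 + m (Fin.last n) * B ^ n := by
            conv_lhs => rw [hn1]
            rw [deg_wt_sn]
          by_contra hc
          have h9 : (m (Fin.last n) + 1) * B ^ n ≤ m' (Fin.last n) * B ^ n :=
            Nat.mul_le_mul_right _ (by omega)
          rw [add_mul, one_mul] at h9
          omega
        have h10 := hu2 m' hm'
        rwa [hπ, if_pos (hle.trans hm)] at h10
      · rw [if_neg hm] at hu1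
        exact absurd rfl hu1
  have h0 : Module.Finite D (YD D (n + 1) e) := by
    have := finite_monD (D := D) {m : Fin (n + 1) →₀ ℕ | ∑ i, m i = e} (fun m hm => hm)
    exact this
  have h1 : Module.Finite D (V.map π) := Submodule.finiteDimensional_of_le hV'
  rw [hS, ncard_inm hB hV']
  refine Submodule.finrank_mono ?_
  intro u hu
  obtain ⟨h2, v, hv, h3⟩ := hU u hu
  refine ⟨v, hv, ?_⟩
  apply deg_yr_ext
  intro m
  rw [hπ]
  by_cases h : m (Fin.last n) ≤ i
  · rw [if_pos h, h3 m h]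
  · rw [if_neg h, h2 m (by omega)]

end Vale.Agent.P200F.Y

end

section

namespace Vale.Agent.P200F.Y

open MvPolynomial Module
open Vale.Agent.P200F.B Vale.Agent.P200F.G Vale.Agent.P200F.L Vale.Agent.P200F.M Vale.Agent.P200F.V
open Vale.Agent.P200F.W

universe u

variable {K : Type u} [Field K] {n : ℕ}

/-- the potential is bounded -/
theorem y6_pot_le {a : Fin (n + 1) → ℕ} {d : ℕ} {M : Set (Fin (n + 1) →₀ ℕ)}
    (hM : PwSet (n + 1) a (d + 1) M) (N : ℕ) :
    ∑ k ∈ Finset.range N, {m | m ∈ M ∧ m (Fin.last n) ≤ k}.ncard ≤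
      N * {m : Fin (n + 1) →₀ ℕ | ∑ i, m i = d + 1}.ncard := by
  have h1 : ∀ k ∈ Finset.range N, {m | m ∈ M ∧ m (Fin.last n) ≤ k}.ncard ≤
      {m : Fin (n + 1) →₀ ℕ | ∑ i, m i = d + 1}.ncard := fun k _ =>
    Set.ncard_le_ncard (fun m hm => hM.1 m hm.1) (finite_degree_eq (d + 1))
  have h2 := Finset.sum_le_card_nsmul _ _ _ h1
  rwa [Finset.card_range, smul_eq_mul] at h2

end Vale.Agent.P200F.Y

end

section

namespace Vale.Agent.P200F.V

open MvPolynomial Module
open Vale.Agent.P200F.B Vale.Agent.P200F.G Vale.Agent.P200F.L Vale.Agent.P200F.M Vale.Agent.P200F.W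
open Vale.Agent.P200F.Y

section rd
variable {D : Type*} [DivisionRing D] {n : ℕ}

theorem qb_finrank_rd_theta (E : Fin n → Fin n → D) (hc : LinComm E)
    (hind : LinearIndependent D E) {d p : ℕ} (V : Submodule D (YR D n)) :
    finrank D (M.rd (fun i => M.lin (E i)) V (YD D n d) p) =
      finrank D (M.rd (zv D n) (V.comap (theta E)) (YD D n d) p) := by
  have hinj := tg_theta_injective E hc hind
  have hkr : ∀ (c : Finset (Fin n) → YR D n) (t : Finset (Fin n)),
      M.kr (fun i => M.lin (E i)) (fun s => theta E (c s)) t = theta E (M.kr (zv D n) c t) := by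
    intro c t
    rw [M.kr_apply, M.kr_apply, map_sum]
    refine Finset.sum_congr rfl fun i _ => ?_
    rcases neg_one_pow_eq_or (YR D n) (t.filter fun k => k < i).card with h | h
    · rw [h, one_mul, one_mul, tg_theta_mul_zv E hc]
    · rw [h, neg_one_mul, neg_one_mul, map_neg, tg_theta_mul_zv E hc]
  have hYD : ∀ u, theta E u ∈ YD D n d ↔ u ∈ YD D n d :=
    fun u => ⟨fun h => (tg_finrank_comap E hc hind (YD D n d) le_rfl).1 h, theta_mem E⟩
  obtain ⟨Φ, hΦ⟩ : ∃ Φ : (Finset (Fin n) → YR D n) →ₗ[D] (Finset (Fin n) → YR D n),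
      ∀ c, Φ c = fun s => theta E (c s) :=
    ⟨(theta E).compLeft (Finset (Fin n)), fun c => rfl⟩
  have hΦinj : Function.Injective Φ := by
    intro a b hab
    rw [hΦ, hΦ] at hab
    funext s
    exact hinj (congrFun hab s)
  have hcomap : (M.rd (fun i => M.lin (E i)) V (YD D n d) p).comap Φ =
      M.rd (zv D n) (V.comap (theta E)) (YD D n d) p := by
    ext c
    rw [Submodule.mem_comap, hΦ, M.mem_rd, M.mem_rd, M.mem_chD, M.mem_chD]
    have e1 : (∀ s : Finset (Fin n), s.card ≠ p → theta E (c s) = 0) ↔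
        ∀ s : Finset (Fin n), s.card ≠ p → c s = 0 :=
      forall_congr' fun s => imp_congr_right fun _ => by
        rw [← map_zero (theta E)]
        exact hinj.eq_iff
    have e2 : (∀ s, theta E (c s) ∈ YD D n d) ↔ ∀ s, c s ∈ YD D n d :=
      forall_congr' fun s => hYD _
    have e3 : (∀ t, M.kr (fun i => M.lin (E i)) (fun s => theta E (c s)) t ∈ V) ↔
        ∀ t, M.kr (zv D n) c t ∈ V.comap (theta E) :=
      forall_congr' fun t => by rw [hkr, Submodule.mem_comap]
    rw [e1, e2, e3]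
  have hle : M.rd (fun i => M.lin (E i)) V (YD D n d) p ≤ LinearMap.range Φ := by
    intro c hc'
    have h1 : ∀ s, ∃ w, theta E w = c s := by
      intro s
      have h2 := hc'.1.2 s
      rw [← tg_map_theta E hc hind d] at h2
      obtain ⟨w, _, hw⟩ := h2
      exact ⟨w, hw⟩
    choose w hw using h1
    refine ⟨w, ?_⟩
    rw [hΦ]
    funext s
    exact hw s
  rw [← hcomap]
  exact (Submodule.comap_equiv_self_of_inj_of_le hΦinj hle).finrank_eq.symm

end rd

section trans
variable {K : Type*} [Field K] {D : Type*} [DivisionRing D] [Algebra K D] {n : ℕ}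

theorem qb_cycles (E : Fin n → Fin n → D) (hc : LinComm E)
    (hind : LinearIndependent D E) {B d p : ℕ} (hB : d + 1 < B)
    {V : Submodule K (MvPolynomial (Fin n) K)}
    (hV : V ≤ homogeneousSubmodule (Fin n) K (d + 1)) :
    finrank K (rc X V (homogeneousSubmodule (Fin n) K d) p) ≤ ZS K (trM D E B V) d p := by
  have h1 := finrank_rd_VD (D := D) V (homogeneousSubmodule (Fin n) K d) p
  have h2 := finrank_rd_VD (D := D) (restrictSupport K (trM D E B V))
    (homogeneousSubmodule (Fin n) K d) p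
  rw [VD_homogeneous] at h1 h2
  rw [VD_restrictSupport] at h2
  rw [ZS, ← h1, ← h2, compound_comm E hc hind (VD D V) (VD_le_YD hV)
    (fun u hu c => mul_single_mem_VD V hu c), qb_finrank_rd_theta E hc hind]
  exact finrank_rd_inm hB (tg_finrank_comap E hc hind (VD D V) (VD_le_YD hV)).1

/-- passage to a monomial space containing the powers -/
theorem qb_degen (a : Fin n → ℕ) (E : Fin n → Fin n → D) (hc : LinComm E)
    (hind : LinearIndependent D E) (I : Ideal (MvPolynomial (Fin n) K))
    (hpow : ∀ i, ∃ u : YR D n, theta E u ∈ VD D (piece I (a i)) ∧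
      u.coeff (Finsupp.single i (a i)) ≠ 0 ∧
        ∀ m', cl m' (Finsupp.single i (a i)) → u.coeff m' = 0) {d : ℕ}
    (V : Submodule K (MvPolynomial (Fin n) K)) (hV1 : piece I (d + 1) ≤ V)
    (hV2 : V ≤ homogeneousSubmodule (Fin n) K (d + 1)) :
    ∃ M : Set (Fin n →₀ ℕ), PwSet n a (d + 1) M ∧ M.ncard = finrank K V ∧
      ∀ p, finrank K (rc X V (homogeneousSubmodule (Fin n) K d) p) ≤ ZS K M d p := by
  have hVD := VD_le_YD (D := D) hV2
  have hcm := tg_finrank_comap E hc hind (VD D V) hVD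
  have hVf : Module.Finite K V := Submodule.finiteDimensional_of_le hV2
  refine ⟨trM D E (d + 2) V, ⟨fun m hm => inm_subset hcm.1 hm, fun m hm ⟨i, hi⟩ => ?_⟩, ?_,
    fun p => qb_cycles E hc hind (Nat.lt_succ_self _) hV2⟩
  · rw [trM, ← w17_low_eq (Nat.lt_succ_self (d + 1)) hcm.1]
    have hmul : ∀ d, ∀ v ∈ piece I d, ∀ k, v * X k ∈ piece I (d + 1) := by
      intro d v hv k
      refine ⟨I.mul_mem_right _ hv.1, ?_⟩
      exact ((mem_homogeneousSubmodule _ _).1 hv.2).mul (isHomogeneous_X K k)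
    obtain ⟨S, hS⟩ := w17_exists_set fun m =>
        m ∈ w17low ((VD D (piece I (∑ i, m i))).comap (theta E))
    have hup : ∀ m ∈ S, ∀ i, m + Finsupp.single i 1 ∈ S := by
      intro m hm i
      rw [hS] at hm ⊢
      have h2 : ∑ j, (m + Finsupp.single i 1 : Fin n →₀ ℕ) j = ∑ i, m i + 1 := by
        rw [m4_deg_add, m4_deg_single]
      rw [h2]
      refine w17_low_mul i (fun u hu => ?_) hm
      change theta E (u * zv D n i) ∈ VD D (piece I (∑ i, m i + 1))
      rw [tg_theta_mul_zv E hc]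
      exact w17_VD_mul_lin (hmul _) _ hu
    have h1 : Finsupp.single i (a i) ∈ S := by
      rw [hS]
      have h1 : ∑ j, (Finsupp.single i (a i) : Fin n →₀ ℕ) j = a i := by
        classical
        simp only [Finsupp.single_apply]
        simp
      rw [h1]
      obtain ⟨u, hu, hu1, hu2⟩ := hpow i
      exact ⟨u, hu, hu1, hu2⟩
    have h2 : m ∈ S := by
      have h3 : m = Finsupp.single i (a i) + (m - Finsupp.single i (a i)) := by
        rw [add_tsub_cancel_of_le]
        rwa [Finsupp.single_le_iff]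
      rw [h3]
      exact up_add hup h1 _
    rw [hS, hm] at h2
    obtain ⟨u, hu, hu1, hu2⟩ := h2
    exact ⟨u, M.VD_mono hV1 hu, hu1, hu2⟩
  · rw [trM, ncard_inm (Nat.lt_succ_self _) hcm.1, hcm.2, M.finrank_VD]

end trans

end Vale.Agent.P200F.V

end

section

namespace Vale.Agent.P200F.V

open MvPolynomial Module
open Vale.Agent.P200F.B Vale.Agent.P200F.G Vale.Agent.P200F.L Vale.Agent.P200F.M Vale.Agent.P200F.W
open Vale.Agent.P200F.Y

universe u

theorem qf_bD_C_mul {K D : Type*} [Field K] [DivisionRing D] [Algebra K D] {n : ℕ} (r : K)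
    (x : YR D n) : bD D (C r) * x = algebraMap K D r • x := by
  have h1 : (bD D (C r) : YR D n) = AddMonoidAlgebra.single 0 (algebraMap K D r) :=
    AddMonoidAlgebra.mapRingHom_single _ _ _
  rw [h1]
  ext m
  rw [AddMonoidAlgebra.coeff_single_zero_mul, AddMonoidAlgebra.coeff_smul_apply, smul_eq_mul]

/-- the data of block F from the roots -/
noncomputable def Roots.tgData {K D : Type u} [Field K] [DivisionRing D] [Algebra K D] {n : ℕ}
    {a : Fin n → ℕ} {E : Fin n → Fin n → D} {Lc : Fin n → Fin n → K}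
    {Gf : Fin n → MvPolynomial (Fin n) K} (h : Roots K D a E Lc Gf) : TgData K D n a where
  E := E
  comm := h.comm
  G := Gf
  hom := h.hom
  prim := h.prim
  L i j := algebraMap K D (Lc i j)
  rel := by
    intro i
    rw [h.pow i]
    congr 1
    refine Finset.sum_congr ?_ fun j _ => qf_bD_C_mul _ _
    ext j
    simp

/-- the lowest monomial of the polynomial with value `G_i` -/
theorem qf_init {K D : Type*} [Field K] [DivisionRing D] [Algebra K D] {n : ℕ} {a : Fin n → ℕ}
    (ρ : TgData K D n a) (ha : ∀ i, 1 ≤ a i) (i : Fin n) :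
    (ρ.init i).coeff (Finsupp.single i (a i)) ≠ 0 ∧
      ∀ m', cl m' (Finsupp.single i (a i)) → (ρ.init i).coeff m' = 0 := by
  classical
  refine ⟨?_, fun m' hm' => ?_⟩
  · rw [ρ.init_coeff, if_pos rfl]
    · exact one_ne_zero
    · intro j hj h
      have h1 := DFunLike.congr_fun h j
      rw [Finsupp.single_eq_same, Finsupp.single_eq_of_ne (ne_of_gt hj)] at h1
      exact absurd h1 (by have := ha i; omega)
  · obtain ⟨k, hk1, hk2⟩ := hm'
    have hki : k = i := by
      by_contra hne
      rw [Finsupp.single_eq_of_ne hne] at hk1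
      omega
    subst hki
    rw [ρ.init_coeff, if_neg]
    · rintro rfl
      exact lt_irrefl _ hk1
    · rintro j hj rfl
      have h1 := hk2 j hj
      rw [Finsupp.single_eq_same, Finsupp.single_eq_of_ne (ne_of_gt hj)] at h1
      exact absurd h1 (by have := ha k; omega)

/-- forms over the extension in the extended ideal have their images in the space generated by
the ideal -/
theorem qf_mem_VD {k K D : Type u} [Field k] [Field K] [Algebra k K] [DivisionRing D]
    [Algebra K D] [Algebra k D] [IsScalarTower k K D] {n : ℕ}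
    (I : Ideal (MvPolynomial (Fin n) k)) {g : MvPolynomial (Fin n) K} {e : ℕ}
    (hg : g.IsHomogeneous e) (hgI : g ∈ I.map (MvPolynomial.map (σ := Fin n) (algebraMap k K))) :
    (bD D g : YR D n) ∈ VD D (piece I e) := by
  rw [mem_VD_iff]
  intro l
  refine ⟨bcc (l ∘ₗ (IsScalarTower.toAlgHom k K D).toLinearMap) g, ⟨?_, ?_⟩, fun m => ?_⟩
  · exact mem_map_iff_bcc.1 hgI _
  · refine (mem_homogeneousSubmodule _ _).2 fun m hm => ?_
    refine hg fun h0 => hm ?_
    rw [coeff_bcc, h0, map_zero]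
  · rw [coeff_bcc, bD_coeff]
    rfl

end Vale.Agent.P200F.V

end

section

namespace Vale.Agent.P200F.V

open MvPolynomial Module
open Vale.Agent.P200F.B Vale.Agent.P200F.G Vale.Agent.P200F.L Vale.Agent.P200F.M Vale.Agent.P200F.W
open Vale.Agent.P200F.Y

universe u

variable {K : Type u} [Field K] {n : ℕ}

theorem sth_zs (D : Type*) [DivisionRing D] [Algebra K D] (M : Set (Fin n →₀ ℕ)) (d p : ℕ) :
    ZS K M d p = finrank D (Vale.Agent.P200F.M.rd (zv D n) (monD D M) (YD D n d) p) := by
  have h2 := finrank_rd_VD (D := D) (restrictSupport K M) (homogeneousSubmodule (Fin n) K d) p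
  rw [VD_homogeneous, VD_restrictSupport] at h2
  exact h2.symm

theorem sth_finrank_map {D : Type*} [DivisionRing D] (j : Fin n) (α : ℕ → D)
    (S : Submodule D (YR D (n + 1))) : finrank D (S.map (psi j α)) = finrank D S :=
  (Submodule.equivMapOfInjective (psi j α) (psi_injective j α) S).finrank_eq.symm

theorem sth_mem_inm {D : Type*} [DivisionRing D] {B : ℕ} {W : Submodule D (YR D n)}
    {m : Fin n →₀ ℕ} (hm : (AddMonoidAlgebra.single m 1 : YR D n) ∈ W) : m ∈ inm B W := by
  refine ⟨AddMonoidAlgebra.single m 1, hm, ?_, fun m' hm' => ?_⟩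
  · rw [AddMonoidAlgebra.coeff_single, Finsupp.single_eq_same]
    exact one_ne_zero
  · rw [AddMonoidAlgebra.coeff_single, Finsupp.single_eq_of_ne]
    rintro rfl
    exact lt_irrefl _ hm'

theorem seq_step {D : Type*} [DivisionRing D] [Algebra K D]
    {a : Fin (n + 1) → ℕ} (h2 : ∀ i, 1 ≤ a i) (hle : ∀ i, a i ≤ a (Fin.last n)) {α : ℕ → D}
    (hz : ∀ k t, a (Fin.last n) ≤ k → 0 < t → t ≠ a (Fin.last n) → sw α k t = 0)
    (h1 : ∀ i, 0 < i → i < a (Fin.last n) → sw α i 1 ≠ 0) {d : ℕ}
    {M : Set (Fin (n + 1) →₀ ℕ)} (hM : PwSet (n + 1) a (d + 1) M) {i : ℕ}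
    (hi : i + 1 < a (Fin.last n)) {m0 : Fin n →₀ ℕ} (hm0 : m0 ∈ layS M (i + 1)) {j : Fin n}
    (hj : m0 + Finsupp.single j 1 ∉ layS M i) :
    ∃ M' : Set (Fin (n + 1) →₀ ℕ), PwSet (n + 1) a (d + 1) M' ∧ M'.ncard = M.ncard ∧
      (∀ p, ZS K M d p ≤ ZS K M' d p) ∧
      (∀ k, {m | m ∈ M ∧ m (Fin.last n) ≤ k}.ncard ≤ {m | m ∈ M' ∧ m (Fin.last n) ≤ k}.ncard) ∧
      {m | m ∈ M ∧ m (Fin.last n) ≤ i}.ncard < {m | m ∈ M' ∧ m (Fin.last n) ≤ i}.ncard := by
  classical
  have hMY : monD D M ≤ YD D (n + 1) (d + 1) := fun u hu m hm => hM.1 m (hu m hm)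
  set W : Submodule D (YR D (n + 1)) := (monD D M).map (psi j α) with hW
  have hWY : W ≤ YD D (n + 1) (d + 1) := by
    rintro _ ⟨u, hu, rfl⟩
    exact psi_mem_YD j α (hMY hu)
  -- the part with last exponents at most `k`
  set Mk : ℕ → Set (Fin (n + 1) →₀ ℕ) := fun k => {m | m ∈ M ∧ m (Fin.last n) ≤ k} with hMk
  set Wk : ℕ → Submodule D (YR D (n + 1)) := fun k => (monD D (Mk k)).map (psi j α) with hWk
  have hMkW : ∀ k, Mk k ⊆ y5_W n (d + 1) k := fun k m hm => ⟨hM.1 m hm.1, hm.2⟩
  have hWW : ∀ k, ∀ u ∈ Wk k, u ∈ monD D (y5_W n (d + 1) k) := by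
    rintro k _ ⟨u, hu, rfl⟩
    exact psi_mem_W j α (monD_mono (hMkW k) hu)
  have hUU : ∀ k, ∀ u ∈ Wk k, u ∈ W := by
    rintro k _ ⟨u, hu, rfl⟩
    exact ⟨u, monD_mono (fun m hm => hm.1) hu, rfl⟩
  have hrank : ∀ k, finrank D (Wk k) = (Mk k).ncard := fun k => by
    rw [hWk]
    show finrank D ((monD D (Mk k)).map (psi j α)) = _
    rw [sth_finrank_map, finrank_monD (e := d + 1) (Mk k) fun m hm => hM.1 m hm.1]
  -- the powers
  have hpow : ∀ (l : Fin n) (m : Fin (n + 1) →₀ ℕ) (c : D), ∑ k, m k = d + 1 →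
      a l.castSucc ≤ m l.castSucc → (AddMonoidAlgebra.single m c : YR D (n + 1)) ∈ W := by
    intro l m c hm hl
    obtain ⟨u, hu, hu2⟩ := psi_surj_pow (D := D) j α (e := d + 1) (b := a l.castSucc) l
      (v := AddMonoidAlgebra.single m c) (y5_single_mem
        (show m ∈ {m : Fin (n + 1) →₀ ℕ | ∑ k, m k = d + 1 ∧ a l.castSucc ≤ m l.castSucc} from
          ⟨hm, hl⟩) c)
    rw [← hu2]
    exact ⟨u, monD_mono (fun m hm => hM.2 m hm.1 ⟨l.castSucc, hm.2⟩) hu, rfl⟩
  have hpowl : ∀ (m : Fin n →₀ ℕ) (k : ℕ), ∑ i, sn m k i = d + 1 → a (Fin.last n) ≤ k →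
      (AddMonoidAlgebra.single (sn m k) 1 : YR D (n + 1)) ∈ W := by
    intro m k hm hk
    have e1 := psi_sn j α m k (1 : D)
    rw [Finset.sum_range_succ', Nat.sub_zero, zero_smul, add_zero, sw_zero_right, mul_one] at e1
    have e2 : psi j α (AddMonoidAlgebra.single (sn m k) (1 : D)) ∈ W :=
      ⟨_, y5_single_mem (hM.2 _ hm ⟨Fin.last n, by rw [sn_last]; exact hk⟩) _, rfl⟩
    rw [e1] at e2
    refine (Submodule.add_mem_iff_right W (Submodule.sum_mem _ fun t ht => ?_)).1 e2
    have ht' : t < k := Finset.mem_range.1 ht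
    by_cases h3 : t + 1 = a (Fin.last n)
    · refine hpow j _ _ ?_ ?_
      · rw [y5_deg_sn_add m j (by omega)]
        exact hm
      · rw [sn_castSucc, Finsupp.add_apply, Finsupp.smul_apply, Finsupp.single_eq_same,
          smul_eq_mul, mul_one, h3]
        exact (hle _).trans (Nat.le_add_left _ _)
    · rw [hz k (t + 1) hk (Nat.succ_pos t) h3, mul_zero, AddMonoidAlgebra.single_zero]
      exact Submodule.zero_mem _
  refine ⟨inm (d + 2) W, ⟨fun m hm => inm_subset hWY hm, ?_⟩, ?_, ?_, ?_, ?_⟩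
  · intro m hm ⟨l, hl⟩
    apply sth_mem_inm
    obtain ⟨m', k, rfl⟩ := exists_sn m
    induction l using Fin.lastCases with
    | last =>
      rw [sn_last] at hl
      exact hpowl m' k hm hl
    | cast l => exact hpow l _ _ hm hl
  · rw [ncard_inm (Nat.lt_succ_self _) hWY, hW, sth_finrank_map,
      finrank_monD (e := d + 1) M hM.1]
  · intro p
    rw [sth_zs D, sth_zs D, seq_finrank_rd j α (monD D M) (fun u hu => dia_monD α M hu) hMY]
    exact finrank_rd_inm (Nat.lt_succ_self _) hWY
  · intro k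
    have h3 := ncard_inm_le (B := d + 2) (Nat.lt_succ_self _) hWY k (Wk k) (by
      intro u hu
      refine ⟨fun m hm => ?_, u, hUU k u hu, fun m _ => rfl⟩
      by_contra h0
      have h4 := (hWW k u hu m h0).2
      omega)
    rw [hrank] at h3
    exact h3
  · -- the layer `i`
    have hdeg : ∑ k, sn m0 (i + 1) k = d + 1 := hM.1 _ hm0
    set w : YR D (n + 1) := ∑ t ∈ Finset.range (i + 1), AddMonoidAlgebra.single
        (sn (m0 + (t + 1) • Finsupp.single j 1) (i + 1 - (t + 1))) (sw α (i + 1) (t + 1)) with hw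
    have hu : psi j α (AddMonoidAlgebra.single (sn m0 (i + 1)) (1 : D)) =
        w + AddMonoidAlgebra.single (sn m0 (i + 1)) 1 := by
      rw [psi_sn, Finset.sum_range_succ', Nat.sub_zero, zero_smul, add_zero, sw_zero_right,
        mul_one, hw]
      congr 1
      refine Finset.sum_congr rfl fun t _ => ?_
      rw [one_mul]
    have hwW : w ∈ monD D (y5_W n (d + 1) i) := by
      rw [hw]
      refine Submodule.sum_mem _ fun t ht => ?_
      have ht' : t < i + 1 := Finset.mem_range.1 ht
      refine y5_single_mem (show _ ∈ y5_W n (d + 1) i from ⟨?_, ?_⟩) _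
      · rw [y5_deg_sn_add m0 j (by omega), hdeg]
      · rw [sn_last]
        omega
    have hwc : w.coeff (sn (m0 + Finsupp.single j 1) i) = sw α (i + 1) 1 := by
      rw [hw, AddMonoidAlgebra.coeff_sum, Finsupp.finsetSum_apply, Finset.sum_eq_single 0]
      · rw [AddMonoidAlgebra.coeff_single, zero_add, one_smul, Nat.add_sub_cancel,
          Finsupp.single_eq_same]
      · intro t ht ht0
        have ht' : t < i + 1 := Finset.mem_range.1 ht
        rw [AddMonoidAlgebra.coeff_single, Finsupp.single_eq_of_ne]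
        intro h
        have := (sn_injective h).2
        omega
      · intro h
        exact absurd (Finset.mem_range.2 (Nat.succ_pos i)) h
    have hwU : w ∉ Wk i := by
      rintro ⟨v, hv, hvw⟩
      have e1 := psi_coeff_top j α (monD_mono (hMkW i) hv) (m0 + Finsupp.single j 1)
      rw [hvw, hwc] at e1
      refine hj (hv (sn (m0 + Finsupp.single j 1) i) ?_).1
      rw [← e1]
      exact h1 (i + 1) (Nat.succ_pos i) hi
    -- the element with truncation `w`
    have huW : w + AddMonoidAlgebra.single (sn m0 (i + 1)) 1 ∈ W := by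
      rw [← hu]
      exact ⟨_, y5_single_mem (show sn m0 (i + 1) ∈ M from hm0) _, rfl⟩
    have hwlast : ∀ m : Fin (n + 1) →₀ ℕ, i < m (Fin.last n) → w.coeff m = 0 := by
      intro m hm
      by_contra h0
      have h4 := (hwW m h0).2
      omega
    have h3 := ncard_inm_le (B := d + 2) (Nat.lt_succ_self _) hWY i
      (Wk i ⊔ Submodule.span D {w}) (by
      intro u hu
      obtain ⟨u1, hu1, u2, hu2, rfl⟩ := Submodule.mem_sup.1 hu
      obtain ⟨b, rfl⟩ := Submodule.mem_span_singleton.1 hu2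
      refine ⟨fun m hm => ?_, u1 + b • (w + AddMonoidAlgebra.single (sn m0 (i + 1)) 1),
        Submodule.add_mem _ (hUU i u1 hu1) (Submodule.smul_mem _ _ huW), fun m hm => ?_⟩
      · have h5 : u1.coeff m = 0 := by
          by_contra h0
          have h4 := (hWW i u1 hu1 m h0).2
          omega
        rw [AddMonoidAlgebra.coeff_add, Finsupp.add_apply, AddMonoidAlgebra.coeff_smul_apply, h5,
          hwlast m hm, smul_zero, add_zero]
      · have h5 : (AddMonoidAlgebra.single (sn m0 (i + 1)) (1 : D) :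
            YR D (n + 1)).coeff m = 0 := by
          rw [AddMonoidAlgebra.coeff_single, Finsupp.single_eq_of_ne]
          rintro rfl
          rw [sn_last] at hm
          omega
        rw [AddMonoidAlgebra.coeff_add, AddMonoidAlgebra.coeff_add, Finsupp.add_apply,
          Finsupp.add_apply, AddMonoidAlgebra.coeff_smul_apply,
          AddMonoidAlgebra.coeff_smul_apply, AddMonoidAlgebra.coeff_add, Finsupp.add_apply,
          h5, add_zero])
    have hfU : Module.Finite D (Wk i) := by
      have h4 : Module.Finite D (monD D (y5_W n (d + 1) i)) := finite_monD _ fun m hm => hm.1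
      exact Submodule.finiteDimensional_of_le (hWW i)
    have hfw : Module.Finite D (Submodule.span D {w}) := FiniteDimensional.span_singleton D w
    have h4 : finrank D (Wk i) < finrank D (Wk i ⊔ Submodule.span D {w} : Submodule D _) := by
      refine Submodule.finrank_lt_finrank_of_lt (lt_of_le_of_ne le_sup_left fun h => hwU ?_)
      rw [h]
      exact Submodule.mem_sup_right (Submodule.mem_span_singleton_self w)
    rw [hrank] at h4
    exact h4.trans_le h3

end Vale.Agent.P200F.V

end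

section

namespace Vale.Agent.P200F.V

open MvPolynomial Module
open Vale.Agent.P200F.B Vale.Agent.P200F.G Vale.Agent.P200F.L Vale.Agent.P200F.M
open Vale.Agent.P200F.W Vale.Agent.P200F.Y

universe u

variable {K : Type u} [Field K] {n : ℕ}

/-- iteration of `seq_step` with the potential `∑_{k < N} |{m ∈ M | m last ≤ k}|`, which is bounded
(as in `exists_stable_sq`) -/
theorem seq_exists_stable {a : Fin (n + 1) → ℕ} (hA : HasSeq K (a (Fin.last n)))
    (h2 : ∀ i, 1 ≤ a i) (hle : ∀ i, a i ≤ a (Fin.last n)) {d : ℕ}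
    {M : Set (Fin (n + 1) →₀ ℕ)} (hM : PwSet (n + 1) a (d + 1) M) :
    ∃ M' : Set (Fin (n + 1) →₀ ℕ), PwSet (n + 1) a (d + 1) M' ∧ M'.ncard = M.ncard ∧
      (∀ p, ZS K M d p ≤ ZS K M' d p) ∧ Stab (a (Fin.last n)) M' := by
  obtain ⟨D, _, _, α, hz, h1⟩ := hA
  set N := a (Fin.last n) with hN
  set T : ℕ := N * {m : Fin (n + 1) →₀ ℕ | ∑ i, m i = d + 1}.ncard with hT
  have hbd : ∀ M : Set (Fin (n + 1) →₀ ℕ), PwSet (n + 1) a (d + 1) M →
      ∑ k ∈ Finset.range N, {m | m ∈ M ∧ m (Fin.last n) ≤ k}.ncard ≤ T :=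
    fun M hM => y6_pot_le hM N
  -- one step
  have hstep : ∀ M : Set (Fin (n + 1) →₀ ℕ), PwSet (n + 1) a (d + 1) M → ¬ Stab N M →
      ∃ M' : Set (Fin (n + 1) →₀ ℕ), PwSet (n + 1) a (d + 1) M' ∧ M'.ncard = M.ncard ∧
        (∀ p, ZS K M d p ≤ ZS K M' d p) ∧
        ∑ k ∈ Finset.range N, {m | m ∈ M ∧ m (Fin.last n) ≤ k}.ncard <
          ∑ k ∈ Finset.range N, {m | m ∈ M' ∧ m (Fin.last n) ≤ k}.ncard := by
    intro M hM hst
    rw [Stab] at hst
    push Not at hst
    obtain ⟨i, hi, m0, hm0, j, hj⟩ := hst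
    obtain ⟨M', g1, g2, g3, g4, g5⟩ := seq_step (K := K) h2 hle hz h1 hM hi hm0 hj
    exact ⟨M', g1, g2, g3, Finset.sum_lt_sum (fun k _ => g4 k)
      ⟨i, Finset.mem_range.2 (by omega), g5⟩⟩
  have key : ∀ t, ∀ M' : Set (Fin (n + 1) →₀ ℕ), PwSet (n + 1) a (d + 1) M' →
      M'.ncard = M.ncard → (∀ p, ZS K M d p ≤ ZS K M' d p) →
      T - ∑ k ∈ Finset.range N, {m | m ∈ M' ∧ m (Fin.last n) ≤ k}.ncard ≤ t →
      ∃ M' : Set (Fin (n + 1) →₀ ℕ), PwSet (n + 1) a (d + 1) M' ∧ M'.ncard = M.ncard ∧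
      (∀ p, ZS K M d p ≤ ZS K M' d p) ∧ Stab N M' := by
    intro t
    induction t with
    | zero =>
      intro M' g1 g2 g3 g4
      refine ⟨M', g1, g2, g3, ?_⟩
      by_contra hst
      obtain ⟨M'', g5, -, -, g6⟩ := hstep M' g1 hst
      have := hbd M'' g5
      omega
    | succ t ih =>
      intro M' g1 g2 g3 g4
      by_cases hst : Stab N M'
      · exact ⟨M', g1, g2, g3, hst⟩
      · obtain ⟨M'', g5, g6, g7, g8⟩ := hstep M' g1 hst
        have := hbd M'' g5
        exact ih M'' g5 (g6.trans g2) (fun p => (g3 p).trans (g7 p)) (by omega)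
  exact key _ M hM rfl (fun _ => le_rfl) le_rfl

end Vale.Agent.P200F.V

end
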