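import Vale.Agent.P200F.Ns
import Vale.Agent.P200F.FDefs
import Vale.Agent.P200F.A4
import Vale.Agent.P200F.D2
import Vale.Agent.P200F.E3
import Vale.Agent.P200F.F2
import Vale.Agent.P200F.F3
import Vale.Agent.P200F.H2
import Vale.Agent.P200F.H3

set_option linter.all false

section

namespace Vale.Agent.P200F.V

open Module

universe u

/-- The dimensions of quotients of `U^I` by rows with entries `∑ z u` and `a` (`z`, `a` in `K`) are ranks of
objects over `D`. -/
def RKL {K : Type u} [Field K] (D : Type u) [DivisionRing D] [Algebra K D] {κ : ℕ} (β0 : Blk K κ)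
    (U : Type u) [DivisionRing U] [Algebra K U] : Prop :=
  ∀ (t : ℕ) (u : Fin t → U), ∃ (p : ℕ) (N : Submodule (PA D κ 1) (Fin p → PA D κ 1))
    (f : Fin t → Fin p → D), IsGi (fun _ : Fin 1 => β0) N ∧
      ∀ (I J J' : Type) [Finite I] [Finite J] [Finite J'] (z : J → I → Fin t → K)
        (a : J' → I → K),
        IsRk β0 (RS K N f z a) (finrank U ((I → U) ⧸
          (Submodule.span U (Set.range fun (j : J) (i : I) => ∑ k, algebraMap K U (z j i k) * u k) ⊔
            Submodule.span U (Set.range fun (j : J') (i : I) => algebraMap K U (a j i)))))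

theorem intP_transfer {K : Type u} [Field K] {D : Type u} [DivisionRing D] [Algebra K D] {κ R : ℕ}
    (β0 : Blk K κ) (β : Fin R → Blk K κ) {U : Type u} [DivisionRing U] [Algebra K U]
    (hU : RKL D β0 U) (hI : IntP D (Fin.cons β0 β : Fin (R + 1) → Blk K κ))
    (hI1 : IntP D (fun _ : Fin 1 => β0)) : IntP U β := by
  intro s N hN
  obtain ⟨L, t, u, κc, hκ⟩ := exists_gn ((isGi_iff N).2 hN)
  obtain ⟨p, N1, f, hN1, hRk⟩ := hU t u
  have hcl : ∀ n : Fin R → ℕ, ∃ C, IsCl β0 (RSn (α := Fin s) β N1 f κc n) C := fun n =>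
    exists_isCl hI1 (isGi_RS hN1 f (zz κc n) (aa β n))
  choose C hC using hcl
  have hCs : ∀ γ n n', n' = n + mdeg γ → ∀ u ∈ C n, sh D γ n n' u ∈ C n' := by
    intro γ n n' h
    exact isCl_comap hI1 (Φ := sh D γ n n') (fun m u => sh_cvi γ n n' m u)
      (N1 := RSn β N1 f κc n) (N2 := RSn β N1 f κc n')
      (fun u hu => Submodule.mem_comap.2 (sh_RSn β N1 f κc γ n n' h u hu)) (hC n) (hC n')
  have hG : IsGi (Fin.cons β0 β : Fin (R + 1) → Blk K κ) (glue C hCs) :=
    isGi_glue C hCs (fun n => (hC n).2.1) fun g i n w =>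
      (hC n).1 (slp_rel_mem β N1 f κc g i n w)
  obtain ⟨F, hF, n0, hn0⟩ := hI.gen hG
  rw [lam_succ] at hF
  obtain ⟨A, B, hA, hB, hAB⟩ := hF
  have he : (Fin.tail fun g => ((Fin.cons β0 β : Fin (R + 1) → Blk K κ) g).e) =
      fun g => (β g).e := by
    funext g
    rfl
  rw [he] at hA hB
  refine ⟨A - B, lam_sub R _ _ _ hA hB, n0, fun n hn => ?_⟩
  have h1 : IsRho β0 (C n) ((A - B) fun g => (n g : ℤ)) := by
    refine ⟨A fun g => (n g : ℤ), B fun g => (n g : ℤ), rfl, n0, fun m hm => ?_⟩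
    rw [← qdi_glue C hCs n m, hn0 (Fin.cons m n) ?_, hAB]
    · rfl
    · intro g
      refine Fin.cases ?_ (fun g => ?_) g
      · exact hm
      · exact hn g
  obtain ⟨k, hk1, hk2, -⟩ := (hC n).2.2
  have h2 := isRk_unique hk1 (hRk _ _ _ (zz κc n) (aa β n))
  have h3 := isRho_unique hk2 h1
  rw [← qdi_fin, qdi_eq_finrank ((isGi_iff N).2 hN) u κc hκ n, ← h2, ← h3]

end Vale.Agent.P200F.V

end

section

namespace Vale.Agent.P200F.V

open Module

universe u

/-- **Localization of one block** (target of (B)). -/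
def LocB (K : Type u) [Field K] (κ : ℕ) : Prop :=
  ∀ (D : Type u) [DivisionRing D] [Algebra K D] (β0 : Blk K κ), IntP D (fun _ : Fin 1 => β0) →
    ∃ (D' : Type u) (_ : DivisionRing D') (_ : Algebra K D') (ι : D →ₐ[K] D')
      (V : Fin κ → Fin 2 → D'),
      (∀ i ε d, V i ε * ι d = ι d * V i ε) ∧ IsEv β0 V ∧ RKL D β0 D'

theorem intAll_transfer {K : Type u} [Field K] {D : Type u} [DivisionRing D] [Algebra K D]
    {κ R : ℕ} (β : Fin (R + 1) → Blk K κ) {U : Type u} [DivisionRing U] [Algebra K U]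
    (hU : RKL D (β 0) U) (hI : IntAll D β) : IntAll U fun g : Fin R => β g.succ := by
  intro R' σ hσ
  have h1 : IntP D (fun _ : Fin 1 => β 0) := hI 1 (fun _ => 0) fun a b _ => Subsingleton.elim a b
  have h2 : IntP D (Fin.cons (β 0) ((fun g : Fin R => β g.succ) ∘ σ) : Fin (R' + 1) → Blk K κ) := by
    have h3 : (Fin.cons (β 0) ((fun g : Fin R => β g.succ) ∘ σ) : Fin (R' + 1) → Blk K κ) =
        β ∘ (Fin.cons 0 (fun g => (σ g).succ) : Fin (R' + 1) → Fin (R + 1)) := by
      funext g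
      refine Fin.cases ?_ (fun g => ?_) g
      · rfl
      · rfl
    rw [h3]
    refine hI _ _ ?_
    intro a b
    refine Fin.cases ?_ (fun a => ?_) a <;> refine Fin.cases ?_ (fun b => ?_) b
    · intro _
      rfl
    · intro h
      rw [Fin.cons_zero, Fin.cons_succ] at h
      exact absurd h.symm (Fin.succ_ne_zero _)
    · intro h
      rw [Fin.cons_zero, Fin.cons_succ] at h
      exact absurd h (Fin.succ_ne_zero _)
    · intro h
      rw [Fin.cons_succ, Fin.cons_succ] at h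
      rw [hσ (Fin.succ_injective _ h)]
  exact intP_transfer (β 0) _ hU h2 h1

theorem step_of_locB {K : Type u} [Field K] {κ : ℕ} (h : LocB K κ) : Step K κ := by
  intro D _ _ R β hI
  have h1 : IntP D (fun _ : Fin 1 => β 0) := hI 1 (fun _ => 0) fun a b _ => Subsingleton.elim a b
  obtain ⟨D', i1, i2, ι, V, hV, hev, hR⟩ := h D (β 0) h1
  exact ⟨D', i1, i2, ι, V, hV, hev, intAll_transfer β hR hI⟩

end Vale.Agent.P200F.V

end

section

namespace Vale.Agent.P200F.V

open MvPolynomial Module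
open Vale.Agent.P200F.B Vale.Agent.P200F.G Vale.Agent.P200F.L Vale.Agent.P200F.M

universe u

/-- the statement of the stage lemma, from the level lemma -/
def TopStage : Prop := (∀ (K : Type u) [Field K] (κ : ℕ), DStep K κ) → Rig.StageAll.{u}

/-- the statement of the circuit of a complete intersection, from the stage lemma -/
def TopCirc : Prop := Rig.StageAll.{u} → ∀ (k : Type u) [Field k] [Infinite k],
  (∀ n, Nonempty (Rig.Circ k n 0)) → Rig.ROCirc k

/-- **The conjecture of Eisenbud, Green and Harris**, from the blocks. -/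
theorem top_egh (hB : ∀ (K : Type u) [Field K] (κ : ℕ), LocB K κ) (hD : LevelLemma.{u})
    (hS : TopStage.{u}) (hC : TopCirc.{u})
    (hF : ∀ (K D : Type u) [Field K] [DivisionRing D] [Algebra K D], FProp K D)
    (K : Type u) [Field K] {n c : ℕ} (h : c ≤ n) (a : Fin c → ℕ)
    (ha : Monotone a) (h2 : ∀ i, 2 ≤ a i) (f : Fin c → MvPolynomial (Fin n) K)
    (hf : ∀ i, (f i).IsHomogeneous (a i)) (hreg : IsRegularSeq f)
    (I : Ideal (MvPolynomial (Fin n) K)) (hI : ∀ g ∈ I, ∀ d, homogeneousComponent d g ∈ I)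
    (hfI : ∀ i, f i ∈ I) :
    ∃ J : Ideal (MvPolynomial (Fin n) K), J.restrictScalars K = lexPlusPowers h a I := by
  have hinf : Infinite (AlgebraicClosure K) := IsAlgClosed.instInfinite
  have hst : Rig.StageAll.{u} := hS fun K _ κ => dstep_of_levelLemma hD K κ
  have hc : Rig.ROCirc (AlgebraicClosure K) := hC hst (AlgebraicClosure K) fun n =>
    ⟨{ N := 0
       β := fun _ => Blk.triv (AlgebraicClosure K) 0
       inp := fun _ _ => 0
       int := fun R => intZero _ _ _
       triv := fun _ _ => rfl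
       old := fun g hg => absurd hg (Nat.not_lt_zero g) }⟩
  exact egh_of_out K hF (Rig.ro_eOut (fun K _ κ => step_of_locB (hB K κ)) _ hc) h a ha h2 f hf
    hreg I hI hfI

end Vale.Agent.P200F.V

end

section

open CategoryTheory CategoryTheory.Limits

universe u

namespace Vale.Agent.P200F.V.SB

open Module Vale.Agent.P200F.E

variable {K : Type u} [Field K] {D : Type u} [DivisionRing D] [Algebra K D] {κ : ℕ} {β : Blk K κ}

/-- the localization functor -/
noncomputable abbrev LQ (h : RkAx D β) :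
    Ob (sysB D β) ⥤ (rkD h).toRankFn.S.Localization := (rkD h).toRankFn.S.Q

/-- the skew field -/
def UB (h : RkAx D β) : Type u := (End ((LQ h).obj (free1 D β).O))ᵐᵒᵖ

/-- its division ring structure -/
@[instance_reducible]
noncomputable def divUB (h : RkAx D β) : DivisionRing (UB h) :=
  letI := (rkD h).toRankFn.endDivisionRing (LQ h) (rk_O h)
  inferInstanceAs (DivisionRing (End ((LQ h).obj (free1 D β).O))ᵐᵒᵖ)

/-- the identity of `UB` -/
noncomputable def thUB (h : RkAx D β) :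
    letI := divUB h
    UB h ≃+* (End ((LQ h).obj (free1 D β).O))ᵐᵒᵖ :=
  letI := divUB h
  { toFun := fun u => u
    invFun := fun u => u
    left_inv := fun _ => rfl
    right_inv := fun _ => rfl
    map_mul' := fun _ _ => rfl
    map_add' := fun _ _ => rfl }

/-- its algebra structure -/
@[instance_reducible]
noncomputable def algUB (h : RkAx D β) :
    letI := divUB h
    Algebra K (UB h) :=
  letI := divUB h
  algU h (LQ h) (thUB h)

end Vale.Agent.P200F.V.SB

namespace Vale.Agent.P200F.V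

open Module Vale.Agent.P200F.E SB

/-- **Localization of one block** from the rank properties and the rank formula -/
theorem locB_of (K : Type u) [Field K] (κ : ℕ)
    (hA : ∀ (D : Type u) [DivisionRing D] [Algebra K D] (β0 : Blk K κ),
      IntP D (fun _ : Fin 1 => β0) → RkAx D β0)
    (hR : ∀ (D : Type u) [DivisionRing D] [Algebra K D] (β0 : Blk K κ) (h : RkAx D β0),
      @RKL K _ D _ _ κ β0 (UB h) (divUB h) (algUB h)) : LocB K κ := by
  intro D _ _ β0 hI
  have h := hA D β0 hI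
  letI := divUB h
  letI := algUB h
  obtain ⟨ι, V, -, hV, hev⟩ := exists_ev h (LQ h) (thUB h)
  exact ⟨UB h, divUB h, algUB h, ι, V, hV, hev, hR D β0 h⟩

end Vale.Agent.P200F.V

end

section

open CategoryTheory CategoryTheory.Limits

universe u

namespace Vale.Agent.P200F.V.SB

open Module Vale.Agent.P200F.E

/-- **the dimension formula** for the skew field `UB h` -/
theorem rklB {K : Type u} [Field K] {D : Type u} [DivisionRing D] [Algebra K D] {κ : ℕ}
    {β : Blk K κ} (h : RkAx D β) : @RKL K _ D _ _ κ β (UB h) (divUB h) (algUB h) := by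
  letI := divUB h
  letI := algUB h
  intro t u
  exact rkl h (LQ h) (thUB h) (fun c => rfl) t u

end Vale.Agent.P200F.V.SB

end

section

namespace Vale.Agent.P200F.V

open MvPolynomial Module
open Vale.Agent.P200F.B Vale.Agent.P200F.G Vale.Agent.P200F.L Vale.Agent.P200F.M

universe u

theorem full_locB (K : Type u) [Field K] (κ : ℕ) : LocB K κ :=
  locB_of K κ (fun _ _ _ _ hI => rkAx hI) fun D _ _ β0 h => SB.rklB h

theorem full_stage : TopStage.{u} := fun hD => Rig.stageAll fun K _ _ => Rig.stageBin hD K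

theorem full_circ : TopCirc.{u} := fun hS _ _ _ h0 n hn f d hd hmono hf hfin =>
  Rig.exists_circ hS hn (h0 n).some f d hd hmono hf hfin

/-- **The conjecture of Eisenbud, Green and Harris.** -/
theorem egh_of_level (hD : LevelLemma.{u})
    (K : Type u) [Field K] {n c : ℕ} (h : c ≤ n) (a : Fin c → ℕ)
    (ha : Monotone a) (h2 : ∀ i, 2 ≤ a i) (f : Fin c → MvPolynomial (Fin n) K)
    (hf : ∀ i, (f i).IsHomogeneous (a i)) (hreg : IsRegularSeq f)
    (I : Ideal (MvPolynomial (Fin n) K)) (hI : ∀ g ∈ I, ∀ d, homogeneousComponent d g ∈ I)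
    (hfI : ∀ i, f i ∈ I) :
    ∃ J : Ideal (MvPolynomial (Fin n) K), J.restrictScalars K = lexPlusPowers h a I :=
  top_egh full_locB hD full_stage full_circ fProp K h a ha h2 f hf hreg I hI hfI

end Vale.Agent.P200F.V

end

section

namespace Vale.Agent.P200F.V

open Module MvPolynomial

universe u

section aux
variable {k : Type u} [Field k] {Z ι J : Type} [DecidableEq Z] [DecidableEq ι] {blk : Z → ι}
  {C : Finset Z} {e : ℕ}

theorem lvl_pos [Fintype ι] (he : 0 < e) : Pos (wT J blk C e) := by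
  refine ⟨{ toFun := fun x => ∑ i, x.1 i + x.2
            map_zero' := by simp
            map_add' := fun x y => by
              simp only [Prod.fst_add, Prod.snd_add, Pi.add_apply, Finset.sum_add_distrib]
              ring }, ?_⟩
  rintro (z | j)
  · show 0 < ∑ i, wb blk z i + (if z ∈ C then (1 : ℤ) else 0)
    have h1 : ∑ i, wb blk z i = 1 := by
      rw [wb, Finset.sum_pi_single', if_pos (Finset.mem_univ _)]
    rw [h1]
    split_ifs <;> norm_num
  · show 0 < ∑ i : ι, (0 : ι → ℤ) i + (e : ℤ)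
    simp only [Pi.zero_apply, Finset.sum_const_zero, zero_add]
    exact_mod_cast he

theorem lvl_hblk (v : Z ⊕ J) (i : ι) : (wT J blk C e v).1 i =
    open scoped Classical in if tblk J blk v = some i then 1 else 0 := by
  classical
  rcases v with z | j
  · show (Pi.single (blk z) 1 : ι → ℤ) i = _
    by_cases h : blk z = i
    · subst h
      have h1 : tblk J blk (Sum.inl z) = some (blk z) := rfl
      rw [Pi.single_eq_same, if_pos h1]
    · rw [Pi.single_eq_of_ne (Ne.symm h), if_neg]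
      intro h'
      exact h (Option.some.inj h')
  · show (0 : ι → ℤ) i = _
    rw [if_neg (by simp [tblk])]
    rfl

/-- the degree of a monomial without variables of `C` -/
theorem lvl_dg_map (m : Z →₀ ℕ) (hm : ∀ c ∈ C, m c = 0) :
    dg (wT J blk C e) (m.mapDomain Sum.inl) = (dg (wb blk) m, 0) := by
  classical
  have h1 : dg (wT J blk C e) (m.mapDomain Sum.inl) =
      m.sum fun v n => n • wT J blk C e (Sum.inl v) := by
    unfold dg
    rw [Finsupp.sum_mapDomain_index (h := fun v n => n • wT J blk C e v)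
      (fun _ => zero_smul _ _) (fun _ _ _ => add_smul _ _ _)]
  rw [h1]
  unfold dg
  rw [Finsupp.sum, Finsupp.sum]
  ext1
  · rw [Prod.fst_sum]
    rfl
  · rw [Prod.snd_sum]
    refine Finset.sum_eq_zero fun v hv => ?_
    have h2 : v ∉ C := fun h => (Finsupp.mem_support_iff.1 hv) (hm v h)
    show m v • (if v ∈ C then (1 : ℤ) else 0) = 0
    rw [if_neg h2, smul_zero]

/-- homogeneity of the renamed polynomials -/
theorem lvl_rename {p : MvPolynomial Z k} {δ : ι → ℤ}
    (hp : ∀ m, coeff m p ≠ 0 → dg (wb blk) m = δ ∧ ∀ c ∈ C, m c = 0) (m : Z ⊕ J →₀ ℕ)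
    (hm : coeff m (rename (Sum.inl : Z → Z ⊕ J) p) ≠ 0) : dg (wT J blk C e) m = (δ, 0) := by
  obtain ⟨m', rfl, hm'⟩ := coeff_rename_ne_zero _ _ _ hm
  obtain ⟨h1, h2⟩ := hp m' hm'
  rw [lvl_dg_map m' h2, h1]

theorem lvl_X {σ G : Type} [AddCommGroup G] (wt : σ → G) (v : σ) (m : σ →₀ ℕ)
    (hm : coeff m (X v : MvPolynomial σ k) ≠ 0) : dg wt m = wt v := by
  classical
  rw [coeff_X] at hm
  have h1 : Finsupp.single v 1 = m := by
    by_contra h
    rw [if_neg h] at hm
    exact hm rfl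
  rw [← h1]
  unfold dg
  rw [Finsupp.sum_single_index (h := fun v n => n • wt v) (zero_smul _ _), one_smul]

end aux

theorem lvl_neg {ι : Type} (e N : ℕ) {f : (ι → ℤ) × ℤ → ℤ} (hf : ∀ n t, t < 0 → f (n, t) = 0) :
    ∀ n t, t < 0 → act ((ι → ℤ) × ℤ) ((1 - el ((0 : ι → ℤ), (e : ℤ))) ^ N) f (n, t) = 0 := by
  induction N with
  | zero =>
    intro n t ht
    rw [pow_zero, map_one, Module.End.one_apply]
    exact hf n t ht
  | succ N ih =>
    intro n t ht
    rw [pow_succ', map_mul, Module.End.mul_apply, map_sub, map_one, LinearMap.sub_apply,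
      Module.End.one_apply, Pi.sub_apply, act_el, ih n t ht]
    have h1 : ((n, t) : (ι → ℤ) × ℤ) - (0, (e : ℤ)) = (n, t - e) := by
      rw [Prod.mk_sub_mk, sub_zero]
    rw [h1, ih n (t - e) (by omega), sub_zero]

theorem level_lemma : LevelLemma.{u} := by
  intro k _ Z ι J _ _ _ _ _ blk C e he G0 hG0 h hh hind f hf
  classical
  obtain ⟨f', hf', hneg, hsum⟩ := sl1 he G0 h hG0 hh hf
  set N := Fintype.card J with hN
  set θ : Fin N ≃ J := (Fintype.equivFin J).symm with hθ
  set J1 : Set (MvPolynomial (Z ⊕ J) k) := (rename Sum.inl '' G0) ∪ (trelT e h '' (C : Set Z))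
    with hJ1
  have hpos : Pos (wT J blk C e) := lvl_pos he
  -- (1) `Q` is in the group for `J1 + Y + C`
  set Q : (ι → ℤ) × ℤ → ℤ := act ((ι → ℤ) × ℤ) ((1 - el ((0 : ι → ℤ), (e : ℤ))) ^ N) f' with hQdef
  have hQ1 : Q ∈ Hil k (wT J blk C e) (J1 ∪ (fun j : J => (X (Sum.inr j) : MvPolynomial (Z ⊕ J) k))
      '' ((Finset.univ : Finset J) : Set J)) := by
    have h1 := Hil.dev_fam hpos (Finset.univ : Finset J)
      (fun j : J => (X (Sum.inr j) : MvPolynomial (Z ⊕ J) k))
      (fun _ => ((0 : ι → ℤ), (e : ℤ))) (fun j _ m hm => lvl_X _ _ _ hm) hf'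
    rw [Finset.prod_const, Finset.card_univ] at h1
    exact h1
  set J2 : Set (MvPolynomial (Z ⊕ J) k) := (J1 ∪ (fun j : J => (X (Sum.inr j) :
    MvPolynomial (Z ⊕ J) k)) '' ((Finset.univ : Finset J) : Set J)) with hJ2
  set J3 : Set (MvPolynomial (Z ⊕ J) k) :=
    J2 ∪ (fun c : Z => (X (Sum.inl c) : MvPolynomial (Z ⊕ J) k)) '' (C : Set Z) with hJ3
  have hQ2 : Q ∈ Hil k (wT J blk C e) J3 := by
    refine Hil.nil_fam hpos C (fun c : Z => (X (Sum.inl c) : MvPolynomial (Z ⊕ J) k))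
      (fun c => (wb blk c, 1)) (fun c hc m hm => ?_) e (fun c hc => ?_) hQ1
    · rw [lvl_X _ _ _ hm]
      show (wb blk c, if c ∈ C then (1 : ℤ) else 0) = _
      rw [if_pos hc]
    · have h1 : trelT e h c ∈ (Ideal.span J2 : Ideal (MvPolynomial (Z ⊕ J) k)) :=
        Ideal.subset_span (Or.inl (Or.inr ⟨c, hc, rfl⟩))
      have h2 : ∑ j, X (Sum.inr j) * rename Sum.inl (h c j) ∈
          (Ideal.span J2 : Ideal (MvPolynomial (Z ⊕ J) k)) :=
        Ideal.sum_mem _ fun j _ => Ideal.mul_mem_right _ _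
          (Ideal.subset_span (Or.inr ⟨j, Finset.mem_coe.2 (Finset.mem_univ j), rfl⟩))
      have h3 := Ideal.add_mem _ h1 h2
      rw [trelT, sub_add_cancel] at h3
      exact h3
  -- (2) the Koszul lemma for the modules killed by the variables of `C`
  set F : (ι → ℤ) × ℤ → ℤ := act ((ι → ℤ) × ℤ) (∏ c ∈ C, (1 - el ((wb blk c, (1 : ℤ)) : (ι → ℤ) × ℤ))) f' with hF
  set J4 : Set (MvPolynomial (Z ⊕ J) k) :=
    J1 ∪ (fun c : Z => (X (Sum.inl c) : MvPolynomial (Z ⊕ J) k)) '' (C : Set Z) with hJ4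
  have hF1 : F ∈ Hil k (wT J blk C e) J4 := by
    refine Hil.dev_fam hpos C (fun c : Z => (X (Sum.inl c) : MvPolynomial (Z ⊕ J) k))
      (fun c => (wb blk c, 1)) (fun c hc m hm => ?_) hf'
    rw [lvl_X _ _ _ hm]
    show (wb blk c, if c ∈ C then (1 : ℤ) else 0) = _
    rw [if_pos hc]
  set r := C.card with hr
  set cc : Fin r → Z := fun i => (C.equivFin.symm i : Z) with hcc
  have hccC : ∀ i, cc i ∈ C := fun i => (C.equivFin.symm i).2
  have hccI : Function.Injective cc := fun i j hij =>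
    C.equivFin.symm.injective (Subtype.ext hij)
  have hprod : ∀ φ : Z → AddMonoidAlgebra ℤ ((ι → ℤ) × ℤ), ∏ i, φ (cc i) = ∏ c ∈ C, φ c := by
    intro φ
    have h1 : ∏ i, φ (cc i) = ∏ x : C, φ (x : Z) :=
      Equiv.prod_comp C.equivFin.symm fun x : C => φ (x : Z)
    rw [h1]
    exact Finset.prod_coe_sort C φ
  obtain ⟨A, hA, hEv⟩ := koszul_gen hpos (tblk J blk) (fun v i => by
      rw [lvl_hblk v i]
      split_ifs <;> rfl)
    (δ := ((0 : ι → ℤ), (e : ℤ))) (α := fun i => ((Pi.single (blk (cc i)) (e : ℤ) : ι → ℤ), (0 : ℤ)))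
    (fun (i : Fin r) (m : Fin N) => rename (Sum.inl : Z → Z ⊕ J) (h (cc i) (θ m)))
    (fun c m mon hm => lvl_rename (hh (cc c) (hccC c) (θ m)) mon hm)
    (fun m : Fin N => (X (Sum.inr (θ m)) : MvPolynomial (Z ⊕ J) k))
    (fun m mon hm => lvl_X _ _ _ hm) J4
    (fun c => by
      have h1 : trelT e h (cc c) ∈ (Ideal.span J4 : Ideal (MvPolynomial (Z ⊕ J) k)) :=
        Ideal.subset_span (Or.inl (Or.inr ⟨cc c, hccC c, rfl⟩))
      have h2 : (X (Sum.inl (cc c)) : MvPolynomial (Z ⊕ J) k) ^ e ∈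
          (Ideal.span J4 : Ideal (MvPolynomial (Z ⊕ J) k)) :=
        Ideal.pow_mem_of_mem (Ideal.span J4) (Ideal.subset_span (Or.inr ⟨cc c, hccC c, rfl⟩)) e he
      have h3 := Ideal.sub_mem _ h2 h1
      rw [trelT, sub_sub_cancel] at h3
      have h4 : ∑ m : Fin N, (X (Sum.inr (θ m)) : MvPolynomial (Z ⊕ J) k) *
          rename (Sum.inl : Z → Z ⊕ J) (h (cc c) (θ m)) =
          ∑ j, X (Sum.inr j) * rename Sum.inl (h (cc c) j) :=
        Equiv.sum_comp θ fun j => (X (Sum.inr j) : MvPolynomial (Z ⊕ J) k) *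
          rename Sum.inl (h (cc c) j)
      rw [h4]
      exact h3)
    (fun j => lv_min (J0 := J4) hind hccI hccC θ.surjective
      (fun g hg => Or.inl (Or.inl ⟨g, hg, rfl⟩)) (fun c hc => Or.inr ⟨c, hc, rfl⟩) j) hF1
  -- (3) everything lives in `J3`
  have hA3 : A ∈ Hil k (wT J blk C e) J3 := by
    refine Hil.mono ?_ hA
    rintro x (hx | ⟨c, hc, rfl⟩)
    · rcases hx with hx | ⟨j, -, rfl⟩
      · exact Or.inl (Or.inl hx)
      · exact Or.inr ⟨θ.symm j, congrArg (fun j => (X (Sum.inr j) : MvPolynomial (Z ⊕ J) k))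
          (θ.apply_symm_apply j)⟩
    · exact Or.inl (Or.inr ⟨c, hc, rfl⟩)
  -- (4) bounds for the last degree
  have hsnd : ∀ v : Z ⊕ J, 0 ≤ (wT J blk C e v).2 := by
    rintro (z | j)
    · show 0 ≤ (if z ∈ C then (1 : ℤ) else 0)
      split_ifs <;> norm_num
    · show 0 ≤ (e : ℤ)
      exact_mod_cast Nat.zero_le e
  have hX3 : ∀ v : Z ⊕ J, (wT J blk C e v).2 ≠ 0 → (X v : MvPolynomial (Z ⊕ J) k) ∈ J3 := by
    rintro (z | j) hv
    · have h1 : z ∈ C := by
        by_contra h
        apply hv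
        show (if z ∈ C then (1 : ℤ) else 0) = 0
        rw [if_neg h]
      exact Or.inr ⟨z, h1, rfl⟩
    · exact Or.inl (Or.inr ⟨j, Finset.mem_coe.2 (Finset.mem_univ j), rfl⟩)
  obtain ⟨a0, ha0⟩ := lv_below hsnd hA3
  obtain ⟨a1, ha1⟩ := lv_above hX3 hA3
  obtain ⟨q1, hq1⟩ := lv_above hX3 hQ2
  obtain ⟨q0, hq0⟩ := lv_below hsnd hQ2
  set t0 := min (min a0 q0) 0 with ht0
  set t1 := max (max a1 q1) 0 with ht1
  have hQb : ∀ n t, t < t0 ∨ t1 < t → Q (n, t) = 0 := by
    rintro n t (ht | ht)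
    · exact hq0 n t (lt_of_lt_of_le ht ((min_le_left _ _).trans (min_le_right _ _)))
    · exact hq1 n t (lt_of_le_of_lt ((le_max_right _ _).trans (le_max_left _ _)) ht)
  have hAb : ∀ n t, t < t0 ∨ t1 < t → A (n, t) = 0 := by
    rintro n t (ht | ht)
    · exact ha0 n t (lt_of_lt_of_le ht ((min_le_left _ _).trans (min_le_left _ _)))
    · exact ha1 n t (lt_of_le_of_lt ((le_max_left _ _).trans (le_max_left _ _)) ht)
  -- (5) numbers
  have hEv2 : EvEq2 (act ((ι → ℤ) × ℤ) (∏ c ∈ C, (1 - el ((wb blk c, (1 : ℤ)) : (ι → ℤ) × ℤ))) Q)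
      (act ((ι → ℤ) × ℤ) (∏ c ∈ C, (1 - el ((e • wb blk c, (e : ℤ)) : (ι → ℤ) × ℤ))) A) := by
    have h1 : act ((ι → ℤ) × ℤ) (∏ c ∈ C, (1 - el ((wb blk c, (1 : ℤ)) : (ι → ℤ) × ℤ))) Q = act ((ι → ℤ) × ℤ) ((1 - el ((0 : ι → ℤ), (e : ℤ))) ^ N) F := by
      rw [hQdef, hF, ← Module.End.mul_apply, ← Module.End.mul_apply, ← map_mul, ← map_mul,
        mul_comm]
    have h2 : ∏ c ∈ C, (1 - el ((e • wb blk c, (e : ℤ)) : (ι → ℤ) × ℤ)) =
        ∏ i, (1 - el (((Pi.single (blk (cc i)) (e : ℤ) : ι → ℤ), (0 : ℤ)) +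
          ((0 : ι → ℤ), (e : ℤ)))) := by
      rw [← hprod fun c => (1 - el ((e • wb blk c, (e : ℤ)) : (ι → ℤ) × ℤ))]
      refine Finset.prod_congr rfl fun i _ => ?_
      have h3 : e • wb blk (cc i) = (Pi.single (blk (cc i)) (e : ℤ) : ι → ℤ) := by
        rw [wb, ← Pi.single_smul, nsmul_eq_mul, mul_one]
      rw [h3, Prod.mk_add_mk, add_zero, zero_add]
    rw [h1, h2]
    exact hEv
  have hnum := lv_num C (wb blk) e hQb hAb hEv2
  refine ⟨fun n => ∑ t ∈ Finset.Icc t0 t1, A (n, t), ?_, ?_⟩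
  · have h1 : (fun n => ∑ t ∈ Finset.Icc t0 t1, A (n, t)) =
        ∑ t ∈ Finset.Icc t0 t1, fun n => A (n, t) := by
      funext n
      rw [Finset.sum_apply]
    rw [h1]
    refine AddSubgroup.sum_mem _ fun t _ => ?_
    exact lv_coeff he (fun j => Or.inl (Or.inr ⟨j, Finset.mem_coe.2 (Finset.mem_univ j), rfl⟩))
      (fun c hc => Or.inr ⟨c, hc, rfl⟩) (fun g hg => Or.inl (Or.inl (Or.inl ⟨g, hg, rfl⟩))) hA3 t
  · have h1 : f = fun n => ∑ t ∈ Finset.Icc t0 t1, Q (n, t) := by
      funext n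
      have h2 := hsum n t1 fun t ht => hQb n t (Or.inr ht)
      rw [h2]
      have h3 : Finset.Icc 0 t1 ⊆ Finset.Icc t0 t1 :=
        Finset.Icc_subset_Icc (min_le_right _ _) le_rfl
      refine Finset.sum_subset h3 fun t ht ht' => ?_
      rw [Finset.mem_Icc] at ht ht'
      have ht2 : t < 0 := by
        by_contra h
        exact ht' ⟨not_lt.1 h, ht.2⟩
      exact lvl_neg e N hneg n t ht2
    rw [h1]
    have h4 : ∀ c, (Pi.single (blk c) 1 : ι → ℤ) = wb blk c := fun c => rfl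
    exact hnum

end Vale.Agent.P200F.V

end
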