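import Vale.Agent.P200F.Ns
import Vale.Agent.P200F.B.Tor
import Vale.Agent.P200F.L6
import Vale.Agent.P200F.Z1

set_option linter.all false

section

namespace Vale.Agent.P200F.V

open MvPolynomial Module
open Vale.Agent.P200F.B Vale.Agent.P200F.G Vale.Agent.P200F.L Vale.Agent.P200F.M

universe u

/-- **The conjecture of Eisenbud, Green and Harris.** -/
theorem egh (K : Type u) [Field K] {n c : ℕ} (h : c ≤ n) (a : Fin c → ℕ)
    (ha : Monotone a) (h2 : ∀ i, 2 ≤ a i) (f : Fin c → MvPolynomial (Fin n) K)
    (hf : ∀ i, (f i).IsHomogeneous (a i)) (hreg : IsRegularSeq f)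
    (I : Ideal (MvPolynomial (Fin n) K)) (hI : ∀ g ∈ I, ∀ d, homogeneousComponent d g ∈ I)
    (hfI : ∀ i, f i ∈ I) :
    ∃ J : Ideal (MvPolynomial (Fin n) K), J.restrictScalars K = lexPlusPowers h a I :=
  egh_of_level level_lemma K h a ha h2 f hf hreg I hI hfI

end Vale.Agent.P200F.V

end

section

namespace Vale.Agent.P200F.Y

open MvPolynomial Module
open Vale.Agent.P200F.B Vale.Agent.P200F.G Vale.Agent.P200F.L Vale.Agent.P200F.M Vale.Agent.P200F.V
open Vale.Agent.P200F.W

variable {n : ℕ}

theorem PwSet.finite {a : Fin n → ℕ} {D : ℕ} {M : Set (Fin n →₀ ℕ)} (hM : PwSet n a D M) :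
    M.Finite :=
  (finite_degree_eq D).subset fun m hm => hM.1 m hm

theorem PwSet.inside {a : Fin n → ℕ} {D : ℕ} {M : Set (Fin n →₀ ℕ)} (hM : PwSet n a D M) :
    insideP (le_refl n) a D ⊆ M := fun m hm => hM.2 m hm.2 hm.1

theorem pwLex_pwSet (n : ℕ) (a : Fin n → ℕ) (D v : ℕ) : PwSet n a D (pwLex n a D v) :=
  ⟨fun _ hm => mem_lexSet_degree _ _ hm, fun _ hD h2 => Or.inl ⟨h2, hD⟩⟩

theorem ncard_pwLex {a : Fin n → ℕ} {D : ℕ} {M : Set (Fin n →₀ ℕ)} (hM : PwSet n a D M) :
    (pwLex n a D M.ncard).ncard = M.ncard := by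
  have hin : (insideP (le_refl n) a D).Finite :=
    (finite_degree_eq D).subset fun _ hm => hm.2
  have hout : (outside (le_refl n) a D).Finite :=
    (finite_degree_eq D).subset fun _ hm => hm.2
  have h1 := Set.ncard_le_ncard hM.inside hM.finite
  have h2 : M ⊆ insideP (le_refl n) a D ∪
      outside (le_refl n) a D := by
    intro m hm
    by_cases h : ∃ i, a i ≤ m i
    · exact Or.inl ⟨h, hM.1 m hm⟩
    · push Not at h
      exact Or.inr ⟨h, hM.1 m hm⟩
  have h3 := Set.ncard_le_ncard h2 (hin.union hout)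
  have h4 := Set.ncard_union_le (insideP (le_refl n) a D)
    (outside (le_refl n) a D)
  rw [pwLex, ncard_lexSet]
  omega

theorem PwSet.layS {a : Fin (n + 1) → ℕ} {D i : ℕ} {M : Set (Fin (n + 1) →₀ ℕ)}
    (hM : PwSet (n + 1) a (D + i) M) : PwSet n (fun i => a i.castSucc) D (layS M i) := by
  refine ⟨fun m hm => ?_, fun m hD h2 => ?_⟩
  · have h1 := hM.1 _ hm
    rw [lex_sum_sn] at h1
    omega
  · refine hM.2 _ ?_ ?_
    · rw [lex_sum_sn, hD]
    · obtain ⟨k, hk⟩ := h2
      refine ⟨k.castSucc, ?_⟩
      rwa [sn_castSucc]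

/-- all higher layers are full -/
theorem PwSet.layS_full {a : Fin (n + 1) → ℕ} {D i : ℕ} {M : Set (Fin (n + 1) →₀ ℕ)}
    (hM : PwSet (n + 1) a D M) (hi : a (Fin.last n) ≤ i) :
    Vale.Agent.P200F.M.layS M i = {m | ∑ k, m k + i = D} := by
  ext m
  constructor
  · intro hm
    have h1 := hM.1 _ hm
    rwa [lex_sum_sn] at h1
  · intro hm
    refine hM.2 _ ?_ ⟨Fin.last n, ?_⟩
    · rw [lex_sum_sn]
      exact hm
    · rwa [sn_last]

theorem y1_ncard_ge {M : Set (Fin (n + 1) →₀ ℕ)} (hM : M.Finite) (N : ℕ) :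
    M.ncard = ∑ i ∈ Finset.range N, (Vale.Agent.P200F.M.layS M i).ncard +
      {m : Fin (n + 1) →₀ ℕ | m ∈ M ∧ N ≤ m (Fin.last n)}.ncard := by
  induction N with
  | zero =>
    rw [Finset.sum_range_zero, zero_add]
    congr 1
    ext m
    exact ⟨fun hm => ⟨hm, Nat.zero_le _⟩, fun hm => hm.1⟩
  | succ N ih =>
    have hinj : Function.Injective fun m : Fin n →₀ ℕ => sn m N :=
      fun m m' h => (sn_injective h).1
    have h0 : {m : Fin (n + 1) →₀ ℕ | m ∈ M ∧ N ≤ m (Fin.last n)} =
        (fun m : Fin n →₀ ℕ => sn m N) '' Vale.Agent.P200F.M.layS M N ∪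
          {m : Fin (n + 1) →₀ ℕ | m ∈ M ∧ N + 1 ≤ m (Fin.last n)} := by
      ext x
      constructor
      · rintro ⟨hx, hN⟩
        obtain ⟨m, i, rfl⟩ := exists_sn x
        rw [sn_last] at hN
        rcases Nat.eq_or_lt_of_le hN with rfl | hN
        · exact Or.inl ⟨m, hx, rfl⟩
        · exact Or.inr ⟨hx, by rw [sn_last]; exact hN⟩
      · rintro (⟨m, hm, rfl⟩ | ⟨h1, h2⟩)
        · exact ⟨hm, by rw [sn_last]⟩
        · exact ⟨h1, by omega⟩
    have hf1 : ((fun m : Fin n →₀ ℕ => sn m N) '' Vale.Agent.P200F.M.layS M N).Finite := by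
      refine hM.subset ?_
      rintro _ ⟨m, hm, rfl⟩
      exact hm
    have hf2 : {m : Fin (n + 1) →₀ ℕ | m ∈ M ∧ N + 1 ≤ m (Fin.last n)}.Finite :=
      hM.subset fun m hm => hm.1
    rw [ih, h0, Set.ncard_union_eq _ hf1 hf2, Set.ncard_image_of_injective _ hinj,
      Finset.sum_range_succ, add_assoc]
    rw [Set.disjoint_left]
    rintro _ ⟨m, -, rfl⟩ ⟨-, h⟩
    rw [sn_last] at h
    omega

/-- counting by layers: `M` is the disjoint union of the images of the layers `i < a (last)` under
`m ↦ sn m i` and of the part with last exponent at least `a (last)` (which is full). -/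
theorem PwSet.ncard_layS {a : Fin (n + 1) → ℕ} {D : ℕ} {M : Set (Fin (n + 1) →₀ ℕ)}
    (hM : PwSet (n + 1) a D M) :
    M.ncard = ∑ i ∈ Finset.range (a (Fin.last n)), (Vale.Agent.P200F.M.layS M i).ncard +
      {m : Fin (n + 1) →₀ ℕ | ∑ k, m k = D ∧ a (Fin.last n) ≤ m (Fin.last n)}.ncard := by
  rw [y1_ncard_ge hM.finite (a (Fin.last n))]
  congr 2
  ext m
  exact ⟨fun hm => ⟨hM.1 m hm.1, hm.2⟩, fun hm => ⟨hM.2 m hm.1 ⟨_, hm.2⟩, hm.2⟩⟩

/-- Clements-Lindström for two stable layers (as `sq_closure`: use `lexSet_closure` over `ℚ` with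
`f i = X i ^ a i` and the forms `egh_case` with `T = ∅`) -/
theorem pw_closure {a : Fin n → ℕ} (ha : Monotone a) (h2 : ∀ i, 2 ≤ a i) {D : ℕ}
    {M0 M1 : Set (Fin n →₀ ℕ)} (h0 : PwSet n a (D + 1) M0)
    (h1 : PwSet n a D M1) (hst : ∀ m ∈ M1, ∀ j, m + Finsupp.single j 1 ∈ M0)
    (m : Fin n →₀ ℕ) (hm : m ∈ pwLex n a D M1.ncard) (j : Fin n) :
    m + Finsupp.single j 1 ∈ pwLex n a (D + 1) M0.ncard := by
  classical
  have hpos : ∀ i, 1 ≤ a i := fun i => (Nat.le_succ 1).trans (h2 i)
  set f : Fin n → MvPolynomial (Fin n) ℚ := fun i => X i ^ a i with hf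
  have hfh : ∀ i, (f i).IsHomogeneous (a i) := fun i => by
    have h2 := (isHomogeneous_X ℚ i).pow (a i)
    rwa [one_mul] at h2
  have hmp : IsMPrimary (Ideal.span (Set.range f)) := by
    rw [isMPrimary_iff_radical]
    intro i
    exact ⟨a i, Ideal.subset_span ⟨i, rfl⟩⟩
  have hreg : IsRegularSeq f := isRegSeq_of_isMPrimary a hpos f hfh hmp
  have hE : EGHfor (le_refl n) a f := fun I hI hfI =>
    Vale.Agent.P200F.V.egh ℚ (le_refl n) a ha h2 f hfh hreg I hI hfI
  have hP : powerIdeal ℚ (le_refl n) a = Ideal.span (Set.range f) := rfl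
  have hpiece : ∀ D, piece (Ideal.span (Set.range f)) D =
      restrictSupport ℚ (insideP (le_refl n) a D) := by
    intro D
    rw [← hP]
    exact degPart_powerIdeal _ _ D
  have hle : ∀ {D : ℕ} {M : Set (Fin n →₀ ℕ)}, PwSet n a D M →
      restrictSupport ℚ M ≤ homogeneousSubmodule (Fin n) ℚ D := by
    intro D M hM
    rw [homogeneousSubmodule_eq_restrict]
    exact restrictSupport_mono _ fun m hm => hM.1 m hm
  have key := lexSet_closure (le_refl n) a hpos f hfh hreg hE D
    (restrictSupport ℚ M1) (restrictSupport ℚ M0)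
    (by rw [hpiece]; exact restrictSupport_mono _ h1.inside) (hle h1)
    (by rw [hpiece]; exact restrictSupport_mono _ h0.inside) (hle h0)
    (by
      intro j b hb
      rw [mem_restrictSupport_iff] at hb ⊢
      intro x hx
      rw [mul_comm, support_mul_X] at hx
      obtain ⟨y, hy, rfl⟩ := Finset.mem_map.1 hx
      exact hst y (hb hy) j) m
  rw [finrank_restrictSupport _ h1.finite, finrank_restrictSupport _ h0.finite] at key
  exact key hm j

/-- the lex set is stable with respect to the last variable (as `sqLex_stable`) -/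
theorem pwLex_stab {a : Fin (n + 1) → ℕ} {D v : ℕ} :
    Stab (a (Fin.last n)) (pwLex (n + 1) a D v) := by
  intro i hi m hm j
  have h1 : sn m (i + 1) ∈ pwLex (n + 1) a D v := hm
  have hdeg : ∑ k, sn (m + Finsupp.single j 1) i k = D := by
    have h2 := mem_lexSet_degree _ _ h1
    rw [lex_sum_sn] at h2 ⊢
    rw [sum_add_single]
    omega
  by_cases hin : ∃ l, a l ≤ sn (m + Finsupp.single j 1) i l
  · exact Or.inl ⟨hin, hdeg⟩
  · push Not at hin
    have ho : sn m (i + 1) ∈ outside (le_refl (n + 1)) a D := by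
      refine ⟨fun l => ?_, mem_lexSet_degree _ _ h1⟩
      change sn m (i + 1) l < a l
      induction l using Fin.lastCases with
      | last => rw [sn_last]; exact hi
      | cast l =>
        have h3 := hin l.castSucc
        rw [sn_castSucc, Finsupp.add_apply] at h3
        rw [sn_castSucc]
        omega
    refine lexSet_up (le_refl (n + 1)) _ ⟨fun l => hin l, hdeg⟩ ⟨j.castSucc, ?_, fun k hk => ?_⟩
      h1 ho
    · rw [sn_castSucc, sn_castSucc, add_single_same]
      omega
    · induction k using Fin.lastCases with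
      | last => exact absurd hk (not_lt.mpr (Fin.le_last _))
      | cast k =>
        rw [Fin.castSucc_lt_castSucc_iff] at hk
        rw [sn_castSucc, sn_castSucc, add_single_ne m hk.ne]

end Vale.Agent.P200F.Y

end

section

namespace Vale.Agent.P200F.Y

open MvPolynomial Module
open Vale.Agent.P200F.B Vale.Agent.P200F.G Vale.Agent.P200F.L Vale.Agent.P200F.M Vale.Agent.P200F.V
open Vale.Agent.P200F.W

variable {n : ℕ}

/-- the layers as sets containing the powers -/
theorem y2_layS {a : Fin (n + 1) → ℕ} {D t : ℕ} {M : Set (Fin (n + 1) →₀ ℕ)}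
    (hM : PwSet (n + 1) a D M) (ht : t ≤ D) :
    PwSet n (fun i => a i.castSucc) (D - t) (layS M t) := by
  have h : D = D - t + t := by omega
  rw [h] at hM
  exact hM.layS

/-- **The lexicographic set has the smallest layer `0`.**  As `sq_layer_zero`: otherwise there is
`m` in the layer `0` of the lex set `L` with `m ∉ L_0 := pwLex n a' D |M_0|`; the competing set
`N = ⋃_{i < a last} L_i z^i ∪ (full part)`, `L_i = pwLex n a' (D - i) |M_i|`, has as many elements as
`M`, and `N ⊆ L \ {sn m 0}` by `lex_fill` with `q i = |M_i| - |insideP (D - i)|` for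
`i < a last`, `q i = 0` otherwise (closure of the `L_i` by `pw_closure`, for `i ≥ a last` the set
`lexSet .. 0 = insideP` is closed upwards). -/
theorem pw_layer_zero {a : Fin (n + 1) → ℕ} (ha : Monotone a) (h2 : ∀ i, 2 ≤ a i) {D : ℕ}
    {M : Set (Fin (n + 1) →₀ ℕ)} (hM : PwSet (n + 1) a D M) (hst : Stab (a (Fin.last n)) M) :
    layS (pwLex (n + 1) a D M.ncard) 0 ⊆
      pwLex n (fun i => a i.castSucc) D (layS M 0).ncard := by
  classical
  intro m hm
  by_contra hcon
  have ha' : Monotone (fun i : Fin n => a i.castSucc) := fun i j hij =>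
    ha (Fin.castSucc_le_castSucc_iff.2 hij)
  have h2' : ∀ i : Fin n, 2 ≤ (fun i : Fin n => a i.castSucc) i := fun i => h2 _
  have hA := h2 (Fin.last n)
  have hu : sn m 0 ∈ pwLex (n + 1) a D M.ncard := hm
  have hmD : ∑ k, m k = D := by
    have h1 := mem_lexSet_degree _ _ hu
    rw [lex_sum_sn, add_zero] at h1
    exact h1
  have hmo : m ∈ outside (le_refl n) (fun i : Fin n => a i.castSucc) D := by
    refine ⟨fun l => ?_, hmD⟩
    by_contra hl
    exact hcon (Or.inl ⟨⟨l, not_lt.mp hl⟩, hmD⟩)
  have huo : sn m 0 ∈ outside (le_refl (n + 1)) a D := by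
    refine ⟨fun l => ?_, ?_⟩
    · change sn m 0 l < a l
      induction l using Fin.lastCases with
      | last => rw [sn_last]; omega
      | cast l =>
        rw [sn_castSucc]
        exact hmo.1 l
    · rw [lex_sum_sn, hmD, add_zero]
  -- the competing set
  set N : Set (Fin (n + 1) →₀ ℕ) := {x | ∃ (y : Fin n →₀ ℕ) (i : ℕ), x = sn y i ∧
    ∑ k, y k + i = D ∧ (i < a (Fin.last n) →
      y ∈ pwLex n (fun i => a i.castSucc) (D - i) (layS M i).ncard)} with hN
  have hNsq : PwSet (n + 1) a D N := by
    refine ⟨?_, fun x hx h2 => ?_⟩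
    · rintro _ ⟨y, i, rfl, h1, -⟩
      rw [lex_sum_sn]
      exact h1
    · obtain ⟨y, i, rfl⟩ := exists_sn x
      rw [lex_sum_sn] at hx
      refine ⟨y, i, rfl, hx, fun hi => ?_⟩
      obtain ⟨l, hl⟩ := h2
      induction l using Fin.lastCases with
      | last =>
        rw [sn_last] at hl
        omega
      | cast l =>
        rw [sn_castSucc] at hl
        exact (pwLex_pwSet _ _ _ _).2 y (by omega) ⟨l, hl⟩
  have hlay : ∀ (y : Fin n →₀ ℕ) (i : ℕ), sn y i ∈ N ↔
      ∑ k, y k + i = D ∧ (i < a (Fin.last n) →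
      y ∈ pwLex n (fun i => a i.castSucc) (D - i) (layS M i).ncard) := by
    intro y i
    constructor
    · rintro ⟨y', i', h1, h2⟩
      obtain ⟨rfl, rfl⟩ := sn_injective h1
      exact h2
    · intro h
      exact ⟨y, i, rfl, h⟩
  have hNi : ∀ i, i < a (Fin.last n) → (layS N i).ncard = (layS M i).ncard := by
    intro i hi
    by_cases hiD : i ≤ D
    · have hL : layS N i = pwLex n (fun i => a i.castSucc) (D - i) (layS M i).ncard := by
        ext y
        change sn y i ∈ N ↔ _
        rw [hlay]
        constructor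
        · rintro ⟨-, h⟩
          exact h hi
        · intro h
          have h5 := (pwLex_pwSet _ _ _ _).1 y h
          exact ⟨by omega, fun _ => h⟩
      rw [hL]
      exact ncard_pwLex (y2_layS hM hiD)
    · have hemp : ∀ S : Set (Fin (n + 1) →₀ ℕ), PwSet (n + 1) a D S → layS S i = ∅ := by
        intro S hS
        ext y
        refine ⟨fun hy => ?_, fun hy => absurd hy (Set.notMem_empty y)⟩
        have h5 := hS.1 _ hy
        rw [lex_sum_sn] at h5
        exfalso
        omega
      rw [hemp N hNsq, hemp M hM]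
  have hcard : N.ncard = M.ncard := by
    rw [hNsq.ncard_layS, hM.ncard_layS]
    congr 1
    exact Finset.sum_congr rfl fun i hi => hNi i (Finset.mem_range.1 hi)
  -- the closure property
  set q : ℕ → ℕ := fun t => if t < a (Fin.last n) then (layS M t).ncard -
      (insideP (le_refl n) (fun i : Fin n => a i.castSucc) (D - t)).ncard else 0 with hq
  have hqL : ∀ t, t < a (Fin.last n) →
      lexSet (le_refl n) (fun i : Fin n => a i.castSucc) (D - t) (q t) =
        pwLex n (fun i => a i.castSucc) (D - t) (layS M t).ncard := by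
    intro t ht
    have hqt : q t = (layS M t).ncard -
        (insideP (le_refl n) (fun i : Fin n => a i.castSucc) (D - t)).ncard := by
      rw [hq]
      exact if_pos ht
    rw [hqt]
    rfl
  have hcl : ∀ t < D, ∀ x ∈ lexSet (le_refl n) (fun i : Fin n => a i.castSucc) (D - (t + 1))
      (q (t + 1)), ∀ j : Fin n, x + Finsupp.single j 1 ∈
        lexSet (le_refl n) (fun i : Fin n => a i.castSucc) (D - t) (q t) := by
    intro t ht x hx j
    by_cases ht1 : t + 1 < a (Fin.last n)
    · rw [hqL _ ht1] at hx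
      rw [hqL t (by omega)]
      have hDt : D - t = D - (t + 1) + 1 := by omega
      have h0 : PwSet n (fun i => a i.castSucc) (D - t) (layS M t) := y2_layS hM ht.le
      rw [hDt] at h0 ⊢
      exact pw_closure ha' h2' h0 (y2_layS hM ht) (hst t ht1) x hx j
    · have hq2 : q (t + 1) = 0 := by
        rw [hq]
        exact if_neg ht1
      rw [hq2] at hx
      rcases hx with hx | hx
      · obtain ⟨⟨l, hl⟩, hx2⟩ := hx
        refine Or.inl ⟨⟨l, ?_⟩, ?_⟩
        · rw [Finsupp.add_apply]
          omega
        · rw [sum_add_single, hx2]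
          omega
      · exact absurd hx.2 (Nat.not_lt_zero _)
  -- it is contained in the lexicographic set without `sn m 0`
  have hsub : N ⊆ pwLex (n + 1) a D M.ncard \ {sn m 0} := by
    rintro _ ⟨y, i, rfl, h1, h2⟩
    have hdeg : ∑ k, sn y i k = D := by
      rw [lex_sum_sn]
      exact h1
    have hne : sn y i ≠ sn m 0 := by
      intro H
      obtain ⟨rfl, rfl⟩ := sn_injective H
      exact hcon (h2 (by omega))
    refine ⟨?_, hne⟩
    by_cases hin : ∃ l, a l ≤ sn y i l
    · exact Or.inl ⟨hin, hdeg⟩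
    · push Not at hin
      have ho : sn y i ∈ outside (le_refl (n + 1)) a D := ⟨fun l => hin l, hdeg⟩
      rcases lexGT_total hne with h3 | h3
      · exact lexSet_up _ _ ho h3 hu huo
      · exfalso
        apply hcon
        obtain ⟨k, hk, hk'⟩ := h3
        have hi1 : i < a (Fin.last n) := by
          have := hin (Fin.last n)
          rwa [sn_last] at this
        have hyo : y ∈ outside (le_refl n) (fun i : Fin n => a i.castSucc) (D - i) := by
          refine ⟨fun l => ?_, by omega⟩
          have := hin l.castSucc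
          rwa [sn_castSucc] at this
        have hgt : lexGT m y := by
          induction k using Fin.lastCases with
          | last =>
            rw [sn_last, sn_last] at hk
            omega
          | cast k =>
            rw [sn_castSucc, sn_castSucc] at hk
            refine ⟨k, hk, fun j hj => ?_⟩
            have h5 := hk' j.castSucc (Fin.castSucc_lt_castSucc_iff.2 hj)
            rw [sn_castSucc, sn_castSucc] at h5
            exact h5
        have h6 := lex_fill (le_refl n) (fun i : Fin n => a i.castSucc) D q hcl m hmo i (by omega)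
          y (by rw [hqL i hi1]; exact h2 hi1) hyo hgt
        have h7 := hqL 0 (by omega)
        rw [Nat.sub_zero] at h7
        rw [h7] at h6
        exact h6
  have hfin := (pwLex_pwSet (n + 1) a D M.ncard).finite
  have h1 := Set.ncard_le_ncard hsub (hfin.subset Set.sdiff_subset)
  have h2 := Set.ncard_sdiff_singleton_lt_of_mem hu hfin
  rw [ncard_pwLex hM] at h2
  omega

end Vale.Agent.P200F.Y

end

section

namespace Vale.Agent.P200F.Y

open MvPolynomial Module
open Vale.Agent.P200F.B Vale.Agent.P200F.G Vale.Agent.P200F.L Vale.Agent.P200F.M Vale.Agent.P200F.V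
open Vale.Agent.P200F.W

variable {n : ℕ}

/-- a set of the form `⋃_{i ≤ N} L_i z^i ∪ (full part)` contains the powers -/
theorem y3_compete {a : Fin (n + 1) → ℕ} {D N : ℕ} (hN : a (Fin.last n) = N + 1)
    (v : ℕ → ℕ) : PwSet (n + 1) a D {x | ∃ (y : Fin n →₀ ℕ) (i : ℕ), x = sn y i ∧
      ∑ k, y k + i = D ∧ (N + 1 ≤ i ∨ (i ≤ N ∧ y ∈ pwLex n (fun i => a i.castSucc) (D - i) (v i)))} := by
  refine ⟨?_, fun x hx h2 => ?_⟩
  · rintro _ ⟨y, i, rfl, h1, -⟩
    rw [lex_sum_sn]
    exact h1
  · obtain ⟨y, i, rfl⟩ := exists_sn x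
    rw [lex_sum_sn] at hx
    refine ⟨y, i, rfl, hx, ?_⟩
    by_cases hi : N + 1 ≤ i
    · exact Or.inl hi
    · obtain ⟨l, hl⟩ := h2
      induction l using Fin.lastCases with
      | last =>
        rw [sn_last, hN] at hl
        exact Or.inl hl
      | cast l =>
        rw [sn_castSucc] at hl
        exact Or.inr ⟨by omega, (pwLex_pwSet n _ (D - i) (v i)).2 y (by omega) ⟨l, hl⟩⟩

/-- **... and the largest layer `N` with `N + 1 = a (last)`**.  Otherwise there is
`m ∈ L_N := pwLex n a' e |M_N|` with `sn m N ∉ L` (the lex set), `m` outside `P`.  Then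
`L ⊆ (competing set N of pw_layer_zero) \ {sn m N}`: for `sn y i ∈ L`, `i ≤ N`, `y` outside `P`
(inside is clear): `sn y i` is lex greater than `sn m N` (`lexSet_up`), hence (`i ≤ N`; equality
only for `y = m`, `i = N`, excluded) `y` is lex greater than `m`, or `y = m` and `i > N` (excluded); so
`y ∈ L_i` by `lex_fill` applied with `D := e + N - i`, `q t := |M_(i+t)| - ..` (zero for
`i + t > N`) and the index `N - i`.  The cardinalities contradict each other. -/
theorem pw_layer_last {a : Fin (n + 1) → ℕ} (ha : Monotone a) (h2 : ∀ i, 2 ≤ a i) {e N : ℕ}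
    (hN : a (Fin.last n) = N + 1) {M : Set (Fin (n + 1) →₀ ℕ)}
    (hM : PwSet (n + 1) a (e + N) M) (hst : Stab (a (Fin.last n)) M) :
    pwLex n (fun i => a i.castSucc) e (layS M N).ncard ⊆
      layS (pwLex (n + 1) a (e + N) M.ncard) N := by
  classical
  obtain ⟨D, hD⟩ : ∃ D, D = e + N := ⟨_, rfl⟩
  rw [← hD] at hM ⊢
  obtain ⟨a', ha'⟩ : ∃ a' : Fin n → ℕ, a' = fun i => a i.castSucc := ⟨_, rfl⟩
  have ha1 : Monotone a' := by
    rw [ha']
    exact fun i j hij => ha (Fin.castSucc_le_castSucc_iff.2 hij)
  have h21 : ∀ i, 2 ≤ a' i := by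
    rw [ha']
    exact fun i => h2 _
  have hMi : ∀ i d, d + i = D → PwSet n a' d (layS M i) := by
    intro i d hi
    have h1 : PwSet (n + 1) a (d + i) M := by rwa [hi]
    rw [ha']
    exact h1.layS
  rw [← ha']
  intro m hm
  by_contra hcon
  have hcon' : sn m N ∉ pwLex (n + 1) a D M.ncard := hcon
  have hmD : ∑ k, m k = e := (pwLex_pwSet n a' e _).1 m hm
  have hmo : m ∈ outside (le_refl n) a' e := by
    refine ⟨fun l => ?_, hmD⟩
    by_contra hl
    refine hcon' ((pwLex_pwSet (n + 1) a D _).2 _ ?_ ⟨l.castSucc, ?_⟩)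
    · rw [lex_sum_sn, hmD, hD]
    · rw [sn_castSucc]
      rw [ha'] at hl
      exact not_lt.mp hl
  have hmo' : sn m N ∈ outside (le_refl (n + 1)) a D := by
    refine ⟨fun l => ?_, ?_⟩
    · change sn m N l < a l
      induction l using Fin.lastCases with
      | last => rw [sn_last]; omega
      | cast l =>
        rw [sn_castSucc]
        have h3 := hmo.1 l
        rw [ha'] at h3
        exact h3
    · rw [lex_sum_sn, hmD, hD]
  -- the competing set
  obtain ⟨S, hS⟩ : ∃ S : Set (Fin (n + 1) →₀ ℕ), S = {x | ∃ (y : Fin n →₀ ℕ) (i : ℕ),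
      x = sn y i ∧ ∑ k, y k + i = D ∧ (N + 1 ≤ i ∨
        (i ≤ N ∧ y ∈ pwLex n a' (D - i) (layS M i).ncard))} := ⟨_, rfl⟩
  have hSpw : PwSet (n + 1) a D S := by
    rw [hS, ha']
    exact y3_compete hN fun i => (layS M i).ncard
  have hSlay : ∀ i, i ≤ N → layS S i = pwLex n a' (D - i) (layS M i).ncard := by
    intro i hi
    ext y
    constructor
    · intro hy
      have hy' : sn y i ∈ S := hy
      rw [hS] at hy'
      obtain ⟨y', i', h1, -, h3⟩ := hy'
      obtain ⟨rfl, rfl⟩ := sn_injective h1
      rcases h3 with h3 | h3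
      · omega
      · exact h3.2
    · intro hy
      have h1 := (pwLex_pwSet n a' (D - i) _).1 y hy
      change sn y i ∈ S
      rw [hS]
      exact ⟨y, i, rfl, by omega, Or.inr ⟨hi, hy⟩⟩
  have hcard : S.ncard = M.ncard := by
    rw [hSpw.ncard_layS, hM.ncard_layS, hN]
    congr 1
    refine Finset.sum_congr rfl fun i hi => ?_
    have hi' : i ≤ N := by
      have := Finset.mem_range.1 hi
      omega
    rw [hSlay i hi', ncard_pwLex (hMi i (D - i) (by omega))]
  have hmS : sn m N ∈ S := by
    rw [hS]
    refine ⟨m, N, rfl, by omega, Or.inr ⟨le_rfl, ?_⟩⟩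
    have h3 : D - N = e := by omega
    rw [h3]
    exact hm
  -- the lexicographic set is contained in it, without `sn m N`
  have hsub : pwLex (n + 1) a D M.ncard ⊆ S \ {sn m N} := by
    intro x hx
    obtain ⟨y, i, rfl⟩ := exists_sn x
    have hdeg : ∑ k, y k + i = D := by
      rw [← lex_sum_sn]
      exact (pwLex_pwSet (n + 1) a D _).1 _ hx
    have hne : sn y i ≠ sn m N := by
      intro H
      rw [H] at hx
      exact hcon' hx
    refine ⟨?_, hne⟩
    rw [hS]
    refine ⟨y, i, rfl, hdeg, ?_⟩
    by_cases hi : N + 1 ≤ i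
    · exact Or.inl hi
    have hiN : i ≤ N := by omega
    refine Or.inr ⟨hiN, ?_⟩
    by_cases hin : ∃ l, a' l ≤ y l
    · exact (pwLex_pwSet n a' (D - i) _).2 y (by omega) hin
    push Not at hin
    have hyo : y ∈ outside (le_refl n) a' (D - i) := ⟨fun l => hin l, by omega⟩
    have hyo' : sn y i ∈ outside (le_refl (n + 1)) a D := by
      refine ⟨fun l => ?_, by rw [lex_sum_sn, hdeg]⟩
      change sn y i l < a l
      induction l using Fin.lastCases with
      | last => rw [sn_last]; omega
      | cast l =>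
        rw [sn_castSucc]
        have h3 := hin l
        rw [ha'] at h3
        exact h3
    rcases lexGT_total hne with h3 | h3
    · obtain ⟨k, hk, hk'⟩ := h3
      have hgt : lexGT y m := by
        induction k using Fin.lastCases with
        | last =>
          rw [sn_last, sn_last] at hk
          omega
        | cast k =>
          rw [sn_castSucc, sn_castSucc] at hk
          refine ⟨k, hk, fun j hj => ?_⟩
          have h5 := hk' j.castSucc (Fin.castSucc_lt_castSucc_iff.2 hj)
          rw [sn_castSucc, sn_castSucc] at h5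
          exact h5
      obtain ⟨q, hq⟩ : ∃ q : ℕ → ℕ, q = fun t => if i + t ≤ N then (layS M (i + t)).ncard -
          (insideP (le_refl n) a' (D - i - t)).ncard else 0 := ⟨_, rfl⟩
      have hqlex : ∀ t, i + t ≤ N → lexSet (le_refl n) a' (D - i - t) (q t) =
          pwLex n a' (D - i - t) (layS M (i + t)).ncard := by
        intro t ht
        rw [hq, pwLex]
        simp only
        rw [if_pos ht]
      have hfill := lex_fill (le_refl n) a' (D - i) q ?_ y hyo (N - i) (by omega) m ?_ ?_ hgt
      · have h4 := hqlex 0 (by omega)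
        rw [Nat.sub_zero, Nat.add_zero] at h4
        rw [h4] at hfill
        exact hfill
      · intro t ht x hx j
        by_cases htN : i + (t + 1) ≤ N
        · rw [hqlex (t + 1) htN] at hx
          rw [hqlex t (by omega)]
          have h6 := hMi (i + t) (D - i - (t + 1) + 1) (by omega)
          have h7 := hMi (i + (t + 1)) (D - i - (t + 1)) (by omega)
          have h8 := pw_closure ha1 h21 h6 h7 (fun z hz l => hst (i + t) (by omega) z hz l) x hx j
          have h9 : D - i - (t + 1) + 1 = D - i - t := by omega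
          rw [h9] at h8
          exact h8
        · have hq2 : q (t + 1) = 0 := by
            rw [hq]
            simp only
            rw [if_neg htN]
          rw [hq2] at hx
          rcases hx with hx | hx
          · obtain ⟨⟨l, hl⟩, hx2⟩ := hx
            refine Or.inl ⟨⟨l, ?_⟩, ?_⟩
            · rw [Finsupp.add_apply]
              omega
            · rw [sum_add_single, hx2]
              omega
          · exact absurd hx.2 (Nat.not_lt_zero _)
      · rw [hqlex (N - i) (by omega)]
        have h4 : i + (N - i) = N := by omega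
        have h5 : D - i - (N - i) = e := by omega
        rw [h4, h5]
        exact hm
      · have h5 : D - i - (N - i) = e := by omega
        rw [h5]
        exact hmo
    · exact absurd (lexSet_up _ _ hmo' h3 hx hyo') hcon'
  have h5 := Set.ncard_le_ncard hsub (hSpw.finite.subset Set.sdiff_subset)
  have h6 := Set.ncard_sdiff_singleton_lt_of_mem hmS hSpw.finite
  rw [ncard_pwLex hM] at h5
  omega

end Vale.Agent.P200F.Y

end

section

namespace Vale.Agent.P200F.Y

open MvPolynomial Module
open Vale.Agent.P200F.B Vale.Agent.P200F.G Vale.Agent.P200F.L Vale.Agent.P200F.M Vale.Agent.P200F.V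
open Vale.Agent.P200F.W

universe u

variable {K : Type u} [Field K] {n : ℕ}

/-- no cycles with entries in an empty layer -/
theorem y6_finrank_rc_empty {K : Type*} [Field K] {n : ℕ}
    (U : Submodule K (MvPolynomial (Fin n) K)) {M : Set (Fin n →₀ ℕ)} (hM : M = ∅) (p : ℕ) :
    finrank K (rc X U (restrictSupport K M) p) = 0 := by
  have h1 : restrictSupport K M = (⊥ : Submodule K (MvPolynomial (Fin n) K)) := by
    rw [hM, restrictSupport_eq_span, Set.image_empty, Submodule.span_empty]
  rw [h1]
  have h2 := finrank_rc_le (K := K) (X : Fin n → MvPolynomial (Fin n) K) U ⊥ p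
  rw [finrank_bot, mul_zero] at h2
  exact Nat.le_zero.1 h2

/-- the contribution of the layers: the constant does not depend on `M` (as `zs_layers`:
`zs_eq_zc`; in `zc` the terms `i < N - 1` are in the sum, the term `i = N - 1` (only if `N - 1 ≤ d`)
is `ZS K (layS M (N-1)) (d+1-N) p` as the layer `N` is full, the later terms are constants; the
terms of the sum with `i > d` vanish as the layer `i + 1` is empty). -/
theorem zs_layers_pw (K : Type*) [Field K] (n d p N : ℕ) (hN : 1 ≤ N) : ∃ C : ℕ,
    ∀ (a : Fin (n + 1) → ℕ) (M : Set (Fin (n + 1) →₀ ℕ)), a (Fin.last n) = N →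
      PwSet (n + 1) a (d + 1) M →
      ZS K M d (p + 1) = ZS K (layS M 0) d (p + 1) + C +
        ∑ i ∈ Finset.range (N - 1),
          finrank K (rc X (restrictSupport K (layS M i)) (restrictSupport K (layS M (i + 1))) p) +
        (if d + 1 < N then 0 else ZS K (layS M (N - 1)) (d + 1 - N) p) := by
  refine ⟨∑ i ∈ Finset.range (d + 1), n.choose (p + 1) * finrank K (Bd K n d (i + 1)) +
    ∑ i ∈ Finset.range (d + 1 - N), finrank K (rc X
      (restrictSupport K {m : Fin n →₀ ℕ | ∑ k, m k + (N + i) = d + 1})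
      (restrictSupport K {m : Fin n →₀ ℕ | ∑ k, m k + (N + i + 1) = d + 1}) p),
    fun a M ha hM => ?_⟩
  rw [zs_eq_zc hM.1, zc, Finset.sum_add_distrib]
  have h1 : ∑ i ∈ Finset.range (d + 1), finrank K (rc X (restrictSupport K (layS M i))
        (restrictSupport K (layS M (i + 1))) p) =
      (∑ i ∈ Finset.range (d + 1 - N), finrank K (rc X
        (restrictSupport K {m : Fin n →₀ ℕ | ∑ k, m k + (N + i) = d + 1})
        (restrictSupport K {m : Fin n →₀ ℕ | ∑ k, m k + (N + i + 1) = d + 1}) p)) +
      (if d + 1 < N then 0 else ZS K (layS M (N - 1)) (d + 1 - N) p) +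
      ∑ i ∈ Finset.range (N - 1),
          finrank K (rc X (restrictSupport K (layS M i)) (restrictSupport K (layS M (i + 1))) p) := by
    by_cases hd : d + 1 < N
    · rw [if_pos hd, Nat.sub_eq_zero_of_le hd.le, Finset.sum_range_zero, zero_add, zero_add]
      refine Finset.sum_subset (Finset.range_subset_range.2 (by omega)) fun i _ hi => ?_
      rw [Finset.mem_range, not_lt] at hi
      refine y6_finrank_rc_empty _ ?_ p
      rw [Set.eq_empty_iff_forall_notMem]
      intro m hm
      have h3 := hM.1 _ hm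
      rw [lex_sum_sn] at h3
      omega
    · rw [if_neg hd]
      obtain ⟨e, he⟩ : ∃ e, d + 1 = N + e := ⟨d + 1 - N, by omega⟩
      obtain ⟨N', rfl⟩ : ∃ N', N = N' + 1 := ⟨N - 1, by omega⟩
      have e0 : d + 1 - (N' + 1) = e := by omega
      rw [e0, Nat.add_sub_cancel]
      have h2 : ∑ i ∈ Finset.range (d + 1), finrank K (rc X (restrictSupport K (layS M i))
          (restrictSupport K (layS M (i + 1))) p) =
          ∑ i ∈ Finset.range (N' + 1 + e), finrank K (rc X (restrictSupport K (layS M i))
          (restrictSupport K (layS M (i + 1))) p) := by rw [he]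
      rw [h2, Finset.sum_range_add, Finset.sum_range_succ]
      have h3 : ∑ i ∈ Finset.range e, finrank K (rc X
            (restrictSupport K (layS M (N' + 1 + i)))
            (restrictSupport K (layS M (N' + 1 + i + 1))) p) =
          ∑ i ∈ Finset.range e, finrank K (rc X
            (restrictSupport K {m : Fin n →₀ ℕ | ∑ k, m k + (N' + 1 + i) = d + 1})
            (restrictSupport K {m : Fin n →₀ ℕ | ∑ k, m k + (N' + 1 + i + 1) = d + 1}) p) := by
        refine Finset.sum_congr rfl fun i _ => ?_
        rw [hM.layS_full (i := N' + 1 + i) (by omega),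
          hM.layS_full (i := N' + 1 + i + 1) (by omega)]
      have h4 : finrank K (rc X (restrictSupport K (layS M N'))
          (restrictSupport K (layS M (N' + 1))) p) = ZS K (layS M N') e p := by
        have e2 : restrictSupport K {m : Fin n →₀ ℕ | ∑ k, m k + (N' + 1) = d + 1} =
            homogeneousSubmodule (Fin n) K e := by
          rw [homogeneousSubmodule_eq_restrict]
          congr 1
          ext m
          show ∑ k, m k + (N' + 1) = d + 1 ↔ ∑ k, m k = e
          omega
        rw [hM.layS_full (i := N' + 1) (by omega), e2, ZS]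
      rw [h3, h4]
      omega
  have h2 : ZS K (layS M 0) d (p + 1) = finrank K (rc X (restrictSupport K (layS M 0))
      (homogeneousSubmodule (Fin n) K d) (p + 1)) := rfl
  rw [h1, ← h2]
  omega

end Vale.Agent.P200F.Y

end

section

namespace Vale.Agent.P200F.V

open MvPolynomial Module
open Vale.Agent.P200F.B Vale.Agent.P200F.G Vale.Agent.P200F.L Vale.Agent.P200F.M

universe u

theorem eOut_all (k : Type u) [Field k] [IsAlgClosed k] : EOut k := by
  have hinf : Infinite k := IsAlgClosed.instInfinite
  have hst : Rig.StageAll.{u} := full_stage fun K _ κ => dstep_of_levelLemma level_lemma K κ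
  have hc : Rig.ROCirc k := full_circ hst k fun n =>
    ⟨{ N := 0
       β := fun _ => Blk.triv k 0
       inp := fun _ _ => 0
       int := fun R => intZero _ _ _
       triv := fun _ _ => rfl
       old := fun g hg => absurd hg (Nat.not_lt_zero g) }⟩
  exact Rig.ro_eOut (fun K _ κ => step_of_locB (full_locB K κ)) _ hc

end Vale.Agent.P200F.V

end

section

namespace Vale.Agent.P200F.V

open MvPolynomial Module
open Vale.Agent.P200F.B Vale.Agent.P200F.G Vale.Agent.P200F.L Vale.Agent.P200F.M
open Vale.Agent.P200F.W Vale.Agent.P200F.Y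

universe u

variable {K : Type u} [Field K] {n : ℕ}

/-- **the cycle inequality for monomial spaces containing the powers**, by induction on `n` (as
`sq_zle`); for `n + 1 = 1` every `M` is stable (there is no `j : Fin 0`). -/
theorem seq_zle (n : ℕ) : ∀ (a : Fin n → ℕ), Monotone a → (∀ i, 2 ≤ a i) →
    ∀ (d p : ℕ) (M : Set (Fin n →₀ ℕ)),
    PwSet n a (d + 1) M → ZS K M d p ≤ ZS K (pwLex n a (d + 1) M.ncard) d p := by
  induction n with
  | zero =>
    intro a _ _ d p M hM
    have h1 : ∀ M : Set (Fin 0 →₀ ℕ), PwSet 0 a (d + 1) M → M = ∅ := by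
      intro M hM
      rw [Set.eq_empty_iff_forall_notMem]
      intro m hm
      have h2 := hM.1 m hm
      rw [Finset.univ_eq_empty, Finset.sum_empty] at h2
      omega
    rw [h1 M hM, h1 _ (pwLex_pwSet 0 a (d + 1) _)]
  | succ n ih =>
    intro a ha h2 d p M hM
    rcases p with _ | p
    · exact (zs_zero _ _ d).le
    obtain ⟨M', hM', hc', hz', hst'⟩ : ∃ M' : Set (Fin (n + 1) →₀ ℕ),
        PwSet (n + 1) a (d + 1) M' ∧ M'.ncard = M.ncard ∧
        (∀ p, ZS K M d p ≤ ZS K M' d p) ∧ Stab (a (Fin.last n)) M' := by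
      rcases n with _ | n
      · exact ⟨M, hM, rfl, fun _ => le_rfl, fun i _ m _ j => j.elim0⟩
      · exact seq_exists_stable (hasSeq K (lt_of_lt_of_le Nat.zero_lt_two (h2 _)))
          (fun i => (by norm_num : (1 : ℕ) ≤ 2).trans (h2 i)) (fun i => ha (Fin.le_last i)) hM
    refine (hz' (p + 1)).trans ?_
    rw [← hc']
    obtain ⟨N, hN⟩ : ∃ N, a (Fin.last n) = N + 1 :=
      ⟨a (Fin.last n) - 1, by have := h2 (Fin.last n); omega⟩
    have IH := ih (fun i => a i.castSucc)
      (fun i j h => ha (Fin.castSucc_le_castSucc_iff.2 h)) (fun i => h2 _)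
    have hL : PwSet (n + 1) a (d + 1) (pwLex (n + 1) a (d + 1) M'.ncard) := pwLex_pwSet _ _ _ _
    have hLc : (pwLex (n + 1) a (d + 1) M'.ncard).ncard = M'.ncard := ncard_pwLex hM'
    have hL0M := pw_layer_zero ha h2 hM' hst'
    have hLNM : ∀ e, e + N = d + 1 → pwLex n (fun i => a i.castSucc) e (layS M' N).ncard ⊆
        layS (pwLex (n + 1) a (d + 1) M'.ncard) N := by
      intro e he
      rw [← he] at hM' ⊢
      exact pw_layer_last ha h2 hN hM' hst'
    have hLst : Stab (a (Fin.last n)) (pwLex (n + 1) a (d + 1) M'.ncard) := pwLex_stab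
    revert hL hLc hL0M hLNM hLst
    generalize pwLex (n + 1) a (d + 1) M'.ncard = L
    intro hL hLc hL0M hLNM hLst
    obtain ⟨C, hC⟩ := zs_layers_pw K n d p (N + 1) (Nat.succ_le_succ (Nat.zero_le N))
    rw [hC a M' hN hM', hC a L hN hL, Nat.add_sub_cancel]
    have hM0 : PwSet n (fun i => a i.castSucc) (d + 1) (layS M' 0) :=
      PwSet.layS (D := d + 1) (i := 0) hM'
    have hL0 : PwSet n (fun i => a i.castSucc) (d + 1) (layS L 0) :=
      PwSet.layS (D := d + 1) (i := 0) hL
    have hQ0 : PwSet n (fun i => a i.castSucc) (d + 1)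
        (pwLex n (fun i => a i.castSucc) (d + 1) (layS M' 0).ncard) := pwLex_pwSet _ _ _ _
    have hlf : ∀ {M : Set (Fin (n + 1) →₀ ℕ)}, PwSet (n + 1) a (d + 1) M → ∀ i,
        (layS M i).Finite := by
      intro M hM i
      exact hM.finite.preimage (f := fun m : Fin n →₀ ℕ => sn m i)
        (fun m _ m' _ h => (sn_injective h).1)
    -- the layer `0`
    have i1 := IH d (p + 1) (layS M' 0) hM0
    have hfinQ : Module.Finite K
        (restrictSupport K (pwLex n (fun i => a i.castSucc) (d + 1) (layS M' 0).ncard)) := by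
      have := hQ0.finite.to_subtype
      exact Module.Finite.of_basis (basisRestrictSupport K _)
    have i2 := finrank_rc_mono (K := K) (X : Fin n → MvPolynomial (Fin n) K)
      (restrictSupport_mono K hL0M) (homogeneousSubmodule (Fin n) K d) p
    rw [finrank_restrictSupport _ hQ0.finite, finrank_restrictSupport _ hL0.finite,
      ncard_pwLex hM0] at i2
    -- the layers in the middle
    have i3 : ∑ i ∈ Finset.range N, finrank K (rc X (restrictSupport K (layS M' i))
          (restrictSupport K (layS M' (i + 1))) p) ≤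
        ∑ i ∈ Finset.range N, n.choose p * (layS M' (i + 1)).ncard := by
      refine Finset.sum_le_sum fun i _ => ?_
      have hfinM1 : Module.Finite K (restrictSupport K (layS M' (i + 1))) := by
        have := (hlf hM' (i + 1)).to_subtype
        exact Module.Finite.of_basis (basisRestrictSupport K _)
      have i3 := finrank_rc_le (K := K) (X : Fin n → MvPolynomial (Fin n) K)
        (restrictSupport K (layS M' i)) (restrictSupport K (layS M' (i + 1))) p
      rwa [finrank_restrictSupport _ (hlf hM' (i + 1))] at i3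
    have i4 : ∑ i ∈ Finset.range N, finrank K (rc X (restrictSupport K (layS L i))
          (restrictSupport K (layS L (i + 1))) p) =
        ∑ i ∈ Finset.range N, n.choose p * (layS L (i + 1)).ncard := by
      refine Finset.sum_congr rfl fun i hi => ?_
      refine finrank_rc_stable (K := K) (hlf hL (i + 1)) (fun m hm j => ?_) p
      refine hLst i ?_ m hm j
      rw [hN]
      exact Nat.succ_lt_succ (Finset.mem_range.1 hi)
    have i5 : n.choose p * (layS M' 0).ncard +
          ∑ i ∈ Finset.range N, n.choose p * (layS M' (i + 1)).ncard =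
        n.choose p * (layS L 0).ncard +
          ∑ i ∈ Finset.range N, n.choose p * (layS L (i + 1)).ncard := by
      have h1 := hM'.ncard_layS
      have h2 := hL.ncard_layS
      rw [hN, Finset.sum_range_succ'] at h1 h2
      rw [← Finset.mul_sum, ← Finset.mul_sum, ← mul_add, ← mul_add]
      congr 1
      omega
    have i6 : (if d + 1 < N + 1 then 0 else ZS K (layS M' N) (d + 1 - (N + 1)) p) ≤
        (if d + 1 < N + 1 then 0 else ZS K (layS L N) (d + 1 - (N + 1)) p) := by
      split_ifs with hd
      · exact le_rfl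
      · obtain ⟨e, he⟩ : ∃ e, d + 1 = e + 1 + N := ⟨d - N, by omega⟩
        have e1 : d + 1 - (N + 1) = e := by omega
        rw [e1]
        have hMN : PwSet n (fun i => a i.castSucc) (e + 1) (layS M' N) := by
          rw [he] at hM'
          exact hM'.layS
        exact (IH e p (layS M' N) hMN).trans (zs_mono (hLNM (e + 1) he.symm) e p)
    have i7 : ZS K (pwLex n (fun i => a i.castSucc) (d + 1) (layS M' 0).ncard) d (p + 1) =
        finrank K (rc X (restrictSupport K
          (pwLex n (fun i => a i.castSucc) (d + 1) (layS M' 0).ncard))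
          (homogeneousSubmodule (Fin n) K d) (p + 1)) := rfl
    have i8 : ZS K (layS L 0) d (p + 1) = finrank K (rc X (restrictSupport K (layS L 0))
          (homogeneousSubmodule (Fin n) K d) (p + 1)) := rfl
    rw [i7] at i1
    rw [i8, i4]
    omega

end Vale.Agent.P200F.V

end

section

namespace Vale.Agent.P200F.V

open MvPolynomial Module
open Vale.Agent.P200F.B Vale.Agent.P200F.G Vale.Agent.P200F.L Vale.Agent.P200F.M Vale.Agent.P200F.W
open Vale.Agent.P200F.Y

universe u

/-- as many forms as variables -/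
theorem sf_zle_base {k : Type u} [Field k] [IsAlgClosed k] {n : ℕ} (a : Fin n → ℕ)
    (ha : Monotone a) (h2 : ∀ i, 2 ≤ a i)
    (f : Fin n → MvPolynomial (Fin n) k) (hf : ∀ i, (f i).IsHomogeneous (a i))
    (hreg : IsRegularSeq f) (p : ℕ) : ZLE k le_rfl a p f := by
  intro d V hV1 hV2
  obtain ⟨K, _, _, D, _, _, E, Lc, Gf, hR, hG⟩ := eOut_all k n a ha h2 f hf
    (isMPrimary_of_regular a f hf hreg)
  let _ : Algebra k D := ((algebraMap K D).comp (algebraMap k K)).toAlgebra' fun c x =>
    Algebra.commutes (algebraMap k K c) x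
  have : IsScalarTower k K D := IsScalarTower.of_algebraMap_eq fun x => rfl
  have ha1 : ∀ i, 1 ≤ a i := fun i => le_trans one_le_two (h2 i)
  obtain ⟨M, hM, hcard, hZ⟩ := qb_degen (K := k) a E hR.comm (hR.tgData.ind ha1)
    (Ideal.span (Set.range f)) (fun i => ⟨hR.tgData.init i, by
      rw [show theta E = theta hR.tgData.E from rfl, hR.tgData.theta_init]
      exact qf_mem_VD _ (hR.hom i) (hG i), qf_init hR.tgData ha1 i⟩) V hV1 hV2
  refine (hZ p).trans ((seq_zle n a ha h2 d p M hM).trans ?_)
  rw [hcard]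
  exact le_rfl

/-- **Cycle inequalities.** -/
theorem sf_zle (K : Type u) [Field K] {n c : ℕ}
    (h : c ≤ n) (a : Fin c → ℕ) (ha : Monotone a) (h2 : ∀ i, 2 ≤ a i)
    (f : Fin c → MvPolynomial (Fin n) K)
    (hf : ∀ i, (f i).IsHomogeneous (a i)) (hreg : IsRegularSeq f) (p : ℕ) : ZLE K h a p f := by
  have hinf : Infinite (AlgebraicClosure K) := IsAlgClosed.instInfinite
  refine zle_of_baseChange (L := AlgebraicClosure K) h _ p f hf ?_
  refine zle_all a (fun i => le_trans one_le_two (h2 i)) p (fun _ _ => True)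
    (fun _ _ _ _ => trivial) ?_ ?_ n h _
    (fun i => (hf i).map _) (isRegSeq_baseChange f _ hf hreg) trivial
  · intro n h f hf hreg _ I hI hfI
    exact egh (AlgebraicClosure K) h a ha h2 f hf hreg I hI hfI
  · intro f hf hreg _
    exact sf_zle_base a ha h2 f hf hreg p

/-- **The lex-plus-powers conjecture.** -/
theorem lpp (K : Type u) [Field K] {n c : ℕ}
    (h : c ≤ n) (a : Fin c → ℕ) (ha : Monotone a) (h2 : ∀ i, 2 ≤ a i)
    (f : Fin c → MvPolynomial (Fin n) K)
    (hf : ∀ i, (f i).IsHomogeneous (a i)) (hreg : IsRegularSeq f)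
    (I : Ideal (MvPolynomial (Fin n) K)) (hI : ∀ g ∈ I, ∀ d, homogeneousComponent d g ∈ I)
    (hfI : ∀ i, f i ∈ I) :
    ∃ J : Ideal (MvPolynomial (Fin n) K), J.restrictScalars K = lexPlusPowers h a I ∧
      ∀ p j, bettiNumber I p j ≤ bettiNumber J p j := by
  obtain ⟨J, hJ⟩ := egh K h a ha h2 f hf hreg I hI hfI
  refine ⟨J, hJ, fun p j => ?_⟩
  rw [B.bettiNumber_eq, B.bettiNumber_eq]
  exact betti_le_of_zle h a (fun i => le_trans one_le_two (h2 i)) f hf hreg p
    (sf_zle K h a ha h2 f hf hreg p) (sf_zle K h a ha h2 f hf hreg (p + 1))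
    I hI hfI J hJ j

end Vale.Agent.P200F.V

end
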