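import Mathlib

namespace Vale.Agent.P200F
end Vale.Agent.P200F
namespace Vale.Agent.P200F.B
end Vale.Agent.P200F.B
namespace Vale.Agent.P200F.CF
end Vale.Agent.P200F.CF
namespace Vale.Agent.P200F.E
end Vale.Agent.P200F.E
namespace Vale.Agent.P200F.E.Ob
end Vale.Agent.P200F.E.Ob
namespace Vale.Agent.P200F.G
end Vale.Agent.P200F.G
namespace Vale.Agent.P200F.L
end Vale.Agent.P200F.L
namespace Vale.Agent.P200F.M
end Vale.Agent.P200F.M
namespace Vale.Agent.P200F.Q
end Vale.Agent.P200F.Q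
namespace Vale.Agent.P200F.S
end Vale.Agent.P200F.S
namespace Vale.Agent.P200F.U
end Vale.Agent.P200F.U
namespace Vale.Agent.P200F.V
end Vale.Agent.P200F.V
namespace Vale.Agent.P200F.V.Rig
end Vale.Agent.P200F.V.Rig
namespace Vale.Agent.P200F.V.Rig.Nt
end Vale.Agent.P200F.V.Rig.Nt
namespace Vale.Agent.P200F.V.Rig.Nw
end Vale.Agent.P200F.V.Rig.Nw
namespace Vale.Agent.P200F.V.SB
end Vale.Agent.P200F.V.SB
namespace Vale.Agent.P200F.V.SL
end Vale.Agent.P200F.V.SL
namespace Vale.Agent.P200F.W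
end Vale.Agent.P200F.W
namespace Vale.Agent.P200F.Y
end Vale.Agent.P200F.Y
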